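import Crest.Prelude.Def_GTLie

/-!
Row 10, part (E) + closure: COMMON DEFINITIONS AND FROZEN TARGET STATEMENTS (helper450).

* `ev a b : FreeAlgebra K (Fin 2) →ₐ[K] B`   evaluation `x ↦ a`, `y ↦ b`;
* `cf w : FreeAlgebra K X →ₗ[K] K`            coefficient of the word `w : List X`;
* `dep1 n = x^(n-1) y`                        the depth one word of length `n`;
* `iota : GTLie →ₗ⁅ℚ⁆ FreeAlgebra ℚ (Fin 2)`;
* `Conf5 R`                                   five-configuration (`[R i, R (i+1)] = 0`,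
                                              `∑ [R i, R (i+2)] = 0`), in a Lie ring; in an
                                              associative ring the Lie ring structure is the
                                              `local instance LieRing.ofAssociativeRing`;
* `Nilp N x`                                  all products of `N+1` of the `x i` vanish;
* `IsAssoc N P`                               truncated associator (pentagon, group-like, normalised);
* `grtW n`, `grtR n`                          weight `n` part of `grtSpace`, its real span in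
                                              `FreeAlgebra ℝ (Fin 2)`;
* target statements `EA`, `S1` .. `S4`, `EB1`, `EB2`, `EC`, `ED`, `EE1`, `EE`.

Indices of five-configurations are in `Fin 5` (cyclic).  The pair number `i` is
`(R (i-1), R (i+1))` and the pentagon is `∑ i, p (R (i-1), R (i+1)) = 0`, resp.
`P(R 4,R 1) P(R 3,R 0) P(R 2,R 4) P(R 1,R 3) P(R 0,R 2) = 1`.
-/

set_option autoImplicit false

noncomputable section

namespace Crest.Agent.R010

open Crest.NumberTheoryR.GT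
open scoped TensorProduct

attribute [local instance 100] LieRing.ofAssociativeRing

/-- evaluation of a noncommutative polynomial in two letters: `x ↦ a`, `y ↦ b`. -/
def ev {K : Type*} [CommRing K] {B : Type*} [Ring B] [Algebra K B] (a b : B) :
    FreeAlgebra K (Fin 2) →ₐ[K] B :=
  FreeAlgebra.lift K (fun i : Fin 2 => if i = 0 then a else b)

/-- coefficient of a word. -/
def cf {K : Type*} [CommRing K] {X : Type*} (w : List X) : FreeAlgebra K X →ₗ[K] K where
  toFun p := (FreeAlgebra.equivMonoidAlgebraFreeMonoid p).coeff (FreeMonoid.ofList w)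
  map_add' p q := by simp
  map_smul' r p := by simp

/-- the depth one word `x^(n-1) y` of length `n` (for `n ≥ 1`). -/
def dep1 (n : ℕ) : List (Fin 2) := List.replicate (n - 1) 0 ++ [1]

/-- `GTLie → ℚ⟨x,y⟩`. -/
def iota : GTLie →ₗ⁅ℚ⁆ FreeAlgebra ℚ (Fin 2) := FreeLieAlgebra.lift ℚ (FreeAlgebra.ι ℚ)

/-- five-configuration in a Lie ring (use `LieRing.ofAssociativeRing` in a ring). -/
def Conf5 {L : Type*} [LieRing L] (R : Fin 5 → L) : Prop :=
  (∀ i, ⁅R i, R (i + 1)⁆ = 0) ∧ ∑ i, ⁅R i, R (i + 2)⁆ = 0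

/-- all products of `N+1` of the elements vanish. -/
def Nilp (N : ℕ) {ι B : Type*} [Ring B] (x : ι → B) : Prop :=
  ∀ l : List ι, l.length = N + 1 → (l.map x).prod = 0

/-- truncated (at degree `N`) real associator for `μ` arbitrary: pentagon, group-like,
normalised.  Only the coefficients of words of length `≤ N` matter. -/
structure IsAssoc (N : ℕ) (P : FreeAlgebra ℝ (Fin 2)) : Prop where
  pent : ∀ (B : Type) [Ring B] [Algebra ℝ B] (R : Fin 5 → B), Conf5 R → Nilp N R →
    ev (R 4) (R 1) P * ev (R 3) (R 0) P * ev (R 2) (R 4) P * ev (R 1) (R 3) P *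
      ev (R 0) (R 2) P = 1
  mult : ∀ (B : Type) [Ring B] [Algebra ℝ B] (a b a' b' : B), Nilp N ![a, b, a', b'] →
    Commute a a' → Commute a b' → Commute b a' → Commute b b' →
    ev (a + a') (b + b') P = ev a b P * ev a' b' P
  left : ∀ (B : Type) [Ring B] [Algebra ℝ B] (a : B), Nilp N ![a] → ev a 0 P = 1
  right : ∀ (B : Type) [Ring B] [Algebra ℝ B] (b : B), Nilp N ![b] → ev 0 b P = 1

/-- homogeneous of degree `n`. -/
def Homog {K : Type*} [CommRing K] {X : Type*} (n : ℕ) (f : FreeAlgebra K X) : Prop :=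
  ∀ w : List X, w.length ≠ n → cf w f = 0

/-- primitive elements. -/
def Prim {K : Type*} [CommRing K] (f : FreeAlgebra K (Fin 2)) : Prop :=
  ev (B := FreeAlgebra K (Fin 2) ⊗[K] FreeAlgebra K (Fin 2))
    (FreeAlgebra.ι K 0 ⊗ₜ 1 + 1 ⊗ₜ FreeAlgebra.ι K 0)
    (FreeAlgebra.ι K 1 ⊗ₜ 1 + 1 ⊗ₜ FreeAlgebra.ι K 1) f = f ⊗ₜ 1 + 1 ⊗ₜ f

/-- weight `n` part of `grtSpace`. -/
def grtW (n : ℕ) : Submodule ℚ GTLie :=
  grtSpace ⊓ weightSubspace (fun _ : Fin 2 => 1) n

/-- extension of scalars `ℚ⟨x,y⟩ → ℝ⟨x,y⟩`. -/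
def toReal : FreeAlgebra ℚ (Fin 2) →ₐ[ℚ] FreeAlgebra ℝ (Fin 2) :=
  FreeAlgebra.lift ℚ (FreeAlgebra.ι ℝ)

/-- real span of the weight `n` part of `grtSpace`, inside `ℝ⟨x,y⟩`. -/
def grtR (n : ℕ) : Submodule ℝ (FreeAlgebra ℝ (Fin 2)) :=
  Submodule.span ℝ ((fun p : GTLie => toReal (iota p)) '' (grtW n : Set GTLie))

/-! ### Target statements -/

/-- (EA) analysis: helper819 / helper10 / helper205. -/
def EA : Prop := ∀ N : ℕ, ∃ P : FreeAlgebra ℝ (Fin 2), IsAssoc N P ∧
  ∀ n, 2 ≤ n → n ≤ N → cf (dep1 n) P ≠ 0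

/-- (S1) helper165 -/
def S1 : Prop := Function.Injective iota

/-- (S2) primitive homogeneous elements are Lie elements. helper165 -/
def S2 : Prop := ∀ (n : ℕ) (f : FreeAlgebra ℚ (Fin 2)), 1 ≤ n → Homog n f → Prim f →
  ∃ p ∈ weightSubspace (fun _ : Fin 2 => 1) n, iota p = f

/-- (S3) associative to Lie for the pentagon. helper165 -/
def S3 : Prop := ∀ (n : ℕ) (p : GTLie), 2 ≤ n → p ∈ weightSubspace (fun _ : Fin 2 => 1) n →
  antisymDefect p = 0 →
  (∀ (B : Type) [Ring B] [Algebra ℚ B] (R : Fin 5 → B), Conf5 R →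
    ∑ i, ev (R (i - 1)) (R (i + 1)) (iota p) = 0) →
  pentagonDefect p = 0

/-- (S4) `grtSpace` is graded and lives in weights `≥ 3`. helper165 / assembly -/
def S4 : Prop := ∀ p ∈ grtSpace, ∃ (s : Finset ℕ) (q : ℕ → GTLie),
  (∀ n ∈ s, 3 ≤ n ∧ q n ∈ grtW n) ∧ p = ∑ n ∈ s, q n

/-- (EB1) pentagon and antisymmetry imply the three term equation. helper789 -/
def EB1 : Prop := ∀ (n : ℕ) (p : GTLie), 3 ≤ n → p ∈ weightSubspace (fun _ : Fin 2 => 1) n →
  antisymDefect p = 0 → pentagonDefect p = 0 → threeTermDefect p = 0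

/-- (EB2) the special derivation property. helper789 -/
def EB2 : Prop := ∀ (n : ℕ) (p : GTLie), 3 ≤ n → p ∈ grtW n →
  ∀ (M : Type) [LieRing M] [LieAlgebra ℚ M] (R : Fin 5 → M), Conf5 R →
    (∑ i, gtSubst (R (i - 1)) (R (i + 1)) p = 0) ∧
    ∀ u : Fin 5 → M, (∀ i, u (i + 1) = u i - gtSubst (R (i - 1)) (R (i + 1)) p) →
      (∀ i, ⁅⁅u i, R i⁆, R (i + 1)⁆ + ⁅R i, ⁅u (i + 1), R (i + 1)⁆⁆ = 0) ∧
      ∑ i, (⁅⁅u i, R i⁆, R (i + 2)⁆ + ⁅R i, ⁅u (i + 2), R (i + 2)⁆⁆) = 0

/-- (EC) closure under the Ihara bracket. helper165 -/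
def EC : Prop := ∀ p ∈ grtSpace, ∀ q ∈ grtSpace, iharaBracket p q ∈ grtSpace

/-- (ED) action of `exp (s_ψ)` on truncated associators. helper249 -/
def ED : Prop := ∀ (N n : ℕ) (P ψ : FreeAlgebra ℝ (Fin 2)), 3 ≤ n → n ≤ N → IsAssoc N P →
  ψ ∈ grtR n → ∃ P' : FreeAlgebra ℝ (Fin 2), IsAssoc N P' ∧
    (∀ w : List (Fin 2), w.length < n → cf w P' = cf w P) ∧
    (∀ w : List (Fin 2), w.length = n → cf w P' = cf w P + cf w ψ) ∧
    ∀ m, n < m → m ≤ N → cf (dep1 m) P' = cf (dep1 m) P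

/-- (EE1) lowest degree difference of two truncated associators. helper477 -/
def EE1 : Prop := ∀ (N n : ℕ) (P Q : FreeAlgebra ℝ (Fin 2)), 3 ≤ n → n ≤ N → IsAssoc N P →
  IsAssoc N Q → (∀ w : List (Fin 2), w.length < n → cf w P = cf w Q) →
  ∃ ψ ∈ grtR n, ∀ w : List (Fin 2), w.length = n → cf w ψ = cf w Q - cf w P

/-- (EE) existence of the generators. helper477 -/
def EE : Prop := ∀ k : ℕ, ∃ p ∈ grtW (2 * k + 3), cf (dep1 (2 * k + 3)) (iota p) ≠ 0

end Crest.Agent.R010

end
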