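import Crest.Agent.R010.Witt
import Crest.Agent.R010.EDefs

/-! Row 10, module (W), part 2 (helper630): base change of free (Lie) algebras, saturation over `ℤ`,
reduction modulo `2`. -/

set_option autoImplicit false

noncomputable section

namespace Crest.Agent.R010.Witt

open Crest.NumberTheoryR.GT Crest.Agent.R010

universe u v v'

attribute [local instance 100] LieRing.ofAssociativeRing

theorem iota_eq : iota = asso ℚ (Fin 2) := rfl

/-- (S1) of EDefs -/
theorem S1_holds : S1 := witt_injective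

theorem weightSubspace_eq {X : Type u} (w : X → ℕ) (n : ℕ) : weightSubspace w n = WS ℚ w n := by
  have : ∀ a : FreeLieAlgebra ℚ X, IsBracketMonomial w n a ↔ BM ℚ w n a := by
    intro a
    constructor
    · intro h
      induction h with
      | of i => exact BM.of i
      | lie _ _ h1 h2 => exact BM.lie h1 h2
    · intro h
      induction h with
      | of i => exact IsBracketMonomial.of i
      | lie _ _ h1 h2 => exact IsBracketMonomial.lie h1 h2
  rw [weightSubspace, WS]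
  simp only [this]

section coeff

variable {R : Type v} [CommRing R] {X : Type u}

theorem cf_ext {p q : FreeAlgebra R X} (h : ∀ w : List X, cf w p = cf w q) : p = q := by
  apply (FreeAlgebra.equivMonoidAlgebraFreeMonoid (R := R) (X := X)).injective
  ext w
  exact h (FreeMonoid.toList w)

end coeff

section bc

variable (R : Type v) (S : Type v') [CommRing R] [CommRing S] [Algebra R S] (X : Type u)

/-- base change for free algebras -/
def bcA : FreeAlgebra R X →ₐ[R] FreeAlgebra S X := FreeAlgebra.lift R (FreeAlgebra.ι S)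

variable {R S X}

@[simp] theorem bcA_ι (x : X) : bcA R S X (FreeAlgebra.ι R x) = FreeAlgebra.ι S x := by
  rw [bcA, FreeAlgebra.lift_ι_apply]

theorem equiv_bcA (p : FreeAlgebra R X) :
    FreeAlgebra.equivMonoidAlgebraFreeMonoid (bcA R S X p) =
      MonoidAlgebra.mapRingHom (FreeMonoid X) (algebraMap R S)
        (FreeAlgebra.equivMonoidAlgebraFreeMonoid p) := by
  induction p using FreeAlgebra.induction with
  | grade0 r =>
    rw [AlgHom.commutes, AlgEquiv.commutes, IsScalarTower.algebraMap_apply R S (FreeAlgebra S X),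
      AlgEquiv.commutes]
    simp
  | grade1 x =>
    rw [bcA_ι]
    simp [FreeAlgebra.equivMonoidAlgebraFreeMonoid]
  | mul p q hp hq => rw [map_mul, map_mul, hp, hq, map_mul, map_mul]
  | add p q hp hq => rw [map_add, map_add, hp, hq, map_add, map_add]

theorem cf_bcA (w : List X) (p : FreeAlgebra R X) :
    cf w (bcA R S X p) = algebraMap R S (cf w p) := by
  show (FreeAlgebra.equivMonoidAlgebraFreeMonoid (bcA R S X p)).coeff _ = _
  rw [equiv_bcA, MonoidAlgebra.coeff_mapRingHom]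
  rfl

theorem bcA_injective (h : Function.Injective (algebraMap R S)) :
    Function.Injective (bcA R S X) := by
  intro p q hpq
  apply cf_ext
  intro w
  apply h
  rw [← cf_bcA, ← cf_bcA, hpq]

theorem bcA_smul (r : R) (p : FreeAlgebra R X) :
    bcA R S X (r • p) = algebraMap R S r • bcA R S X p := by
  rw [map_smul, algebraMap_smul]

theorem fla_smul (r : R) (a : FreeLieAlgebra S X) : r • a = algebraMap R S r • a := by
  obtain ⟨a, rfl⟩ := Quot.exists_rep a
  show Quot.mk _ (r • a) = Quot.mk _ (algebraMap R S r • a)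
  rw [algebraMap_smul]

variable (R S X) in
/-- restriction of scalars for the free Lie algebra -/
@[reducible] def lieAlgBC : LieAlgebra R (FreeLieAlgebra S X) where
  lie_smul t a b := by
    rw [fla_smul t b, fla_smul t ⁅a, b⁆, lie_smul]

variable (R S X) in
def bcL0 : letI := lieAlgBC R S X; FreeLieAlgebra R X →ₗ⁅R⁆ FreeLieAlgebra S X :=
  letI := lieAlgBC R S X
  FreeLieAlgebra.lift R (FreeLieAlgebra.of S)

variable (R S X) in
/-- base change for free Lie algebras, as an additive map -/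
def bcL : FreeLieAlgebra R X →+ FreeLieAlgebra S X where
  toFun := bcL0 R S X
  map_zero' := by let _ := lieAlgBC R S X; exact map_zero (bcL0 R S X)
  map_add' := by let _ := lieAlgBC R S X; exact map_add (bcL0 R S X)

@[simp] theorem bcL_of (x : X) : bcL R S X (FreeLieAlgebra.of R x) = FreeLieAlgebra.of S x := by
  let _ := lieAlgBC R S X
  show bcL0 R S X (FreeLieAlgebra.of R x) = _
  rw [bcL0, FreeLieAlgebra.lift_of_apply]

theorem bcL_lie (a b : FreeLieAlgebra R X) : bcL R S X ⁅a, b⁆ = ⁅bcL R S X a, bcL R S X b⁆ := by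
  let _ := lieAlgBC R S X
  exact LieHom.map_lie (bcL0 R S X) a b

theorem bcL_smul (r : R) (a : FreeLieAlgebra R X) :
    bcL R S X (r • a) = algebraMap R S r • bcL R S X a := by
  let _ := lieAlgBC R S X
  rw [← fla_smul]
  exact map_smul (bcL0 R S X) r a

theorem asso_bcL (l : FreeLieAlgebra R X) : asso S X (bcL R S X l) = bcA R S X (asso R X l) := by
  induction l using fla_induction with
  | hof x => rw [bcL_of, asso_of, asso_of, bcA_ι]
  | h0 => simp
  | hadd a b ha hb => simp only [map_add, ha, hb]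
  | hsmul r a ha => rw [bcL_smul, map_smul, map_smul, ha, bcA_smul]
  | hlie a b ha hb =>
    rw [bcL_lie, LieHom.map_lie, LieHom.map_lie, LieRing.of_associative_ring_bracket,
      LieRing.of_associative_ring_bracket, map_sub, map_mul, map_mul, ha, hb]

theorem bcL_mem {w : X → ℕ} {n : ℕ} {l : FreeLieAlgebra R X} (h : l ∈ WS R w n) :
    bcL R S X l ∈ WS S w n := by
  refine WS_induction (p := fun l => bcL R S X l ∈ WS S w n) ?_ ?_ ?_ ?_ h
  · clear h l
    intro l h
    induction h with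
    | of x => rw [bcL_of]; exact (BM.of x).mem_WS
    | lie _ _ h1 h2 => rw [bcL_lie]; exact lie_mem_WS h1 h2
  · simp
  · intro x y hx hy
    rw [map_add]; exact Submodule.add_mem _ hx hy
  · intro r x hx
    rw [bcL_smul]; exact Submodule.smul_mem _ _ hx

theorem bcL_injective (h : Function.Injective (algebraMap R S)) :
    Function.Injective (bcL R S X) := by
  intro a b hab
  apply witt_injective
  apply bcA_injective (S := S) h
  rw [← asso_bcL, ← asso_bcL, hab]

theorem BM_lift {w : X → ℕ} {n : ℕ} {l : FreeLieAlgebra S X} (h : BM S w n l) :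
    ∃ l' : FreeLieAlgebra R X, BM R w n l' ∧ bcL R S X l' = l := by
  induction h with
  | of x => exact ⟨_, BM.of x, bcL_of x⟩
  | lie _ _ h1 h2 =>
    obtain ⟨a, ha, rfl⟩ := h1
    obtain ⟨b, hb, rfl⟩ := h2
    exact ⟨⁅a, b⁆, BM.lie ha hb, bcL_lie a b⟩

theorem WS_lift (hs : Function.Surjective (algebraMap R S)) {w : X → ℕ} {n : ℕ}
    {l : FreeLieAlgebra S X} (h : l ∈ WS S w n) : ∃ l' ∈ WS R w n, bcL R S X l' = l := by
  refine WS_induction (p := fun l => ∃ l' ∈ WS R w n, bcL R S X l' = l) ?_ ?_ ?_ ?_ h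
  · intro l h
    obtain ⟨l', h', e⟩ := BM_lift (R := R) h
    exact ⟨l', h'.mem_WS, e⟩
  · exact ⟨0, Submodule.zero_mem _, map_zero _⟩
  · rintro x y ⟨x', hx', rfl⟩ ⟨y', hy', rfl⟩
    exact ⟨x' + y', Submodule.add_mem _ hx' hy', map_add _ _ _⟩
  · rintro r x ⟨x', hx', rfl⟩
    obtain ⟨r', rfl⟩ := hs r
    exact ⟨r' • x', Submodule.smul_mem _ _ hx', bcL_smul _ _⟩

end bc

section integral

variable {X : Type u}

theorem bcL_zsmul (k : ℤ) (a : FreeLieAlgebra ℤ X) :
    bcL ℤ ℚ X (k • a) = (k : ℚ) • bcL ℤ ℚ X a := by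
  rw [map_zsmul, Int.cast_smul_eq_zsmul]

theorem bcA_zsmul (k : ℤ) (a : FreeAlgebra ℤ X) :
    bcA ℤ ℚ X (k • a) = (k : ℚ) • bcA ℤ ℚ X a := by
  rw [map_zsmul, Int.cast_smul_eq_zsmul]

/-- clearing denominators in a weight space -/
theorem WS_rat {w : X → ℕ} {n : ℕ} {l : FreeLieAlgebra ℚ X} (h : l ∈ WS ℚ w n) :
    ∃ (m : ℤ) (_ : m ≠ 0) (l' : FreeLieAlgebra ℤ X), l' ∈ WS ℤ w n ∧
      bcL ℤ ℚ X l' = (m : ℚ) • l := by
  refine WS_induction (p := fun l => ∃ (m : ℤ) (_ : m ≠ 0) (l' : FreeLieAlgebra ℤ X),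
    l' ∈ WS ℤ w n ∧ bcL ℤ ℚ X l' = (m : ℚ) • l) ?_ ?_ ?_ ?_ h
  · intro l h
    obtain ⟨l', h', e⟩ := BM_lift (R := ℤ) h
    exact ⟨1, one_ne_zero, l', h'.mem_WS, by simp [e]⟩
  · exact ⟨1, one_ne_zero, 0, Submodule.zero_mem _, by simp⟩
  · rintro x y ⟨m, hm, x', hx', ex⟩ ⟨k, hk, y', hy', ey⟩
    refine ⟨k * m, mul_ne_zero hk hm, k • x' + m • y',
      Submodule.add_mem _ (Submodule.smul_mem _ _ hx') (Submodule.smul_mem _ _ hy'), ?_⟩
    rw [map_add, bcL_zsmul, bcL_zsmul, ex, ey, smul_add, smul_smul, smul_smul]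
    simp [mul_comm]
  · rintro r x ⟨m, hm, x', hx', ex⟩
    refine ⟨m * r.den, mul_ne_zero hm (by exact_mod_cast r.den_nz), r.num • x',
      Submodule.smul_mem _ _ hx', ?_⟩
    rw [bcL_zsmul, ex, smul_smul, smul_smul]
    congr 1
    have := Rat.mul_den_eq_num r
    push_cast
    rw [mul_assoc, mul_comm (r.den : ℚ), this]
    simp [mul_comm]

theorem smul_cancel {m : ℤ} (hm : m ≠ 0) {f g : FreeAlgebra ℤ X} (h : m • f = m • g) : f = g := by
  apply cf_ext
  intro w
  have := congrArg (cf w) h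
  rw [map_smul, map_smul] at this
  exact mul_left_cancel₀ hm this

/-- (SAT) -/
theorem sat_int (f : FreeAlgebra ℤ X) (m : ℤ) (hm : m ≠ 0) (l : FreeLieAlgebra ℤ X)
    (h : asso ℤ X l = m • f) : ∃ l' : FreeLieAlgebra ℤ X, asso ℤ X l' = f := by
  obtain ⟨l', rfl⟩ := witt_div l m f h
  refine ⟨l', smul_cancel hm ?_⟩
  rw [← h, map_smul]

/-- (SAT), rational form, homogeneous -/
theorem sat_rat_hom {w : X → ℕ} (h1 : ∀ x, 1 ≤ w x) (hfin : ∀ e, {x | w x = e}.Finite) {n : ℕ}
    (f : FreeAlgebra ℤ X) (ψ : FreeLieAlgebra ℚ X) (hψ : ψ ∈ WS ℚ w n)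
    (h : asso ℚ X ψ = bcA ℤ ℚ X f) :
    ∃ l ∈ WS ℤ w n, asso ℤ X l = f ∧ bcL ℤ ℚ X l = ψ := by
  obtain ⟨m, hm, l, hl, e⟩ := WS_rat hψ
  have e1 : asso ℤ X l = m • f := by
    apply bcA_injective (S := ℚ) (algebraMap ℤ ℚ).injective_int
    rw [← asso_bcL, e, map_smul, h, bcA_zsmul]
  obtain ⟨l', hl', rfl⟩ := witt_div_hom h1 hfin hl m f e1
  have e2 : asso ℤ X l' = f := by
    refine smul_cancel hm ?_
    rw [← e1, map_smul]
  refine ⟨l', hl', e2, ?_⟩
  apply witt_injective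
  rw [asso_bcL, e2, h]

theorem exists_rat (ψ : FreeLieAlgebra ℚ X) :
    ∃ (m : ℤ) (_ : m ≠ 0) (l : FreeLieAlgebra ℤ X), bcL ℤ ℚ X l = (m : ℚ) • ψ := by
  obtain ⟨f, hf, rfl⟩ := exists_hom_sum (fun _ => 0) ψ
  have : ∀ s : Finset ℕ, ∃ (m : ℤ) (_ : m ≠ 0) (l : FreeLieAlgebra ℤ X),
      bcL ℤ ℚ X l = (m : ℚ) • ∑ n ∈ s, f n := by
    classical
    intro s
    induction s using Finset.induction_on with
    | empty => exact ⟨1, one_ne_zero, 0, by simp⟩
    | insert a s ha ih =>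
      obtain ⟨m, hm, l, e⟩ := ih
      obtain ⟨k, hk, l', _, e'⟩ := WS_rat (hf a)
      refine ⟨k * m, mul_ne_zero hk hm, m • l' + k • l, ?_⟩
      rw [map_add, bcL_zsmul, bcL_zsmul, e, e', Finset.sum_insert ha, smul_add, smul_smul, smul_smul]
      simp [mul_comm]
  exact this _

/-- (SAT), rational form -/
theorem sat_rat (f : FreeAlgebra ℤ X) (ψ : FreeLieAlgebra ℚ X)
    (h : asso ℚ X ψ = bcA ℤ ℚ X f) :
    ∃ l : FreeLieAlgebra ℤ X, asso ℤ X l = f ∧ bcL ℤ ℚ X l = ψ := by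
  obtain ⟨m, hm, l, e⟩ := exists_rat ψ
  have e1 : asso ℤ X l = m • f := by
    apply bcA_injective (S := ℚ) (algebraMap ℤ ℚ).injective_int
    rw [← asso_bcL, e, map_smul, h, bcA_zsmul]
  obtain ⟨l', e2⟩ := sat_int f m hm l e1
  refine ⟨l', e2, ?_⟩
  apply witt_injective
  rw [asso_bcL, e2, h]

/-- the kernel of reduction modulo `p` in the free algebra -/
theorem bcA_zmod_eq_zero (p : ℕ) {f : FreeAlgebra ℤ X} (h : bcA ℤ (ZMod p) X f = 0) :
    ∃ g : FreeAlgebra ℤ X, f = (p : ℤ) • g := by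
  have h1 : ∀ w : List X, (p : ℤ) ∣ cf w f := by
    intro w
    have := cf_bcA (S := ZMod p) w f
    rw [h, map_zero] at this
    rw [← ZMod.intCast_zmod_eq_zero_iff_dvd]
    simpa using this.symm
  refine ⟨FreeAlgebra.equivMonoidAlgebraFreeMonoid.symm
    (MonoidAlgebra.ofCoeff ((FreeAlgebra.equivMonoidAlgebraFreeMonoid f).coeff.mapRange
      (fun r : ℤ => r / p) (by simp))), ?_⟩
  apply cf_ext
  intro w
  have h2 : cf w (FreeAlgebra.equivMonoidAlgebraFreeMonoid.symm
    (MonoidAlgebra.ofCoeff ((FreeAlgebra.equivMonoidAlgebraFreeMonoid f).coeff.mapRange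
      (fun r : ℤ => r / p) (by simp)))) = cf w f / p := by
    show (FreeAlgebra.equivMonoidAlgebraFreeMonoid (FreeAlgebra.equivMonoidAlgebraFreeMonoid.symm
      _)).coeff _ = _
    rw [AlgEquiv.apply_symm_apply]
    simp only [Finsupp.mapRange_apply]
    rfl
  rw [map_smul, h2, smul_eq_mul, Int.mul_ediv_cancel' (h1 w)]

/-- the kernel of reduction modulo `p` in the free Lie algebra -/
theorem bcL_zmod_eq_zero (p : ℕ) {l : FreeLieAlgebra ℤ X} (h : bcL ℤ (ZMod p) X l = 0) :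
    ∃ l' : FreeLieAlgebra ℤ X, l = (p : ℤ) • l' := by
  have h1 : bcA ℤ (ZMod p) X (asso ℤ X l) = 0 := by rw [← asso_bcL, h, map_zero]
  obtain ⟨g, hg⟩ := bcA_zmod_eq_zero p h1
  exact witt_div l _ g hg

theorem bcL_zmod_eq_zero_hom (p : ℕ) {w : X → ℕ} (h1 : ∀ x, 1 ≤ w x)
    (hfin : ∀ e, {x | w x = e}.Finite) {n : ℕ} {l : FreeLieAlgebra ℤ X} (hl : l ∈ WS ℤ w n)
    (h : bcL ℤ (ZMod p) X l = 0) : ∃ l' ∈ WS ℤ w n, l = (p : ℤ) • l' := by
  have h2 : bcA ℤ (ZMod p) X (asso ℤ X l) = 0 := by rw [← asso_bcL, h, map_zero]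
  obtain ⟨g, hg⟩ := bcA_zmod_eq_zero p h2
  exact witt_div_hom h1 hfin hl _ g hg

end integral

end Crest.Agent.R010.Witt

end
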