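import Crest.Agent.R010.CDefs
import Crest.Agent.R010.EDefs
import Crest.Agent.R010.Witt2

/-! Row 10, module (cB) (helper630): the Ihara bracket on free associative algebras. -/

set_option autoImplicit false

noncomputable section

namespace Crest.Agent.R010.C

open Crest.NumberTheoryR.GT Crest.Agent.R010 Crest.Agent.R010.Witt

attribute [local instance 100] LieRing.ofAssociativeRing

section general

variable {R : Type*} [CommRing R] {X : Type*}

theorem der_unique (d : X → FreeAlgebra R X) (D : FreeAlgebra R X →ₗ[R] FreeAlgebra R X)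
    (hm : ∀ a b, D (a * b) = D a * b + a * D b) (hι : ∀ i, D (FreeAlgebra.ι R i) = d i)
    (f : FreeAlgebra R X) : D f = der R d f := by
  have h1 : D 1 = 0 := by
    have := hm 1 1
    simpa using this
  induction f using FreeAlgebra.induction with
  | grade0 r =>
    rw [der_algebraMap, Algebra.algebraMap_eq_smul_one, map_smul, h1, smul_zero]
  | grade1 i => rw [hι, der_ι]
  | mul a b ha hb => rw [hm, der_mul, ha, hb]
  | add a b ha hb => rw [map_add, map_add, ha, hb]

theorem mem_LieX_iff {X : Type*} (f : FreeAlgebra R X) :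
    f ∈ LieX R X ↔ ∃ l, asso R X l = f := by
  constructor
  · intro h
    have : LieX R X ≤ (asso R X).range := by
      rw [LieX, LieSubalgebra.lieSpan_le]
      rintro _ ⟨i, rfl⟩
      exact ⟨FreeLieAlgebra.of R i, asso_of i⟩
    obtain ⟨l, hl⟩ := this h
    exact ⟨l, hl⟩
  · rintro ⟨l, rfl⟩
    induction l using fla_induction with
    | hof x => rw [asso_of]; exact LieSubalgebra.subset_lieSpan ⟨x, rfl⟩
    | h0 => rw [map_zero]; exact zero_mem _
    | hadd a b ha hb => rw [map_add]; exact add_mem ha hb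
    | hsmul r a ha => rw [map_smul]; exact (LieX R X).smul_mem r ha
    | hlie a b ha hb => rw [LieHom.map_lie]; exact (LieX R X).lie_mem ha hb

end general

section basic

variable {R : Type*} [CommRing R]

theorem dA_X (a : Alg R) : dA R a (X R) = 0 := by simp [dA, X]

theorem dA_Y (a : Alg R) : dA R a (Y R) = Y R * a - a * Y R := by simp [dA, Y]

theorem dA_mul (a f g : Alg R) : dA R a (f * g) = dA R a f * g + f * dA R a g := der_mul _ f g

theorem dA_one (a : Alg R) : dA R a 1 = 0 := der_one _

theorem dA_unique (a : Alg R) (D : Alg R →ₗ[R] Alg R)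
    (hm : ∀ f g, D (f * g) = D f * g + f * D g) (h0 : D (X R) = 0)
    (h1 : D (Y R) = Y R * a - a * Y R) (f : Alg R) : D f = dA R a f := by
  refine der_unique _ D hm (fun i => ?_) f
  fin_cases i
  · exact h0
  · exact h1

theorem dA_add (a b f : Alg R) : dA R (a + b) f = dA R a f + dA R b f := by
  symm
  refine dA_unique (a + b) (dA R a + dA R b) (fun f g => ?_) ?_ ?_ f
  · simp only [LinearMap.add_apply, dA_mul]; noncomm_ring
  · simp only [LinearMap.add_apply, dA_X, add_zero]
  · simp only [LinearMap.add_apply, dA_Y]; noncomm_ring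

theorem dA_smul (r : R) (a f : Alg R) : dA R (r • a) f = r • dA R a f := by
  symm
  refine dA_unique (r • a) (r • dA R a) (fun f g => ?_) ?_ ?_ f
  · simp only [LinearMap.smul_apply, dA_mul, smul_add, smul_mul_assoc, mul_smul_comm]
  · simp only [LinearMap.smul_apply, dA_X, smul_zero]
  · simp only [LinearMap.smul_apply, dA_Y, smul_sub, smul_mul_assoc, mul_smul_comm]

theorem dA_comm (a b f : Alg R) :
    dA R a (dA R b f) - dA R b (dA R a f) = dA R (ih R a b) f := by
  refine dA_unique (ih R a b) (dA R a * dA R b - dA R b * dA R a) (fun f g => ?_) ?_ ?_ f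
  · simp only [LinearMap.sub_apply, Module.End.mul_apply, dA_mul, map_add]; noncomm_ring
  · simp only [LinearMap.sub_apply, Module.End.mul_apply, dA_X, map_zero, sub_zero]
  · simp only [LinearMap.sub_apply, Module.End.mul_apply, dA_Y, map_sub, dA_mul, ih]
    noncomm_ring

end basic

/-- `s_a = L_a + D_a`. -/
def opS (R : Type*) [CommRing R] (a : Alg R) : Module.End R (Alg R) :=
  LinearMap.mulLeft R a + dA R a

section opS

variable {R : Type*} [CommRing R]

theorem opS_apply (a f : Alg R) : opS R a f = a * f + dA R a f := rfl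

theorem opS_one (a : Alg R) : opS R a 1 = a := by rw [opS_apply, dA_one, mul_one, add_zero]

theorem opS_comm (a b : Alg R) : opS R a * opS R b - opS R b * opS R a = opS R (ih R a b) := by
  apply LinearMap.ext
  intro f
  simp only [LinearMap.sub_apply, Module.End.mul_apply, opS_apply, map_add, dA_mul, ← dA_comm]
  simp only [ih]
  noncomm_ring

theorem opS_add (a b : Alg R) : opS R (a + b) = opS R a + opS R b := by
  apply LinearMap.ext
  intro f
  simp only [LinearMap.add_apply, opS_apply, dA_add]; noncomm_ring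

theorem opS_smul (r : R) (a : Alg R) : opS R (r • a) = r • opS R a := by
  apply LinearMap.ext
  intro f
  simp only [LinearMap.smul_apply, opS_apply, dA_smul, smul_add, smul_mul_assoc]

theorem opS_injective : Function.Injective (opS R) := by
  intro a b h
  rw [← opS_one a, ← opS_one b, h]

theorem ih_skew (a b : Alg R) : ih R a b = - ih R b a := by
  simp only [ih]; noncomm_ring

theorem ih_self (a : Alg R) : ih R a a = 0 := by simp [ih]

theorem ih_add_left (a a' b : Alg R) : ih R (a + a') b = ih R a b + ih R a' b := by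
  simp only [ih, dA_add, map_add]; noncomm_ring

theorem ih_add_right (a b b' : Alg R) : ih R a (b + b') = ih R a b + ih R a b' := by
  simp only [ih, dA_add, map_add]; noncomm_ring

theorem ih_smul_left (r : R) (a b : Alg R) : ih R (r • a) b = r • ih R a b := by
  simp only [ih, dA_smul, map_smul, smul_sub, smul_add, smul_mul_assoc, mul_smul_comm]

theorem ih_smul_right (r : R) (a b : Alg R) : ih R a (r • b) = r • ih R a b := by
  simp only [ih, dA_smul, map_smul, smul_sub, smul_add, smul_mul_assoc, mul_smul_comm]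

theorem ih_jacobi (a b c : Alg R) :
    ih R (ih R a b) c = ih R a (ih R b c) - ih R b (ih R a c) := by
  apply opS_injective
  have e : ∀ u v : Alg R, opS R (u - v) = opS R u - opS R v := by
    intro u v
    rw [sub_eq_add_neg, opS_add, ← neg_one_smul R v, opS_smul, neg_one_smul, ← sub_eq_add_neg]
  rw [e, ← opS_comm, ← opS_comm, ← opS_comm, ← opS_comm, ← opS_comm, ← opS_comm]
  noncomm_ring

end opS

section basechange

variable {R S : Type*} [CommRing R] [CommRing S] (f : R →+* S)

theorem bc_X : bc f (Fin 2) (X R) = X S := by simp [X]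

theorem bc_Y : bc f (Fin 2) (Y R) = Y S := by simp [Y]

theorem bc_dA (a g : Alg R) :
    bc f (Fin 2) (dA R a g) = dA S (bc f (Fin 2) a) (bc f (Fin 2) g) := by
  induction g using FreeAlgebra.induction with
  | grade0 r =>
    rw [bc_algebraMap]
    simp only [dA, der_algebraMap, map_zero]
  | grade1 i =>
    fin_cases i
    · show bc f (Fin 2) (dA R a (X R)) = dA S (bc f (Fin 2) a) (bc f (Fin 2) (X R))
      rw [bc_X, dA_X, dA_X, map_zero]
    · show bc f (Fin 2) (dA R a (Y R)) = dA S (bc f (Fin 2) a) (bc f (Fin 2) (Y R))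
      rw [bc_Y, dA_Y, dA_Y, map_sub, map_mul, map_mul, bc_Y]
  | mul g h hg hh => rw [dA_mul, map_add, map_mul, map_mul, hg, hh, map_mul, dA_mul]
  | add g h hg hh => rw [map_add, map_add, hg, hh, map_add, map_add]

theorem bc_ih (a b : Alg R) :
    bc f (Fin 2) (ih R a b) = ih S (bc f (Fin 2) a) (bc f (Fin 2) b) := by
  simp only [ih, map_add, map_sub, map_mul, bc_dA]

theorem bc_opS (a g : Alg R) :
    bc f (Fin 2) (opS R a g) = opS S (bc f (Fin 2) a) (bc f (Fin 2) g) := by
  rw [opS_apply, opS_apply, map_add, map_mul, bc_dA]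

theorem bc_eq_bcA [Algebra R S] {X : Type*} (g : FreeAlgebra R X) :
    bc (algebraMap R S) X g = bcA R S X g := by
  induction g using FreeAlgebra.induction with
  | grade0 r =>
    rw [bc_algebraMap, AlgHom.commutes, IsScalarTower.algebraMap_apply R S (FreeAlgebra S X)]
  | grade1 i => rw [bc_ι, bcA_ι]
  | mul g h hg hh => rw [map_mul, map_mul, hg, hh]
  | add g h hg hh => rw [map_add, map_add, hg, hh]

end basechange

section weights

variable {R : Type*} [CommRing R] {X : Type*}

/-- word monomials -/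
def word (R : Type*) [CommRing R] {X : Type*} (l : List X) : FreeAlgebra R X :=
  (l.map (FreeAlgebra.ι R)).prod

theorem word_nil : word R ([] : List X) = 1 := rfl

theorem word_cons (i : X) (l : List X) : word R (i :: l) = FreeAlgebra.ι R i * word R l := by
  simp [word]

theorem word_append (l l' : List X) : word R (l ++ l') = word R l * word R l' := by
  simp [word]

theorem word_mem_wtA (w : X → ℕ) (l : List X) : word R l ∈ wtA R w (l.map w).sum :=
  Submodule.subset_span ⟨l, rfl, rfl⟩

theorem one_mem_wtA (w : X → ℕ) : (1 : FreeAlgebra R X) ∈ wtA R w 0 := by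
  exact word_mem_wtA (R := R) w []

theorem ι_mem_wtA (w : X → ℕ) (i : X) : FreeAlgebra.ι R i ∈ wtA R w (w i) := by
  simpa [word] using word_mem_wtA (R := R) w [i]

theorem wtA_induction {w : X → ℕ} {n : ℕ} {p : FreeAlgebra R X → Prop}
    (hw : ∀ l : List X, (l.map w).sum = n → p (word R l)) (h0 : p 0)
    (ha : ∀ a b, p a → p b → p (a + b)) (hs : ∀ (r : R) a, p a → p (r • a))
    {f : FreeAlgebra R X} (h : f ∈ wtA R w n) : p f := by
  refine Submodule.span_induction (p := fun f _ => p f) ?_ h0 (fun a b _ _ => ha a b)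
    (fun r a _ => hs r a) h
  rintro _ ⟨l, hl, rfl⟩
  exact hw l hl

theorem mul_mem_wtA {w : X → ℕ} {m n : ℕ} {f g : FreeAlgebra R X} (hf : f ∈ wtA R w m)
    (hg : g ∈ wtA R w n) : f * g ∈ wtA R w (m + n) := by
  refine wtA_induction (p := fun f => f * g ∈ wtA R w (m + n)) ?_ ?_ ?_ ?_ hf
  · intro l hl
    refine wtA_induction (p := fun g => word R l * g ∈ wtA R w (m + n)) ?_ ?_ ?_ ?_ hg
    · intro l' hl'
      rw [← word_append, ← hl, ← hl']
      simpa using word_mem_wtA (R := R) w (l ++ l')
    · simp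
    · intro a b ha hb; rw [mul_add]; exact add_mem ha hb
    · intro r a ha; rw [mul_smul_comm]; exact Submodule.smul_mem _ _ ha
  · simp
  · intro a b ha hb; rw [add_mul]; exact add_mem ha hb
  · intro r a ha; rw [smul_mul_assoc]; exact Submodule.smul_mem _ _ ha

theorem lieA_mem_wtA {w : X → ℕ} {m n : ℕ} {f g : FreeAlgebra R X} (hf : f ∈ wtA R w m)
    (hg : g ∈ wtA R w n) : f * g - g * f ∈ wtA R w (m + n) :=
  sub_mem (mul_mem_wtA hf hg) (add_comm n m ▸ mul_mem_wtA hg hf)

theorem equiv_word (l : List X) : FreeAlgebra.equivMonoidAlgebraFreeMonoid (word R l) =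
    MonoidAlgebra.single (FreeMonoid.ofList l) (1 : R) := by
  induction l with
  | nil => rw [word_nil, map_one]; rfl
  | cons i l ih =>
    rw [word_cons, map_mul, ih]
    simp [FreeAlgebra.equivMonoidAlgebraFreeMonoid, MonoidAlgebra.single_mul_single]

open Classical in
theorem cf_word (v l : List X) : cf v (word R l) = if v = l then 1 else 0 := by
  show (FreeAlgebra.equivMonoidAlgebraFreeMonoid (word R l)).coeff (FreeMonoid.ofList v) = _
  rw [equiv_word, MonoidAlgebra.coeff_single, Finsupp.single_apply]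
  by_cases hv : v = l
  · subst hv; simp
  · rw [if_neg hv, if_neg]
    intro e; exact hv (FreeMonoid.ofList.injective e).symm

theorem mem_span_word (f : FreeAlgebra R X) :
    f ∈ Submodule.span R {g | ∃ l : List X, cf l f ≠ 0 ∧ g = word R l} := by
  have h : f = ∑ m ∈ (FreeAlgebra.equivMonoidAlgebraFreeMonoid f).coeff.support,
      cf (FreeMonoid.toList m) f • word R (FreeMonoid.toList m) := by
    apply (FreeAlgebra.equivMonoidAlgebraFreeMonoid (R := R) (X := X)).injective
    rw [map_sum]
    conv_lhs => rw [← MonoidAlgebra.sum_coeff_single (FreeAlgebra.equivMonoidAlgebraFreeMonoid f)]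
    refine Finset.sum_congr rfl fun m _ => ?_
    rw [map_smul, equiv_word, MonoidAlgebra.smul_single, smul_eq_mul, mul_one]
    rfl
  rw [h]
  refine Submodule.sum_mem _ fun m hm => ?_
  by_cases h0 : cf (FreeMonoid.toList m) f = 0
  · rw [h0, zero_smul]; exact Submodule.zero_mem _
  · refine Submodule.smul_mem _ _ (Submodule.subset_span ⟨_, ?_, rfl⟩)
    rw [← h]; exact h0

theorem cf_eq_zero_of_mem_wtA {w : X → ℕ} {n : ℕ} {f : FreeAlgebra R X} (hf : f ∈ wtA R w n)
    {l : List X} (hl : (l.map w).sum ≠ n) : cf l f = 0 := by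
  classical
  refine wtA_induction (p := fun f => cf l f = 0) ?_ ?_ ?_ ?_ hf
  · intro l' hl'
    rw [cf_word, if_neg]
    rintro rfl
    exact hl hl'
  · simp
  · intro a b ha hb; rw [map_add, ha, hb, add_zero]
  · intro r a ha; rw [map_smul, ha, smul_zero]

theorem mem_wtA_iff {w : X → ℕ} {n : ℕ} {f : FreeAlgebra R X} :
    f ∈ wtA R w n ↔ ∀ l : List X, (l.map w).sum ≠ n → cf l f = 0 := by
  refine ⟨fun h l hl => cf_eq_zero_of_mem_wtA h hl, fun h => ?_⟩
  refine Submodule.span_le.2 ?_ (mem_span_word f)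
  rintro _ ⟨l, hl, rfl⟩
  have : (l.map w).sum = n := by
    by_contra h'
    exact hl (h l h')
  rw [← this]
  exact word_mem_wtA w l

theorem asso_mem_wtA {w : X → ℕ} {n : ℕ} {l : FreeLieAlgebra R X} (h : l ∈ WS R w n) :
    asso R X l ∈ wtA R w n := by
  refine WS_induction (p := fun l => asso R X l ∈ wtA R w n) ?_ ?_ ?_ ?_ h
  · clear h l
    intro l h
    induction h with
    | of i => rw [asso_of]; exact ι_mem_wtA w i
    | lie _ _ h1 h2 =>
      rw [LieHom.map_lie, LieRing.of_associative_ring_bracket]; exact lieA_mem_wtA h1 h2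
  · rw [map_zero]; exact zero_mem _
  · intro a b ha hb; rw [map_add]; exact add_mem ha hb
  · intro r a ha; rw [map_smul]; exact Submodule.smul_mem _ _ ha

theorem wtA_disjoint {w : X → ℕ} {m n : ℕ} (hmn : m ≠ n) {f : FreeAlgebra R X}
    (hm : f ∈ wtA R w m) (hn : f ∈ wtA R w n) : f = 0 := by
  apply cf_ext
  intro l
  rw [map_zero]
  by_cases h : (l.map w).sum = m
  · exact cf_eq_zero_of_mem_wtA hn (by omega)
  · exact cf_eq_zero_of_mem_wtA hm h

/-- a homogeneous Lie element comes from a homogeneous element of the free Lie algebra -/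
theorem exists_WS_of_wtA {w : X → ℕ} {n : ℕ} {f : FreeAlgebra R X} (hL : f ∈ LieX R X)
    (hf : f ∈ wtA R w n) : ∃ l ∈ WS R w n, asso R X l = f := by
  obtain ⟨l, rfl⟩ := (mem_LieX_iff f).1 hL
  obtain ⟨g, hg, rfl⟩ := exists_hom_sum w l
  refine ⟨g n, hg n, ?_⟩
  have h : ∀ f : FreeAlgebra R X, f ∈ wtA R w n → comp w n f = f := by
    intro f hf
    have hw : ∀ l : List X, gradHom R w (word R l) =
        Polynomial.monomial (l.map w).sum (word R l) := by
      intro l
      induction l with
      | nil => rw [word_nil, map_one]; rfl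
      | cons i l ih =>
        rw [word_cons, map_mul, ih, gradHom, FreeAlgebra.lift_ι_apply,
          Polynomial.monomial_mul_monomial]
        simp
    refine wtA_induction (p := fun f => comp w n f = f) ?_ ?_ ?_ ?_ hf
    · intro l hl
      rw [Witt.comp, hw, hl, Polynomial.coeff_monomial, if_pos rfl]
    · rw [Witt.comp, map_zero]; rfl
    · intro a b ha hb
      rw [Witt.comp] at ha hb ⊢
      rw [map_add, Polynomial.coeff_add, ha, hb]
    · intro r a ha
      rw [comp_smul, ha]
  rw [← comp_asso_sum g hg n, h _ hf]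

end weights

section weights2

variable {R : Type*} [CommRing R]

theorem dA_mem_wtA {m n : ℕ} {a f : Alg R} (ha : a ∈ wtA R (fun _ => 1) m)
    (hf : f ∈ wtA R (fun _ => 1) n) : dA R a f ∈ wtA R (fun _ => 1) (m + n) := by
  refine wtA_induction (p := fun f => dA R a f ∈ wtA R (fun _ => 1) (m + n)) ?_ ?_ ?_ ?_ hf
  · clear hf f
    intro l hl
    subst hl
    induction l with
    | nil => rw [word_nil, dA_one]; exact zero_mem _
    | cons i l ih =>
      rw [word_cons, dA_mul]
      have e : m + ((i :: l).map fun _ => 1).sum = (m + 1) + (l.map fun _ => 1).sum := by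
        simp; ring
      rw [e]
      refine add_mem (mul_mem_wtA ?_ (word_mem_wtA _ l)) ?_
      · fin_cases i
        · show dA R a (X R) ∈ _
          rw [dA_X]; exact zero_mem _
        · show dA R a (Y R) ∈ _
          rw [dA_Y, add_comm]
          exact lieA_mem_wtA (ι_mem_wtA (fun _ => 1) 1) ha
      · have := mul_mem_wtA (ι_mem_wtA (R := R) (fun _ : Fin 2 => 1) i) ih
        have e2 : 1 + (m + (l.map fun _ => 1).sum) = m + 1 + (l.map fun _ : Fin 2 => 1).sum := by
          ring
        rwa [e2] at this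
  · rw [map_zero]; exact zero_mem _
  · intro a b ha hb; rw [map_add]; exact add_mem ha hb
  · intro r a ha; rw [map_smul]; exact Submodule.smul_mem _ _ ha

theorem ih_mem_wtA {m n : ℕ} {a b : Alg R} (ha : a ∈ wtA R (fun _ => 1) m)
    (hb : b ∈ wtA R (fun _ => 1) n) : ih R a b ∈ wtA R (fun _ => 1) (m + n) :=
  add_mem (sub_mem (dA_mem_wtA ha hb) (add_comm n m ▸ dA_mem_wtA hb ha)) (lieA_mem_wtA ha hb)

theorem opS_mem_wtA {m n : ℕ} {a b : Alg R} (ha : a ∈ wtA R (fun _ => 1) m)
    (hb : b ∈ wtA R (fun _ => 1) n) : opS R a b ∈ wtA R (fun _ => 1) (m + n) :=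
  add_mem (mul_mem_wtA ha hb) (dA_mem_wtA ha hb)

theorem lieA_mem_LieX {X : Type*} {a b : FreeAlgebra R X} (ha : a ∈ LieX R X)
    (hb : b ∈ LieX R X) : a * b - b * a ∈ LieX R X := by
  rw [← LieRing.of_associative_ring_bracket]
  exact (LieX R X).lie_mem ha hb

theorem ι_mem_LieX {X : Type*} (i : X) : FreeAlgebra.ι R i ∈ LieX R X :=
  LieSubalgebra.subset_lieSpan ⟨i, rfl⟩

theorem dA_mem_LieX {a f : Alg R} (ha : a ∈ LieX R (Fin 2)) (hf : f ∈ LieX R (Fin 2)) :
    dA R a f ∈ LieX R (Fin 2) := by
  obtain ⟨l, rfl⟩ := (mem_LieX_iff f).1 hf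
  clear hf
  induction l using fla_induction with
  | hof i =>
    rw [asso_of]
    fin_cases i
    · show dA R a (X R) ∈ _
      rw [dA_X]; exact zero_mem _
    · show dA R a (Y R) ∈ _
      rw [dA_Y]; exact lieA_mem_LieX (ι_mem_LieX 1) ha
  | h0 => rw [map_zero, map_zero]; exact zero_mem _
  | hadd a b ha hb => rw [map_add, map_add]; exact add_mem ha hb
  | hsmul r a ha => rw [map_smul, map_smul]; exact (LieX R (Fin 2)).smul_mem r ha
  | hlie u v hu hv =>
    rw [LieHom.map_lie, LieRing.of_associative_ring_bracket, map_sub, dA_mul, dA_mul]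
    have e : dA R a ((asso R (Fin 2)) u) * (asso R (Fin 2)) v
        + (asso R (Fin 2)) u * dA R a ((asso R (Fin 2)) v)
        - (dA R a ((asso R (Fin 2)) v) * (asso R (Fin 2)) u
        + (asso R (Fin 2)) v * dA R a ((asso R (Fin 2)) u)) =
      (dA R a ((asso R (Fin 2)) u) * (asso R (Fin 2)) v
        - (asso R (Fin 2)) v * dA R a ((asso R (Fin 2)) u)) +
      ((asso R (Fin 2)) u * dA R a ((asso R (Fin 2)) v)
        - dA R a ((asso R (Fin 2)) v) * (asso R (Fin 2)) u) := by noncomm_ring
    rw [e]
    exact add_mem (lieA_mem_LieX hu ((mem_LieX_iff _).2 ⟨v, rfl⟩))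
      (lieA_mem_LieX ((mem_LieX_iff _).2 ⟨u, rfl⟩) hv)

theorem ih_mem_LieX {a b : Alg R} (ha : a ∈ LieX R (Fin 2)) (hb : b ∈ LieX R (Fin 2)) :
    ih R a b ∈ LieX R (Fin 2) :=
  add_mem (sub_mem (dA_mem_LieX ha hb) (dA_mem_LieX hb ha)) (lieA_mem_LieX ha hb)

end weights2

end Crest.Agent.R010.C

end
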