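import Crest.Agent.R010.CB

/-! Row 10, module (cB), part 2 (helper630): compatibility of the frozen Ihara bracket with the
bracket on the free associative algebra; depth one coefficients. -/

set_option autoImplicit false

noncomputable section

namespace Crest.Agent.R010.C

open Crest.NumberTheoryR.GT Crest.Agent.R010 Crest.Agent.R010.Witt

attribute [local instance 100] LieRing.ofAssociativeRing

section iharaDer

/-- first component -/
def dualFst (v : DualGT) : GTLie := ((LieAlgebra.ofProd 0).symm v).1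

theorem dualFst_add (v w : DualGT) : dualFst (v + w) = dualFst v + dualFst w := rfl

theorem dualFst_smul (r : ℚ) (v : DualGT) : dualFst (r • v) = r • dualFst v := rfl

theorem dualFst_lie (v w : DualGT) : dualFst ⁅v, w⁆ = ⁅dualFst v, dualFst w⁆ := rfl

theorem dualSnd_lie (v w : DualGT) :
    dualSnd ⁅v, w⁆ = ⁅dualFst v, dualSnd w⁆ - ⁅dualFst w, dualSnd v⁆ := by
  show ((0 : LieModule.Cohomology.twoCocycle ℚ GTLie GTLie) : GTLie →ₗ[ℚ] GTLie →ₗ[ℚ] GTLie)
    (dualFst v) (dualFst w) + ⁅dualFst v, dualSnd w⁆ - ⁅dualFst w, dualSnd v⁆ = _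
  simp

theorem gtSubst_x {M : Type*} [LieRing M] [LieAlgebra ℚ M] (a b : M) : gtSubst a b gx = a := by
  rw [gtSubst, gx, FreeLieAlgebra.lift_of_apply, if_pos rfl]

theorem gtSubst_y {M : Type*} [LieRing M] [LieAlgebra ℚ M] (a b : M) : gtSubst a b gy = b := by
  rw [gtSubst, gy, FreeLieAlgebra.lift_of_apply, if_neg (by decide)]

/-- the homomorphism defining `iharaDer` -/
def dHom (ψ : GTLie) : GTLie →ₗ⁅ℚ⁆ DualGT := gtSubst (dualMk gx 0) (dualMk gy ⁅gy, ψ⁆)

theorem dHom_fst (ψ f : GTLie) : dualFst (dHom ψ f) = f := by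
  induction f using fla_induction with
  | hof i =>
    fin_cases i
    · show dualFst (dHom ψ gx) = gx
      rw [dHom, gtSubst_x]; rfl
    · show dualFst (dHom ψ gy) = gy
      rw [dHom, gtSubst_y]; rfl
  | h0 => rw [map_zero]; rfl
  | hadd a b ha hb => rw [map_add, dualFst_add, ha, hb]
  | hsmul r a ha => rw [map_smul, dualFst_smul, ha]
  | hlie a b ha hb => rw [LieHom.map_lie, dualFst_lie, ha, hb]

theorem iharaDer_eq (ψ f : GTLie) : iharaDer ψ f = dualSnd (dHom ψ f) := rfl

theorem iharaDer_x (ψ : GTLie) : iharaDer ψ gx = 0 := by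
  rw [iharaDer_eq, dHom, gtSubst_x]; rfl

theorem iharaDer_y (ψ : GTLie) : iharaDer ψ gy = ⁅gy, ψ⁆ := by
  rw [iharaDer_eq, dHom, gtSubst_y]; rfl

theorem iharaDer_lie (ψ a b : GTLie) :
    iharaDer ψ ⁅a, b⁆ = ⁅iharaDer ψ a, b⁆ + ⁅a, iharaDer ψ b⁆ := by
  rw [iharaDer_eq, LieHom.map_lie, dualSnd_lie, dHom_fst, dHom_fst, ← iharaDer_eq, ← iharaDer_eq,
    ← lie_skew b, sub_neg_eq_add, add_comm]

theorem iota_iharaDer (ψ f : GTLie) : iota (iharaDer ψ f) = dA ℚ (iota ψ) (iota f) := by
  induction f using fla_induction with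
  | hof i =>
    fin_cases i
    · show iota (iharaDer ψ gx) = dA ℚ (iota ψ) (asso ℚ (Fin 2) gx)
      rw [iharaDer_x, map_zero, gx, asso_of]
      exact (dA_X _).symm
    · show iota (iharaDer ψ gy) = dA ℚ (iota ψ) (asso ℚ (Fin 2) gy)
      rw [iharaDer_y, LieHom.map_lie, LieRing.of_associative_ring_bracket, gy, asso_of]
      show asso ℚ (Fin 2) (FreeLieAlgebra.of ℚ 1) * iota ψ -
        iota ψ * asso ℚ (Fin 2) (FreeLieAlgebra.of ℚ 1) = _
      rw [asso_of]
      exact (dA_Y _).symm
  | h0 => simp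
  | hadd a b ha hb => rw [map_add, map_add, ha, hb, map_add, map_add]
  | hsmul r a ha => rw [map_smul, map_smul, ha, map_smul, map_smul]
  | hlie a b ha hb =>
    rw [iharaDer_lie, map_add, LieHom.map_lie, LieHom.map_lie, LieHom.map_lie,
      LieRing.of_associative_ring_bracket, LieRing.of_associative_ring_bracket,
      LieRing.of_associative_ring_bracket, map_sub, dA_mul, dA_mul, ha, hb]
    noncomm_ring

theorem iota_ihara (p q : GTLie) : iota (iharaBracket p q) = ih ℚ (iota p) (iota q) := by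
  rw [iharaBracket, map_add, map_sub, iota_iharaDer, iota_iharaDer, LieHom.map_lie,
    LieRing.of_associative_ring_bracket]
  rfl

end iharaDer

section depth

variable {R : Type*} [CommRing R]

variable (R) in
/-- span of the words with at least `n` letters `y` -/
def Dep (n : ℕ) : Submodule R (Alg R) :=
  Submodule.span R {f | ∃ l : List (Fin 2), n ≤ l.count 1 ∧ f = word R l}

theorem word_mem_Dep {l : List (Fin 2)} {n : ℕ} (h : n ≤ l.count 1) : word R l ∈ Dep R n :=
  Submodule.subset_span ⟨l, h, rfl⟩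

theorem Dep_induction {n : ℕ} {p : Alg R → Prop}
    (hw : ∀ l : List (Fin 2), n ≤ l.count 1 → p (word R l)) (h0 : p 0)
    (ha : ∀ a b, p a → p b → p (a + b)) (hs : ∀ (r : R) a, p a → p (r • a))
    {f : Alg R} (h : f ∈ Dep R n) : p f := by
  refine Submodule.span_induction (p := fun f _ => p f) ?_ h0 (fun a b _ _ => ha a b)
    (fun r a _ => hs r a) h
  rintro _ ⟨l, hl, rfl⟩
  exact hw l hl

theorem Dep_anti {m n : ℕ} (h : m ≤ n) : Dep R n ≤ Dep R m := by
  intro f hf
  refine Dep_induction (p := fun f => f ∈ Dep R m) (fun l hl => word_mem_Dep (h.trans hl))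
    (zero_mem _) (fun a b => add_mem) (fun r a => Submodule.smul_mem _ _) hf

theorem mul_mem_Dep {m n : ℕ} {f g : Alg R} (hf : f ∈ Dep R m) (hg : g ∈ Dep R n) :
    f * g ∈ Dep R (m + n) := by
  refine Dep_induction (p := fun f => f * g ∈ Dep R (m + n)) ?_ ?_ ?_ ?_ hf
  · intro l hl
    refine Dep_induction (p := fun g => word R l * g ∈ Dep R (m + n)) ?_ ?_ ?_ ?_ hg
    · intro l' hl'
      rw [← word_append]
      exact word_mem_Dep (by rw [List.count_append]; omega)
    · simp
    · intro a b ha hb; rw [mul_add]; exact add_mem ha hb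
    · intro r a ha; rw [mul_smul_comm]; exact Submodule.smul_mem _ _ ha
  · simp
  · intro a b ha hb; rw [add_mul]; exact add_mem ha hb
  · intro r a ha; rw [smul_mul_assoc]; exact Submodule.smul_mem _ _ ha

theorem X_mem_Dep : X R ∈ Dep R 0 := by
  have := word_mem_Dep (R := R) (l := [0]) (n := 0) (Nat.zero_le _)
  rw [word_cons, word_nil, mul_one] at this
  exact this

theorem Y_mem_Dep : Y R ∈ Dep R 1 := by
  have := word_mem_Dep (R := R) (l := [1]) (n := 1) (by simp)
  rw [word_cons, word_nil, mul_one] at this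
  exact this

theorem dA_mem_Dep {a f : Alg R} {n : ℕ} (ha : a ∈ Dep R 1) (hf : f ∈ Dep R n) :
    dA R a f ∈ Dep R (n + 1) := by
  have key : ∀ l : List (Fin 2), dA R a (word R l) ∈ Dep R (l.count 1 + 1) := by
    intro l
    induction l with
    | nil => rw [word_nil, dA_one]; exact zero_mem _
    | cons i l ih =>
      rw [word_cons, dA_mul]
      fin_cases i
      · show dA R a (X R) * word R l + X R * dA R a (word R l) ∈ _
        rw [dA_X, zero_mul, zero_add]
        have h := mul_mem_Dep X_mem_Dep ih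
        have e : 0 + (l.count 1 + 1) = ((0 : Fin 2) :: l).count 1 + 1 := by simp
        rw [e] at h
        exact h
      · show dA R a (Y R) * word R l + Y R * dA R a (word R l) ∈ _
        have e : ((1 : Fin 2) :: l).count 1 + 1 = 2 + l.count 1 := by simp; ring
        show _ ∈ Dep R (((1 : Fin 2) :: l).count 1 + 1)
        rw [e, dA_Y]
        have h1 : Y R * a - a * Y R ∈ Dep R (1 + 1) :=
          Submodule.sub_mem _ (mul_mem_Dep Y_mem_Dep ha) (mul_mem_Dep ha Y_mem_Dep)
        rw [one_add_one_eq_two] at h1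
        have h2 : (Y R * a - a * Y R) * word R l ∈ Dep R (2 + l.count 1) :=
          mul_mem_Dep h1 (word_mem_Dep le_rfl)
        have h3 := mul_mem_Dep Y_mem_Dep ih
        have e2 : 1 + (l.count 1 + 1) = 2 + l.count 1 := by ring
        rw [e2] at h3
        exact Submodule.add_mem _ h2 h3
  refine Dep_induction (p := fun f => dA R a f ∈ Dep R (n + 1)) ?_ ?_ ?_ ?_ hf
  · intro l hl
    exact Dep_anti (by omega) (key l)
  · rw [map_zero]; exact zero_mem _
  · intro a b ha hb; rw [map_add]; exact add_mem ha hb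
  · intro r a ha; rw [map_smul]; exact Submodule.smul_mem _ _ ha

theorem ih_mem_Dep {a b : Alg R} (ha : a ∈ Dep R 1) (hb : b ∈ Dep R 1) : ih R a b ∈ Dep R 2 := by
  have h1 : dA R a b - dA R b a ∈ Dep R (1 + 1) :=
    Submodule.sub_mem _ (dA_mem_Dep ha hb) (dA_mem_Dep hb ha)
  have h2 : a * b - b * a ∈ Dep R (1 + 1) :=
    Submodule.sub_mem _ (mul_mem_Dep ha hb) (mul_mem_Dep hb ha)
  rw [one_add_one_eq_two] at h1 h2
  exact Submodule.add_mem _ h1 h2

theorem cf_dep1_of_Dep {f : Alg R} (hf : f ∈ Dep R 2) (n : ℕ) : cf (dep1 n) f = 0 := by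
  classical
  refine Dep_induction (p := fun f => cf (dep1 n) f = 0) ?_ ?_ ?_ ?_ hf
  · intro l hl
    rw [cf_word, if_neg]
    rintro rfl
    rw [dep1, List.count_append, List.count_replicate] at hl
    simp at hl
  · simp
  · intro a b ha hb; rw [map_add, ha, hb, add_zero]
  · intro r a ha; rw [map_smul, ha, smul_zero]

/-- `x ↦ t, y ↦ 0` -/
def evT (R : Type*) [CommRing R] : Alg R →ₐ[R] Polynomial R :=
  FreeAlgebra.lift R ![Polynomial.X, 0]

theorem evT_word (l : List (Fin 2)) :
    evT R (word R l) = if l.count 1 = 0 then Polynomial.X ^ l.length else 0 := by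
  induction l with
  | nil => simp [word_nil]
  | cons i l ih =>
    rw [word_cons, map_mul, ih]
    fin_cases i
    · show evT R (FreeAlgebra.ι R 0) * _ = _
      rw [evT, FreeAlgebra.lift_ι_apply]
      simp only [Matrix.cons_val_zero]
      by_cases h : l.count 1 = 0
      · rw [if_pos h, if_pos (by simpa using h)]
        simp [pow_succ']
      · rw [if_neg h, if_neg (by simpa using h)]
        simp
    · show evT R (FreeAlgebra.ι R 1) * _ = _
      rw [evT, FreeAlgebra.lift_ι_apply]
      simp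

theorem evT_coeff (f : Alg R) (n : ℕ) :
    (evT R f).coeff n = cf (List.replicate n 0) f := by
  classical
  refine Submodule.span_induction (p := fun f _ => (evT R f).coeff n = cf (List.replicate n 0) f)
    ?_ ?_ ?_ ?_ (mem_span_word f)
  · rintro _ ⟨l, _, rfl⟩
    rw [evT_word, cf_word]
    by_cases h : List.replicate n 0 = l
    · subst h
      simp [List.count_replicate]
    · rw [if_neg h]
      split_ifs with h2
      · rw [Polynomial.coeff_X_pow, if_neg]
        rintro rfl
        apply h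
        symm
        rw [List.eq_replicate_iff]
        refine ⟨rfl, fun b hb => ?_⟩
        rw [List.count_eq_zero] at h2
        have : b ≠ 1 := fun e => h2 (e ▸ hb)
        omega
      · simp
  · simp
  · intro a b _ _ ha hb; rw [map_add, Polynomial.coeff_add, ha, hb, map_add]
  · intro r a _ ha; rw [map_smul, Polynomial.coeff_smul, ha, map_smul]

theorem evT_LieX {f : Alg R} (hf : f ∈ LieX R (Fin 2)) {n : ℕ} (hn : 2 ≤ n) :
    (evT R f).coeff n = 0 := by
  obtain ⟨l, rfl⟩ := (mem_LieX_iff f).1 hf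
  clear hf
  induction l using fla_induction with
  | hof i =>
    rw [asso_of, evT, FreeAlgebra.lift_ι_apply]
    fin_cases i
    · simp only [Fin.zero_eta, Matrix.cons_val_zero]
      rw [Polynomial.coeff_X, if_neg (by omega)]
    · simp
  | h0 => simp
  | hadd a b ha hb => rw [map_add, map_add, Polynomial.coeff_add, ha, hb, add_zero]
  | hsmul r a ha => rw [map_smul, map_smul, Polynomial.coeff_smul, ha, smul_zero]
  | hlie a b _ _ =>
    rw [LieHom.map_lie, LieRing.of_associative_ring_bracket, map_sub, map_mul, map_mul, mul_comm,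
      sub_self, Polynomial.coeff_zero]

theorem LieX_mem_Dep {f : Alg R} (hf : f ∈ LieX R (Fin 2)) {n : ℕ} (hn : 2 ≤ n)
    (hw : f ∈ wtA R (fun _ => 1) n) : f ∈ Dep R 1 := by
  refine Submodule.span_le.2 ?_ (mem_span_word f)
  rintro _ ⟨l, hl, rfl⟩
  apply word_mem_Dep
  by_contra h
  apply hl
  have h2 : l.count 1 = 0 := by omega
  have h3 : l = List.replicate l.length 0 := by
    rw [List.eq_replicate_iff]
    refine ⟨rfl, fun b hb => ?_⟩
    rw [List.count_eq_zero] at h2
    have : b ≠ 1 := fun e => h2 (e ▸ hb)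
    omega
  by_cases h4 : l.length = n
  · rw [h3, h4, ← evT_coeff]
    exact evT_LieX hf hn
  · exact cf_eq_zero_of_mem_wtA hw (by simpa using h4)

/-- depth one coefficients of Ihara brackets vanish -/
theorem cf_dep1_ih {a b : Alg R} {m n : ℕ} (ha : a ∈ LieX R (Fin 2)) (hb : b ∈ LieX R (Fin 2))
    (hm : 2 ≤ m) (hn : 2 ≤ n) (hwa : a ∈ wtA R (fun _ => 1) m) (hwb : b ∈ wtA R (fun _ => 1) n)
    (k : ℕ) : cf (dep1 k) (ih R a b) = 0 :=
  cf_dep1_of_Dep (ih_mem_Dep (LieX_mem_Dep ha hm hwa) (LieX_mem_Dep hb hn hwb)) k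

end depth

end Crest.Agent.R010.C

end
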