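import Mathlib

/-!
Row 10 (S0011): common definitions for the module (c) (freeness, surjectivity, assembly) and
for the interface with the upper bound (U) over `ZMod 2`.
Everything lives in free associative algebras `FreeAlgebra R _`.
-/

set_option autoImplicit false

noncomputable section

namespace Crest.Agent.R010.C

attribute [local instance 100] LieRing.ofAssociativeRing

variable (R : Type*) [CommRing R]

/-- The derivation of the free algebra `FreeAlgebra R X` with values `d i` on the letters, as an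
algebra homomorphism to the square-zero extension. -/
def derHom {X : Type*} (d : X → FreeAlgebra R X) :
    FreeAlgebra R X →ₐ[R] TrivSqZeroExt (FreeAlgebra R X) (FreeAlgebra R X) :=
  FreeAlgebra.lift R (fun i => TrivSqZeroExt.inl (FreeAlgebra.ι R i) + TrivSqZeroExt.inr (d i))

/-- The derivation of the free algebra `FreeAlgebra R X` with values `d i` on the letters. -/
def der {X : Type*} (d : X → FreeAlgebra R X) : FreeAlgebra R X →ₗ[R] FreeAlgebra R X where
  toFun a := (derHom R d a).snd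
  map_add' a b := by simp
  map_smul' r a := by simp

section der
variable {R} {X : Type*} (d : X → FreeAlgebra R X)

theorem derHom_fst (a : FreeAlgebra R X) : (derHom R d a).fst = a := by
  have h : (TrivSqZeroExt.fstHom R (FreeAlgebra R X) (FreeAlgebra R X)).comp (derHom R d)
      = AlgHom.id R _ := by
    apply FreeAlgebra.hom_ext
    funext i
    simp [derHom]
  exact DFunLike.congr_fun h a

@[simp] theorem der_ι (i : X) : der R d (FreeAlgebra.ι R i) = d i := by
  simp [der, derHom]

theorem der_mul (a b : FreeAlgebra R X) :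
    der R d (a * b) = der R d a * b + a * der R d b := by
  have : (derHom R d (a * b)).snd =
      (derHom R d a).fst • (derHom R d b).snd
        + MulOpposite.op (derHom R d b).fst • (derHom R d a).snd := by
    rw [map_mul, TrivSqZeroExt.snd_mul]
  change (derHom R d (a * b)).snd = (derHom R d a).snd * b + a * (derHom R d b).snd
  rw [this, derHom_fst, derHom_fst]
  simp [add_comm]

@[simp] theorem der_algebraMap (r : R) : der R d (algebraMap R _ r) = 0 := by
  change (derHom R d (algebraMap R _ r)).snd = 0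
  rw [AlgHom.commutes]
  rfl

@[simp] theorem der_one : der R d 1 = 0 := by
  have := der_algebraMap (R := R) d 1
  simpa using this

end der

/-- The free associative algebra on two letters. -/
abbrev Alg : Type _ := FreeAlgebra R (Fin 2)

/-- The letter `x`. -/
def X : Alg R := FreeAlgebra.ι R 0

/-- The letter `y`. -/
def Y : Alg R := FreeAlgebra.ι R 1

/-- The Ihara derivation `D_a`: `x ↦ 0`, `y ↦ [y, a]`. -/
def dA (a : Alg R) : Alg R →ₗ[R] Alg R :=
  der R (fun i : Fin 2 => if i = 0 then 0 else Y R * a - a * Y R)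

/-- The Ihara bracket on the free associative algebra. -/
def ih (a b : Alg R) : Alg R := dA R a b - dA R b a + (a * b - b * a)

/-- Base change of free algebras along a ring homomorphism. -/
def bc {R S : Type*} [CommRing R] [CommRing S] (f : R →+* S) (X : Type*) :
    FreeAlgebra R X →+* FreeAlgebra S X :=
  let _ : Algebra R S := f.toAlgebra
  let _ : Algebra R (FreeAlgebra S X) := ((algebraMap S (FreeAlgebra S X)).comp f).toAlgebra'
    (fun r x => Algebra.commutes (f r) x)
  (FreeAlgebra.lift R (fun i : X => FreeAlgebra.ι S i) :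
    FreeAlgebra R X →ₐ[R] FreeAlgebra S X).toRingHom

@[simp] theorem bc_ι {R S : Type*} [CommRing R] [CommRing S] (f : R →+* S) (X : Type*) (i : X) :
    bc f X (FreeAlgebra.ι R i) = FreeAlgebra.ι S i := by
  let _ : Algebra R S := f.toAlgebra
  let _ : Algebra R (FreeAlgebra S X) := ((algebraMap S (FreeAlgebra S X)).comp f).toAlgebra'
    (fun r x => Algebra.commutes (f r) x)
  exact FreeAlgebra.lift_ι_apply (R := R) (A := FreeAlgebra S X)
    (fun i : X => FreeAlgebra.ι S i) i

@[simp] theorem bc_algebraMap {R S : Type*} [CommRing R] [CommRing S] (f : R →+* S) (X : Type*)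
    (r : R) : bc f X (algebraMap R _ r) = algebraMap S _ (f r) := by
  let _ : Algebra R S := f.toAlgebra
  let _ : Algebra R (FreeAlgebra S X) := ((algebraMap S (FreeAlgebra S X)).comp f).toAlgebra'
    (fun r x => Algebra.commutes (f r) x)
  exact AlgHom.commutes (FreeAlgebra.lift R (fun i : X => FreeAlgebra.ι S i) :
    FreeAlgebra R X →ₐ[R] FreeAlgebra S X) r

theorem bc_smul {R S : Type*} [CommRing R] [CommRing S] (f : R →+* S) (X : Type*)
    (r : R) (a : FreeAlgebra R X) : bc f X (r • a) = f r • bc f X a := by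
  rw [Algebra.smul_def, map_mul, bc_algebraMap, ← Algebra.smul_def]

/-- Elements of a free algebra homogeneous of weight `N` for the letter weights `w`: the span of
the words of weight `N`. -/
def wtA {X : Type*} (w : X → ℕ) (N : ℕ) : Submodule R (FreeAlgebra R X) :=
  Submodule.span R {a | ∃ l : List X, (l.map w).sum = N ∧ a = (l.map (FreeAlgebra.ι R)).prod}

/-- The Lie subalgebra (over `R`) of the free algebra generated by the letters. -/
def LieX (X : Type*) : LieSubalgebra R (FreeAlgebra R X) :=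
  LieSubalgebra.lieSpan R (FreeAlgebra R X) (Set.range (FreeAlgebra.ι R))

/-! ### The filtration over `ZMod 2` -/

/-- `F₂`. -/
abbrev F2 : Type := ZMod 2

/-- `c = [x, y] = xy + yx`. -/
def cc : Alg F2 := X F2 * Y F2 - Y F2 * X F2

/-- `ad c`. -/
def adc (a : Alg F2) : Alg F2 := cc * a - a * cc

/-- `F = [y, x²]`. -/
def FF : Alg F2 := Y F2 * X F2 ^ 2 - X F2 ^ 2 * Y F2

/-- `Z_k = ad(c)^k [y, x²]`, homogeneous of weight `2k+3`. -/
def Zc (k : ℕ) : Alg F2 := adc^[k] FF

/-- Evaluation of noncommutative polynomials in the letters `e_k` at `e_k ↦ Z_k`. -/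
def evalZ : FreeAlgebra F2 ℕ →ₐ[F2] Alg F2 := FreeAlgebra.lift F2 Zc

/-- The two-sided ideal `(y²)` as a submodule. -/
def J0 : Submodule F2 (Alg F2) :=
  Submodule.span F2 {a | ∃ u v : Alg F2, a = u * Y F2 ^ 2 * v}

/-- `(x²)^n` as a submodule (`⊤` for `n = 0`). -/
def J1 : ℕ → Submodule F2 (Alg F2)
  | 0 => ⊤
  | n + 1 => Submodule.span F2 {a | ∃ u v : Alg F2, v ∈ J1 n ∧ a = u * X F2 ^ 2 * v}

/-- `Fil n = (x²)^n + (y²)`. -/
def Fil (n : ℕ) : Submodule F2 (Alg F2) := J1 n ⊔ J0

/-! ### The pentagon on the fibre (any ring) -/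

section fibre

/-- The fibre algebra `R⟨x₀, x₁, z⟩`. -/
abbrev Alg3 : Type _ := FreeAlgebra R (Fin 3)

/-- `x₀` -/
def x0 : Alg3 R := FreeAlgebra.ι R 0
/-- `x₁` -/
def x1 : Alg3 R := FreeAlgebra.ι R 1
/-- `z` -/
def zz : Alg3 R := FreeAlgebra.ι R 2

/-- The derivation `D₀ = t₀₂ + t₁₂`: `x₀ ↦ 0`, `x₁ ↦ [z, x₁]`, `z ↦ [z, x₀]`. -/
def D0 : Module.End R (Alg3 R) :=
  der R ![0, zz R * x1 R - x1 R * zz R, zz R * x0 R - x0 R * zz R]

/-- The derivation `D₁ = t₂₃`: `x₀ ↦ 0`, `x₁ ↦ [x₁, z]`, `z ↦ [z, x₁]`. -/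
def D1 : Module.End R (Alg3 R) :=
  der R ![0, x1 R * zz R - zz R * x1 R, zz R * x1 R - x1 R * zz R]

/-- Left multiplication on the fibre algebra. -/
def L3 (a : Alg3 R) : Module.End R (Alg3 R) := LinearMap.mulLeft R a

/-- Evaluation `ψ(a, b)` of a noncommutative polynomial in `x, y`. -/
def ev2 {B : Type*} [Ring B] [Algebra R B] (a b : B) : Alg R →ₐ[R] B :=
  FreeAlgebra.lift R ![a, b]

/-- The pentagon equation of `ψ` applied to `1` in the fibre algebra. -/
def FibrePent (ψ : Alg R) : Prop :=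
  ev2 R (L3 R (x0 R) - L3 R (zz R) + D0 R) (L3 R (x1 R) + D1 R) ψ (1 : Alg3 R)
    = ev2 R (x0 R) (x1 R + zz R) ψ - ev2 R (x0 R) (zz R) ψ
      - ev2 R (L3 R (zz R)) (D1 R) ψ (1 : Alg3 R)

end fibre

/-- INTERFACE (U) → (c). The upper bound over `F₂`: a nonzero homogeneous Lie element of weight
`N ≥ 3` satisfying the fibre pentagon has, for some `n ≥ 1`, a nonzero Lie leading part
`P(Z_0, Z_1, …)` of word degree `n` modulo `Fil (n+1)`. -/
def UpperBound : Prop :=
  ∀ (N : ℕ) (ψ : Alg F2), 3 ≤ N → ψ ∈ wtA F2 (fun _ : Fin 2 => 1) N → ψ ∈ LieX F2 (Fin 2) →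
    FibrePent F2 ψ → ψ ≠ 0 →
    ∃ (n : ℕ) (P : FreeAlgebra F2 ℕ), 1 ≤ n ∧ P ∈ LieX F2 ℕ ∧
      P ∈ wtA F2 (fun _ : ℕ => 1) n ∧ P ∈ wtA F2 (fun k : ℕ => 2 * k + 3) N ∧ P ≠ 0 ∧
      ψ - evalZ P ∈ Fil (n + 1)

end Crest.Agent.R010.C

end
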