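import Mathlib
import Crest.Agent.R010.CDefs

/-!
Row 10 (S0011), module (cA): symbol calculus modulo 2 for the filtration `Fil n = (x²)^n + (y²)`.
-/

set_option autoImplicit false

noncomputable section

namespace Crest.Agent.R010.C

attribute [local instance 100] LieRing.ofAssociativeRing

/-! ### Ideals and the filtration -/

theorem J0_mul_left (u : Alg F2) {a : Alg F2} (ha : a ∈ J0) : u * a ∈ J0 := by
  unfold J0 at ha ⊢
  induction ha using Submodule.span_induction with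
  | mem x hx =>
    obtain ⟨p, q, rfl⟩ := hx
    exact Submodule.subset_span ⟨u * p, q, by simp only [mul_assoc]⟩
  | zero => simp
  | add x y _ _ hx hy => rw [mul_add]; exact add_mem hx hy
  | smul r x _ hx => rw [mul_smul_comm]; exact Submodule.smul_mem _ _ hx

theorem J0_mul_right (u : Alg F2) {a : Alg F2} (ha : a ∈ J0) : a * u ∈ J0 := by
  unfold J0 at ha ⊢
  induction ha using Submodule.span_induction with
  | mem x hx =>
    obtain ⟨p, q, rfl⟩ := hx
    exact Submodule.subset_span ⟨p, q * u, by simp only [mul_assoc]⟩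
  | zero => simp
  | add x y _ _ hx hy => rw [add_mul]; exact add_mem hx hy
  | smul r x _ hx => rw [smul_mul_assoc]; exact Submodule.smul_mem _ _ hx

theorem J1_mul_left (n : ℕ) (u : Alg F2) {a : Alg F2} (ha : a ∈ J1 n) : u * a ∈ J1 n := by
  cases n with
  | zero => exact Submodule.mem_top
  | succ n =>
    unfold J1 at ha ⊢
    induction ha using Submodule.span_induction with
    | mem x hx =>
      obtain ⟨p, q, hq, rfl⟩ := hx
      exact Submodule.subset_span ⟨u * p, q, hq, by simp only [mul_assoc]⟩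
    | zero => simp
    | add x y _ _ hx hy => rw [mul_add]; exact add_mem hx hy
    | smul r x _ hx => rw [mul_smul_comm]; exact Submodule.smul_mem _ _ hx

theorem J1_mul_right (n : ℕ) (u : Alg F2) {a : Alg F2} (ha : a ∈ J1 n) : a * u ∈ J1 n := by
  induction n generalizing a with
  | zero => exact Submodule.mem_top
  | succ n ih =>
    unfold J1 at ha ⊢
    induction ha using Submodule.span_induction with
    | mem x hx =>
      obtain ⟨p, q, hq, rfl⟩ := hx
      exact Submodule.subset_span ⟨p, q * u, ih hq, by simp only [mul_assoc]⟩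
    | zero => simp
    | add x y _ _ hx hy => rw [add_mul]; exact add_mem hx hy
    | smul r x _ hx => rw [smul_mul_assoc]; exact Submodule.smul_mem _ _ hx

theorem X2_mul_mem_J1 {n : ℕ} {v : Alg F2} (hv : v ∈ J1 n) (u : Alg F2) :
    u * X F2 ^ 2 * v ∈ J1 (n + 1) := by
  unfold J1
  exact Submodule.subset_span ⟨u, v, hv, rfl⟩

theorem J1_succ_le (n : ℕ) : J1 (n + 1) ≤ J1 n := by
  induction n with
  | zero => exact le_top
  | succ n ih =>
    conv_lhs => unfold J1
    rw [Submodule.span_le]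
    rintro x ⟨u, v, hv, rfl⟩
    exact X2_mul_mem_J1 (ih hv) u

theorem J1_antitone : Antitone J1 := antitone_nat_of_succ_le J1_succ_le

theorem J1_mul_mem {m n : ℕ} {a b : Alg F2} (ha : a ∈ J1 m) (hb : b ∈ J1 n) :
    a * b ∈ J1 (m + n) := by
  induction m generalizing a with
  | zero => rw [zero_add]; exact J1_mul_left n a hb
  | succ m ih =>
    unfold J1 at ha
    induction ha using Submodule.span_induction with
    | mem x hx =>
      obtain ⟨p, q, hq, rfl⟩ := hx
      have := X2_mul_mem_J1 (ih hq) p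
      rw [show m + 1 + n = m + n + 1 by ring, mul_assoc]
      exact this
    | zero => simp
    | add x y _ _ hx hy => rw [add_mul]; exact add_mem hx hy
    | smul r x _ hx => rw [smul_mul_assoc]; exact Submodule.smul_mem _ _ hx

theorem J0_le_Fil (n : ℕ) : J0 ≤ Fil n := le_sup_right
theorem J1_le_Fil (n : ℕ) : J1 n ≤ Fil n := le_sup_left

theorem Fil_zero (a : Alg F2) : a ∈ Fil 0 := J1_le_Fil 0 Submodule.mem_top

theorem Fil_antitone : Antitone Fil := fun _ _ h => sup_le_sup_right (J1_antitone h) J0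

theorem Fil_mul_left (n : ℕ) (u : Alg F2) {a : Alg F2} (ha : a ∈ Fil n) : u * a ∈ Fil n := by
  obtain ⟨p, hp, q, hq, rfl⟩ := Submodule.mem_sup.1 ha
  rw [mul_add]
  exact add_mem (J1_le_Fil n (J1_mul_left n u hp)) (J0_le_Fil n (J0_mul_left u hq))

theorem Fil_mul_right (n : ℕ) (u : Alg F2) {a : Alg F2} (ha : a ∈ Fil n) : a * u ∈ Fil n := by
  obtain ⟨p, hp, q, hq, rfl⟩ := Submodule.mem_sup.1 ha
  rw [add_mul]
  exact add_mem (J1_le_Fil n (J1_mul_right n u hp)) (J0_le_Fil n (J0_mul_right u hq))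

theorem Fil_mul_mem {m n : ℕ} {a b : Alg F2} (ha : a ∈ Fil m) (hb : b ∈ Fil n) :
    a * b ∈ Fil (m + n) := by
  obtain ⟨p, hp, q, hq, rfl⟩ := Submodule.mem_sup.1 ha
  obtain ⟨r, hr, s, hs, rfl⟩ := Submodule.mem_sup.1 hb
  rw [add_mul, mul_add]
  refine add_mem (add_mem (J1_le_Fil _ (J1_mul_mem hp hr)) ?_) ?_
  · exact J0_le_Fil _ (J0_mul_left _ hs)
  · exact J0_le_Fil _ (J0_mul_right _ hq)

theorem X2_mem_Fil : X F2 ^ 2 ∈ Fil 1 := by
  have := X2_mul_mem_J1 (n := 0) (v := 1) Submodule.mem_top 1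
  rw [one_mul, mul_one] at this
  exact J1_le_Fil _ this

theorem Y2_mem_J0 : Y F2 ^ 2 ∈ J0 :=
  Submodule.subset_span ⟨1, 1, by simp⟩

/-! ### Characteristic two and commutators -/

theorem two_eq_zero_alg {X : Type*} : (2 : FreeAlgebra F2 X) = 0 := by
  have h : (algebraMap F2 (FreeAlgebra F2 X)) 2 = 2 := map_ofNat _ 2
  have h2 : (2 : F2) = 0 := by decide
  rw [← h, h2, map_zero]

theorem J0_comm (u : Alg F2) {a : Alg F2} (ha : a ∈ J0) : u * a - a * u ∈ J0 :=
  sub_mem (J0_mul_left u ha) (J0_mul_right u ha)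

theorem Fil_comm (n : ℕ) (u : Alg F2) {a : Alg F2} (ha : a ∈ Fil n) : u * a - a * u ∈ Fil n :=
  sub_mem (Fil_mul_left n u ha) (Fil_mul_right n u ha)

theorem Y_comm_cc : Y F2 * cc - cc * Y F2 ∈ J0 := by
  have h : Y F2 * cc - cc * Y F2 =
      2 * (Y F2 * X F2 * Y F2) - 1 * Y F2 ^ 2 * X F2 - X F2 * Y F2 ^ 2 * 1 := by
    unfold cc
    noncomm_ring
  rw [h, two_eq_zero_alg, zero_mul, zero_sub]
  refine sub_mem (neg_mem ?_) ?_
  · exact Submodule.subset_span ⟨1, X F2, rfl⟩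
  · exact Submodule.subset_span ⟨X F2, 1, rfl⟩

theorem Y_comm_FF : Y F2 * FF - FF * Y F2 ∈ J0 := by
  have h : Y F2 * FF - FF * Y F2 =
      1 * Y F2 ^ 2 * X F2 ^ 2 - 2 * (Y F2 * X F2 ^ 2 * Y F2) + X F2 ^ 2 * Y F2 ^ 2 * 1 := by
    unfold FF
    noncomm_ring
  rw [h, two_eq_zero_alg, zero_mul, sub_zero]
  refine add_mem ?_ ?_
  · exact Submodule.subset_span ⟨1, X F2 ^ 2, rfl⟩
  · exact Submodule.subset_span ⟨X F2 ^ 2, 1, rfl⟩

theorem Zc_succ (k : ℕ) : Zc (k + 1) = cc * Zc k - Zc k * cc := by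
  unfold Zc
  rw [Function.iterate_succ_apply']
  rfl

theorem Zc_zero : Zc 0 = FF := rfl

theorem Y_comm_Zc (k : ℕ) : Y F2 * Zc k - Zc k * Y F2 ∈ J0 := by
  induction k with
  | zero => exact Y_comm_FF
  | succ k ih =>
    have h : Y F2 * Zc (k + 1) - Zc (k + 1) * Y F2 =
        ((Y F2 * cc - cc * Y F2) * Zc k - Zc k * (Y F2 * cc - cc * Y F2))
          + (cc * (Y F2 * Zc k - Zc k * Y F2) - (Y F2 * Zc k - Zc k * Y F2) * cc) := by
      rw [Zc_succ]
      noncomm_ring
    rw [h]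
    refine add_mem ?_ (J0_comm _ ih)
    exact sub_mem (J0_mul_right _ Y_comm_cc) (J0_mul_left _ Y_comm_cc)

theorem FF_mem_Fil : FF ∈ Fil 1 := Fil_comm 1 _ X2_mem_Fil

theorem Zc_mem_Fil (k : ℕ) : Zc k ∈ Fil 1 := by
  induction k with
  | zero => exact FF_mem_Fil
  | succ k ih => rw [Zc_succ]; exact Fil_comm 1 _ ih

/-! ### The Ihara derivation and the filtration -/

@[simp] theorem fdA_X (a : Alg F2) : dA F2 a (X F2) = 0 := by
  unfold dA X
  rw [der_ι]
  simp

@[simp] theorem fdA_Y (a : Alg F2) : dA F2 a (Y F2) = Y F2 * a - a * Y F2 := by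
  conv_lhs => unfold dA; rw [show Y F2 = FreeAlgebra.ι F2 1 from rfl]
  rw [der_ι]
  simp [Y]

theorem fdA_mul (a b c : Alg F2) : dA F2 a (b * c) = dA F2 a b * c + b * dA F2 a c :=
  der_mul _ b c

theorem dA_X2 (a : Alg F2) : dA F2 a (X F2 ^ 2) = 0 := by
  rw [pow_two, fdA_mul]; simp

theorem dA_Y2 (a : Alg F2) : dA F2 a (Y F2 ^ 2) = Y F2 ^ 2 * a - a * Y F2 ^ 2 := by
  rw [pow_two, fdA_mul, fdA_Y]; noncomm_ring

theorem dA_J0 (a : Alg F2) {b : Alg F2} (hb : b ∈ J0) : dA F2 a b ∈ J0 := by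
  unfold J0 at hb
  induction hb using Submodule.span_induction with
  | mem x hx =>
    obtain ⟨p, q, rfl⟩ := hx
    rw [fdA_mul, fdA_mul, dA_Y2]
    refine add_mem (J0_mul_right _ (add_mem ?_ ?_)) ?_
    · exact J0_mul_left _ Y2_mem_J0
    · exact J0_mul_left _ (sub_mem (J0_mul_right _ Y2_mem_J0) (J0_mul_left _ Y2_mem_J0))
    · exact J0_mul_right _ (J0_mul_left _ Y2_mem_J0)
  | zero => simp
  | add x y _ _ hx hy => rw [map_add]; exact add_mem hx hy
  | smul r x _ hx => rw [map_smul]; exact Submodule.smul_mem _ _ hx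

theorem dA_mem_Fil {k : ℕ} {a : Alg F2} (ha : Y F2 * a - a * Y F2 ∈ Fil k) (b : Alg F2) :
    dA F2 a b ∈ Fil k := by
  induction b using FreeAlgebra.induction with
  | grade0 r => unfold dA; rw [der_algebraMap]; exact zero_mem _
  | grade1 i =>
    fin_cases i
    · have := fdA_X a
      unfold X at this
      change dA F2 a (FreeAlgebra.ι F2 0) ∈ Fil k
      rw [this]; exact zero_mem _
    · have := fdA_Y a
      change dA F2 a (Y F2) ∈ Fil k
      rw [this]; exact ha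
  | mul b c hb hc =>
    rw [fdA_mul]
    exact add_mem (Fil_mul_right _ _ hb) (Fil_mul_left _ _ hc)
  | add b c hb hc => rw [map_add]; exact add_mem hb hc

theorem dA_J1 {k : ℕ} {a : Alg F2} (ha : Y F2 * a - a * Y F2 ∈ Fil k) {n : ℕ} {b : Alg F2}
    (hb : b ∈ J1 n) : dA F2 a b ∈ Fil (n + k) := by
  induction n generalizing b with
  | zero => rw [zero_add]; exact dA_mem_Fil ha b
  | succ n ih =>
    unfold J1 at hb
    induction hb using Submodule.span_induction with
    | mem x hx =>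
      obtain ⟨p, q, hq, rfl⟩ := hx
      rw [fdA_mul, fdA_mul, dA_X2, mul_zero, add_zero]
      refine add_mem ?_ ?_
      · have h1 : X F2 ^ 2 * q ∈ Fil (n + 1) := by
          have := X2_mul_mem_J1 hq 1
          rw [one_mul] at this
          exact J1_le_Fil _ this
        have := Fil_mul_mem (dA_mem_Fil ha p) h1
        rw [mul_assoc, show n + 1 + k = k + (n + 1) by ring]
        exact this
      · have := Fil_mul_mem (Fil_mul_left 1 p X2_mem_Fil) (ih hq)
        rw [show n + 1 + k = 1 + (n + k) by ring]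
        exact this
    | zero => simp
    | add x y _ _ hx hy => rw [map_add]; exact add_mem hx hy
    | smul r x _ hx => rw [map_smul]; exact Submodule.smul_mem _ _ hx

/-- `D_a` raises the filtration by `k` when `[y, a] ∈ Fil k`. -/
theorem dA_Fil {k : ℕ} {a : Alg F2} (ha : Y F2 * a - a * Y F2 ∈ Fil k) {n : ℕ} {b : Alg F2}
    (hb : b ∈ Fil n) : dA F2 a b ∈ Fil (n + k) := by
  obtain ⟨p, hp, q, hq, rfl⟩ := Submodule.mem_sup.1 hb
  rw [map_add]
  exact add_mem (dA_J1 ha hp) (J0_le_Fil _ (dA_J0 a hq))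

/-! ### Symbols -/

theorem Y_comm_of_symbol {k : ℕ} {σ : Alg F2} (hσ : σ - Zc k ∈ Fil 2) :
    Y F2 * σ - σ * Y F2 ∈ Fil 2 := by
  have h : Y F2 * σ - σ * Y F2 = (Y F2 * (σ - Zc k) - (σ - Zc k) * Y F2)
      + (Y F2 * Zc k - Zc k * Y F2) := by noncomm_ring
  rw [h]
  exact add_mem (Fil_comm _ _ hσ) (J0_le_Fil _ (Y_comm_Zc k))

/-- Operator form: the operator `s_σ = L_σ + D_σ` is, on symbols, left multiplication by `Z_k`. -/
theorem op_symbol {k : ℕ} {σ : Alg F2} (hσ : σ - Zc k ∈ Fil 2) {m : ℕ} {f : Alg F2}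
    (hf : f ∈ Fil m) : (σ * f + dA F2 σ f) - Zc k * f ∈ Fil (m + 2) := by
  have h : (σ * f + dA F2 σ f) - Zc k * f = (σ - Zc k) * f + dA F2 σ f := by noncomm_ring
  rw [h]
  refine add_mem ?_ (dA_Fil (Y_comm_of_symbol hσ) hf)
  rw [add_comm m 2]
  exact Fil_mul_mem hσ hf

@[simp] theorem evalZ_ι (k : ℕ) : evalZ (FreeAlgebra.ι F2 k) = Zc k := by
  unfold evalZ; exact FreeAlgebra.lift_ι_apply _ _

theorem evalZ_mem_Fil {n : ℕ} {P : FreeAlgebra F2 ℕ} (hP : P ∈ wtA F2 (fun _ : ℕ => 1) n) :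
    evalZ P ∈ Fil n := by
  unfold wtA at hP
  induction hP using Submodule.span_induction with
  | mem x hx =>
    obtain ⟨l, hl, rfl⟩ := hx
    have hl' : l.length = n := by simpa using hl
    clear hl
    induction l generalizing n with
    | nil => exact (by simpa using hl') ▸ Fil_zero _
    | cons k l ih =>
      rw [List.map_cons, List.prod_cons, map_mul, evalZ_ι]
      have hn : n = 1 + l.length := by rw [← hl', List.length_cons]; ring
      rw [hn]
      exact Fil_mul_mem (Zc_mem_Fil k) (ih rfl)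
  | zero => rw [map_zero]; exact zero_mem _
  | add x y _ _ hx hy => rw [map_add]; exact add_mem hx hy
  | smul r x _ hx => rw [map_smul]; exact Submodule.smul_mem _ _ hx

theorem Y_comm_evalZ (P : FreeAlgebra F2 ℕ) : Y F2 * evalZ P - evalZ P * Y F2 ∈ J0 := by
  induction P using FreeAlgebra.induction with
  | grade0 r =>
    rw [AlgHom.commutes, ← Algebra.commutes, sub_self]; exact zero_mem _
  | grade1 k => rw [evalZ_ι]; exact Y_comm_Zc k
  | mul a b ha hb =>
    rw [map_mul]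
    have h : Y F2 * (evalZ a * evalZ b) - evalZ a * evalZ b * Y F2
        = (Y F2 * evalZ a - evalZ a * Y F2) * evalZ b
          + evalZ a * (Y F2 * evalZ b - evalZ b * Y F2) := by noncomm_ring
    rw [h]
    exact add_mem (J0_mul_right _ ha) (J0_mul_left _ hb)
  | add a b ha hb =>
    rw [map_add]
    have h : Y F2 * (evalZ a + evalZ b) - (evalZ a + evalZ b) * Y F2
        = (Y F2 * evalZ a - evalZ a * Y F2) + (Y F2 * evalZ b - evalZ b * Y F2) := by noncomm_ring
    rw [h]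
    exact add_mem ha hb

theorem Y_comm_of_symbol' {n : ℕ} {ψ : Alg F2} {P : FreeAlgebra F2 ℕ}
    (h : ψ - evalZ P ∈ Fil n) : Y F2 * ψ - ψ * Y F2 ∈ Fil n := by
  have e : Y F2 * ψ - ψ * Y F2 = (Y F2 * (ψ - evalZ P) - (ψ - evalZ P) * Y F2)
      + (Y F2 * evalZ P - evalZ P * Y F2) := by noncomm_ring
  rw [e]
  exact add_mem (Fil_comm _ _ h) (J0_le_Fil _ (Y_comm_evalZ P))

theorem mem_Fil_of_symbol {n : ℕ} {ψ : Alg F2} {P : FreeAlgebra F2 ℕ}
    (hP : P ∈ wtA F2 (fun _ : ℕ => 1) n) (h : ψ - evalZ P ∈ Fil (n + 1)) : ψ ∈ Fil n := by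
  have e : ψ = (ψ - evalZ P) + evalZ P := by abel
  rw [e]
  exact add_mem (Fil_antitone (Nat.le_succ n) h) (evalZ_mem_Fil hP)

/-- The symbol of the Ihara bracket is the commutator of the symbols. -/
theorem ih_symbol {m n : ℕ} {ψ φ : Alg F2} {P Q : FreeAlgebra F2 ℕ}
    (hP : P ∈ wtA F2 (fun _ : ℕ => 1) m) (hQ : Q ∈ wtA F2 (fun _ : ℕ => 1) n)
    (hψ : ψ - evalZ P ∈ Fil (m + 1)) (hφ : φ - evalZ Q ∈ Fil (n + 1)) :
    ih F2 ψ φ - evalZ (P * Q - Q * P) ∈ Fil (m + n + 1) := by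
  have hψm := mem_Fil_of_symbol hP hψ
  have hφn := mem_Fil_of_symbol hQ hφ
  have e : ih F2 ψ φ - evalZ (P * Q - Q * P) =
      (dA F2 ψ φ - dA F2 φ ψ)
      + ((ψ - evalZ P) * φ + evalZ P * (φ - evalZ Q)
        - ((φ - evalZ Q) * ψ + evalZ Q * (ψ - evalZ P))) := by
    unfold ih
    rw [map_sub, map_mul, map_mul]
    noncomm_ring
  rw [e]
  have d1 : dA F2 ψ φ ∈ Fil (m + n + 1) := by
    rw [show m + n + 1 = n + (m + 1) by ring]
    exact dA_Fil (Y_comm_of_symbol' hψ) hφn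
  have d2 : dA F2 φ ψ ∈ Fil (m + n + 1) := by
    rw [show m + n + 1 = m + (n + 1) by ring]
    exact dA_Fil (Y_comm_of_symbol' hφ) hψm
  refine add_mem (sub_mem d1 d2) (sub_mem (add_mem ?_ ?_) (add_mem ?_ ?_))
  · rw [show m + n + 1 = (m + 1) + n by ring]; exact Fil_mul_mem hψ hφn
  · rw [show m + n + 1 = m + (n + 1) by ring]; exact Fil_mul_mem (evalZ_mem_Fil hP) hφ
  · rw [show m + n + 1 = (n + 1) + m by ring]; exact Fil_mul_mem hφ hψm
  · rw [show m + n + 1 = n + (m + 1) by ring]; exact Fil_mul_mem (evalZ_mem_Fil hQ) hψ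

end Crest.Agent.R010.C

end
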