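import Mathlib
import Crest.Agent.R010.CDefs
import Crest.Agent.R010.CSym

/-!
Row 10 (S0011), module (cA), part 2: injectivity of symbols.  If `q` has word degree `n` and
`evalZ q ∈ Fil (n+1)` then `q = 0`.

`F₂⟨x,y⟩/(y²)` is free of rank four (basis `1, x, y, w`) as a left module over the free algebra
`S = F₂⟨c,E,F⟩`; we only use the resulting matrix representation.
-/

set_option autoImplicit false

noncomputable section

namespace Crest.Agent.R010.C

attribute [local instance 100] LieRing.ofAssociativeRing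

/-- The free algebra on `c, E, F`. -/
abbrev S3 : Type := FreeAlgebra F2 (Fin 3)

def sc : S3 := FreeAlgebra.ι F2 0
def sE : S3 := FreeAlgebra.ι F2 1
def sF : S3 := FreeAlgebra.ι F2 2

/-- Right multiplication by `x` on the row vectors in the basis `1, x, y, w`. -/
def Mx : Matrix (Fin 4) (Fin 4) S3 :=
  !![0, 1, 0, 0;
     sE, 0, 0, 0;
     sc, 0, 0, 1;
     sF, sc, sE, 0]

/-- Right multiplication by `y`. -/
def My : Matrix (Fin 4) (Fin 4) S3 :=
  !![0, 0, 1, 0;
     0, 0, 0, 1;
     0, 0, 0, 0;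
     0, 0, 0, 0]

/-- The representation `Alg F2 → M₄(S)`. -/
def rho : Alg F2 →ₐ[F2] Matrix (Fin 4) (Fin 4) S3 := FreeAlgebra.lift F2 ![Mx, My]

@[simp] theorem rho_X : rho (X F2) = Mx := by
  unfold rho X; rw [FreeAlgebra.lift_ι_apply]; rfl

@[simp] theorem rho_Y : rho (Y F2) = My := by
  unfold rho Y; rw [FreeAlgebra.lift_ι_apply]; rfl

theorem My_sq : My ^ 2 = 0 := by
  rw [pow_two]
  ext i j
  fin_cases i <;> fin_cases j <;> simp [My, Matrix.mul_apply, Fin.sum_univ_four]

theorem Mx_sq : Mx ^ 2 =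
    !![sE, 0, 0, 0;
       0, sE, 0, 0;
       sF, 0, sE, 0;
       sc * sE + sE * sc, sF, 0, sE] := by
  have h2 : sc + sc = 0 := by
    rw [← two_mul, two_eq_zero_alg, zero_mul]
  rw [pow_two]
  ext i j
  fin_cases i <;> fin_cases j <;>
    simp [Mx, Matrix.mul_apply, Fin.sum_univ_four, h2]

/-- The first row of the matrix of `f`: the coordinates of `1 · f`. -/
def row (f : Alg F2) : Fin 4 → S3 := fun j => rho f 0 j

theorem row_mul {s : S3} {a : Alg F2} (ha : row a = ![s, 0, 0, 0]) (f : Alg F2) :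
    row (a * f) = fun j => s * row f j := by
  funext j
  have h0 : rho a 0 0 = s := congrFun ha 0
  have h1 : rho a 0 1 = 0 := congrFun ha 1
  have h2 : rho a 0 2 = 0 := congrFun ha 2
  have h3 : rho a 0 3 = 0 := congrFun ha 3
  simp only [row, map_mul, Matrix.mul_apply, Fin.sum_univ_four, h0, h1, h2, h3, zero_mul,
    add_zero]

theorem row_mul' {s t : S3} {a b : Alg F2} (ha : row a = ![s, 0, 0, 0])
    (hb : row b = ![t, 0, 0, 0]) : row (a * b) = ![s * t, 0, 0, 0] := by
  rw [row_mul ha, hb]
  funext j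
  fin_cases j <;> simp

theorem row_sub (a b : Alg F2) : row (a - b) = row a - row b := by
  funext j; simp [row]

theorem row_cc : row cc = ![sc, 0, 0, 0] := by
  funext j
  have hh : (1 : S3) - 1 = 0 := sub_self _
  have hn : ∀ a : S3, -a = a := fun a => by
    rw [neg_eq_iff_add_eq_zero, ← two_mul, two_eq_zero_alg, zero_mul]
  unfold row cc
  rw [map_sub, map_mul, map_mul, rho_X, rho_Y]
  fin_cases j <;>
    simp [Mx, My, Matrix.mul_apply, Fin.sum_univ_four, hn]

theorem row_FF : row FF = ![sF, 0, 0, 0] := by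
  funext j
  have hn : ∀ a : S3, -a = a := fun a => by
    rw [neg_eq_iff_add_eq_zero, ← two_mul, two_eq_zero_alg, zero_mul]
  unfold row FF
  rw [map_sub, map_mul, map_mul, map_pow, rho_X, rho_Y, Mx_sq]
  fin_cases j <;>
    simp [My, Matrix.mul_apply, Fin.sum_univ_four]

/-- `ad(c)^k F` in `S`. -/
def sZ : ℕ → S3
  | 0 => sF
  | k + 1 => sc * sZ k - sZ k * sc

theorem row_Zc (k : ℕ) : row (Zc k) = ![sZ k, 0, 0, 0] := by
  induction k with
  | zero => exact row_FF
  | succ k ih =>
    rw [Zc_succ, row_sub, row_mul' row_cc ih, row_mul' ih row_cc]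
    funext j
    fin_cases j <;> simp [sZ]

/-- Evaluation at `ad(c)^k F` in `S`. -/
def evalS : FreeAlgebra F2 ℕ →ₐ[F2] S3 := FreeAlgebra.lift F2 sZ

@[simp] theorem evalS_ι (k : ℕ) : evalS (FreeAlgebra.ι F2 k) = sZ k := by
  unfold evalS; exact FreeAlgebra.lift_ι_apply _ _

theorem row_one : row 1 = ![1, 0, 0, 0] := by
  funext j
  unfold row
  rw [map_one]
  fin_cases j <;> simp [Matrix.one_apply]

theorem row_evalZ (q : FreeAlgebra F2 ℕ) : row (evalZ q) = ![evalS q, 0, 0, 0] := by
  induction q using FreeAlgebra.induction with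
  | grade0 r =>
    rw [AlgHom.commutes, AlgHom.commutes]
    funext j
    unfold row
    rw [AlgHom.commutes, Matrix.algebraMap_eq_diagonal]
    fin_cases j <;> simp
  | grade1 k => rw [evalZ_ι, evalS_ι]; exact row_Zc k
  | mul a b ha hb => rw [map_mul, map_mul]; exact row_mul' ha hb
  | add a b ha hb =>
    rw [map_add, map_add]
    have : row (evalZ a + evalZ b) = row (evalZ a) + row (evalZ b) := by
      funext j; simp [row]
    rw [this, ha, hb]
    funext j
    fin_cases j <;> simp

/-! ### The degree filtration on `S` -/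

open Polynomial in
/-- The grading of `S` by the number of letters `E, F`, encoded by a homomorphism to `S[t]`. -/
def gS : S3 →ₐ[F2] S3[X] :=
  FreeAlgebra.lift F2 ![C sc, C sE * Polynomial.X, C sF * Polynomial.X]

open Polynomial in
/-- Elements of level at least `n`. -/
def FS (n : ℕ) : Submodule F2 S3 where
  carrier := {s | ∀ m < n, (gS s).coeff m = 0}
  zero_mem' := by intro m _; simp
  add_mem' := by
    intro a b ha hb m hm
    rw [map_add, coeff_add, ha m hm, hb m hm, add_zero]
  smul_mem' := by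
    intro r a ha m hm
    rw [map_smul, coeff_smul, ha m hm, smul_zero]

theorem FS_mul {m n : ℕ} {a b : S3} (ha : a ∈ FS m) (hb : b ∈ FS n) : a * b ∈ FS (m + n) := by
  intro k hk
  rw [map_mul, Polynomial.coeff_mul]
  apply Finset.sum_eq_zero
  rintro ⟨i, j⟩ hij
  have hij' : i + j = k := by simpa using hij
  by_cases hi : i < m
  · rw [ha i hi, zero_mul]
  · have hj : j < n := by omega
    rw [hb j hj, mul_zero]

theorem FS_zero (a : S3) : a ∈ FS 0 := fun m hm => absurd hm (Nat.not_lt_zero m)

theorem sE_mem : sE ∈ FS 1 := by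
  intro m hm
  have : m = 0 := by omega
  subst this
  have h : gS sE = Polynomial.C sE * Polynomial.X := by
    unfold gS; conv_lhs => rw [show sE = FreeAlgebra.ι F2 1 from rfl]
    rw [FreeAlgebra.lift_ι_apply]; rfl
  rw [h]; simp

theorem sF_mem : sF ∈ FS 1 := by
  intro m hm
  have : m = 0 := by omega
  subst this
  have h : gS sF = Polynomial.C sF * Polynomial.X := by
    unfold gS; conv_lhs => rw [show sF = FreeAlgebra.ι F2 2 from rfl]
    rw [FreeAlgebra.lift_ι_apply]; rfl
  rw [h]; simp

theorem FS_mul_left {n : ℕ} (u : S3) {a : S3} (ha : a ∈ FS n) : u * a ∈ FS n := by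
  have := FS_mul (FS_zero u) ha
  rwa [zero_add] at this

theorem FS_mul_right {n : ℕ} (u : S3) {a : S3} (ha : a ∈ FS n) : a * u ∈ FS n := by
  have := FS_mul ha (FS_zero u)
  rwa [add_zero] at this

/-- Matrices with entries of level at least `n`. -/
def FM (n : ℕ) : Submodule F2 (Matrix (Fin 4) (Fin 4) S3) where
  carrier := {M | ∀ i j, M i j ∈ FS n}
  zero_mem' := fun i j => zero_mem _
  add_mem' := fun ha hb i j => add_mem (ha i j) (hb i j)
  smul_mem' := fun r _ ha i j => Submodule.smul_mem _ r (ha i j)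

theorem FM_mul {m n : ℕ} {A B : Matrix (Fin 4) (Fin 4) S3} (hA : A ∈ FM m) (hB : B ∈ FM n) :
    A * B ∈ FM (m + n) := by
  intro i j
  rw [Matrix.mul_apply]
  exact sum_mem (fun k _ => FS_mul (hA i k) (hB k j))

theorem FM_zero (A : Matrix (Fin 4) (Fin 4) S3) : A ∈ FM 0 := fun _ _ => FS_zero _

theorem Mx2_mem : Mx ^ 2 ∈ FM 1 := by
  rw [Mx_sq]
  intro i j
  have h1 := sE_mem
  have h2 := sF_mem
  have h3 : sc * sE + sE * sc ∈ FS 1 :=
    add_mem (FS_mul_left _ sE_mem) (FS_mul_right _ sE_mem)
  fin_cases i <;> fin_cases j <;> first | exact h1 | exact h2 | exact h3 | exact zero_mem _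

theorem rho_J0 {a : Alg F2} (ha : a ∈ J0) : rho a = 0 := by
  unfold J0 at ha
  induction ha using Submodule.span_induction with
  | mem x hx =>
    obtain ⟨p, q, rfl⟩ := hx
    rw [map_mul, map_mul, map_pow, rho_Y, My_sq, mul_zero, zero_mul]
  | zero => simp
  | add x y _ _ hx hy => rw [map_add, hx, hy, add_zero]
  | smul r x _ hx => rw [map_smul, hx, smul_zero]

theorem rho_J1 {n : ℕ} {a : Alg F2} (ha : a ∈ J1 n) : rho a ∈ FM n := by
  induction n generalizing a with
  | zero => exact FM_zero _
  | succ n ih =>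
    unfold J1 at ha
    induction ha using Submodule.span_induction with
    | mem x hx =>
      obtain ⟨p, q, hq, rfl⟩ := hx
      rw [map_mul, map_mul, map_pow, rho_X]
      have h1 : rho p * Mx ^ 2 ∈ FM 1 := by
        have := FM_mul (FM_zero (rho p)) Mx2_mem
        rwa [zero_add] at this
      have := FM_mul h1 (ih hq)
      rwa [add_comm 1 n] at this
    | zero => rw [map_zero]; exact zero_mem _
    | add x y _ _ hx hy => rw [map_add]; exact add_mem hx hy
    | smul r x _ hx => rw [map_smul]; exact Submodule.smul_mem _ _ hx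

theorem rho_Fil {n : ℕ} {a : Alg F2} (ha : a ∈ Fil n) : rho a ∈ FM n := by
  obtain ⟨p, hp, q, hq, rfl⟩ := Submodule.mem_sup.1 ha
  rw [map_add, rho_J0 hq, add_zero]
  exact rho_J1 hp

/-! ### Homogeneity of `evalS` -/

open Polynomial in
theorem gS_sZ (k : ℕ) : gS (sZ k) = C (sZ k) * Polynomial.X := by
  induction k with
  | zero =>
    unfold gS sZ
    conv_lhs => rw [show sF = FreeAlgebra.ι F2 2 from rfl]
    rw [FreeAlgebra.lift_ι_apply]; rfl
  | succ k ih =>
    have hc : gS sc = C sc := by
      unfold gS; conv_lhs => rw [show sc = FreeAlgebra.ι F2 0 from rfl]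
      rw [FreeAlgebra.lift_ι_apply]; rfl
    have hs : sZ (k + 1) = sc * sZ k - sZ k * sc := rfl
    rw [hs, map_sub, map_mul, map_mul, ih, hc, C_sub, C_mul, C_mul, sub_mul]
    congr 1
    · rw [mul_assoc]
    · rw [mul_assoc, X_mul_C, mul_assoc]

open Polynomial in
theorem gS_evalS {n : ℕ} {P : FreeAlgebra F2 ℕ} (hP : P ∈ wtA F2 (fun _ : ℕ => 1) n) :
    gS (evalS P) = C (evalS P) * Polynomial.X ^ n := by
  unfold wtA at hP
  induction hP using Submodule.span_induction with
  | mem x hx =>
    obtain ⟨l, hl, rfl⟩ := hx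
    have hl' : l.length = n := by simpa using hl
    clear hl
    induction l generalizing n with
    | nil =>
      have : n = 0 := by simpa using hl'.symm
      subst this
      simp
    | cons k l ih =>
      have hn : n = l.length + 1 := by rw [← hl', List.length_cons]
      rw [List.map_cons, List.prod_cons, map_mul, map_mul, ih rfl, evalS_ι, gS_sZ, C_mul, hn]
      rw [mul_assoc, mul_assoc, ← mul_assoc Polynomial.X, X_mul_C, mul_assoc, pow_succ']
  | zero => simp
  | add x y _ _ hx hy => rw [map_add, map_add, hx, hy, C_add, add_mul]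
  | smul r x _ hx =>
    rw [map_smul, map_smul, hx, ← smul_mul_assoc]
    congr 1
    exact (Polynomial.smul_C r _)

/-! ### The retraction -/

/-- The shift derivation `e_k ↦ e_{k+1}`. -/
def shiftD : Module.End F2 (FreeAlgebra F2 ℕ) := der F2 (fun k => FreeAlgebra.ι F2 (k + 1))

/-- The action of `S` on `F₂⟨e₀, e₁, …⟩`. -/
def theta : S3 →ₐ[F2] Module.End F2 (FreeAlgebra F2 ℕ) :=
  FreeAlgebra.lift F2 ![shiftD, 0, LinearMap.mulLeft F2 (FreeAlgebra.ι F2 0)]

theorem theta_sZ (k : ℕ) : theta (sZ k) = LinearMap.mulLeft F2 (FreeAlgebra.ι F2 k) := by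
  induction k with
  | zero =>
    unfold theta sZ
    conv_lhs => rw [show sF = FreeAlgebra.ι F2 2 from rfl]
    rw [FreeAlgebra.lift_ι_apply]; rfl
  | succ k ih =>
    have hc : theta sc = shiftD := by
      unfold theta; conv_lhs => rw [show sc = FreeAlgebra.ι F2 0 from rfl]
      rw [FreeAlgebra.lift_ι_apply]; rfl
    have hs : sZ (k + 1) = sc * sZ k - sZ k * sc := rfl
    rw [hs, map_sub, map_mul, map_mul, ih, hc]
    ext a
    simp only [LinearMap.sub_apply, Module.End.mul_apply, LinearMap.mulLeft_apply]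
    unfold shiftD
    rw [der_mul, der_ι]
    abel

theorem theta_evalS (q : FreeAlgebra F2 ℕ) : theta (evalS q) = LinearMap.mulLeft F2 q := by
  have h : theta.comp evalS = Algebra.lmul F2 (FreeAlgebra F2 ℕ) := by
    apply FreeAlgebra.hom_ext
    funext k
    simp only [Function.comp_apply, AlgHom.comp_apply, evalS_ι]
    exact theta_sZ k
  exact DFunLike.congr_fun h q

theorem evalS_injective : Function.Injective evalS := by
  intro a b h
  have ha := theta_evalS a
  rw [h, theta_evalS b] at ha
  have := DFunLike.congr_fun ha (1 : FreeAlgebra F2 ℕ)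
  simpa using this.symm

/-- INJ: symbols of word degree `n` are detected modulo `Fil (n+1)`. -/
theorem evalZ_inj {n : ℕ} {q : FreeAlgebra F2 ℕ} (hq : q ∈ wtA F2 (fun _ : ℕ => 1) n)
    (h : evalZ q ∈ Fil (n + 1)) : q = 0 := by
  have h1 : row (evalZ q) 0 ∈ FS (n + 1) := rho_Fil h 0 0
  rw [row_evalZ] at h1
  have h2 := h1 n (Nat.lt_succ_self n)
  change (gS (evalS q)).coeff n = 0 at h2
  rw [gS_evalS hq, Polynomial.coeff_C_mul, Polynomial.coeff_X_pow_self, mul_one] at h2
  exact evalS_injective (by rw [h2, map_zero])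

end Crest.Agent.R010.C

end
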