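import Mathlib

/-! Row 10, module (W) (helper630): Witt's theorem for free Lie algebras over any commutative ring,
by Lazard elimination.  Main results: `witt_div`, `witt_injective`. -/

set_option autoImplicit false

namespace Crest.Agent.R010.Witt

universe u v

attribute [local instance 100] LieRing.ofAssociativeRing

section basics

variable (R : Type v) [CommRing R] {X : Type u}

/-- bracket monomials with weights -/
inductive BM (w : X → ℕ) : ℕ → FreeLieAlgebra R X → Prop
  | of (i : X) : BM w (w i) (FreeLieAlgebra.of R i)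
  | lie {m n : ℕ} {a b : FreeLieAlgebra R X} : BM w m a → BM w n b → BM w (m + n) ⁅a, b⁆

/-- weight spaces -/
noncomputable def WS (w : X → ℕ) (n : ℕ) : Submodule R (FreeLieAlgebra R X) :=
  Submodule.span R {a | BM R w n a}

variable {R}

theorem BM.mem_WS {w : X → ℕ} {n : ℕ} {a : FreeLieAlgebra R X} (h : BM R w n a) : a ∈ WS R w n :=
  Submodule.subset_span h

theorem WS_induction {w : X → ℕ} {n : ℕ} {p : FreeLieAlgebra R X → Prop}
    (hm : ∀ a, BM R w n a → p a) (h0 : p 0) (ha : ∀ a b, p a → p b → p (a + b))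
    (hs : ∀ (r : R) a, p a → p (r • a)) {a : FreeLieAlgebra R X} (h : a ∈ WS R w n) : p a := by
  induction h using Submodule.span_induction with
  | mem x hx => exact hm x hx
  | zero => exact h0
  | add x y _ _ hx hy => exact ha x y hx hy
  | smul r x _ hx => exact hs r x hx

theorem lie_mem_WS {w : X → ℕ} {m n : ℕ} {a b : FreeLieAlgebra R X} (ha : a ∈ WS R w m)
    (hb : b ∈ WS R w n) : ⁅a, b⁆ ∈ WS R w (m + n) := by
  refine WS_induction (p := fun a => ⁅a, b⁆ ∈ WS R w (m + n)) ?_ ?_ ?_ ?_ ha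
  · intro a ha
    refine WS_induction (p := fun b => ⁅a, b⁆ ∈ WS R w (m + n)) ?_ ?_ ?_ ?_ hb
    · intro b hb
      exact (BM.lie ha hb).mem_WS
    · simp
    · intro x y hx hy
      rw [lie_add]; exact Submodule.add_mem _ hx hy
    · intro r x hx
      rw [lie_smul]; exact Submodule.smul_mem _ _ hx
  · simp
  · intro x y hx hy
    rw [add_lie]; exact Submodule.add_mem _ hx hy
  · intro r x hx
    rw [smul_lie]; exact Submodule.smul_mem _ _ hx

theorem BM.le {w : X → ℕ} {d : ℕ} (hd : ∀ x, d ≤ w x) {n : ℕ} {a : FreeLieAlgebra R X}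
    (h : BM R w n a) : d ≤ n := by
  induction h with
  | of i => exact hd i
  | lie _ _ ih1 ih2 => omega

theorem WS_eq_bot {w : X → ℕ} {d n : ℕ} (hd : ∀ x, d ≤ w x) (hn : n < d) : WS R w n = ⊥ := by
  rw [WS, Submodule.span_eq_bot]
  intro a ha
  have := BM.le hd ha
  omega

variable (R X)

/-- the map to the free associative algebra -/
noncomputable def asso : FreeLieAlgebra R X →ₗ⁅R⁆ FreeAlgebra R X :=
  FreeLieAlgebra.lift R (FreeAlgebra.ι R)

variable {R X}

@[simp] theorem asso_of (x : X) : asso R X (FreeLieAlgebra.of R x) = FreeAlgebra.ι R x := by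
  rw [asso, FreeLieAlgebra.lift_of_apply]

end basics

section elim

variable {R : Type v} [CommRing R] {X : Type u} (a : X)

/-- eliminated alphabet -/
abbrev Y : Type u := {x : X // x ≠ a} × ℕ

variable (R)

/-- `(x,k) ↦ ad(a)^k x` -/
noncomputable def gen (y : Y a) : FreeLieAlgebra R X :=
  (fun m => ⁅FreeLieAlgebra.of R a, m⁆)^[y.2] (FreeLieAlgebra.of R y.1.1)

noncomputable def jmap : FreeLieAlgebra R (Y a) →ₗ⁅R⁆ FreeLieAlgebra R X :=
  FreeLieAlgebra.lift R (gen R a)

variable {R}

theorem jmap_of (y : Y a) : jmap R a (FreeLieAlgebra.of R y) = gen R a y := by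
  rw [jmap, FreeLieAlgebra.lift_of_apply]

theorem gen_zero (x : {x : X // x ≠ a}) : gen R a (x, 0) = FreeLieAlgebra.of R x.1 := rfl

theorem gen_succ (x : {x : X // x ≠ a}) (k : ℕ) :
    gen R a (x, k + 1) = ⁅FreeLieAlgebra.of R a, gen R a (x, k)⁆ := by
  rw [gen, gen, Function.iterate_succ_apply']

/-- new weights -/
def wY (w : X → ℕ) (y : Y a) : ℕ := w y.1.1 + y.2 * w a

theorem gen_mem (w : X → ℕ) (y : Y a) : gen R a y ∈ WS R w (wY a w y) := by
  obtain ⟨x, k⟩ := y
  induction k with
  | zero =>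
    rw [gen_zero, wY]
    simpa using (BM.of (R := R) (w := w) x.1).mem_WS
  | succ k ih =>
    rw [gen_succ]
    have := lie_mem_WS (BM.of (R := R) (w := w) a).mem_WS ih
    have e : w a + wY a w (x, k) = wY a w (x, k + 1) := by
      simp only [wY]; ring
    rwa [e] at this

theorem jmap_mem (w : X → ℕ) {n : ℕ} {m : FreeLieAlgebra R (Y a)} (h : m ∈ WS R (wY a w) n) :
    jmap R a m ∈ WS R w n := by
  refine WS_induction (p := fun m => jmap R a m ∈ WS R w n) ?_ ?_ ?_ ?_ h
  · clear h m
    intro m hm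
    induction hm with
    | of y => rw [jmap_of]; exact gen_mem a w y
    | lie _ _ h1 h2 => rw [LieHom.map_lie]; exact lie_mem_WS h1 h2
  · simp
  · intro x y hx hy
    rw [map_add]; exact Submodule.add_mem _ hx hy
  · intro r x hx
    rw [map_smul]; exact Submodule.smul_mem _ _ hx

theorem lie_a_jmap (w : X → ℕ) {n : ℕ} {m : FreeLieAlgebra R (Y a)} (h : m ∈ WS R (wY a w) n) :
    ∃ m' ∈ WS R (wY a w) (w a + n), jmap R a m' = ⁅FreeLieAlgebra.of R a, jmap R a m⁆ := by
  refine WS_induction (p := fun m => ∃ m' ∈ WS R (wY a w) (w a + n),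
    jmap R a m' = ⁅FreeLieAlgebra.of R a, jmap R a m⁆) ?_ ?_ ?_ ?_ h
  · clear h m
    intro m hm
    induction hm with
    | of y =>
      obtain ⟨x, k⟩ := y
      refine ⟨FreeLieAlgebra.of R (x, k + 1), ?_, ?_⟩
      · have e : w a + wY a w (x, k) = wY a w (x, k + 1) := by
          simp only [wY]; ring
        rw [e]
        exact (BM.of (R := R) (w := wY a w) (x, k + 1)).mem_WS
      · rw [jmap_of, jmap_of, gen_succ]
    | @lie p q u v hu hv h1 h2 =>
      obtain ⟨u', hu', eu⟩ := h1
      obtain ⟨v', hv', ev⟩ := h2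
      refine ⟨⁅u', v⁆ + ⁅u, v'⁆, ?_, ?_⟩
      · refine Submodule.add_mem _ ?_ ?_
        · have := lie_mem_WS hu' hv.mem_WS
          rwa [add_assoc] at this
        · have := lie_mem_WS hu.mem_WS hv'
          have e : p + (w a + q) = w a + (p + q) := by ring
          rwa [e] at this
      · rw [map_add, LieHom.map_lie, LieHom.map_lie, LieHom.map_lie, eu, ev,
          leibniz_lie (FreeLieAlgebra.of R a) (jmap R a u) (jmap R a v)]
  · exact ⟨0, Submodule.zero_mem _, by simp⟩
  · rintro x y ⟨x', hx', ex⟩ ⟨y', hy', ey⟩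
    exact ⟨x' + y', Submodule.add_mem _ hx' hy', by rw [map_add, ex, ey, map_add, lie_add]⟩
  · rintro r x ⟨x', hx', ex⟩
    exact ⟨r • x', Submodule.smul_mem _ _ hx', by rw [map_smul, ex, map_smul, lie_smul]⟩

/-- the set of elements `r a + j m` -/
def Good (w : X → ℕ) (n : ℕ) (l : FreeLieAlgebra R X) : Prop :=
  ∃ (r : R) (m : FreeLieAlgebra R (Y a)), m ∈ WS R (wY a w) n ∧ (n ≠ w a → r = 0) ∧
    l = r • FreeLieAlgebra.of R a + jmap R a m

theorem Good.zero (w : X → ℕ) (n : ℕ) : Good (R := R) a w n 0 :=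
  ⟨0, 0, Submodule.zero_mem _, fun _ => rfl, by simp⟩

theorem Good.add {w : X → ℕ} {n : ℕ} {l l' : FreeLieAlgebra R X} (h : Good a w n l)
    (h' : Good a w n l') : Good a w n (l + l') := by
  obtain ⟨r, m, hm, hr, rfl⟩ := h
  obtain ⟨r', m', hm', hr', rfl⟩ := h'
  refine ⟨r + r', m + m', Submodule.add_mem _ hm hm', fun h => by rw [hr h, hr' h, add_zero], ?_⟩
  rw [map_add, add_smul]; abel

theorem Good.smul {w : X → ℕ} {n : ℕ} {l : FreeLieAlgebra R X} (c : R) (h : Good a w n l) :
    Good a w n (c • l) := by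
  obtain ⟨r, m, hm, hr, rfl⟩ := h
  refine ⟨c * r, c • m, Submodule.smul_mem _ _ hm, fun h => by rw [hr h, mul_zero], ?_⟩
  rw [map_smul, smul_add, mul_smul]

theorem Good.of_j {w : X → ℕ} {n : ℕ} {m : FreeLieAlgebra R (Y a)} (h : m ∈ WS R (wY a w) n) :
    Good a w n (jmap R a m) :=
  ⟨0, m, h, fun _ => rfl, by simp⟩

theorem Good.neg {w : X → ℕ} {n : ℕ} {l : FreeLieAlgebra R X} (h : Good a w n l) :
    Good a w n (-l) := by
  have := h.smul a (-1)
  simpa using this

theorem Good.lie {w : X → ℕ} {p q : ℕ} {l l' : FreeLieAlgebra R X} (h : Good a w p l)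
    (h' : Good a w q l') : Good a w (p + q) ⁅l, l'⁆ := by
  obtain ⟨r, m, hm, hr, rfl⟩ := h
  obtain ⟨r', m', hm', hr', rfl⟩ := h'
  rw [add_lie, lie_add, lie_add, smul_lie, smul_lie, lie_smul, lie_self, smul_zero, smul_zero,
    zero_add, ← LieHom.map_lie]
  refine Good.add a (l := r • ⁅FreeLieAlgebra.of R a, jmap R a m'⁆) ?_ (Good.add a ?_ ?_)
  · by_cases hp : p = w a
    · obtain ⟨m2, h2, e2⟩ := lie_a_jmap a w hm'
      rw [← e2, hp]
      exact (Good.of_j a h2).smul a r
    · rw [hr hp, zero_smul]; exact Good.zero a w _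
  · rw [lie_smul]
    by_cases hq : q = w a
    · obtain ⟨m2, h2, e2⟩ := lie_a_jmap a w hm
      rw [← lie_skew, ← e2, hq, add_comm p]
      exact ((Good.of_j a h2).neg a).smul a r'
    · rw [hr' hq, zero_smul]; exact Good.zero a w _
  · exact Good.of_j a (lie_mem_WS hm hm')

theorem good_of_mem {w : X → ℕ} {n : ℕ} {l : FreeLieAlgebra R X} (h : l ∈ WS R w n) :
    Good a w n l := by
  refine WS_induction (p := fun l => Good a w n l) ?_ (Good.zero a w n) (fun _ _ => Good.add a)
    (fun c _ => Good.smul a c) h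
  clear h l
  intro l hl
  induction hl with
  | of x =>
    by_cases hx : x = a
    · subst hx
      exact ⟨1, 0, Submodule.zero_mem _, fun h => absurd rfl h, by simp⟩
    · have := Good.of_j (R := R) a (w := w) (BM.of (R := R) (w := wY a w) (⟨x, hx⟩, 0)).mem_WS
      rw [jmap_of, gen_zero] at this
      simpa [wY] using this
  | lie _ _ h1 h2 => exact h1.lie a h2

/-! associative side -/

variable (R)

/-- the derivation as a matrix representation -/
noncomputable def matHom : FreeAlgebra R (Y a) →ₐ[R] Matrix (Fin 2) (Fin 2) (FreeAlgebra R (Y a)) :=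
  FreeAlgebra.lift R fun y => !![FreeAlgebra.ι R y, FreeAlgebra.ι R (y.1, y.2 + 1);
    0, FreeAlgebra.ι R y]

variable {R}

theorem matHom_spec (P : FreeAlgebra R (Y a)) :
    matHom R a P 0 0 = P ∧ matHom R a P 1 0 = 0 ∧ matHom R a P 1 1 = P := by
  induction P using FreeAlgebra.induction with
  | grade0 r => simp [Matrix.algebraMap_matrix_apply]
  | grade1 y => simp [matHom]
  | mul P Q hP hQ =>
    rw [map_mul]
    simp only [Matrix.mul_apply, Fin.sum_univ_two]
    rw [hP.1, hP.2.1, hP.2.2, hQ.1, hQ.2.1, hQ.2.2]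
    simp
  | add P Q hP hQ =>
    rw [map_add]
    simp only [Matrix.add_apply]
    rw [hP.1, hP.2.1, hP.2.2, hQ.1, hQ.2.1, hQ.2.2]
    simp

variable (R)

noncomputable def Dmap : FreeAlgebra R (Y a) →ₗ[R] FreeAlgebra R (Y a) where
  toFun P := matHom R a P 0 1
  map_add' P Q := by simp
  map_smul' r P := by simp

variable {R}

theorem Dmap_mul (P Q : FreeAlgebra R (Y a)) :
    Dmap R a (P * Q) = P * Dmap R a Q + Dmap R a P * Q := by
  show matHom R a (P * Q) 0 1 = P * matHom R a Q 0 1 + matHom R a P 0 1 * Q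
  rw [map_mul, Matrix.mul_apply, Fin.sum_univ_two, (matHom_spec a P).1, (matHom_spec a Q).2.2]

theorem Dmap_one : Dmap R a 1 = 0 := by
  show matHom R a 1 0 1 = 0
  rw [map_one]; simp

theorem Dmap_ι (y : Y a) : Dmap R a (FreeAlgebra.ι R y) = FreeAlgebra.ι R (y.1, y.2 + 1) := by
  show matHom R a (FreeAlgebra.ι R y) 0 1 = _
  simp [matHom]

open Classical in
variable (R) in
/-- action of the free algebra on `X` on the free algebra on `Y` -/
noncomputable def rho : FreeAlgebra R X →ₐ[R] Module.End R (FreeAlgebra R (Y a)) :=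
  FreeAlgebra.lift R fun x => if h : x = a then Dmap R a
    else LinearMap.mulLeft R (FreeAlgebra.ι R ((⟨x, h⟩, 0) : Y a))

theorem rho_a : rho R a (FreeAlgebra.ι R a) = Dmap R a := by
  rw [rho, FreeAlgebra.lift_ι_apply]; simp

theorem rho_x (x : {x : X // x ≠ a}) :
    rho R a (FreeAlgebra.ι R x.1) = LinearMap.mulLeft R (FreeAlgebra.ι R ((x, 0) : Y a)) := by
  rw [rho, FreeAlgebra.lift_ι_apply, dif_neg x.2]

theorem rho_jmap (m : FreeLieAlgebra R (Y a)) :
    rho R a (asso R X (jmap R a m)) = LinearMap.mulLeft R (asso R (Y a) m) := by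
  let f1 : FreeLieAlgebra R (Y a) →ₗ⁅R⁆ Module.End R (FreeAlgebra R (Y a)) :=
    ((rho R a : FreeAlgebra R X →ₗ⁅R⁆ Module.End R (FreeAlgebra R (Y a))).comp
      (asso R X)).comp (jmap R a)
  let f2 : FreeLieAlgebra R (Y a) →ₗ⁅R⁆ Module.End R (FreeAlgebra R (Y a)) :=
    ((Algebra.lmul R (FreeAlgebra R (Y a)) :
      FreeAlgebra R (Y a) →ₗ⁅R⁆ Module.End R (FreeAlgebra R (Y a)))).comp (asso R (Y a))
  have : f1 = f2 := by
    apply FreeLieAlgebra.hom_ext
    rintro ⟨x, k⟩
    show rho R a (asso R X (jmap R a (FreeLieAlgebra.of R (x, k)))) =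
      Algebra.lmul R _ (asso R (Y a) (FreeLieAlgebra.of R (x, k)))
    rw [jmap_of, asso_of]
    induction k with
    | zero =>
      rw [gen_zero, asso_of, rho_x]; rfl
    | succ k ih =>
      rw [gen_succ, LieHom.map_lie, asso_of, LieRing.of_associative_ring_bracket, map_sub, map_mul,
        map_mul, rho_a, ih]
      ext P
      show Dmap R a (FreeAlgebra.ι R (x, k) * P) - FreeAlgebra.ι R (x, k) * Dmap R a P =
        FreeAlgebra.ι R (x, k + 1) * P
      rw [Dmap_mul, Dmap_ι]
      simp
  exact DFunLike.congr_fun this m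

open Classical in
variable (R) in
/-- coefficient of the word `a` -/
noncomputable def coefA : FreeAlgebra R X →ₐ[R] DualNumber R :=
  FreeAlgebra.lift R fun x => if x = a then DualNumber.eps else 0

theorem coefA_j (m : FreeLieAlgebra R (Y a)) : coefA R a (asso R X (jmap R a m)) = 0 := by
  let f1 : FreeLieAlgebra R (Y a) →ₗ⁅R⁆ DualNumber R :=
    ((coefA R a).toLieHom.comp (asso R X)).comp (jmap R a)
  have : f1 = 0 := by
    apply FreeLieAlgebra.hom_ext
    rintro ⟨x, k⟩
    show coefA R a (asso R X (jmap R a (FreeLieAlgebra.of R (x, k)))) = 0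
    rw [jmap_of]
    cases k with
    | zero =>
      rw [gen_zero, asso_of, coefA, FreeAlgebra.lift_ι_apply, if_neg x.2]
    | succ k =>
      rw [gen_succ, LieHom.map_lie, LieRing.of_associative_ring_bracket, map_sub, map_mul,
        map_mul, mul_comm, sub_self]
  exact DFunLike.congr_fun this m

theorem coefA_a : coefA R a (FreeAlgebra.ι R a) = DualNumber.eps := by
  rw [coefA, FreeAlgebra.lift_ι_apply, if_pos rfl]

theorem elim_div {w : X → ℕ} {n : ℕ}
    (ih : ∀ m ∈ WS R (wY a w) n, ∀ (c : R) (b : FreeAlgebra R (Y a)),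
      asso R (Y a) m = c • b → ∃ m' ∈ WS R (wY a w) n, m = c • m')
    {l : FreeLieAlgebra R X} (hl : l ∈ WS R w n) (c : R) (b : FreeAlgebra R X)
    (hb : asso R X l = c • b) : ∃ l' ∈ WS R w n, l = c • l' := by
  obtain ⟨r, m, hm, hr, rfl⟩ := good_of_mem a hl
  rw [map_add, map_smul, asso_of] at hb
  have h1 : asso R (Y a) m = c • (rho R a b 1) := by
    have := congrArg (fun P => rho R a P 1) hb
    simp only [map_add, map_smul, rho_a, rho_jmap, LinearMap.add_apply, LinearMap.smul_apply,
      Dmap_one, smul_zero, zero_add, LinearMap.mulLeft_apply, mul_one] at this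
    exact this
  obtain ⟨m', hm', em⟩ := ih m hm c _ h1
  have h2 : r = c * (coefA R a b).snd := by
    have := congrArg (fun P => (coefA R a P).snd) hb
    simp only [map_add, map_smul, coefA_a, coefA_j, add_zero] at this
    simpa using this
  by_cases hn : n = w a
  · refine ⟨(coefA R a b).snd • FreeLieAlgebra.of R a + jmap R a m', ?_, ?_⟩
    · refine Submodule.add_mem _ (Submodule.smul_mem _ _ ?_) (jmap_mem a w hm')
      rw [hn]; exact (BM.of a).mem_WS
    · rw [smul_add, smul_smul, ← h2, em, map_smul]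
  · refine ⟨jmap R a m', jmap_mem a w hm', ?_⟩
    rw [hr hn, zero_smul, zero_add, em, map_smul]

theorem wY_ge {w : X → ℕ} {d : ℕ} (hd : ∀ x, d ≤ w x) (y : Y a) : d ≤ wY a w y :=
  (hd y.1.1).trans (Nat.le_add_right _ _)

theorem wY_fib {w : X → ℕ} (hfin : ∀ e, {x | w x = e}.Finite) (ha : 1 ≤ w a) (e : ℕ) :
    {y : Y a | wY a w y = e}.Finite := by
  have h1 : {x | w x ≤ e}.Finite := by
    have : {x | w x ≤ e} = ⋃ i ∈ Finset.range (e + 1), {x | w x = i} := by
      ext x; simp
    rw [this]
    exact Set.Finite.biUnion (Finset.finite_toSet _) fun i _ => hfin i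
  have h2 : {x : {x : X // x ≠ a} | w x.1 ≤ e}.Finite :=
    Set.Finite.preimage (Set.injOn_of_injective Subtype.val_injective) h1
  refine (h2.prod (Set.finite_Iic e)).subset ?_
  rintro ⟨x, k⟩ h
  simp only [Set.mem_ofPred_eq, wY] at h
  refine ⟨?_, ?_⟩
  · simp only [Set.mem_ofPred_eq]; omega
  · simp only [Set.mem_Iic]
    have : k ≤ k * w a := Nat.le_mul_of_pos_right k ha
    omega

theorem wY_card {w : X → ℕ} {d : ℕ} (hd : ∀ x, d ≤ w x) (hd1 : 1 ≤ d)
    (hfin : ∀ e, {x | w x = e}.Finite) (ha : w a = d) :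
    {y : Y a | wY a w y = d}.ncard < {x | w x = d}.ncard := by
  have h1 : ({x | w x = d} \ {a}).ncard < {x | w x = d}.ncard :=
    Set.ncard_sdiff_singleton_lt_of_mem ha (hfin d)
  refine lt_of_le_of_lt ?_ h1
  refine Set.ncard_le_ncard_of_injOn (fun y : Y a => y.1.1) ?_ ?_ ((hfin d).sdiff)
  · rintro ⟨x, k⟩ h
    simp only [Set.mem_ofPred_eq, wY] at h
    refine ⟨?_, ?_⟩
    · have := hd x.1
      simp only [Set.mem_ofPred_eq]; omega
    · exact x.2
  · rintro ⟨x, k⟩ h ⟨x', k'⟩ h' hx
    simp only [Set.mem_ofPred_eq, wY] at h h'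
    have e1 := hd x.1
    have e2 := hd x'.1
    have k0 : k * w a = 0 := by omega
    have k0' : k' * w a = 0 := by omega
    have k1 : k = 0 := by
      rcases Nat.mul_eq_zero.1 k0 with h | h
      · exact h
      · omega
    have k1' : k' = 0 := by
      rcases Nat.mul_eq_zero.1 k0' with h | h
      · exact h
      · omega
    subst k1 k1'
    have : x = x' := Subtype.ext hx
    rw [this]

end elim

section main

variable {R : Type v} [CommRing R]

/-- Divisibility statement for an alphabet with weights. -/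
def DivP (R : Type v) [CommRing R] {X : Type u} (w : X → ℕ) (N : ℕ) : Prop :=
  ∀ n ≤ N, ∀ l ∈ WS R w n, ∀ (c : R) (b : FreeAlgebra R X), asso R X l = c • b →
    ∃ l' ∈ WS R w n, l = c • l'

theorem divP_aux (N : ℕ) : ∀ (k : ℕ) (X : Type u) (w : X → ℕ) (d : ℕ), 1 ≤ d → (∀ x, d ≤ w x) →
    (∀ e, {x | w x = e}.Finite) → N + 1 - d = k → DivP R w N := by
  intro k
  induction k with
  | zero =>
    intro X w d hd1 hd _ hk n hn l hl c b _
    rw [WS_eq_bot hd (by omega), Submodule.mem_bot] at hl
    exact ⟨0, Submodule.zero_mem _, by simp [hl]⟩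
  | succ k ihk =>
    suffices H : ∀ (r : ℕ) (X : Type u) (w : X → ℕ) (d : ℕ), 1 ≤ d → (∀ x, d ≤ w x) →
        (∀ e, {x | w x = e}.Finite) → N + 1 - d = k + 1 → {x | w x = d}.ncard = r →
        DivP R w N from
      fun X w d h1 h2 h3 h4 => H _ X w d h1 h2 h3 h4 rfl
    intro r
    induction r using Nat.strong_induction_on with
    | _ r ihr =>
      intro X w d hd1 hd hfin hk hr
      rcases Set.eq_empty_or_nonempty {x | w x = d} with h0 | ⟨a, ha⟩
      · refine ihk X w (d + 1) (by omega) (fun x => ?_) hfin (by omega)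
        have h1 := hd x
        have h2 : w x ≠ d := fun h => by
          have : x ∈ {x | w x = d} := h
          rw [h0] at this; exact this
        omega
      · have ha' : w a = d := ha
        intro n hn l hl c b hb
        refine elim_div a ?_ hl c b hb
        exact ihr _ (by rw [← hr]; exact wY_card a hd hd1 hfin ha') (Y a) (wY a w) d hd1
          (wY_ge a hd) (wY_fib a hfin (by omega)) hk rfl n hn

theorem witt_div_hom {X : Type u} {w : X → ℕ} (h1 : ∀ x, 1 ≤ w x)
    (hfin : ∀ e, {x | w x = e}.Finite) {n : ℕ} {l : FreeLieAlgebra R X} (hl : l ∈ WS R w n) (c : R)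
    (b : FreeAlgebra R X) (hb : asso R X l = c • b) : ∃ l' ∈ WS R w n, l = c • l' :=
  divP_aux n _ X w 1 le_rfl h1 hfin rfl n le_rfl l hl c b hb

/-! ### Non-homogeneous elements -/

section grading

variable {X : Type u}

theorem iSup_WS (w : X → ℕ) : ⨆ n, WS R w n = ⊤ := by
  let S : LieSubalgebra R (FreeLieAlgebra R X) :=
    { (⨆ n, WS R w n : Submodule R (FreeLieAlgebra R X)) with
      lie_mem' := by
        intro x y hx hy
        change x ∈ (⨆ n, WS R w n : Submodule R (FreeLieAlgebra R X)) at hx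
        change y ∈ (⨆ n, WS R w n : Submodule R (FreeLieAlgebra R X)) at hy
        change ⁅x, y⁆ ∈ (⨆ n, WS R w n : Submodule R (FreeLieAlgebra R X))
        induction hx using Submodule.iSup_induction' with
        | mem i x hx =>
          induction hy using Submodule.iSup_induction' with
          | mem j y hy => exact Submodule.mem_iSup_of_mem _ (lie_mem_WS hx hy)
          | zero => simp
          | add y z _ _ hy hz => rw [lie_add]; exact Submodule.add_mem _ hy hz
        | zero => simp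
        | add y z _ _ hy hz => rw [add_lie]; exact Submodule.add_mem _ hy hz }
  have hS : ∀ l, l ∈ S := by
    let f : FreeLieAlgebra R X →ₗ⁅R⁆ S := FreeLieAlgebra.lift R fun x =>
      ⟨FreeLieAlgebra.of R x, Submodule.mem_iSup_of_mem (w x) (BM.of x).mem_WS⟩
    have hf : S.incl.comp f = LieHom.id := by
      apply FreeLieAlgebra.hom_ext
      intro x
      show ((f (FreeLieAlgebra.of R x) : S) : FreeLieAlgebra R X) = FreeLieAlgebra.of R x
      rw [FreeLieAlgebra.lift_of_apply]
    intro l
    have : ((f l : S) : FreeLieAlgebra R X) = l := DFunLike.congr_fun hf l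
    rw [← this]
    exact (f l).2
  rw [eq_top_iff]
  intro l _
  exact hS l

theorem exists_hom_sum (w : X → ℕ) (l : FreeLieAlgebra R X) :
    ∃ f : ℕ →₀ FreeLieAlgebra R X, (∀ n, f n ∈ WS R w n) ∧ ∑ n ∈ f.support, f n = l := by
  have h : l ∈ ⨆ n, WS R w n := by rw [iSup_WS]; exact Submodule.mem_top
  obtain ⟨f, hf, h⟩ := (Submodule.mem_iSup_iff_exists_finsupp _ _).1 h
  exact ⟨f, hf, h⟩

variable (R)

/-- grading homomorphism -/
noncomputable def gradHom (w : X → ℕ) : FreeAlgebra R X →ₐ[R] Polynomial (FreeAlgebra R X) :=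
  FreeAlgebra.lift R fun x => Polynomial.monomial (w x) (FreeAlgebra.ι R x)

variable {R}

theorem gradHom_of_mem {w : X → ℕ} {n : ℕ} {l : FreeLieAlgebra R X} (h : l ∈ WS R w n) :
    gradHom R w (asso R X l) = Polynomial.monomial n (asso R X l) := by
  refine WS_induction (p := fun l => gradHom R w (asso R X l) =
    Polynomial.monomial n (asso R X l)) ?_ ?_ ?_ ?_ h
  · clear h l
    intro l h
    induction h with
    | of x => rw [asso_of, gradHom, FreeAlgebra.lift_ι_apply]
    | @lie p q a b _ _ h1 h2 =>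
      rw [LieHom.map_lie, LieRing.of_associative_ring_bracket, map_sub, map_mul, map_mul, h1, h2,
        Polynomial.monomial_mul_monomial, Polynomial.monomial_mul_monomial, map_sub, add_comm q p]
  · simp
  · intro x y hx hy
    rw [map_add, map_add, hx, hy, map_add]
  · intro r x hx
    rw [map_smul, map_smul, hx, Polynomial.smul_monomial]

/-- the weight `n` part of an element of the free algebra -/
noncomputable def comp (w : X → ℕ) (n : ℕ) (P : FreeAlgebra R X) : FreeAlgebra R X :=
  (gradHom R w P).coeff n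

theorem comp_smul (w : X → ℕ) (n : ℕ) (c : R) (P : FreeAlgebra R X) :
    comp w n (c • P) = c • comp w n P := by
  rw [comp, comp, map_smul, Polynomial.coeff_smul]

theorem comp_asso_sum {w : X → ℕ} (f : ℕ →₀ FreeLieAlgebra R X) (hf : ∀ n, f n ∈ WS R w n)
    (n : ℕ) : comp w n (asso R X (∑ n ∈ f.support, f n)) = asso R X (f n) := by
  rw [comp, map_sum, map_sum, Polynomial.finsetSum_coeff]
  have : ∀ m ∈ f.support, (gradHom R w (asso R X (f m))).coeff n =
      if m = n then asso R X (f m) else 0 := by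
    intro m _
    rw [gradHom_of_mem (hf m), Polynomial.coeff_monomial]
  rw [Finset.sum_congr rfl this, Finset.sum_ite_eq']
  split_ifs with h
  · rfl
  · rw [Finsupp.notMem_support_iff.1 h, map_zero]

theorem witt_div_of_weight {w : X → ℕ} (h1 : ∀ x, 1 ≤ w x) (hfin : ∀ e, {x | w x = e}.Finite)
    (l : FreeLieAlgebra R X) (c : R) (b : FreeAlgebra R X) (hb : asso R X l = c • b) :
    ∃ l', l = c • l' := by
  obtain ⟨f, hf, rfl⟩ := exists_hom_sum w l
  have key : ∀ n, ∃ l', f n = c • l' := by
    intro n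
    have := comp_asso_sum f hf n
    rw [hb, comp_smul] at this
    obtain ⟨l', _, h⟩ := witt_div_hom h1 hfin (hf n) c _ this.symm
    exact ⟨l', h⟩
  choose g hg using key
  exact ⟨∑ n ∈ f.support, g n, by rw [Finset.smul_sum]; exact Finset.sum_congr rfl fun n _ => hg n⟩

/-- induction principle for free Lie algebras -/
theorem fla_induction {p : FreeLieAlgebra R X → Prop} (hof : ∀ x, p (FreeLieAlgebra.of R x))
    (h0 : p 0) (hadd : ∀ a b, p a → p b → p (a + b)) (hsmul : ∀ (r : R) a, p a → p (r • a))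
    (hlie : ∀ a b, p a → p b → p ⁅a, b⁆) (l : FreeLieAlgebra R X) : p l := by
  have h : l ∈ ⨆ n, WS R (fun _ : X => 0) n := by rw [iSup_WS]; exact Submodule.mem_top
  induction h using Submodule.iSup_induction' with
  | mem i x hx =>
    refine WS_induction (p := p) ?_ h0 hadd hsmul hx
    clear hx
    intro a ha
    induction ha with
    | of i => exact hof i
    | lie _ _ h1 h2 => exact hlie _ _ h1 h2
  | zero => exact h0
  | add x y _ _ hx hy => exact hadd _ _ hx hy

end grading

section general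

variable {X : Type u}

/-- functoriality -/
noncomputable def mapL {Z : Type*} (f : Z → X) : FreeLieAlgebra R Z →ₗ⁅R⁆ FreeLieAlgebra R X :=
  FreeLieAlgebra.lift R fun z => FreeLieAlgebra.of R (f z)

theorem mapL_of {Z : Type*} (f : Z → X) (z : Z) :
    mapL (R := R) f (FreeLieAlgebra.of R z) = FreeLieAlgebra.of R (f z) := by
  rw [mapL, FreeLieAlgebra.lift_of_apply]

theorem mapL_mapL {Z : Type u} {V : Type u} (f : Z → X) (g : V → Z) (l : FreeLieAlgebra R V) :
    mapL f (mapL g l) = mapL (f ∘ g) l := by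
  have : (mapL (R := R) f).comp (mapL g) = mapL (f ∘ g) := by
    apply FreeLieAlgebra.hom_ext
    intro x
    show mapL f (mapL g (FreeLieAlgebra.of R x)) = _
    rw [mapL_of, mapL_of, mapL_of]; rfl
  exact DFunLike.congr_fun this l

theorem exists_finite (l : FreeLieAlgebra R X) :
    ∃ (s : Finset X) (l0 : FreeLieAlgebra R s), mapL (fun x : s => x.1) l0 = l := by
  classical
  have up : ∀ {s t : Finset X} (h : s ⊆ t) (l0 : FreeLieAlgebra R s),
      ∃ l1 : FreeLieAlgebra R t, mapL (fun x : t => x.1) l1 = mapL (fun x : s => x.1) l0 := by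
    intro s t h l0
    refine ⟨mapL (fun x : s => (⟨x.1, h x.2⟩ : t)) l0, ?_⟩
    rw [mapL_mapL]; rfl
  induction l using fla_induction with
  | hof x => exact ⟨{x}, FreeLieAlgebra.of R ⟨x, by simp⟩, by rw [mapL_of]⟩
  | h0 => exact ⟨∅, 0, by simp⟩
  | hadd a b ha hb =>
    obtain ⟨s, a0, rfl⟩ := ha
    obtain ⟨t, b0, rfl⟩ := hb
    obtain ⟨a1, h1⟩ := up (Finset.subset_union_left (s₁ := s) (s₂ := t)) a0
    obtain ⟨b1, h2⟩ := up (Finset.subset_union_right (s₁ := s) (s₂ := t)) b0
    exact ⟨s ∪ t, a1 + b1, by rw [map_add, h1, h2]⟩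
  | hsmul r a ha =>
    obtain ⟨s, a0, rfl⟩ := ha
    exact ⟨s, r • a0, by rw [map_smul]⟩
  | hlie a b ha hb =>
    obtain ⟨s, a0, rfl⟩ := ha
    obtain ⟨t, b0, rfl⟩ := hb
    obtain ⟨a1, h1⟩ := up (Finset.subset_union_left (s₁ := s) (s₂ := t)) a0
    obtain ⟨b1, h2⟩ := up (Finset.subset_union_right (s₁ := s) (s₂ := t)) b0
    exact ⟨s ∪ t, ⁅a1, b1⁆, by rw [LieHom.map_lie, h1, h2]⟩

/-- MAIN: an element of the free Lie algebra that is divisible by `c` in the free associative
algebra is divisible by `c`. -/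
theorem witt_div (l : FreeLieAlgebra R X) (c : R) (b : FreeAlgebra R X)
    (hb : asso R X l = c • b) : ∃ l', l = c • l' := by
  classical
  obtain ⟨s, l0, rfl⟩ := exists_finite l
  let g : FreeAlgebra R X →ₐ[R] FreeAlgebra R s :=
    FreeAlgebra.lift R fun x => if h : x ∈ s then FreeAlgebra.ι R ⟨x, h⟩ else 0
  have h1 : ∀ l0 : FreeLieAlgebra R s,
      g (asso R X (mapL (fun x : s => x.1) l0)) = asso R s l0 := by
    intro l0
    induction l0 using fla_induction with
    | hof x =>
      rw [mapL_of, asso_of, asso_of]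
      show g (FreeAlgebra.ι R x.1) = _
      simp only [g]
      rw [FreeAlgebra.lift_ι_apply, dif_pos x.2]
    | h0 => simp
    | hadd a b ha hb => simp only [map_add, ha, hb]
    | hsmul r a ha => simp only [map_smul, ha]
    | hlie a b ha hb =>
      rw [LieHom.map_lie, LieHom.map_lie, LieHom.map_lie, LieRing.of_associative_ring_bracket,
        LieRing.of_associative_ring_bracket, map_sub, map_mul, map_mul, ha, hb]
  have h2 : asso R s l0 = c • g b := by rw [← h1, hb, map_smul]
  obtain ⟨l', hl'⟩ := witt_div_of_weight (w := fun _ => 1) (fun _ => le_rfl)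
    (fun e => Set.toFinite _) l0 c (g b) h2
  exact ⟨mapL (fun x : s => x.1) l', by rw [hl', map_smul]⟩

/-- MAIN: Witt's theorem over an arbitrary commutative ring. -/
theorem witt_injective : Function.Injective (asso R X) := by
  intro l l' h
  rw [← sub_eq_zero]
  obtain ⟨m, hm⟩ := witt_div (l - l') (0 : R) 0 (by rw [map_sub, h, sub_self, smul_zero])
  rw [hm, zero_smul]

end general

end main

end Crest.Agent.R010.Witt
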