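import Mathlib
import Crest.Agent.R010.CDefs
import Crest.Agent.R010.CSym
import Crest.Agent.R010.CInj
import Crest.Agent.R010.Witt

/-!
Row 10 (S0011), module CONV: from an exact form of the upper bound to `UpperBound`.
-/

set_option autoImplicit false

noncomputable section

namespace Crest.Agent.R010.CConv

open Crest.Agent.R010.Witt hiding Y
open Crest.Agent.R010.C

attribute [local instance 100] LieRing.ofAssociativeRing

/-! ### Lie elements -/

theorem mem_LieX_iff {R : Type*} [CommRing R] {X : Type*} {a : FreeAlgebra R X} :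
    a ∈ LieX R X ↔ ∃ l : FreeLieAlgebra R X, asso R X l = a := by
  constructor
  · intro h
    have hle : LieX R X ≤ (asso R X).range := by
      unfold LieX
      rw [LieSubalgebra.lieSpan_le]
      rintro _ ⟨x, rfl⟩
      exact ⟨FreeLieAlgebra.of R x, asso_of x⟩
    obtain ⟨l, hl⟩ := hle h
    exact ⟨l, hl⟩
  · rintro ⟨l, rfl⟩
    induction l using fla_induction with
    | hof x => rw [asso_of]; exact LieSubalgebra.subset_lieSpan ⟨x, rfl⟩
    | h0 => rw [map_zero]; exact zero_mem _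
    | hadd a b ha hb => rw [map_add]; exact add_mem ha hb
    | hsmul r a ha => rw [map_smul]; exact (LieX R X).smul_mem r ha
    | hlie a b ha hb => rw [LieHom.map_lie]; exact (LieX R X).lie_mem ha hb

theorem asso_lie {R : Type*} [CommRing R] {X : Type*} (l m : FreeLieAlgebra R X) :
    asso R X ⁅l, m⁆ = asso R X l * asso R X m - asso R X m * asso R X l := by
  rw [LieHom.map_lie, LieRing.of_associative_ring_bracket]

/-! ### Homogeneous elements -/

section wt
variable {R : Type*} [CommRing R] {X : Type*}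

theorem word_mem_wtA (w : X → ℕ) (l : List X) :
    (l.map (FreeAlgebra.ι R)).prod ∈ wtA R w (l.map w).sum :=
  Submodule.subset_span ⟨l, rfl, rfl⟩

theorem wtA_induction {w : X → ℕ} {N : ℕ} {p : FreeAlgebra R X → Prop}
    (hm : ∀ l : List X, (l.map w).sum = N → p (l.map (FreeAlgebra.ι R)).prod) (h0 : p 0)
    (ha : ∀ a b, p a → p b → p (a + b)) (hs : ∀ (r : R) a, p a → p (r • a))
    {a : FreeAlgebra R X} (h : a ∈ wtA R w N) : p a := by
  unfold wtA at h
  induction h using Submodule.span_induction with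
  | mem x hx => obtain ⟨l, hl, rfl⟩ := hx; exact hm l hl
  | zero => exact h0
  | add x y _ _ hx hy => exact ha x y hx hy
  | smul r x _ hx => exact hs r x hx

theorem wtA_mul {w : X → ℕ} {M N : ℕ} {a b : FreeAlgebra R X} (ha : a ∈ wtA R w M)
    (hb : b ∈ wtA R w N) : a * b ∈ wtA R w (M + N) := by
  refine wtA_induction (p := fun a => a * b ∈ wtA R w (M + N)) ?_ ?_ ?_ ?_ ha
  · intro l hl
    refine wtA_induction (p := fun b => (l.map (FreeAlgebra.ι R)).prod * b ∈ wtA R w (M + N))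
      ?_ ?_ ?_ ?_ hb
    · intro l' hl'
      rw [← List.prod_append, ← List.map_append]
      have := word_mem_wtA (R := R) w (l ++ l')
      rwa [List.map_append, List.sum_append, hl, hl'] at this
    · simp
    · intro x y hx hy; rw [mul_add]; exact add_mem hx hy
    · intro r x hx; rw [mul_smul_comm]; exact Submodule.smul_mem _ _ hx
  · simp
  · intro x y hx hy; rw [add_mul]; exact add_mem hx hy
  · intro r x hx; rw [smul_mul_assoc]; exact Submodule.smul_mem _ _ hx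

theorem ι_mem_wtA (w : X → ℕ) (i : X) : FreeAlgebra.ι R i ∈ wtA R w (w i) := by
  have := word_mem_wtA (R := R) w [i]
  simpa using this

theorem asso_mem_wtA {w : X → ℕ} {n : ℕ} {l : FreeLieAlgebra R X} (h : l ∈ WS R w n) :
    asso R X l ∈ wtA R w n := by
  refine WS_induction (p := fun l => asso R X l ∈ wtA R w n) ?_ ?_ ?_ ?_ h
  · clear h l
    intro l h
    induction h with
    | of x => rw [asso_of]; exact ι_mem_wtA w x
    | @lie p q a b _ _ h1 h2 =>
      rw [asso_lie]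
      refine sub_mem (wtA_mul h1 h2) ?_
      rw [add_comm p q]
      exact wtA_mul h2 h1
  · rw [map_zero]; exact zero_mem _
  · intro x y hx hy; rw [map_add]; exact add_mem hx hy
  · intro r x hx; rw [map_smul]; exact Submodule.smul_mem _ _ hx

theorem gradHom_of_wtA {w : X → ℕ} {n : ℕ} {a : FreeAlgebra R X} (h : a ∈ wtA R w n) :
    gradHom R w a = Polynomial.monomial n a := by
  refine wtA_induction (p := fun a => gradHom R w a = Polynomial.monomial n a) ?_ ?_ ?_ ?_ h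
  · clear h
    intro l hl
    subst hl
    induction l with
    | nil => simp
    | cons i l ih =>
      rw [List.map_cons, List.prod_cons, map_mul, ih, gradHom, FreeAlgebra.lift_ι_apply,
        Polynomial.monomial_mul_monomial, List.map_cons, List.sum_cons]
  · simp
  · intro x y hx hy; rw [map_add, map_add, hx, hy]
  · intro r x hx; rw [map_smul, hx, Polynomial.smul_monomial]

theorem comp_of_wtA {w : X → ℕ} {n : ℕ} {a : FreeAlgebra R X} (h : a ∈ wtA R w n) :
    comp w n a = a := by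
  rw [comp, gradHom_of_wtA h, Polynomial.coeff_monomial, if_pos rfl]

theorem comp_of_wtA_ne {w : X → ℕ} {m n : ℕ} {a : FreeAlgebra R X} (h : a ∈ wtA R w n)
    (hne : n ≠ m) : comp w m a = 0 := by
  rw [comp, gradHom_of_wtA h, Polynomial.coeff_monomial, if_neg hne]

theorem comp_add (w : X → ℕ) (n : ℕ) (a b : FreeAlgebra R X) :
    comp w n (a + b) = comp w n a + comp w n b := by
  rw [comp, comp, comp, map_add, Polynomial.coeff_add]

theorem comp_sub (w : X → ℕ) (n : ℕ) (a b : FreeAlgebra R X) :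
    comp w n (a - b) = comp w n a - comp w n b := by
  rw [comp, comp, comp, map_sub, Polynomial.coeff_sub]

theorem comp_zero (w : X → ℕ) (n : ℕ) : comp w n (0 : FreeAlgebra R X) = 0 := by
  rw [comp, map_zero, Polynomial.coeff_zero]

/-- Homogeneous components for one weight preserve homogeneity for another weight. -/
theorem comp_mem_wtA (w w' : X → ℕ) (m : ℕ) {N : ℕ} {a : FreeAlgebra R X}
    (h : a ∈ wtA R w' N) : comp w m a ∈ wtA R w' N := by
  refine wtA_induction (p := fun a => comp w m a ∈ wtA R w' N) ?_ ?_ ?_ ?_ h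
  · intro l hl
    by_cases hm : (l.map w).sum = m
    · rw [comp_of_wtA (hm ▸ word_mem_wtA (R := R) w l)]
      exact hl ▸ word_mem_wtA w' l
    · rw [comp_of_wtA_ne (word_mem_wtA (R := R) w l) hm]
      exact zero_mem _
  · rw [comp_zero]; exact zero_mem _
  · intro x y hx hy; rw [comp_add]; exact add_mem hx hy
  · intro r x hx; rw [comp_smul]; exact Submodule.smul_mem _ _ hx

end wt

/-! ### `J0` is a homogeneous ideal -/

theorem coeff_mem_J0_mul_left {p q : Polynomial (Alg F2)} (hq : ∀ n, q.coeff n ∈ J0) (n : ℕ) :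
    (p * q).coeff n ∈ J0 := by
  rw [Polynomial.coeff_mul]
  exact sum_mem (fun x _ => J0_mul_left _ (hq _))

theorem coeff_mem_J0_mul_right {p q : Polynomial (Alg F2)} (hp : ∀ n, p.coeff n ∈ J0) (n : ℕ) :
    (p * q).coeff n ∈ J0 := by
  rw [Polynomial.coeff_mul]
  exact sum_mem (fun x _ => J0_mul_right _ (hp _))

theorem comp_J0 (m : ℕ) {a : Alg F2} (ha : a ∈ J0) :
    comp (fun _ : Fin 2 => 1) m a ∈ J0 := by
  unfold J0 at ha
  induction ha using Submodule.span_induction with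
  | mem x hx =>
    obtain ⟨p, q, rfl⟩ := hx
    rw [comp, map_mul, map_mul, map_pow]
    have hY : gradHom F2 (fun _ : Fin 2 => 1) (Y F2) = Polynomial.monomial 1 (Y F2) := by
      rw [gradHom, Y, FreeAlgebra.lift_ι_apply]
    apply coeff_mem_J0_mul_right
    intro n
    apply coeff_mem_J0_mul_left
    intro n
    rw [hY, pow_two, Polynomial.monomial_mul_monomial, Polynomial.coeff_monomial, ← pow_two]
    split_ifs
    · exact Y2_mem_J0
    · exact zero_mem _
  | zero => rw [comp_zero]; exact zero_mem _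
  | add x y _ _ hx hy => rw [comp_add]; exact add_mem hx hy
  | smul r x _ hx => rw [comp_smul]; exact Submodule.smul_mem _ _ hx

/-! ### Weights of `cc` and `Zc` -/

theorem X_mem_wt : X F2 ∈ wtA F2 (fun _ : Fin 2 => 1) 1 := ι_mem_wtA (fun _ : Fin 2 => 1) 0
theorem Y_mem_wt : Y F2 ∈ wtA F2 (fun _ : Fin 2 => 1) 1 := ι_mem_wtA (fun _ : Fin 2 => 1) 1

theorem wtA_mul' {R : Type*} [CommRing R] {X : Type*} {w : X → ℕ} {M N K : ℕ}
    {a b : FreeAlgebra R X} (ha : a ∈ wtA R w M) (hb : b ∈ wtA R w N) (h : M + N = K) :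
    a * b ∈ wtA R w K := h ▸ wtA_mul ha hb

theorem cc_mem_wt : cc ∈ wtA F2 (fun _ : Fin 2 => 1) 2 := by
  have h1 : X F2 * Y F2 ∈ wtA F2 (fun _ : Fin 2 => 1) 2 := wtA_mul' X_mem_wt Y_mem_wt rfl
  have h2 : Y F2 * X F2 ∈ wtA F2 (fun _ : Fin 2 => 1) 2 := wtA_mul' Y_mem_wt X_mem_wt rfl
  unfold cc
  exact Submodule.sub_mem _ h1 h2

theorem FF_mem_wt : FF ∈ wtA F2 (fun _ : Fin 2 => 1) 3 := by
  have h2 : X F2 ^ 2 ∈ wtA F2 (fun _ : Fin 2 => 1) 2 := by
    rw [pow_two]; exact wtA_mul' X_mem_wt X_mem_wt rfl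
  have h3 : Y F2 * X F2 ^ 2 ∈ wtA F2 (fun _ : Fin 2 => 1) 3 := wtA_mul' Y_mem_wt h2 rfl
  have h4 : X F2 ^ 2 * Y F2 ∈ wtA F2 (fun _ : Fin 2 => 1) 3 := wtA_mul' h2 Y_mem_wt rfl
  unfold FF
  exact Submodule.sub_mem _ h3 h4

theorem Zc_mem_wt (k : ℕ) : Zc k ∈ wtA F2 (fun _ : Fin 2 => 1) (2 * k + 3) := by
  induction k with
  | zero => exact FF_mem_wt
  | succ k ih =>
    have h1 : cc * Zc k ∈ wtA F2 (fun _ : Fin 2 => 1) (2 * (k + 1) + 3) :=
      wtA_mul' cc_mem_wt ih (by ring)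
    have h2 : Zc k * cc ∈ wtA F2 (fun _ : Fin 2 => 1) (2 * (k + 1) + 3) :=
      wtA_mul' ih cc_mem_wt (by ring)
    rw [Zc_succ]
    exact Submodule.sub_mem _ h1 h2

theorem evalZ_mem_wt {N : ℕ} {P : FreeAlgebra F2 ℕ} (hP : P ∈ wtA F2 (fun k : ℕ => 2 * k + 3) N) :
    evalZ P ∈ wtA F2 (fun _ : Fin 2 => 1) N := by
  refine wtA_induction (p := fun P => evalZ P ∈ wtA F2 (fun _ : Fin 2 => 1) N) ?_ ?_ ?_ ?_ hP
  · clear hP
    intro l hl
    subst hl
    induction l with
    | nil =>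
      have := word_mem_wtA (R := F2) (fun _ : Fin 2 => 1) []
      simpa using this
    | cons k l ih =>
      simp only [List.map_cons, List.prod_cons, List.sum_cons, map_mul, evalZ_ι]
      exact wtA_mul (Zc_mem_wt k) ih
  · rw [map_zero]; exact zero_mem _
  · intro x y hx hy; rw [map_add]; exact add_mem hx hy
  · intro r x hx; rw [map_smul]; exact Submodule.smul_mem _ _ hx

/-! ### Elimination of `c` -/

theorem cc_lie_evalZ (m : FreeLieAlgebra F2 ℕ) :
    ∃ m' : FreeLieAlgebra F2 ℕ,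
      cc * evalZ (asso F2 ℕ m) - evalZ (asso F2 ℕ m) * cc = evalZ (asso F2 ℕ m') := by
  induction m using fla_induction with
  | hof k =>
    refine ⟨FreeLieAlgebra.of F2 (k + 1), ?_⟩
    rw [asso_of, asso_of, evalZ_ι, evalZ_ι, Zc_succ]
  | h0 => exact ⟨0, by simp⟩
  | hadd a b ha hb =>
    obtain ⟨a', ha⟩ := ha
    obtain ⟨b', hb⟩ := hb
    refine ⟨a' + b', ?_⟩
    simp only [map_add]
    rw [← ha, ← hb]
    noncomm_ring
  | hsmul r a ha =>
    obtain ⟨a', ha⟩ := ha
    refine ⟨r • a', ?_⟩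
    simp only [map_smul]
    rw [← ha, mul_smul_comm, smul_mul_assoc, smul_sub]
  | hlie a b ha hb =>
    obtain ⟨a', ha⟩ := ha
    obtain ⟨b', hb⟩ := hb
    refine ⟨⁅a', b⁆ + ⁅a, b'⁆, ?_⟩
    simp only [map_add, asso_lie, map_sub, map_mul]
    rw [← ha, ← hb]
    noncomm_ring

/-- Every Lie polynomial in `cc, FF` is `a • cc + evalZ (Lie polynomial in the e_k)`. -/
theorem ev2_asso (l : FreeLieAlgebra F2 (Fin 2)) :
    ∃ (a : F2) (m : FreeLieAlgebra F2 ℕ),
      ev2 F2 cc FF (asso F2 (Fin 2) l) = a • cc + evalZ (asso F2 ℕ m) := by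
  induction l using fla_induction with
  | hof i =>
    fin_cases i
    · refine ⟨1, 0, ?_⟩
      rw [asso_of, ev2, FreeAlgebra.lift_ι_apply]
      simp
    · refine ⟨0, FreeLieAlgebra.of F2 0, ?_⟩
      rw [asso_of, asso_of, ev2, FreeAlgebra.lift_ι_apply, evalZ_ι]
      simp [Zc_zero]
  | h0 => exact ⟨0, 0, by simp⟩
  | hadd a b ha hb =>
    obtain ⟨r, m, h1⟩ := ha
    obtain ⟨s, n, h2⟩ := hb
    refine ⟨r + s, m + n, ?_⟩
    simp only [map_add]
    rw [h1, h2, add_smul]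
    abel
  | hsmul t a ha =>
    obtain ⟨r, m, h1⟩ := ha
    refine ⟨t * r, t • m, ?_⟩
    simp only [map_smul]
    rw [h1, smul_add, mul_smul]
  | hlie a b ha hb =>
    obtain ⟨r, m, h1⟩ := ha
    obtain ⟨s, n, h2⟩ := hb
    obtain ⟨m', hm'⟩ := cc_lie_evalZ m
    obtain ⟨n', hn'⟩ := cc_lie_evalZ n
    refine ⟨0, r • n' - s • m' + ⁅m, n⁆, ?_⟩
    simp only [asso_lie, map_add, map_sub, map_mul, map_smul]
    rw [h1, h2, ← hm', ← hn', zero_smul, zero_add]
    simp only [add_mul, mul_add, smul_mul_assoc, mul_smul_comm, smul_sub, smul_add]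
    rw [smul_comm r s (cc * cc)]
    abel

/-! ### The conversion -/

/-- The upper bound for a predicate `Pent` on `Alg F2`. -/
def UpperBoundFor (Pent : Alg F2 → Prop) : Prop :=
  ∀ (N : ℕ) (ψ : Alg F2), 3 ≤ N → ψ ∈ wtA F2 (fun _ : Fin 2 => 1) N → ψ ∈ LieX F2 (Fin 2) →
    Pent ψ → ψ ≠ 0 →
    ∃ (n : ℕ) (P : FreeAlgebra F2 ℕ), 1 ≤ n ∧ P ∈ LieX F2 ℕ ∧
      P ∈ wtA F2 (fun _ : ℕ => 1) n ∧ P ∈ wtA F2 (fun k : ℕ => 2 * k + 3) N ∧ P ≠ 0 ∧
      ψ - evalZ P ∈ Fil (n + 1)

theorem upperBound_iff : UpperBound ↔ UpperBoundFor (FibrePent F2) := Iff.rfl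

/-- The lowest word degree part of a nonzero homogeneous Lie polynomial in the `e_k`. -/
theorem exists_lowest {N : ℕ} {m : FreeLieAlgebra F2 ℕ} (hm : m ∈ WS F2 (fun k : ℕ => 2 * k + 3) N)
    (h0 : m ≠ 0) :
    ∃ (n : ℕ) (P : FreeAlgebra F2 ℕ), 1 ≤ n ∧ P ∈ LieX F2 ℕ ∧
      P ∈ wtA F2 (fun _ : ℕ => 1) n ∧ P ∈ wtA F2 (fun k : ℕ => 2 * k + 3) N ∧ P ≠ 0 ∧
      evalZ (asso F2 ℕ m) - evalZ P ∈ Fil (n + 1) := by
  classical
  obtain ⟨f, hf, hsum⟩ := exists_hom_sum (fun _ : ℕ => 1) m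
  have hne : f.support.Nonempty := by
    rw [Finset.nonempty_iff_ne_empty]
    intro he
    rw [he, Finset.sum_empty] at hsum
    exact h0 hsum.symm
  set n := f.support.min' hne with hn
  have hnmem : n ∈ f.support := Finset.min'_mem _ _
  have hfn : f n ≠ 0 := Finsupp.mem_support_iff.1 hnmem
  refine ⟨n, asso F2 ℕ (f n), ?_, mem_LieX_iff.2 ⟨_, rfl⟩, asso_mem_wtA (hf n), ?_, ?_, ?_⟩
  · by_contra hlt
    have hlt' : n < 1 := not_le.1 hlt
    have hbot : WS F2 (fun _ : ℕ => 1) n = ⊥ := WS_eq_bot (d := 1) (fun _ => le_rfl) hlt'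
    have := hf n
    rw [hbot, Submodule.mem_bot] at this
    exact hfn this
  · have h1 := comp_asso_sum f hf n
    rw [hsum] at h1
    rw [← h1]
    exact comp_mem_wtA _ _ _ (asso_mem_wtA hm)
  · intro h
    apply hfn
    apply witt_injective
    rw [h, map_zero]
  · rw [← hsum, ← Finset.add_sum_erase _ _ hnmem, map_add, map_add, add_sub_cancel_left, map_sum,
      map_sum]
    refine sum_mem (fun k hk => ?_)
    have hk' := Finset.mem_erase.1 hk
    have hle : n ≤ k := Finset.min'_le _ _ hk'.2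
    have hlt : n + 1 ≤ k := lt_of_le_of_ne hle (Ne.symm hk'.1)
    exact Fil_antitone hlt (evalZ_mem_Fil (asso_mem_wtA (hf k)))

/-- From the exact form of the upper bound to `UpperBoundFor`. -/
theorem upperBoundFor_of_exact (Pent : Alg F2 → Prop)
    (H : ∀ (N : ℕ) (ψ : Alg F2), 3 ≤ N → ψ ∈ wtA F2 (fun _ : Fin 2 => 1) N →
      ψ ∈ LieX F2 (Fin 2) → Pent ψ →
      (∃ Λ ∈ LieX F2 (Fin 2), ψ - ev2 F2 cc FF Λ ∈ J0) ∧ (ψ ∈ J0 → ψ = 0)) :
    UpperBoundFor Pent := by
  intro N ψ hN hψ hL hP hne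
  obtain ⟨⟨Λ, hΛ, hJ⟩, hinj⟩ := H N ψ hN hψ hL hP
  obtain ⟨l, rfl⟩ := mem_LieX_iff.1 hΛ
  obtain ⟨a, m, hm⟩ := ev2_asso l
  rw [hm] at hJ
  obtain ⟨f, hf, hsum⟩ := exists_hom_sum (fun k : ℕ => 2 * k + 3) m
  have hJN := comp_J0 N hJ
  have hev : comp (fun _ : Fin 2 => 1) N (evalZ (asso F2 ℕ m)) = evalZ (asso F2 ℕ (f N)) := by
    have hterm : ∀ n, comp (fun _ : Fin 2 => 1) N (evalZ (asso F2 ℕ (f n)))
        = if n = N then evalZ (asso F2 ℕ (f n)) else 0 := by
      intro n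
      have hw := evalZ_mem_wt (asso_mem_wtA (hf n))
      split_ifs with h
      · subst h; exact comp_of_wtA hw
      · exact comp_of_wtA_ne hw h
    have hadd : comp (fun _ : Fin 2 => 1) N (evalZ (asso F2 ℕ m))
        = ∑ n ∈ f.support, comp (fun _ : Fin 2 => 1) N (evalZ (asso F2 ℕ (f n))) := by
      rw [← hsum, map_sum, map_sum, comp, map_sum, Polynomial.finsetSum_coeff]
      rfl
    rw [hadd, Finset.sum_congr rfl (fun n _ => hterm n), Finset.sum_ite_eq']
    split_ifs with h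
    · rfl
    · rw [Finsupp.notMem_support_iff.1 h, map_zero, map_zero]
  have hcc : comp (fun _ : Fin 2 => 1) N cc = 0 := comp_of_wtA_ne cc_mem_wt (by omega)
  rw [comp_sub, comp_of_wtA hψ, comp_add, comp_smul, hcc, smul_zero, zero_add, hev] at hJN
  have hfN : f N ≠ 0 := by
    intro h
    rw [h, map_zero, map_zero, sub_zero] at hJN
    exact hne (hinj hJN)
  obtain ⟨n, P, h1, h2, h3, h4, h5, h6⟩ := exists_lowest (hf N) hfN
  refine ⟨n, P, h1, h2, h3, h4, h5, ?_⟩
  have e : ψ - evalZ P = (ψ - evalZ (asso F2 ℕ (f N)))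
      + (evalZ (asso F2 ℕ (f N)) - evalZ P) := by abel
  rw [e]
  exact add_mem (J0_le_Fil _ hJN) h6

/-- From the exact form of the upper bound to `UpperBound`. -/
theorem upperBound_of_exact
    (H : ∀ (N : ℕ) (ψ : Alg F2), 3 ≤ N → ψ ∈ wtA F2 (fun _ : Fin 2 => 1) N →
      ψ ∈ LieX F2 (Fin 2) → FibrePent F2 ψ →
      (∃ Λ ∈ LieX F2 (Fin 2), ψ - ev2 F2 cc FF Λ ∈ J0) ∧ (ψ ∈ J0 → ψ = 0)) :
    UpperBound :=
  upperBoundFor_of_exact _ H

end Crest.Agent.R010.CConv

end
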