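import Mathlib
import Crest.Agent.R010.CDefs
import Crest.Agent.R010.CSym
import Crest.Agent.R010.CInj
import Crest.Agent.R010.Witt
import Crest.Agent.R010.CConv

/-!
Row 10 (S0011), module CONV-B: comparison of the letters `Xi_{2k+1}(x, y)` with `Zc k` modulo
`Fil 2`, and the corresponding comparison of symbols.
-/

set_option autoImplicit false

noncomputable section

namespace Crest.Agent.R010.CXi

open Crest.Agent.R010.C Crest.Agent.R010.CConv

attribute [local instance 100] LieRing.ofAssociativeRing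

/-- `Xi_0 = x²`, `Xi_{k+1} = [y, Xi_k]` (`k` even), `[x, Xi_k]` (`k` odd). -/
def XiC : ℕ → Alg F2
  | 0 => X F2 ^ 2
  | k + 1 => if Even k then Y F2 * XiC k - XiC k * Y F2 else X F2 * XiC k - XiC k * X F2

/-- `ad(c)^k x²`. -/
def Ec : ℕ → Alg F2
  | 0 => X F2 ^ 2
  | k + 1 => cc * Ec k - Ec k * cc

theorem Ec_mem_Fil (k : ℕ) : Ec k ∈ Fil 1 := by
  induction k with
  | zero => exact X2_mem_Fil
  | succ k ih => exact Fil_comm 1 _ ih

theorem XiC_mem_Fil (k : ℕ) : XiC k ∈ Fil 1 := by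
  induction k with
  | zero => exact X2_mem_Fil
  | succ k ih =>
    unfold XiC
    split_ifs
    · exact Fil_comm 1 _ ih
    · exact Fil_comm 1 _ ih

/-- `[y, ad(c)^k x²] ≡ Zc k` modulo `J0`. -/
theorem Y_comm_Ec (k : ℕ) : (Y F2 * Ec k - Ec k * Y F2) - Zc k ∈ J0 := by
  induction k with
  | zero =>
    have : (Y F2 * Ec 0 - Ec 0 * Y F2) - Zc 0 = 0 := by
      rw [Zc_zero]; unfold FF Ec; abel
    rw [this]; exact zero_mem _
  | succ k ih =>
    have h : (Y F2 * Ec (k + 1) - Ec (k + 1) * Y F2) - Zc (k + 1) =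
        ((Y F2 * cc - cc * Y F2) * Ec k - Ec k * (Y F2 * cc - cc * Y F2))
          + (cc * ((Y F2 * Ec k - Ec k * Y F2) - Zc k)
            - ((Y F2 * Ec k - Ec k * Y F2) - Zc k) * cc) := by
      rw [Zc_succ, show Ec (k + 1) = cc * Ec k - Ec k * cc from rfl]
      noncomm_ring
    rw [h]
    refine add_mem ?_ (J0_comm _ ih)
    exact sub_mem (J0_mul_right _ Y_comm_cc) (J0_mul_left _ Y_comm_cc)

theorem X_comm_cc : X F2 * cc - cc * X F2 ∈ Fil 1 := by
  have h : X F2 * cc - cc * X F2 =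
      X F2 ^ 2 * Y F2 + Y F2 * X F2 ^ 2 - 2 * (X F2 * Y F2 * X F2) := by
    unfold cc
    noncomm_ring
  rw [h, two_eq_zero_alg, zero_mul, sub_zero]
  exact add_mem (Fil_mul_right _ _ X2_mem_Fil) (Fil_mul_left _ _ X2_mem_Fil)

/-- `[x, Zc k] ≡ ad(c)^{k+1} x²` modulo `Fil 2`. -/
theorem X_comm_Zc (k : ℕ) : (X F2 * Zc k - Zc k * X F2) - Ec (k + 1) ∈ Fil 2 := by
  induction k with
  | zero =>
    have h1 : Ec (0 + 1) = cc * X F2 ^ 2 - X F2 ^ 2 * cc := rfl
    have key : (X F2 * FF - FF * X F2) - (cc * X F2 ^ 2 - X F2 ^ 2 * cc) = 0 := by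
      unfold FF cc
      simp only [pow_two, mul_sub, sub_mul, mul_assoc]
      abel
    rw [Zc_zero, h1, key]; exact zero_mem _
  | succ k ih =>
    have h : (X F2 * Zc (k + 1) - Zc (k + 1) * X F2) - Ec (k + 1 + 1) =
        ((X F2 * cc - cc * X F2) * Zc k - Zc k * (X F2 * cc - cc * X F2))
          + (cc * ((X F2 * Zc k - Zc k * X F2) - Ec (k + 1))
            - ((X F2 * Zc k - Zc k * X F2) - Ec (k + 1)) * cc) := by
      rw [Zc_succ, show Ec (k + 1 + 1) = cc * Ec (k + 1) - Ec (k + 1) * cc from rfl]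
      noncomm_ring
    have m1 : (X F2 * cc - cc * X F2) * Zc k ∈ Fil (1 + 1) :=
      Fil_mul_mem X_comm_cc (Zc_mem_Fil k)
    have m2 : Zc k * (X F2 * cc - cc * X F2) ∈ Fil (1 + 1) :=
      Fil_mul_mem (Zc_mem_Fil k) X_comm_cc
    rw [h]
    exact add_mem (sub_mem m1 m2) (Fil_comm _ _ ih)

theorem XiC_even_odd (k : ℕ) : XiC (2 * k) - Ec k ∈ Fil 2 ∧ XiC (2 * k + 1) - Zc k ∈ Fil 2 := by
  have step : ∀ k, XiC (2 * k) - Ec k ∈ Fil 2 → XiC (2 * k + 1) - Zc k ∈ Fil 2 := by
    intro k h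
    have e : XiC (2 * k + 1) - Zc k = (Y F2 * (XiC (2 * k) - Ec k) - (XiC (2 * k) - Ec k) * Y F2)
        + ((Y F2 * Ec k - Ec k * Y F2) - Zc k) := by
      rw [XiC, if_pos (even_two_mul k)]
      noncomm_ring
    rw [e]
    exact add_mem (Fil_comm _ _ h) (J0_le_Fil _ (Y_comm_Ec k))
  induction k with
  | zero =>
    have h0 : XiC (2 * 0) - Ec 0 ∈ Fil 2 := by
      have : XiC (2 * 0) - Ec 0 = 0 := by
        rw [mul_zero]; unfold XiC Ec; rw [sub_self]
      rw [this]; exact zero_mem _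
    exact ⟨h0, step 0 h0⟩
  | succ k ih =>
    have h : XiC (2 * (k + 1)) - Ec (k + 1) ∈ Fil 2 := by
      have e : XiC (2 * (k + 1)) - Ec (k + 1) =
          (X F2 * (XiC (2 * k + 1) - Zc k) - (XiC (2 * k + 1) - Zc k) * X F2)
          + ((X F2 * Zc k - Zc k * X F2) - Ec (k + 1)) := by
        rw [show 2 * (k + 1) = (2 * k + 1) + 1 by ring, XiC,
          if_neg (by rw [Nat.not_even_iff_odd]; exact odd_two_mul_add_one k)]
        noncomm_ring
      rw [e]
      exact add_mem (Fil_comm _ _ ih.2) (X_comm_Zc k)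
    exact ⟨h, step _ h⟩

theorem XiC_odd (k : ℕ) : XiC (2 * k + 1) - Zc k ∈ Fil 2 := (XiC_even_odd k).2

/-- Evaluation `e_k ↦ Xi_k`. -/
def evalXi : FreeAlgebra F2 ℕ →ₐ[F2] Alg F2 := FreeAlgebra.lift F2 XiC

/-- The odd letters `e_k ↦ e_{2k+1}`. -/
def odd : FreeAlgebra F2 ℕ →ₐ[F2] FreeAlgebra F2 ℕ :=
  FreeAlgebra.lift F2 (fun k => FreeAlgebra.ι F2 (2 * k + 1))

theorem evalXi_mem_Fil {n : ℕ} {P : FreeAlgebra F2 ℕ} (hP : P ∈ wtA F2 (fun _ : ℕ => 1) n) :
    evalXi P ∈ Fil n := by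
  refine wtA_induction (p := fun P => evalXi P ∈ Fil n) ?_ ?_ ?_ ?_ hP
  · clear hP
    intro l hl
    have hl' : l.length = n := by simpa using hl
    clear hl
    induction l generalizing n with
    | nil => exact (by simpa using hl') ▸ Fil_zero _
    | cons k l ih =>
      rw [List.map_cons, List.prod_cons, map_mul]
      have hn : n = 1 + l.length := by rw [← hl', List.length_cons]; ring
      rw [hn]
      refine Fil_mul_mem ?_ (ih rfl)
      unfold evalXi
      rw [FreeAlgebra.lift_ι_apply]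
      exact XiC_mem_Fil k
  · rw [map_zero]; exact zero_mem _
  · intro x y hx hy; rw [map_add]; exact add_mem hx hy
  · intro r x hx; rw [map_smul]; exact Submodule.smul_mem _ _ hx

theorem evalXi_odd_sub {n : ℕ} {p : FreeAlgebra F2 ℕ} (hp : p ∈ wtA F2 (fun _ : ℕ => 1) n) :
    evalXi (odd p) - evalZ p ∈ Fil (n + 1) := by
  refine wtA_induction (p := fun p => evalXi (odd p) - evalZ p ∈ Fil (n + 1)) ?_ ?_ ?_ ?_ hp
  · clear hp
    intro l hl
    have hl' : l.length = n := by simpa using hl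
    clear hl
    induction l generalizing n with
    | nil =>
      have : evalXi (odd (List.map (FreeAlgebra.ι F2) ([] : List ℕ)).prod)
          - evalZ (List.map (FreeAlgebra.ι F2) ([] : List ℕ)).prod = 0 := by simp
      rw [this]; exact zero_mem _
    | cons k l ih =>
      have hn : n = 1 + l.length := by rw [← hl', List.length_cons]; ring
      have hk : evalXi (odd (FreeAlgebra.ι F2 k)) = XiC (2 * k + 1) := by
        unfold odd evalXi
        rw [FreeAlgebra.lift_ι_apply, FreeAlgebra.lift_ι_apply]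
      rw [List.map_cons, List.prod_cons, map_mul, map_mul, map_mul, hk, evalZ_ι, hn]
      set a := evalXi (odd (List.map (FreeAlgebra.ι F2) l).prod)
      set b := evalZ (List.map (FreeAlgebra.ι F2) l).prod with hb
      have hbm : b ∈ Fil l.length := by
        rw [hb]
        have := word_mem_wtA (R := F2) (fun _ : ℕ => 1) l
        have h2 := evalZ_mem_Fil this
        simpa using h2
      have e : XiC (2 * k + 1) * a - Zc k * b
          = XiC (2 * k + 1) * (a - b) + (XiC (2 * k + 1) - Zc k) * b := by noncomm_ring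
      rw [e]
      refine add_mem ?_ ?_
      · rw [add_assoc]; exact Fil_mul_mem (XiC_mem_Fil _) (ih rfl)
      · rw [show 1 + l.length + 1 = 2 + l.length by ring]
        exact Fil_mul_mem (XiC_odd k) hbm
  · simp
  · intro x y hx hy
    simp only [map_add]
    rw [add_sub_add_comm]; exact add_mem hx hy
  · intro r x hx
    simp only [map_smul]
    rw [← smul_sub]; exact Submodule.smul_mem _ _ hx

end Crest.Agent.R010.CXi

end
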