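import Crest.Agent.R010.EDefs

/-!
# Row 10, substrate: associative pentagon ⇒ pentagon in `braidLie4` (helper477)

`rho : braidLie4 → End (ℚ × braidLie4)`, `rho x (c, m) = (0, c • e(x) + [x,m])` (`e` = Euler derivation), constructed by
the universal property. So an identity that holds in every associative algebra holds in `braidLie4` in positive
weights (no PBW).
-/

set_option autoImplicit false
open Crest.NumberTheoryR.GT

noncomputable section
namespace Crest.Agent.R010.DynB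

attribute [local instance 100] LieRing.ofAssociativeRing

/-! ### the braid relations in `braidLie4` -/

theorem mk_relation {r : FreeBraid4} (h : r ∈ braidRelations4) :
    (LieSubmodule.Quotient.mk r : braidLie4) = 0 := by
  rw [LieSubmodule.Quotient.mk_eq_zero']
  exact LieSubmodule.subset_lieSpan h

theorem tFree_symm (i j : Fin 4) : tFree i j = tFree j i := by
  unfold tFree
  rcases lt_trichotomy i j with h | h | h
  · have h' : ¬ j < i := not_lt.2 h.le
    simp [h, h']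
  · subst h; simp
  · have h' : ¬ i < j := not_lt.2 h.le
    simp [h, h']

theorem tB_symm (i j : Fin 4) : tB i j = tB j i := by
  unfold tB; rw [tFree_symm]

theorem tB_comm {i j k l : Fin 4} (h1 : i ≠ j) (h2 : i ≠ k) (h3 : i ≠ l) (h4 : j ≠ k)
    (h5 : j ≠ l) (h6 : k ≠ l) : ⁅tB i j, tB k l⁆ = 0 := by
  have := mk_relation (r := ⁅tFree i j, tFree k l⁆)
    (Or.inl ⟨i, j, k, l, h1, h2, h3, h4, h5, h6, rfl⟩)
  rw [LieSubmodule.Quotient.mk_bracket] at this
  exact this

theorem tB_three {i j k : Fin 4} (h1 : i ≠ j) (h2 : i ≠ k) (h3 : j ≠ k) :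
    ⁅tB i j, tB i k + tB j k⁆ = 0 := by
  have := mk_relation (r := ⁅tFree i j, tFree i k + tFree j k⁆)
    (Or.inr ⟨i, j, k, h1, h2, h3, rfl⟩)
  rw [LieSubmodule.Quotient.mk_bracket] at this
  exact this

/-! ### the operators -/

/-- `rho x (c, m) = (0, c • x' + [x, m])` on a Lie algebra -/
def op {L : Type*} [LieRing L] [LieAlgebra ℚ L] (x : L) : Module.End ℚ (ℚ × L) :=
  LinearMap.prod 0 ((LinearMap.toSpanSingleton ℚ L x).comp (LinearMap.fst ℚ ℚ L) +
    (LieAlgebra.ad ℚ L x : L →ₗ[ℚ] L).comp (LinearMap.snd ℚ ℚ L))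

@[simp] theorem op_apply {L : Type*} [LieRing L] [LieAlgebra ℚ L] (x : L) (c : ℚ) (m : L) :
    op x (c, m) = (0, c • x + ⁅x, m⁆) := by
  simp [op]

theorem op_lie {L : Type*} [LieRing L] [LieAlgebra ℚ L] (x y : L) (h : ⁅x, y⁆ = 0) :
    ⁅op x, op y⁆ = 0 := by
  have h' : ⁅y, x⁆ = 0 := by rw [← lie_skew, h, neg_zero]
  apply LinearMap.ext
  rintro ⟨c, m⟩
  rw [LieRing.of_associative_ring_bracket]
  simp only [LinearMap.sub_apply, Module.End.mul_apply, op_apply, LinearMap.zero_apply, zero_smul,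
    zero_add, lie_add, lie_smul, h, h', smul_zero]
  rw [Prod.mk_sub_mk, sub_self]
  have : ⁅x, ⁅y, m⁆⁆ - ⁅y, ⁅x, m⁆⁆ = 0 := by
    rw [← lie_lie, h, zero_lie]
  rw [this]
  rfl

theorem op_add {L : Type*} [LieRing L] [LieAlgebra ℚ L] (x y : L) :
    op (x + y) = op x + op y := by
  apply LinearMap.ext
  rintro ⟨c, m⟩
  simp only [LinearMap.add_apply, op_apply, smul_add, add_lie, Prod.mk_add_mk, add_zero]
  congr 1
  abel

/-- lift to the free Lie algebra on the braid generators -/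
def rhoF : FreeBraid4 →ₗ⁅ℚ⁆ Module.End ℚ (ℚ × braidLie4) :=
  FreeLieAlgebra.lift ℚ (fun p : BraidGen4 => op (tB p.1.1 p.1.2))

theorem rhoF_tFree {i j : Fin 4} (h : i ≠ j) : rhoF (tFree i j) = op (tB i j) := by
  unfold tFree
  rcases lt_or_gt_of_ne h with h1 | h1
  · simp only [h1, dite_true]
    simp [rhoF]
  · have h' : ¬ i < j := not_lt.2 h1.le
    simp only [h1, h', dite_true, dite_false]
    rw [tB_symm]
    simp [rhoF]

theorem rhoF_relation {r : FreeBraid4} (h : r ∈ braidRelations4) : rhoF r = 0 := by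
  rcases h with ⟨i, j, k, l, h1, h2, h3, h4, h5, h6, rfl⟩ | ⟨i, j, k, h1, h2, h3, rfl⟩
  · rw [LieHom.map_lie, rhoF_tFree h1, rhoF_tFree h6]
    exact op_lie _ _ (tB_comm h1 h2 h3 h4 h5 h6)
  · rw [LieHom.map_lie, map_add, rhoF_tFree h1, rhoF_tFree h2, rhoF_tFree h3, ← op_add]
    exact op_lie _ _ (tB_three h1 h2 h3)

/-! ### action of homogeneous elements -/

/-- the projection `FreeBraid4 → braidLie4` -/
def mkL : FreeBraid4 →ₗ⁅ℚ⁆ braidLie4 where
  toFun z := LieSubmodule.Quotient.mk z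
  map_add' _ _ := rfl
  map_smul' _ _ := rfl
  map_lie' := by
    intro a b
    exact LieSubmodule.Quotient.mk_bracket braidIdeal4 a b

theorem mkL_tFree (i j : Fin 4) : mkL (tFree i j) = tB i j := rfl

/-- `z` acts as a homogeneous element of degree `n` -/
def PP (n : ℕ) (z : FreeBraid4) : Prop :=
  ∀ (c : ℚ) (m : braidLie4), rhoF z (c, m) = (0, (c * n) • mkL z + ⁅mkL z, m⁆)

theorem PP_tFree {i j : Fin 4} (h : i ≠ j) : PP 1 (tFree i j) := by
  intro c m
  rw [rhoF_tFree h, op_apply, mkL_tFree]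
  simp

theorem PP_add {n : ℕ} {a b : FreeBraid4} (ha : PP n a) (hb : PP n b) : PP n (a + b) := by
  intro c m
  rw [map_add, map_add, LinearMap.add_apply, ha, hb, Prod.mk_add_mk, add_zero, smul_add, add_lie]
  congr 1
  abel

theorem PP_smul {n : ℕ} {a : FreeBraid4} (r : ℚ) (ha : PP n a) : PP n (r • a) := by
  intro c m
  rw [map_smul, map_smul, LinearMap.smul_apply, ha, Prod.smul_mk, smul_zero, smul_add, smul_lie,
    smul_comm]

theorem PP_zero {n : ℕ} : PP n 0 := by
  intro c m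
  simp
  rfl

theorem PP_neg {n : ℕ} {a : FreeBraid4} (ha : PP n a) : PP n (-a) := by
  have := PP_smul (-1) ha
  simpa using this

theorem PP_lie {k n : ℕ} {a b : FreeBraid4} (ha : PP k a) (hb : PP n b) : PP (k + n) ⁅a, b⁆ := by
  intro c m
  rw [LieHom.map_lie, LieHom.map_lie, LieRing.of_associative_ring_bracket]
  simp only [LinearMap.sub_apply, Module.End.mul_apply]
  rw [hb c m, ha c m, ha, hb, Prod.mk_sub_mk, sub_zero]
  congr 1
  simp only [zero_mul, zero_smul, zero_add, lie_add, lie_smul, lie_lie]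
  rw [← lie_skew (mkL a) (mkL b)]
  push_cast
  rw [mul_add, add_smul]
  module

/-- substitution of degree one elements in an element of weight `n` -/
theorem PP_subst {n : ℕ} {p : GTLie} (hp : p ∈ weightSubspace (fun _ : Fin 2 => 1) n)
    {a b : FreeBraid4} (ha : PP 1 a) (hb : PP 1 b) : PP n (gtSubst a b p) := by
  unfold weightSubspace at hp
  induction hp using Submodule.span_induction with
  | mem x hx =>
    have hx' : IsBracketMonomial (fun _ : Fin 2 => 1) n x := hx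
    clear hx
    induction hx' with
    | of i =>
      unfold gtSubst
      rw [FreeLieAlgebra.lift_of_apply]
      by_cases hi : i = 0
      · simpa [hi] using ha
      · simpa [hi] using hb
    | lie _ _ h1 h2 =>
      rw [LieHom.map_lie]
      exact PP_lie h1 h2
  | zero => rw [map_zero]; exact PP_zero
  | add x y _ _ hx hy => rw [map_add]; exact PP_add hx hy
  | smul r x _ hx => rw [map_smul]; exact PP_smul r hx

theorem ev_iota {U : Type*} [Ring U] [Algebra ℚ U] (a b : U) (p : GTLie) :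
    ev a b (iota p) = gtSubst a b p := by
  have : ((ev a b : FreeAlgebra ℚ (Fin 2) →ₐ[ℚ] U) : FreeAlgebra ℚ (Fin 2) →ₗ⁅ℚ⁆ U).comp iota =
      gtSubst a b := by
    apply FreeLieAlgebra.hom_ext
    intro i
    simp [iota, gtSubst, ev]
  exact LieHom.congr_fun this p

theorem hom_gtSubst {M N : Type*} [LieRing M] [LieAlgebra ℚ M] [LieRing N] [LieAlgebra ℚ N]
    (f : M →ₗ⁅ℚ⁆ N) (a b : M) (p : GTLie) : f (gtSubst a b p) = gtSubst (f a) (f b) p := by
  have : f.comp (gtSubst a b) = gtSubst (f a) (f b) := by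
    apply FreeLieAlgebra.hom_ext
    intro i
    by_cases hi : i = 0 <;> simp [gtSubst, hi]
  exact LieHom.congr_fun this p

/-! ### braid relations and the five-configuration -/

/-- elements satisfying the four strand braid relations -/
structure BraidRel {L : Type*} [LieRing L] (t : Fin 4 → Fin 4 → L) : Prop where
  symm : ∀ i j, t i j = t j i
  comm : ∀ i j k l : Fin 4, i ≠ j → i ≠ k → i ≠ l → j ≠ k → j ≠ l → k ≠ l → ⁅t i j, t k l⁆ = 0
  three : ∀ i j k : Fin 4, i ≠ j → i ≠ k → j ≠ k → ⁅t i j, t i k + t j k⁆ = 0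

theorem braidRel_tB : BraidRel tB where
  symm := tB_symm
  comm := fun _ _ _ _ h1 h2 h3 h4 h5 h6 => tB_comm h1 h2 h3 h4 h5 h6
  three := fun _ _ _ h1 h2 h3 => tB_three h1 h2 h3

theorem braidRel_rhoF : BraidRel (fun i j => rhoF (tFree i j)) where
  symm := fun i j => by rw [tFree_symm]
  comm := fun i j k l h1 h2 h3 h4 h5 h6 => by
    rw [← LieHom.map_lie]
    exact rhoF_relation (Or.inl ⟨i, j, k, l, h1, h2, h3, h4, h5, h6, rfl⟩)
  three := fun i j k h1 h2 h3 => by
    rw [← map_add, ← LieHom.map_lie]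
    exact rhoF_relation (Or.inr ⟨i, j, k, h1, h2, h3, rfl⟩)

/-- the five-configuration of four strands -/
def bconf {L : Type*} [LieRing L] (t : Fin 4 → Fin 4 → L) : Fin 5 → L :=
  ![-(t 0 3 + t 1 3 + t 2 3), t 0 1, t 2 3, -(t 0 1 + t 0 2 + t 0 3), t 1 2]

section
variable {L : Type*} [LieRing L] {t : Fin 4 → Fin 4 → L}

theorem BraidRel.tri (h : BraidRel t) {i j k : Fin 4} (h1 : i ≠ j) (h2 : i ≠ k) (h3 : j ≠ k) :
    ⁅t i j, t i k⁆ = -⁅t i j, t j k⁆ := by
  have := h.three i j k h1 h2 h3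
  rw [lie_add] at this
  exact eq_neg_of_add_eq_zero_left this

theorem conf5_bconf (h : BraidRel t) : Conf5 (bconf t) := by
  have e1 : ∀ {i j k : Fin 4}, i ≠ j → i ≠ k → j ≠ k → ⁅t i j, t i k⁆ = -⁅t i j, t j k⁆ :=
    fun h1 h2 h3 => h.tri h1 h2 h3
  -- triple 012
  have a1 : ⁅t 0 1, t 1 2⁆ = -⁅t 0 1, t 0 2⁆ := by
    rw [e1 (i := 0) (j := 1) (k := 2) (by decide) (by decide) (by decide), neg_neg]
  have b1 : ⁅t 0 1, t 1 3⁆ = -⁅t 0 1, t 0 3⁆ := by
    rw [e1 (i := 0) (j := 1) (k := 3) (by decide) (by decide) (by decide), neg_neg]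
  -- [t03,t13] = [t01,t03]
  have b2 : ⁅t 0 3, t 1 3⁆ = ⁅t 0 1, t 0 3⁆ := by
    have := e1 (i := 0) (j := 3) (k := 1) (by decide) (by decide) (by decide)
    rw [h.symm 3 1] at this
    rw [← lie_skew (t 0 1) (t 0 3), this, neg_neg]
  have c1 : ⁅t 0 2, t 2 3⁆ = -⁅t 0 2, t 0 3⁆ := by
    rw [e1 (i := 0) (j := 2) (k := 3) (by decide) (by decide) (by decide), neg_neg]
  have c2 : ⁅t 0 3, t 2 3⁆ = ⁅t 0 2, t 0 3⁆ := by
    have := e1 (i := 0) (j := 3) (k := 2) (by decide) (by decide) (by decide)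
    rw [h.symm 3 2] at this
    rw [← lie_skew (t 0 2) (t 0 3), this, neg_neg]
  have d2 : ⁅t 1 3, t 2 3⁆ = -⁅t 1 2, t 2 3⁆ := by
    have h1 := e1 (i := 1) (j := 3) (k := 2) (by decide) (by decide) (by decide)
    rw [h.symm 3 2] at h1
    have h2 := e1 (i := 1) (j := 2) (k := 3) (by decide) (by decide) (by decide)
    rw [← h2, ← lie_skew (t 1 2) (t 1 3), h1]
    simp
  have z1 : ⁅t 0 1, t 2 3⁆ = 0 := h.comm 0 1 2 3 (by decide) (by decide) (by decide) (by decide)
    (by decide) (by decide)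
  have z2 : ⁅t 0 2, t 1 3⁆ = 0 := h.comm 0 2 1 3 (by decide) (by decide) (by decide) (by decide)
    (by decide) (by decide)
  have z3 : ⁅t 0 3, t 1 2⁆ = 0 := h.comm 0 3 1 2 (by decide) (by decide) (by decide) (by decide)
    (by decide) (by decide)
  constructor
  · intro i
    fin_cases i
    · show ⁅-(t 0 3 + t 1 3 + t 2 3), t 0 1⁆ = 0
      have := h.three 0 1 3 (by decide) (by decide) (by decide)
      rw [neg_lie, add_lie, ← lie_skew (t 0 3 + t 1 3), this, ← lie_skew (t 2 3), z1]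
      simp
    · show ⁅t 0 1, t 2 3⁆ = 0
      exact z1
    · show ⁅t 2 3, -(t 0 1 + t 0 2 + t 0 3)⁆ = 0
      have := h.three 2 3 0 (by decide) (by decide) (by decide)
      rw [h.symm 2 0, h.symm 3 0] at this
      rw [lie_neg, add_assoc, lie_add, this, ← lie_skew (t 2 3) (t 0 1), z1]
      simp
    · show ⁅-(t 0 1 + t 0 2 + t 0 3), t 1 2⁆ = 0
      have := h.three 1 2 0 (by decide) (by decide) (by decide)
      rw [h.symm 1 0, h.symm 2 0] at this
      rw [neg_lie, add_lie, ← lie_skew (t 0 1 + t 0 2), this, z3]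
      simp
    · show ⁅t 1 2, -(t 0 3 + t 1 3 + t 2 3)⁆ = 0
      have := h.three 1 2 3 (by decide) (by decide) (by decide)
      rw [lie_neg, add_assoc, lie_add, this, ← lie_skew (t 1 2) (t 0 3), z3]
      simp
  · rw [Fin.sum_univ_five]
    show ⁅-(t 0 3 + t 1 3 + t 2 3), t 2 3⁆ + ⁅t 0 1, -(t 0 1 + t 0 2 + t 0 3)⁆ + ⁅t 2 3, t 1 2⁆ +
      ⁅-(t 0 1 + t 0 2 + t 0 3), -(t 0 3 + t 1 3 + t 2 3)⁆ + ⁅t 1 2, t 0 1⁆ = 0
    simp only [neg_lie, lie_neg, neg_neg, add_lie, lie_add, lie_self, zero_add, add_zero, z1, z2]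
    rw [c1, c2, d2, b1, b2, ← lie_skew (t 2 3) (t 1 2), ← lie_skew (t 1 2) (t 0 1), a1]
    abel

end

end Crest.Agent.R010.DynB
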