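import Crest.Agent.R010.EAa

/-! Row 10, module (E), analysis part: the depth one coefficient as a matrix entry (helper10). -/

set_option autoImplicit false

noncomputable section

namespace Crest.Agent.R010.KZ

open Crest.Agent.R010

/-- the matrix `∑_{i+1 < N} E_{i,i+1}`. -/
def dA (N : ℕ) : Matrix (Fin (N + 1)) (Fin (N + 1)) ℝ :=
  Matrix.of fun i j => if (i : ℕ) + 1 = j ∧ (j : ℕ) < N then 1 else 0

/-- the matrix `E_{N-1,N}`. -/
def dB (N : ℕ) : Matrix (Fin (N + 1)) (Fin (N + 1)) ℝ :=
  Matrix.of fun i j => if (i : ℕ) + 1 = N ∧ (j : ℕ) = N then 1 else 0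

/-- the words with a non zero entry in row `i`. -/
def goodW (N : ℕ) : ℕ → List (Fin 2) → Prop
  | _, [] => True
  | i, c :: w => (c = 0 ↔ i + 1 < N) ∧ goodW N (i + 1) w

theorem dAB_apply (N : ℕ) (c : Fin 2) (i j : Fin (N + 1)) :
    (![dA N, dB N] : Fin 2 → Matrix (Fin (N + 1)) (Fin (N + 1)) ℝ) c i j =
      open Classical in if (i : ℕ) + 1 = j ∧ (c = 0 ↔ (i : ℕ) + 1 < N) then 1 else 0 := by
  classical
  have hj := j.2
  fin_cases c
  · simp only [dA, Fin.zero_eta, Matrix.cons_val_zero, Matrix.of_apply, true_iff]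
    refine if_congr ?_ rfl rfl
    omega
  · simp only [dB, Fin.mk_one, Matrix.cons_val_one]
    refine if_congr ?_ rfl rfl
    have : ¬ ((1 : Fin 2) = 0) := by decide
    simp only [this, false_iff]
    omega

/-- entries of words in `dA N`, `dB N`. -/
theorem word_entry (N : ℕ) (w : List (Fin 2)) (i j : Fin (N + 1)) :
    wp (![dA N, dB N] : Fin 2 → Matrix (Fin (N + 1)) (Fin (N + 1)) ℝ) w i j =
      open Classical in if (i : ℕ) + w.length = j ∧ goodW N i w then 1 else 0 := by
  classical
  induction w generalizing i with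
  | nil =>
    simp only [wp_nil, Matrix.one_apply, List.length_nil, add_zero, goodW, and_true, Fin.ext_iff]
  | cons c w ih =>
    have hR : (if (i : ℕ) + (c :: w).length = j ∧ goodW N i (c :: w) then (1 : ℝ) else 0) =
        if ((i : ℕ) + 1 + w.length = j ∧ goodW N (i + 1) w) ∧ (c = 0 ↔ (i : ℕ) + 1 < N)
          then 1 else 0 := by
      refine if_congr ?_ rfl rfl
      rw [goodW, List.length_cons, show (i : ℕ) + (w.length + 1) = (i : ℕ) + 1 + w.length by omega]
      tauto
    rw [hR, wp_cons, Matrix.mul_apply]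
    simp only [ih, dAB_apply]
    by_cases hi : (i : ℕ) + 1 < N + 1
    · rw [Finset.sum_eq_single (⟨i + 1, hi⟩ : Fin (N + 1))]
      · simp only [true_and]
        by_cases hc : (c = 0 ↔ (i : ℕ) + 1 < N)
        · rw [if_pos hc, one_mul]
          refine if_congr ?_ rfl rfl
          tauto
        · rw [if_neg hc, zero_mul, if_neg]
          tauto
      · intro b _ hb
        have : ¬ ((i : ℕ) + 1 = b) := fun h => hb (Fin.ext h.symm)
        simp [this]
      · simp
    · rw [Finset.sum_eq_zero]
      · rw [if_neg]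
        rintro ⟨h, -⟩
        have := j.2
        omega
      · intro b _
        have : ¬ ((i : ℕ) + 1 = b) := fun h => by have := b.2; omega
        simp [this]

theorem goodW_iff {N : ℕ} (w : List (Fin 2)) (i : ℕ) (hi : i < N) :
    (i + w.length = N ∧ goodW N i w) ↔ w = List.replicate (N - 1 - i) 0 ++ [1] := by
  induction w generalizing i with
  | nil =>
    constructor
    · rintro ⟨h, -⟩
      simp at h
      omega
    · intro h
      simp at h
  | cons c w ih =>
    rw [goodW, List.length_cons]
    by_cases h2 : i + 1 < N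
    · have h3 : N - 1 - i = (N - 1 - (i + 1)) + 1 := by omega
      rw [h3, List.replicate_succ, List.cons_append, List.cons.injEq, ← ih (i + 1) h2]
      constructor
      · rintro ⟨h, h', h''⟩
        exact ⟨h'.2 h2, by omega, h''⟩
      · rintro ⟨h, h', h''⟩
        exact ⟨by omega, by tauto, h''⟩
    · have h3 : N - 1 - i = 0 := by omega
      rw [h3, List.replicate_zero, List.nil_append, List.cons.injEq]
      constructor
      · rintro ⟨h, h', h''⟩
        have hc : c ≠ 0 := fun h0 => h2 (h'.1 h0)
        refine ⟨by omega, ?_⟩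
        exact List.length_eq_zero_iff.1 (by omega)
      · rintro ⟨rfl, rfl⟩
        refine ⟨by simp; omega, ?_, trivial⟩
        have : ¬ ((1 : Fin 2) = 0) := by decide
        simp only [this, false_iff]
        exact h2

theorem word_entry_last {N : ℕ} (hN : 1 ≤ N) (w : List (Fin 2)) :
    wp (![dA N, dB N] : Fin 2 → Matrix (Fin (N + 1)) (Fin (N + 1)) ℝ) w 0 (Fin.last N) =
      if w = dep1 N then 1 else 0 := by
  classical
  rw [word_entry]
  refine if_congr ?_ rfl rfl
  have := goodW_iff (N := N) w 0 (by omega)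
  simpa [dep1] using this

theorem wp_dAB_zero (N : ℕ) (w : List (Fin 2)) (hw : N < w.length) :
    wp (![dA N, dB N] : Fin 2 → Matrix (Fin (N + 1)) (Fin (N + 1)) ℝ) w = 0 := by
  classical
  ext i j
  rw [word_entry, if_neg]
  · rfl
  · rintro ⟨h, -⟩
    have := j.2
    omega

attribute [local instance] Matrix.linftyOpNormedRing Matrix.linftyOpNormedAlgebra

/-- the depth one coefficient is a matrix entry of `Phi`. -/
theorem Phi_entry {N : ℕ} (hN : 1 ≤ N) :
    (Phi (dA N) (dB N)) 0 (Fin.last N) = phi (dep1 N) := by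
  have h := Phi_eq_sum (![dA N, dB N] : Fin 2 → Matrix (Fin (N + 1)) (Fin (N + 1)) ℝ) (M := N)
    (wp_dAB_zero N)
  have h0 : Phi (dA N) (dB N) = ∑ w ∈ wordsLE (Fin 2) N, phi w • wp
    (![dA N, dB N] : Fin 2 → Matrix (Fin (N + 1)) (Fin (N + 1)) ℝ) w := h
  rw [h0, Matrix.sum_apply, Finset.sum_eq_single (dep1 N)]
  · rw [Matrix.smul_apply, word_entry_last hN, if_pos rfl]; simp
  · intro w _ hw
    rw [Matrix.smul_apply, word_entry_last hN, if_neg hw]; simp
  · intro h
    exfalso
    refine h (mem_wordsLE.2 ?_)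
    simp [dep1]
    omega

end Crest.Agent.R010.KZ

namespace Crest.Agent.R010

open KZ

attribute [local instance] Matrix.linftyOpNormedRing Matrix.linftyOpNormedAlgebra

/-- (EA) from the depth one statement for matrices. -/
theorem EA_of_depth_one
    (h : ∀ N : ℕ, 2 ≤ N → (Phi (dA N) (dB N)) 0 (Fin.last N) ≠ 0) : EA := by
  intro N
  refine ⟨PN N, isAssoc_PN N, fun n h2 hn => ?_⟩
  rw [cf_PN (by simp [dep1]; omega), ← Phi_entry (by omega)]
  exact h n h2

end Crest.Agent.R010
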