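import Crest.Agent.R010.KZj
import Crest.Agent.R010.KZv

/-! Row 10, part (EA): the truncated real associator exists (helper819, helper9, helper205,
helper10). -/

set_option autoImplicit false

noncomputable section

namespace Crest.Agent.R010

open KZ

attribute [local instance] Matrix.linftyOpNormedRing Matrix.linftyOpNormedAlgebra

/-- **(EA)** -/
theorem EA_holds : EA := by
  refine EA_of_depth_one fun N hN => ?_
  have hA : dA N = shA N := by
    ext i j
    simp only [dA, shA, Matrix.of_apply, eq_comm (a := (i : ℕ) + 1)]
  have hB : dB N = shB N := rfl
  rw [hA, hB]
  exact depth_one hN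

end Crest.Agent.R010
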