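import Crest.Agent.R010.KZh

/-! Row 10, module (E), analysis part 9 (helper9): multiplicativity of `Phi` on commuting pairs,
`Phi a 0 = 1`, `Phi 0 b = 1`. -/

set_option autoImplicit false

open Filter Topology NormedSpace

namespace Crest.Agent.R010.KZ

variable {A : Type*} [NormedRing A] [NormedAlgebra ℝ A] [CompleteSpace A]

omit [CompleteSpace A] in
theorem Xf_add (a b a' b' : A) (u : ℝ) : Xf (a + a') (b + b') u = Xf a b u + Xf a' b' u := by
  simp only [Xf, smul_add]; abel

omit [CompleteSpace A] in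
theorem commute_Xf {c a b : A} (hca : Commute c a) (hcb : Commute c b) (u : ℝ) :
    Commute c (Xf a b u) :=
  (hca.smul_right _).add_right (hcb.smul_right _)

/-- product of two commuting solutions. -/
theorem Gt_mul_Gf_mul {a b a' b' : A} (ha : IsNilpotent a) (ha' : IsNilpotent a')
    (h1 : Commute a a') (h2 : Commute a b') (h3 : Commute b a') (h4 : Commute b b')
    {z : ℝ} (hz0 : 0 < z) (hz1 : z < 1) :
    Gt (a + a') (b + b') z * (Gf a b z * Gf a' b' z) = 1 := by
  have hs : IsNilpotent (a + a') := h1.isNilpotent_add ha ha'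
  have hd : ∀ s, 0 < s → s < 1 →
      HasDerivAt (fun z => Gt (a + a') (b + b') z * (Gf a b z * Gf a' b' z)) 0 s := by
    intro s h0 h1'
    have hid : ∀ᶠ s in 𝓝 s, HasDerivAt (fun s : ℝ => s) 1 s :=
      Eventually.of_forall fun s => hasDerivAt_id s
    have e1 := hasDerivAt_Gt_curve (β := fun s => s) (β' := fun _ => 1) (b + b') hs hid
      continuousAt_const h0 h1'
    have e2 := hasDerivAt_Gf_curve (β := fun s => s) (β' := fun _ => 1) b ha hid
      continuousAt_const h0 h1'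
    have e3 := hasDerivAt_Gf_curve (β := fun s => s) (β' := fun _ => 1) b' ha' hid
      continuousAt_const h0 h1'
    refine (e1.fun_mul (e2.fun_mul e3)).congr_deriv ?_
    have hX : Gf a b s * Xf a' b' s = Xf a' b' s * Gf a b s := by
      have c1 : Commute a' (Gf a b s) := Gf_commute ha h1.symm h3.symm s
      have c2 : Commute b' (Gf a b s) := Gf_commute ha h2.symm h4.symm s
      exact (commute_Xf c1.symm c2.symm s).eq
    simp only [one_smul]
    rw [Xf_add, ← mul_assoc (Gf a b s) (Xf a' b' s), hX]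
    noncomm_ring
  refine eq_of_cj_log_tendsto hs
    (M := fun v => Ht (a + a') (b + b') 0 0 v * (Hf a b 0 0 v * Hf a' b' 0 0 v)) ?_ ?_
  · filter_upwards [Ioo_mem_nhdsGT (show (0 : ℝ) < 1 by norm_num)] with v hv
    rw [const_on_Ioo hd hz0 hz1 hv.1 hv.2, Gt_eq, Gf, Gf, cj]
    have c0 : Commute a (Hf a' b' 0 0 v) := Hf_commute ha' h1 h2 (Commute.zero_right _) 0 v
    have c1 : exp (Real.log v • a) * Hf a' b' 0 0 v = Hf a' b' 0 0 v * exp (Real.log v • a) :=
      ((c0.symm.smul_right _).exp_right).eq.symm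
    have c2 : exp (Real.log v • a) * exp (Real.log v • a') = exp (Real.log v • (a + a')) := by
      rw [← exp_add_comm' ((h1.smul_right _).smul_left _), smul_add]
    calc exp (Real.log v • (a + a')) * (exp (-(Real.log v • (a + a'))) *
          Ht (a + a') (b + b') 0 0 v * (Hf a b 0 0 v * exp (Real.log v • a) *
          (Hf a' b' 0 0 v * exp (Real.log v • a')))) * exp (-(Real.log v • (a + a')))
        = (exp (Real.log v • (a + a')) * exp (-(Real.log v • (a + a')))) *
          (Ht (a + a') (b + b') 0 0 v * (Hf a b 0 0 v * (exp (Real.log v • a) *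
          Hf a' b' 0 0 v) * exp (Real.log v • a'))) * exp (-(Real.log v • (a + a'))) := by
          noncomm_ring
      _ = Ht (a + a') (b + b') 0 0 v * (Hf a b 0 0 v * Hf a' b' 0 0 v) *
          ((exp (Real.log v • a) * exp (Real.log v • a')) * exp (-(Real.log v • (a + a')))) := by
          rw [exp_mul_exp_neg, one_mul, c1]; noncomm_ring
      _ = _ := by rw [c2, exp_mul_exp_neg, mul_one]
  · have hv : Tendsto (fun v : ℝ => v) (𝓝[>] 0) (𝓝 0) := tendsto_id.mono_left nhdsWithin_le_nhds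
    have hu : Tendsto (fun _ : ℝ => (0 : ℝ)) (𝓝[>] 0) (𝓝 0) := tendsto_const_nhds
    have e1 := tendsto_Ht hs (b + b') 0 hu hv (by simp) (by simp) (by simp)
    have e2 := tendsto_Hf ha b 0 hu hv (by simp) (by simp) (by simp)
    have e3 := tendsto_Hf ha' b' 0 hu hv (by simp) (by simp) (by simp)
    have := e1.mul (e2.mul e3)
    rwa [Ht_zero, Hf_zero, Hf_zero, one_mul, one_mul] at this

theorem Gf_add [IsDedekindFiniteMonoid A] {a b a' b' : A} (ha : IsNilpotent a)
    (ha' : IsNilpotent a')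
    (h1 : Commute a a') (h2 : Commute a b') (h3 : Commute b a') (h4 : Commute b b')
    {z : ℝ} (hz0 : 0 < z) (hz1 : z < 1) :
    Gf (a + a') (b + b') z = Gf a b z * Gf a' b' z := by
  have hs : IsNilpotent (a + a') := h1.isNilpotent_add ha ha'
  have e1 := Gt_mul_Gf_mul ha ha' h1 h2 h3 h4 hz0 hz1
  have e2 := mul_eq_one_comm.1 (Gt_mul_Gf (b + b') hs hz0 hz1)
  calc Gf (a + a') (b + b') z
      = Gf (a + a') (b + b') z * (Gt (a + a') (b + b') z * (Gf a b z * Gf a' b' z)) := by
        rw [e1, mul_one]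
    _ = Gf a b z * Gf a' b' z := by rw [← mul_assoc, e2, one_mul]

theorem Gt_add [IsDedekindFiniteMonoid A] {a b a' b' : A} (ha : IsNilpotent a)
    (ha' : IsNilpotent a')
    (h1 : Commute a a') (h2 : Commute a b') (h3 : Commute b a') (h4 : Commute b b')
    {z : ℝ} (hz0 : 0 < z) (hz1 : z < 1) :
    Gt (a + a') (b + b') z = Gt a' b' z * Gt a b z := by
  have e1 := Gt_mul_Gf_mul ha ha' h1 h2 h3 h4 hz0 hz1
  have e2 := mul_eq_one_comm.1 (Gt_mul_Gf b ha hz0 hz1)
  have e3 := mul_eq_one_comm.1 (Gt_mul_Gf b' ha' hz0 hz1)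
  calc Gt (a + a') (b + b') z
      = Gt (a + a') (b + b') z * (Gf a b z * (Gf a' b' z * Gt a' b' z) * Gt a b z) := by
        rw [e3, mul_one, e2, mul_one]
    _ = (Gt (a + a') (b + b') z * (Gf a b z * Gf a' b' z)) * (Gt a' b' z * Gt a b z) := by
        noncomm_ring
    _ = _ := by rw [e1, one_mul]

/-- **Multiplicativity on commuting pairs** (= the real associator is group-like). -/
theorem Phi_mul_of_commute [IsDedekindFiniteMonoid A] {a b a' b' : A} (ha : IsNilpotent a)
    (hb : IsNilpotent b) (ha' : IsNilpotent a') (hb' : IsNilpotent b')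
    (h1 : Commute a a') (h2 : Commute a b') (h3 : Commute b a') (h4 : Commute b b') :
    Phi (a + a') (b + b') = Phi a b * Phi a' b' := by
  have h0 : (0 : ℝ) < 1 / 2 := by norm_num
  have h01 : (1 / 2 : ℝ) < 1 := by norm_num
  rw [Phi, Phi, Phi, Gf_add ha ha' h1 h2 h3 h4 h0 h01, Gt_add hb hb' h4 h3 h2 h1 h0 h01]
  -- `Gt b' a'` commutes with `Gt b a` and `Gf a b`
  have c1 : Commute a' (Gt b a (1 / 2)) := Gt_commute hb h3.symm h1.symm _
  have c2 : Commute b' (Gt b a (1 / 2)) := Gt_commute hb h4.symm h2.symm _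
  have c3 : Commute a' (Gf a b (1 / 2)) := Gf_commute ha h1.symm h3.symm _
  have c4 : Commute b' (Gf a b (1 / 2)) := Gf_commute ha h2.symm h4.symm _
  have d1 : Commute (Gt b a (1 / 2)) (Gt b' a' (1 / 2)) := Gt_commute hb' c2.symm c1.symm _
  have d2 : Commute (Gf a b (1 / 2)) (Gt b' a' (1 / 2)) := Gt_commute hb' c4.symm c3.symm _
  rw [← d1.eq]
  calc Gt b a (1 / 2) * Gt b' a' (1 / 2) * (Gf a b (1 / 2) * Gf a' b' (1 / 2))
      = Gt b a (1 / 2) * (Gt b' a' (1 / 2) * Gf a b (1 / 2)) * Gf a' b' (1 / 2) := by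
        noncomm_ring
    _ = _ := by rw [← d2.eq]; noncomm_ring

omit [CompleteSpace A] in
theorem hc_zero_zero (a : A) (u : ℝ) (n : ℕ) : hc a 0 0 u (n + 1) = 0 := by
  rw [hc_succ]
  simp

omit [CompleteSpace A] in
theorem Hf_zero_zero (a : A) (u z : ℝ) : Hf a 0 0 u z = 1 := by
  rw [Hf, tsum_eq_single 0]
  · simp [hc_zero]
  · intro n hn
    obtain ⟨m, rfl⟩ := Nat.exists_eq_succ_of_ne_zero hn
    simp [hc_zero_zero]

omit [CompleteSpace A] in
theorem Gf_zero_right (a : A) (z : ℝ) : Gf a 0 z = exp (Real.log z • a) := by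
  rw [Gf, Hf_zero_zero, one_mul]

omit [CompleteSpace A] in
theorem Gt_zero_right (a : A) (z : ℝ) : Gt a 0 z = exp (-(Real.log z • a)) := by
  rw [Gt_eq, Ht]
  have : MulOpposite.op (-(0 : A)) = 0 := by simp
  rw [this, Hf_zero_zero, MulOpposite.unop_one, mul_one]

/-- `Gt 0 b z = (1-z)^(-b)`. -/
theorem Gt_zero_left_mul (b : A) {z : ℝ} (hz0 : 0 < z) (hz1 : z < 1) :
    Gt 0 b z * exp (Real.log (1 - z) • b) = 1 := by
  have hn : IsNilpotent (0 : A) := IsNilpotent.zero
  have hd : ∀ s, 0 < s → s < 1 →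
      HasDerivAt (fun z => Gt 0 b z * exp (Real.log (1 - z) • b)) 0 s := by
    intro s h0 h1'
    have hid : ∀ᶠ s in 𝓝 s, HasDerivAt (fun s : ℝ => s) 1 s :=
      Eventually.of_forall fun s => hasDerivAt_id s
    have e1 := hasDerivAt_Gt_curve (β := fun s => s) (β' := fun _ => 1) b hn hid
      continuousAt_const h0 h1'
    have hb' : HasDerivAt (fun s : ℝ => 1 - s) ((fun _ => (-1 : ℝ)) s) s := by
      simpa using (hasDerivAt_id s).const_sub 1
    have e2 := hasDerivAt_E b (β := fun s => 1 - s) (β' := fun _ => -1) hb' (by linarith)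
    refine (e1.fun_mul e2).congr_deriv ?_
    have e4 : (s - 1)⁻¹ = -(1 - s)⁻¹ := by rw [← inv_neg]; congr 1; ring
    simp only [one_smul, Xf, smul_zero, zero_add, e4]
    simp only [neg_smul, mul_neg, neg_neg, mul_smul_comm, smul_mul_assoc, mul_assoc, one_mul,
      neg_mul]
    exact add_neg_cancel _
  have ht : Tendsto (fun v => Gt 0 b v * exp (Real.log (1 - v) • b)) (𝓝[>] 0) (𝓝 1) := by
    have hv : Tendsto (fun v : ℝ => v) (𝓝[>] 0) (𝓝 0) := tendsto_id.mono_left nhdsWithin_le_nhds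
    have hu : Tendsto (fun _ : ℝ => (0 : ℝ)) (𝓝[>] 0) (𝓝 0) := tendsto_const_nhds
    have e1 := tendsto_Ht hn b 0 hu hv (by simp) (by simp) (by simp)
    have e2 : Tendsto (fun v : ℝ => exp (Real.log (1 - v) • b)) (𝓝[>] 0) (𝓝 1) := by
      have h3 : Tendsto (fun v : ℝ => Real.log (1 - v)) (𝓝[>] 0) (𝓝 (Real.log (1 - 0))) :=
        (tendsto_const_nhds.sub hv).log (by norm_num)
      have := (exp_cont.tendsto _).comp (h3.smul_const b)
      simpa [Function.comp_def] using this
    have h4 := e1.mul e2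
    rw [Ht_zero, one_mul] at h4
    refine h4.congr fun v => ?_
    rw [Gt_eq]; simp
  refine tendsto_nhds_unique ?_ ht
  refine tendsto_const_nhds.congr' ?_
  filter_upwards [Ioo_mem_nhdsGT (show (0 : ℝ) < 1 by norm_num)] with v hv
  exact const_on_Ioo hd hz0 hz1 hv.1 hv.2

theorem Gt_zero_left (b : A) {z : ℝ} (hz0 : 0 < z) (hz1 : z < 1) :
    Gt 0 b z = exp (-(Real.log (1 - z) • b)) := by
  have h := Gt_zero_left_mul b hz0 hz1
  calc Gt 0 b z = Gt 0 b z * (exp (Real.log (1 - z) • b) * exp (-(Real.log (1 - z) • b))) := by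
        rw [exp_mul_exp_neg, mul_one]
    _ = _ := by rw [← mul_assoc, h, one_mul]

theorem Gf_zero_left (b : A) {z : ℝ} (hz0 : 0 < z) (hz1 : z < 1) :
    Gf 0 b z = exp (Real.log (1 - z) • b) := by
  have h := Gt_mul_Gf b (IsNilpotent.zero : IsNilpotent (0 : A)) hz0 hz1
  rw [Gt_zero_left b hz0 hz1] at h
  calc Gf 0 b z = (exp (Real.log (1 - z) • b) * exp (-(Real.log (1 - z) • b))) * Gf 0 b z := by
        rw [exp_mul_exp_neg, one_mul]
    _ = _ := by rw [mul_assoc, h, mul_one]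

theorem Phi_zero_right' (a : A) : Phi a 0 = 1 := by
  have h0 : (0 : ℝ) < 1 / 2 := by norm_num
  have h01 : (1 / 2 : ℝ) < 1 := by norm_num
  rw [Phi, Gf_zero_right, Gt_zero_left a h0 h01]
  have : (1 - 1 / 2 : ℝ) = 1 / 2 := by norm_num
  rw [this, exp_neg_mul_exp]

theorem Phi_zero_left' (b : A) : Phi 0 b = 1 := by
  have h0 : (0 : ℝ) < 1 / 2 := by norm_num
  have h01 : (1 / 2 : ℝ) < 1 := by norm_num
  rw [Phi, Gt_zero_right, Gf_zero_left b h0 h01]
  have : (1 - 1 / 2 : ℝ) = 1 / 2 := by norm_num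
  rw [this, exp_neg_mul_exp]

theorem Phi_zero_right {a : A} (_ha : IsNilpotent a) : Phi a 0 = 1 := Phi_zero_right' a

theorem Phi_zero_left {b : A} (_hb : IsNilpotent b) : Phi 0 b = 1 := Phi_zero_left' b

end Crest.Agent.R010.KZ
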