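import Crest.Agent.R010.KZk

/-! Row 10, module (E), analysis part l (helper819): the universal word coefficients `phi` of `Phi`. -/

set_option autoImplicit false

open Filter Topology NormedSpace MulOpposite

namespace Crest.Agent.R010.KZ

attribute [local instance] Matrix.linftyOpNormedRing Matrix.linftyOpNormedAlgebra

/-- words of length at most `M` -/
abbrev WI (M : ℕ) : Type := {w : List (Fin 2) // w.length ≤ M}

noncomputable instance instFintypeWI (M : ℕ) : Fintype (WI M) :=
  (List.finite_length_le (Fin 2) M).fintype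

/-- the letter `i` acting on words by left concatenation -/
noncomputable def Lm (M : ℕ) (i : Fin 2) : Matrix (WI M) (WI M) ℝ :=
  Matrix.of fun w' w => if w'.1 = i :: w.1 then 1 else 0

theorem wp_Lm (M : ℕ) (v : List (Fin 2)) (w' w : WI M) :
    wp (Lm M) v w' w = if w'.1 = v ++ w.1 then 1 else 0 := by
  induction v generalizing w' with
  | nil =>
    simp only [wp_nil, Matrix.one_apply, List.nil_append, Subtype.ext_iff]
  | cons i v ih =>
    rw [wp_cons, Matrix.mul_apply]
    simp only [ih, Lm, Matrix.of_apply, List.cons_append]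
    by_cases h : w'.1 = i :: (v ++ w.1)
    · have hl : (v ++ w.1).length ≤ M := by
        have := w'.2
        rw [h, List.length_cons] at this
        omega
      rw [Finset.sum_eq_single (⟨v ++ w.1, hl⟩ : WI M)]
      · simp [h]
      · intro b _ hb
        have : b.1 ≠ v ++ w.1 := fun h' => hb (Subtype.ext h')
        simp [this]
      · intro h'; exact absurd (Finset.mem_univ _) h'
    · rw [if_neg h]
      refine Finset.sum_eq_zero fun b _ => ?_
      by_cases hb : b.1 = v ++ w.1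
      · rw [hb, if_neg h]; simp
      · simp [hb]

theorem wp_Lm_zero {M K : ℕ} (hMK : M ≤ K) (v : List (Fin 2)) (hv : K < v.length) :
    wp (Lm M) v = 0 := by
  ext w' w
  rw [wp_Lm, if_neg]
  · rfl
  · intro h
    have := w'.2
    rw [h, List.length_append] at this
    omega

/-- the empty word -/
def emp (M : ℕ) : WI M := ⟨[], by simp⟩

/-- entries of `Phi` of the universal matrices of order `M` -/
noncomputable def phiM (M : ℕ) (w : List (Fin 2)) : ℝ :=
  if h : w.length ≤ M then Phi (Lm M 0) (Lm M 1) ⟨w, h⟩ (emp M) else 0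

/-- **the word coefficients of the KZ associator** -/
noncomputable def phi (w : List (Fin 2)) : ℝ := phiM w.length w

theorem nilp_of_words {A : Type*} [Ring A] {ι : Type*} (R : ι → A) {M : ℕ}
    (hM : ∀ w : List ι, M < w.length → wp R w = 0) (i : ι) : IsNilpotent (R i) := by
  refine ⟨M + 1, ?_⟩
  have h := hM (List.replicate (M + 1) i) (by simp)
  simpa [wp] using h

theorem coeff_Lm {M K : ℕ} (hMK : M ≤ K) (c : List (Fin 2) → ℝ) (w : WI M) :
    (∑ v ∈ wordsLE (Fin 2) K, c v • wp (Lm M) v) w (emp M) = c w.1 := by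
  rw [Matrix.sum_apply, Finset.sum_eq_single w.1]
  · rw [Matrix.smul_apply, wp_Lm]
    simp [emp]
  · intro v _ hv
    rw [Matrix.smul_apply, wp_Lm, if_neg]
    · simp
    · simpa [emp] using hv.symm
  · intro h
    exact absurd (mem_wordsLE.2 (w.2.trans hMK)) h

theorem Phi_eq_sum_phiM {A : Type*} [NormedRing A] [NormedAlgebra ℝ A] [CompleteSpace A]
    (R : Fin 2 → A) {M : ℕ} (hM : ∀ w : List (Fin 2), M < w.length → wp R w = 0) :
    Phi (R 0) (R 1) = ∑ w ∈ wordsLE (Fin 2) M, phiM M w • wp R w := by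
  set P := A × Matrix (WI M) (WI M) ℝ with hP
  set R' : Fin 2 → P := fun i => (R i, Lm M i) with hR'
  have hfst : ∀ w : List (Fin 2), (wp R' w).1 = wp R w := by
    intro w
    exact map_wp (MonoidHom.fst A (Matrix (WI M) (WI M) ℝ)) R' w
  have hsnd : ∀ w : List (Fin 2), (wp R' w).2 = wp (Lm M) w := by
    intro w
    exact map_wp (MonoidHom.snd A (Matrix (WI M) (WI M) ℝ)) R' w
  have hM' : ∀ w : List (Fin 2), M < w.length → wp R' w = 0 := by
    intro w hw
    refine Prod.ext ?_ ?_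
    · rw [hfst, hM w hw]; rfl
    · rw [hsnd, wp_Lm_zero le_rfl w hw]; rfl
  have h0 : IsNilpotent (R' 0) := nilp_of_words R' hM' 0
  have h1 : IsNilpotent (R' 1) := nilp_of_words R' hM' 1
  have := finiteDimensional_adjoin R' hM'
  have hcl : IsClosed ((Algebra.adjoin ℝ (Set.range R') : Subalgebra ℝ P) : Set P) := by
    exact Submodule.closed_of_finiteDimensional
      (Subalgebra.toSubmodule (Algebra.adjoin ℝ (Set.range R')))
  have hmem : Phi (R' 0) (R' 1) ∈ Algebra.adjoin ℝ (Set.range R') :=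
    Phi_mem _ hcl h0 h1 (Algebra.subset_adjoin ⟨0, rfl⟩) (Algebra.subset_adjoin ⟨1, rfl⟩)
  obtain ⟨c, hc⟩ := exists_coeff R' hM' hmem
  have hA : Phi (R 0) (R 1) = ∑ w ∈ wordsLE (Fin 2) M, c w • wp R w := by
    have h := map_Phi (AlgHom.fst ℝ A (Matrix (WI M) (WI M) ℝ)) continuous_fst h0 h1
    rw [hc, map_sum] at h
    rw [show Phi (R 0) (R 1) = _ from h.symm]
    refine Finset.sum_congr rfl fun w _ => ?_
    rw [map_smul, ← hfst w]
    rfl
  have hB : Phi (Lm M 0) (Lm M 1) = ∑ w ∈ wordsLE (Fin 2) M, c w • wp (Lm M) w := by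
    have h := map_Phi (AlgHom.snd ℝ A (Matrix (WI M) (WI M) ℝ)) continuous_snd h0 h1
    rw [hc, map_sum] at h
    rw [show Phi (Lm M 0) (Lm M 1) = _ from h.symm]
    refine Finset.sum_congr rfl fun w _ => ?_
    rw [map_smul, ← hsnd w]
    rfl
  rw [hA]
  refine Finset.sum_congr rfl fun w hw => ?_
  rw [phiM, dif_pos (mem_wordsLE.1 hw), hB, coeff_Lm le_rfl]

theorem phiM_eq_phi {M : ℕ} {w : List (Fin 2)} (hw : w.length ≤ M) : phiM M w = phi w := by
  have h := Phi_eq_sum_phiM (Lm w.length) (M := M) (fun v hv => wp_Lm_zero hw v hv)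
  have h2 : phiM w.length w = Phi (Lm w.length 0) (Lm w.length 1) ⟨w, le_rfl⟩ (emp w.length) := by
    rw [phiM, dif_pos le_rfl]
  rw [phi, h2, h, coeff_Lm hw]

/-- **universality of the coefficients.** -/
theorem Phi_eq_sum {A : Type*} [NormedRing A] [NormedAlgebra ℝ A] [CompleteSpace A]
    (R : Fin 2 → A) {M : ℕ} (hM : ∀ w : List (Fin 2), M < w.length → wp R w = 0) :
    Phi (R 0) (R 1) = ∑ w ∈ wordsLE (Fin 2) M, phi w • wp R w := by
  rw [Phi_eq_sum_phiM R hM]
  refine Finset.sum_congr rfl fun w hw => ?_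
  rw [phiM_eq_phi (mem_wordsLE.1 hw)]

section Zero
variable {A : Type*} [NormedRing A] [NormedAlgebra ℝ A]

theorem hc_all_zero (u : ℝ) (n : ℕ) : hc (0 : A) 0 0 u (n + 1) = 0 := by
  rw [hc_succ, Finset.sum_eq_zero, map_zero, neg_zero]
  intro k _
  simp

theorem Hf_all_zero (u v : ℝ) : Hf (0 : A) 0 0 u v = 1 := by
  rw [Hf, tsum_eq_single 0]
  · simp [hc_zero]
  · intro n hn
    obtain ⟨m, rfl⟩ := Nat.exists_eq_succ_of_ne_zero hn
    rw [Nat.succ_eq_add_one, hc_all_zero, smul_zero]

theorem Gf_zero_zero (z : ℝ) : Gf (0 : A) 0 z = 1 := by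
  rw [Gf, Hf_all_zero, smul_zero, exp_zero, one_mul]

theorem Gt_zero_zero (z : ℝ) : Gt (0 : A) 0 z = 1 := by
  have h : (op (-0 : A)) = 0 := by rw [neg_zero]; rfl
  rw [Gt, h, Gf_zero_zero]
  rfl

theorem Phi_zero_zero : Phi (0 : A) 0 = 1 := by
  rw [Phi, Gf_zero_zero, Gt_zero_zero, one_mul]

end Zero

theorem phi_nil : phi [] = 1 := by
  have h0 : ∀ i, Lm 0 i = 0 := by
    intro i
    ext w' w
    have h1 : w'.1 = [] := List.length_eq_zero_iff.1 (Nat.le_zero.1 w'.2)
    simp [Lm, h1]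
  have h := Phi_eq_sum (Lm 0) (M := 0) (fun v hv => wp_Lm_zero le_rfl v hv)
  have h2 := coeff_Lm (M := 0) (K := 0) le_rfl phi (emp 0)
  rw [← h, h0, h0, Phi_zero_zero] at h2
  exact h2.symm.trans (Matrix.one_apply_eq _)

end Crest.Agent.R010.KZ
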