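import Crest.Agent.R010.EDefs
import Crest.Agent.R010.KZi
import Crest.Agent.R010.KZl

/-! Row 10, part (EA), assembly (helper819): the truncated real associator `PN N` built from the word
coefficients `phi` of the KZ associator satisfies `IsAssoc N`. -/

set_option autoImplicit false

noncomputable section

namespace Crest.Agent.R010

open KZ

attribute [local instance] Matrix.linftyOpNormedRing Matrix.linftyOpNormedAlgebra
attribute [local instance 100] LieRing.ofAssociativeRing

/-- the truncation of the KZ associator -/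
def PN (N : ℕ) : FreeAlgebra ℝ (Fin 2) :=
  ∑ w ∈ wordsLE (Fin 2) N, phi w • wp (FreeAlgebra.ι ℝ) w

theorem ev_ι {K : Type*} [CommRing K] {B : Type*} [Ring B] [Algebra K B] (a b : B) (i : Fin 2) :
    ev (K := K) a b (FreeAlgebra.ι K i) = (![a, b] : Fin 2 → B) i := by
  rw [ev, FreeAlgebra.lift_ι_apply]
  fin_cases i <;> simp

theorem ev_wp {K : Type*} [CommRing K] {B : Type*} [Ring B] [Algebra K B] (a b : B)
    (w : List (Fin 2)) :
    ev (K := K) a b (wp (FreeAlgebra.ι K) w) = wp (![a, b] : Fin 2 → B) w := by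
  rw [map_wp]
  congr 1
  funext i
  exact ev_ι a b i

theorem ev_PN {B : Type*} [Ring B] [Algebra ℝ B] (N : ℕ) (a b : B) :
    ev a b (PN N) = ∑ w ∈ wordsLE (Fin 2) N, phi w • wp (![a, b] : Fin 2 → B) w := by
  rw [PN, map_sum]
  refine Finset.sum_congr rfl fun w _ => ?_
  rw [map_smul, ev_wp]

theorem map_ev {K : Type*} [CommRing K] {B C : Type*} [Ring B] [Algebra K B] [Ring C] [Algebra K C]
    (f : B →ₐ[K] C) (a b : B) (p : FreeAlgebra K (Fin 2)) : f (ev a b p) = ev (f a) (f b) p := by
  have h : f.comp (ev a b) = ev (f a) (f b) := by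
    apply FreeAlgebra.hom_ext
    funext i
    simp only [Function.comp, AlgHom.comp_apply, ev_ι]
    fin_cases i <;> simp
  exact DFunLike.congr_fun h p

theorem cf_wp {K : Type*} [CommRing K] {X : Type*} [DecidableEq X] (w v : List X) :
    cf w (wp (FreeAlgebra.ι K) v) = if v = w then 1 else 0 := by
  have h : ∀ v : List X, FreeAlgebra.equivMonoidAlgebraFreeMonoid (R := K) (wp (FreeAlgebra.ι K) v) =
      MonoidAlgebra.single (FreeMonoid.ofList v) 1 := by
    intro v
    induction v with
    | nil => simp [MonoidAlgebra.one_def]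
    | cons i v ih =>
      rw [wp_cons, map_mul, ih]
      have : FreeAlgebra.equivMonoidAlgebraFreeMonoid (R := K) (FreeAlgebra.ι K i) =
          MonoidAlgebra.single (FreeMonoid.of i) 1 := by
        simp [FreeAlgebra.equivMonoidAlgebraFreeMonoid, MonoidAlgebra.of_apply]
      rw [this, MonoidAlgebra.single_mul_single, one_mul]
      rfl
  change (FreeAlgebra.equivMonoidAlgebraFreeMonoid (R := K) (wp (FreeAlgebra.ι K) v)).coeff
    (FreeMonoid.ofList w) = _
  classical
  rw [h, MonoidAlgebra.coeff_single, Finsupp.single_apply]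
  have e : (FreeMonoid.ofList v = FreeMonoid.ofList w) ↔ v = w := FreeMonoid.ofList.injective.eq_iff
  simp [e]

theorem cf_PN {N : ℕ} {w : List (Fin 2)} (hw : w.length ≤ N) : cf w (PN N) = phi w := by
  rw [PN, map_sum, Finset.sum_eq_single w]
  · rw [map_smul, cf_wp, if_pos rfl]; simp
  · intro v _ hv
    rw [map_smul, cf_wp, if_neg hv, smul_zero]
  · intro h
    exact absurd (mem_wordsLE.2 hw) h

/-- all longer products vanish too. -/
theorem Nilp.wp_eq_zero {N : ℕ} {ι B : Type*} [Ring B] {x : ι → B} (h : Nilp N x) {w : List ι}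
    (hw : N < w.length) : wp x w = 0 := by
  have h1 : wp x (w.take (N + 1)) = 0 := h _ (by rw [List.length_take]; omega)
  have h2 : wp x w = wp x (w.take (N + 1)) * wp x (w.drop (N + 1)) := by
    rw [← wp_append, List.take_append_drop]
  rw [h2, h1, zero_mul]

theorem wp_mem_span {B : Type*} [Ring B] [Algebra ℝ B] {ι κ : Type*} (x : ι → B) (y : κ → B)
    (hy : ∀ k, y k ∈ Submodule.span ℝ (Set.range x)) (w : List κ) :
    wp y w ∈ Submodule.span ℝ ((fun v => wp x v) '' {v : List ι | v.length = w.length}) := by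
  induction w with
  | nil =>
    refine Submodule.subset_span ⟨[], rfl, ?_⟩
    simp
  | cons k w ih =>
    rw [wp_cons]
    have h := Submodule.mul_mem_mul (hy k) ih
    rw [Submodule.span_mul_span] at h
    refine Submodule.span_mono ?_ h
    rintro _ ⟨_, ⟨i, rfl⟩, _, ⟨v, hv, rfl⟩, rfl⟩
    refine ⟨i :: v, ?_, ?_⟩
    · simp only [Set.mem_ofPred_eq, List.length_cons] at hv ⊢
      omega
    · simp

theorem Nilp.wp_eq_zero_of_span {N : ℕ} {ι κ B : Type*} [Ring B] [Algebra ℝ B] {x : ι → B}
    (h : Nilp N x) (y : κ → B) (hy : ∀ k, y k ∈ Submodule.span ℝ (Set.range x)) {w : List κ}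
    (hw : N < w.length) : wp y w = 0 := by
  have h1 := wp_mem_span x y hy w
  have h2 : Submodule.span ℝ ((fun v => wp x v) '' {v : List ι | v.length = w.length}) = ⊥ := by
    rw [Submodule.span_eq_bot]
    rintro _ ⟨v, hv, rfl⟩
    exact h.wp_eq_zero (by simp only [Set.mem_ofPred_eq] at hv; omega)
  rw [h2] at h1
  exact (Submodule.mem_bot ℝ).1 h1

/-- transfer to matrices. -/
theorem exists_matrix {N : ℕ} {ι B : Type*} [Finite ι] [Ring B] [Algebra ℝ B] {x : ι → B}
    (h : Nilp N x) : ∃ (n : ℕ) (S : Subalgebra ℝ B) (f : S →ₐ[ℝ] Matrix (Fin n) (Fin n) ℝ),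
      (∀ i, x i ∈ S) ∧ Function.Injective f := by
  have := finiteDimensional_adjoin x (M := N) (fun w hw => h.wp_eq_zero hw)
  exact ⟨_, Algebra.adjoin ℝ (Set.range x), Algebra.leftMulMatrix (Module.finBasis ℝ _),
    fun i => Algebra.subset_adjoin ⟨i, rfl⟩, Algebra.leftMulMatrix_injective _⟩

/-- in matrices, `PN` evaluates to the analytic `Phi`. -/
theorem ev_PN_matrix {n N : ℕ} {ι : Type*} {x : ι → Matrix (Fin n) (Fin n) ℝ} (h : Nilp N x)
    {a b : Matrix (Fin n) (Fin n) ℝ} (ha : a ∈ Submodule.span ℝ (Set.range x))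
    (hb : b ∈ Submodule.span ℝ (Set.range x)) : ev a b (PN N) = Phi a b := by
  have h1 := Phi_eq_sum (![a, b] : Fin 2 → Matrix (Fin n) (Fin n) ℝ) (M := N)
    (fun w hw => h.wp_eq_zero_of_span _ (by
      intro k
      fin_cases k
      · exact ha
      · exact hb) hw)
  rw [ev_PN, ← h1]
  rfl

theorem Nilp.map {N : ℕ} {ι B C : Type*} [Ring B] [Ring C] {x : ι → B} (h : Nilp N x)
    {F : Type*} [FunLike F B C] [RingHomClass F B C] (f : F) : Nilp N (fun i => f (x i)) := by
  intro l hl
  have := congrArg f (h l hl)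
  rw [map_zero, map_list_prod, List.map_map] at this
  exact this

theorem Nilp.of_injective {N : ℕ} {ι B C : Type*} [Ring B] [Ring C] {x : ι → B} {F : Type*}
    [FunLike F B C] [RingHomClass F B C] (f : F) (hf : Function.Injective f) {y : ι → C}
    (hy : ∀ i, f (x i) = y i) (h : Nilp N y) : Nilp N x := by
  intro l hl
  apply hf
  rw [map_zero, map_list_prod, List.map_map, ← h l hl]
  congr 2
  funext i
  exact hy i

theorem Nilp.isNilpotent {N : ℕ} {ι B : Type*} [Ring B] {x : ι → B} (h : Nilp N x) (i : ι) :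
    IsNilpotent (x i) :=
  nilp_of_words x (fun _ hw => h.wp_eq_zero hw) i

theorem Nilp.isNilpotent_of_span {N : ℕ} {ι B : Type*} [Ring B] [Algebra ℝ B] {x : ι → B}
    (h : Nilp N x) {a : B} (ha : a ∈ Submodule.span ℝ (Set.range x)) : IsNilpotent a :=
  nilp_of_words (fun _ : Unit => a) (M := N)
    (fun _ hw => h.wp_eq_zero_of_span _ (fun _ => ha) hw) ()

theorem isAssoc_PN (N : ℕ) : IsAssoc N (PN N) := by
  constructor
  · intro B _ _ R hC hN
    obtain ⟨n, S, f, hS, hf⟩ := exists_matrix hN
    set R' : Fin 5 → S := fun i => ⟨R i, hS i⟩ with hR'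
    set r : Fin 5 → Matrix (Fin n) (Fin n) ℝ := fun i => f (R' i) with hr
    have hcomm : ∀ i, R i * R (i + 1) = R (i + 1) * R i := by
      intro i
      have := hC.1 i
      rw [Ring.lie_def] at this
      exact sub_eq_zero.1 this
    have hsum := hC.2
    simp only [Ring.lie_def, Fin.sum_univ_five] at hsum
    have hcomm' : ∀ i, r i * r (i + 1) = r (i + 1) * r i := by
      intro i
      rw [hr]
      simp only
      rw [← map_mul, ← map_mul]
      congr 1
      exact Subtype.ext (hcomm i)
    have hN' : Nilp N R' := Nilp.of_injective S.val Subtype.val_injective (fun _ => rfl) hN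
    have hNr : Nilp N r := hN'.map f
    have hP : Pent (r 0) (r 1) (r 2) (r 3) (r 4) := by
      refine ⟨hcomm' 0, hcomm' 1, hcomm' 2, hcomm' 3, hcomm' 4, ?_⟩
      have : f ((R' 0 * R' 2 - R' 2 * R' 0) + (R' 1 * R' 3 - R' 3 * R' 1) +
          (R' 2 * R' 4 - R' 4 * R' 2) + (R' 3 * R' 0 - R' 0 * R' 3) +
          (R' 4 * R' 1 - R' 1 * R' 4)) = f 0 := by
        congr 1
        exact Subtype.ext hsum
      simpa only [map_add, map_sub, map_mul, map_zero] using this
    have hpent := pentagon hP (hNr.isNilpotent 0) (hNr.isNilpotent 1) (hNr.isNilpotent 2)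
      (hNr.isNilpotent 3) (hNr.isNilpotent 4)
    have hmem : ∀ i, r i ∈ Submodule.span ℝ (Set.range r) := fun i =>
      Submodule.subset_span ⟨i, rfl⟩
    rw [← ev_PN_matrix hNr (hmem 4) (hmem 1), ← ev_PN_matrix hNr (hmem 3) (hmem 0),
      ← ev_PN_matrix hNr (hmem 2) (hmem 4), ← ev_PN_matrix hNr (hmem 1) (hmem 3),
      ← ev_PN_matrix hNr (hmem 0) (hmem 2)] at hpent
    have h1 : ev (R' 4) (R' 1) (PN N) * ev (R' 3) (R' 0) (PN N) * ev (R' 2) (R' 4) (PN N) *
        ev (R' 1) (R' 3) (PN N) * ev (R' 0) (R' 2) (PN N) = 1 := by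
      apply hf
      simp only [map_mul, map_ev, map_one]
      exact hpent
    have h2 := congrArg S.val h1
    simp only [map_mul, map_ev, map_one] at h2
    exact h2
  · intro B _ _ a b a' b' hN h1 h2 h3 h4
    obtain ⟨n, S, f, hS, hf⟩ := exists_matrix hN
    set A : S := ⟨a, hS 0⟩ with hA
    set A' : S := ⟨a', hS 2⟩ with hA'
    set b₁ : S := ⟨b, hS 1⟩ with hb₁
    set b₁' : S := ⟨b', hS 3⟩ with hb₁'
    have hN' : Nilp N ![A, b₁, A', b₁'] :=
      Nilp.of_injective S.val Subtype.val_injective (fun i => by fin_cases i <;> rfl) hN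
    have hNr := hN'.map f
    have m0 : f A ∈ Submodule.span ℝ (Set.range fun i => f (![A, b₁, A', b₁'] i)) :=
      Submodule.subset_span ⟨0, rfl⟩
    have m1 : f b₁ ∈ Submodule.span ℝ (Set.range fun i => f (![A, b₁, A', b₁'] i)) :=
      Submodule.subset_span ⟨1, rfl⟩
    have m2 : f A' ∈ Submodule.span ℝ (Set.range fun i => f (![A, b₁, A', b₁'] i)) :=
      Submodule.subset_span ⟨2, rfl⟩
    have m3 : f b₁' ∈ Submodule.span ℝ (Set.range fun i => f (![A, b₁, A', b₁'] i)) :=
      Submodule.subset_span ⟨3, rfl⟩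
    have c1 : Commute A A' := Subtype.ext h1
    have c2 : Commute A b₁' := Subtype.ext h2
    have c3 : Commute b₁ A' := Subtype.ext h3
    have c4 : Commute b₁ b₁' := Subtype.ext h4
    have hmul := Phi_mul_of_commute (hNr.isNilpotent_of_span m0) (hNr.isNilpotent_of_span m1)
      (hNr.isNilpotent_of_span m2) (hNr.isNilpotent_of_span m3) (c1.map f) (c2.map f) (c3.map f)
      (c4.map f)
    rw [← ev_PN_matrix hNr m0 m1, ← ev_PN_matrix hNr m2 m3,
      ← ev_PN_matrix hNr (add_mem m0 m2) (add_mem m1 m3)] at hmul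
    have h5 : ev (A + A') (b₁ + b₁') (PN N) = ev A b₁ (PN N) * ev A' b₁' (PN N) := by
      apply hf
      simp only [map_mul, map_ev, map_add]
      exact hmul
    have h6 := congrArg S.val h5
    simp only [map_mul, map_ev, map_add] at h6
    exact h6
  · intro B _ _ a hN
    obtain ⟨n, S, f, hS, hf⟩ := exists_matrix hN
    set A : S := ⟨a, hS 0⟩ with hA
    have hN' : Nilp N ![A] :=
      Nilp.of_injective S.val Subtype.val_injective (fun i => by fin_cases i; rfl) hN
    have hNr := hN'.map f
    have m0 : f A ∈ Submodule.span ℝ (Set.range fun i => f (![A] i)) :=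
      Submodule.subset_span ⟨0, rfl⟩
    have h5 : ev A 0 (PN N) = 1 := by
      apply hf
      rw [map_ev, map_zero, map_one, ev_PN_matrix hNr m0 (Submodule.zero_mem _),
        Phi_zero_right (hNr.isNilpotent_of_span m0)]
    have h6 := congrArg S.val h5
    simp only [map_ev, map_one, map_zero] at h6
    exact h6
  · intro B _ _ a hN
    obtain ⟨n, S, f, hS, hf⟩ := exists_matrix hN
    set A : S := ⟨a, hS 0⟩ with hA
    have hN' : Nilp N ![A] :=
      Nilp.of_injective S.val Subtype.val_injective (fun i => by fin_cases i; rfl) hN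
    have hNr := hN'.map f
    have m0 : f A ∈ Submodule.span ℝ (Set.range fun i => f (![A] i)) :=
      Submodule.subset_span ⟨0, rfl⟩
    have h5 : ev 0 A (PN N) = 1 := by
      apply hf
      rw [map_ev, map_zero, map_one, ev_PN_matrix hNr (Submodule.zero_mem _) m0,
        Phi_zero_left (hNr.isNilpotent_of_span m0)]
    have h6 := congrArg S.val h5
    simp only [map_ev, map_one, map_zero] at h6
    exact h6

end Crest.Agent.R010
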