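import Crest.Agent.R010.EBMain

/-!
Row 10, module (E-B), part 7: `EB2` from the injectivity `S1` of `iota`.
-/

set_option autoImplicit false
set_option linter.unusedSectionVars false
set_option linter.unusedVariables false
set_option linter.unusedSimpArgs false

noncomputable section

open Crest.NumberTheoryR.GT

namespace Crest.Agent.R010.EB

variable {M : Type*} [LieRing M] [LieAlgebra ℚ M]

theorem rconf_of_conf5 {R : Fin 5 → M} (h : Conf5 R) : RConf (fun i => R (3 * i)) := by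
  obtain ⟨h1, h2⟩ := h
  refine ⟨fun i => ?_, ?_⟩
  · have e : (3 : Fin 5) * (i + 2) = 3 * i + 1 := by revert i; decide
    simp only [e]
    exact h1 _
  · rw [Fin.sum_univ_five] at h2 ⊢
    change ⁅R 0, R 3⁆ + ⁅R 3, R 1⁆ + ⁅R 1, R 4⁆ + ⁅R 4, R 2⁆ + ⁅R 2, R 0⁆ = 0
    change ⁅R 0, R 2⁆ + ⁅R 1, R 3⁆ + ⁅R 2, R 4⁆ + ⁅R 3, R 0⁆ + ⁅R 4, R 1⁆ = 0 at h2
    rw [← neg_eq_zero, ← h2, ← lie_skew (R 0) (R 3), ← lie_skew (R 3) (R 1), ← lie_skew (R 1) (R 4),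
      ← lie_skew (R 4) (R 2), ← lie_skew (R 2) (R 0)]
    abel

/-- Identity `(*)`. -/
theorem star {X : Fin 5 → Fin 5 → M} (hX : Conf X) (Q : Fin 5 → Fin 5 → Fin 5 → M)
    (anti : ∀ a b c, a ≠ b → b ≠ c → a ≠ c → Q c b a = - Q a b c)
    (three : ∀ a b c, a ≠ b → b ≠ c → a ≠ c → Q a b c + Q b c a + Q c a b = 0)
    (comm : ∀ a b c d e : Fin 5, a ≠ b → b ≠ c → a ≠ c → d ≠ e → d ≠ a → d ≠ b → d ≠ c →
      e ≠ a → e ≠ b → e ≠ c → ⁅X d e, Q a b c⁆ = 0)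
    (pent : ∀ a b c d e : Fin 5, Function.Injective ![b, a, e, d, c] →
      Q a b c + Q b c d + Q c d e + Q d e a + Q e a b = 0)
    (S : ∀ a b c, a ≠ b → b ≠ c → a ≠ c → ⁅X b c, Q a b c⁆ + ⁅X a c, Q b a c⁆ = 0) :
    ⁅Q 2 1 0, X 1 2⁆ + ⁅Q 4 3 2 + Q 1 0 4, X 0 4⁆ = ⁅Q 2 4 3 + Q 3 0 1, X 0 3⁆ := by
  have p1 : ⁅X 0 4, Q 0 1 2 + Q 1 2 3 + Q 2 3 4 + Q 3 4 0 + Q 4 0 1⁆ = 0 := by
    rw [pent 0 1 2 3 4 (by decide), lie_zero]
  have p2 : ⁅X 0 3, Q 0 1 2 + Q 1 2 4 + Q 2 4 3 + Q 4 3 0 + Q 3 0 1⁆ = 0 := by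
    rw [pent 0 1 2 4 3 (by decide), lie_zero]
  have c1 : ⁅X 0 4, Q 1 2 3⁆ = 0 := comm 1 2 3 0 4 (by decide) (by decide) (by decide)
    (by decide) (by decide) (by decide) (by decide) (by decide) (by decide) (by decide)
  have c2 : ⁅X 0 3, Q 1 2 4⁆ = 0 := comm 1 2 4 0 3 (by decide) (by decide) (by decide)
    (by decide) (by decide) (by decide) (by decide) (by decide) (by decide) (by decide)
  have s1 : ⁅X 4 0, Q 3 4 0⁆ + ⁅X 3 0, Q 4 3 0⁆ = 0 := S 3 4 0 (by decide) (by decide) (by decide)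
  have s2 : ⁅X 2 0, Q 1 2 0⁆ + ⁅X 1 0, Q 2 1 0⁆ = 0 := S 1 2 0 (by decide) (by decide) (by decide)
  have s3 : ⁅X 1 2, Q 0 1 2⁆ + ⁅X 0 2, Q 1 0 2⁆ = 0 := S 0 1 2 (by decide) (by decide) (by decide)
  have rs : X 0 4 = - X 0 1 - X 0 2 - X 0 3 := by
    have a1 := hX.sum3 0 1 2 3 4 (by decide) (by decide) (by decide) (by decide) (by decide)
      (by decide) (by decide) (by decide) (by decide) (by decide)
    have a2 := hX.sum3 0 3 4 1 2 (by decide) (by decide) (by decide) (by decide) (by decide)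
      (by decide) (by decide) (by decide) (by decide) (by decide)
    rw [← a2] at a1
    rw [← sub_eq_zero]
    have : X 0 4 - (-X 0 1 - X 0 2 - X 0 3) =
        (X 0 1 + (X 0 3 + X 3 4 + X 0 4) + X 0 2) - X 3 4 := by abel
    rw [this, a1, sub_self]
  have t1 : Q 2 0 1 = - Q 0 1 2 - Q 1 2 0 := by
    have := three 0 1 2 (by decide) (by decide) (by decide)
    rw [← sub_eq_zero, ← this]; abel
  have n1 : Q 2 1 0 = - Q 0 1 2 := anti 0 1 2 (by decide) (by decide) (by decide)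
  have n2 : Q 1 0 2 = - Q 2 0 1 := anti 2 0 1 (by decide) (by decide) (by decide)
  have n3 : Q 4 3 2 = - Q 2 3 4 := anti 2 3 4 (by decide) (by decide) (by decide)
  have n4 : Q 1 0 4 = - Q 4 0 1 := anti 4 0 1 (by decide) (by decide) (by decide)
  have y1 : X 4 0 = X 0 4 := hX.symm _ _
  have y2 : X 3 0 = X 0 3 := hX.symm _ _
  have y3 : X 2 0 = X 0 2 := hX.symm _ _
  have y4 : X 1 0 = X 0 1 := hX.symm _ _
  rw [← sub_eq_zero]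
  have key : ⁅Q 2 1 0, X 1 2⁆ + ⁅Q 4 3 2 + Q 1 0 4, X 0 4⁆ - ⁅Q 2 4 3 + Q 3 0 1, X 0 3⁆ =
      (⁅X 1 2, Q 0 1 2⁆ + ⁅X 0 2, Q 1 0 2⁆)
      + ⁅X 0 4, Q 0 1 2 + Q 1 2 3 + Q 2 3 4 + Q 3 4 0 + Q 4 0 1⁆
      + ⁅X 0 3, Q 0 1 2 + Q 1 2 4 + Q 2 4 3 + Q 4 3 0 + Q 3 0 1⁆
      - ⁅X 0 4, Q 1 2 3⁆ - ⁅X 0 3, Q 1 2 4⁆
      - (⁅X 4 0, Q 3 4 0⁆ + ⁅X 3 0, Q 4 3 0⁆)
      - (⁅X 2 0, Q 1 2 0⁆ + ⁅X 1 0, Q 2 1 0⁆) := by
    rw [y1, y2, y3, y4, n1, n2, n3, n4, t1, rs]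
    rw [← lie_skew (-Q 0 1 2) (X 1 2), ← lie_skew (-Q 2 3 4 + -Q 4 0 1) (-X 0 1 - X 0 2 - X 0 3),
      ← lie_skew (Q 2 4 3 + Q 3 0 1) (X 0 3)]
    simp only [lie_add, lie_sub, lie_neg, add_lie, sub_lie, neg_lie, neg_neg, neg_sub]
    abel
  rw [key, p1, p2, c1, c2, s1, s2, s3]
  simp

/-- `EB2` from the injectivity of `iota`. -/
theorem EB2_of (hS1 : S1) : EB2 := by
  intro n p hn3 hpW M _ _ R hR
  have hn : 2 ≤ n := by omega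
  obtain ⟨hgrt, hp⟩ := hpW
  obtain ⟨⟨ha, h3⟩, hpent⟩ := hgrt
  have ha : antisymDefect p = 0 := ha
  have h3 : threeTermDefect p = 0 := h3
  have hpent : pentagonDefect p = 0 := hpent
  have hX : Conf (XR (fun i => R (3 * i))) := (rconf_of_conf5 hR).conf
  set X := XR (fun i => R (3 * i)) with hXdef
  have r01 : X 0 1 = R 0 := rfl
  have r23 : X 2 3 = R 1 := rfl
  have r04 : X 0 4 = R 2 := rfl
  have r12 : X 1 2 = R 3 := rfl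
  have r34 : X 3 4 = R 4 := rfl
  have x03 : X 0 3 = R 3 - R 4 - R 2 := rfl
  have x24 : X 2 4 = R 0 - R 1 - R 4 := rfl
  -- the five `p_i`
  have q0 : gtSubst (R 4) (R 1) p = Qf X p 4 3 2 := by
    unfold Qf; rw [hX.symm 4 3, hX.symm 3 2, r34, r23]
  have q1 : gtSubst (R 0) (R 2) p = Qf X p 1 0 4 := by
    unfold Qf; rw [hX.symm 1 0, r01, r04]
  have q2 : gtSubst (R 1) (R 3) p = Qf X p 3 2 1 := by
    unfold Qf; rw [hX.symm 3 2, hX.symm 2 1, r23, r12]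
  have q3 : gtSubst (R 2) (R 4) p = Qf X p 0 4 3 := by
    unfold Qf; rw [hX.symm 4 3, r04, r34]
  have q4 : gtSubst (R 3) (R 0) p = Qf X p 2 1 0 := by
    unfold Qf; rw [hX.symm 2 1, hX.symm 1 0, r12, r01]
  have hpen := pent_id hX hn hp ha hpent
  refine ⟨?_, ?_⟩
  · rw [Fin.sum_univ_five]
    change gtSubst (R 4) (R 1) p + gtSubst (R 0) (R 2) p + gtSubst (R 1) (R 3) p +
      gtSubst (R 2) (R 4) p + gtSubst (R 3) (R 0) p = 0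
    rw [q0, q1, q2, q3, q4, ← hpen]
    abel
  · intro u hu
    have comm : ∀ i, ⁅R i, gtSubst (R (i - 1)) (R (i + 1)) p⁆ = 0 := by
      intro i
      refine lie_gtSubst_eq_zero ?_ (hR.1 i) hp
      have := hR.1 (i - 1)
      rw [sub_add_cancel] at this
      rw [← lie_skew, this, neg_zero]
    have hui : ∀ i, ⁅u i, R i⁆ = ⁅u (i + 1), R i⁆ := by
      intro i
      have := hu i
      rw [this, sub_lie, ← lie_skew (gtSubst (R (i - 1)) (R (i + 1)) p) (R i), comm i]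
      simp
    have adj : ∀ i, ⁅⁅u i, R i⁆, R (i + 1)⁆ + ⁅R i, ⁅u (i + 1), R (i + 1)⁆⁆ = 0 := by
      intro i
      rw [hui i, ← leibniz_lie, hR.1 i, lie_zero]
    refine ⟨adj, ?_⟩
    -- the `d_i`
    obtain ⟨d, hd⟩ : ∃ d : Fin 5 → M, d = fun i => ⁅u i, R i⁆ := ⟨_, rfl⟩
    have hdi : ∀ i, ⁅u i, R i⁆ = d i := by intro i; rw [hd]
    have adj' : ∀ i, ⁅d i, R (i + 1)⁆ + ⁅R i, d (i + 1)⁆ = 0 := by
      intro i; rw [← hdi, ← hdi]; exact adj i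
    have u0 : u 1 = u 0 - Qf X p 4 3 2 := by rw [← q0]; exact hu 0
    have u1 : u 2 = u 1 - Qf X p 1 0 4 := by rw [← q1]; exact hu 1
    have u2 : u 3 = u 2 - Qf X p 3 2 1 := by rw [← q2]; exact hu 2
    have u3 : u 4 = u 3 - Qf X p 0 4 3 := by rw [← q3]; exact hu 3
    have u4 : u 0 = u 4 - Qf X p 2 1 0 := by rw [← q4]; exact hu 4
    have cm : ∀ a b c d e : Fin 5, a ≠ b → b ≠ c → a ≠ c → d ≠ e → d ≠ a → d ≠ b → d ≠ c →
      e ≠ a → e ≠ b → e ≠ c → ⁅X d e, Qf X p a b c⁆ = 0 :=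
      fun a b c d e h1 h2 h3 h4 h5 h6 h7 h8 h9 h10 =>
        Q_comm hX hp a b c d e h1 h2 h3 h4 h5 h6 h7 h8 h9 h10
    have cm' : ∀ a b c d e : Fin 5, a ≠ b → b ≠ c → a ≠ c → d ≠ e → d ≠ a → d ≠ b → d ≠ c →
      e ≠ a → e ≠ b → e ≠ c → ⁅Qf X p a b c, X d e⁆ = 0 :=
      fun a b c d e h1 h2 h3 h4 h5 h6 h7 h8 h9 h10 => by
        rw [← lie_skew, cm a b c d e h1 h2 h3 h4 h5 h6 h7 h8 h9 h10, neg_zero]
    have S : ∀ a b c, a ≠ b → b ≠ c → a ≠ c →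
        ⁅X b c, Qf X p a b c⁆ + ⁅X a c, Qf X p b a c⁆ = 0 := by
      intro a b c hab hbc hac
      have := sig_eq_sg hX hn hp a b c hab hbc hac
      rw [sg_eq_zero hS1 hn hp ha h3 hpent] at this
      exact this
    have st := star hX (Qf X p) (fun a b c _ _ _ => Q_anti hX ha a b c)
      (fun a b c hab hbc hac => by
        rw [Q_T3 hX hn hp a b c hab hbc hac]; exact three_all h3 _ _)
      cm (pent_all hX hn hp ha hpent) S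
    have d0 : d 0 = ⁅u 0, X 0 1⁆ := by rw [← hdi, r01]
    have d1 : d 1 = ⁅u 0 - Qf X p 4 3 2, X 2 3⁆ := by rw [← hdi, u0, r23]
    have d2 : d 2 = ⁅u 0 - Qf X p 4 3 2 - Qf X p 1 0 4, X 0 4⁆ := by rw [← hdi, u1, u0, r04]
    have e4 : u 4 = u 0 + Qf X p 2 1 0 := by rw [u4]; abel
    have e3 : u 3 = u 0 + Qf X p 2 1 0 + Qf X p 0 4 3 := by
      have : u 3 = u 4 + Qf X p 0 4 3 := by rw [u3]; abel
      rw [this, e4]
    have d3 : d 3 = ⁅u 0 + Qf X p 2 1 0, X 1 2⁆ := by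
      rw [← hdi, e3, ← r12, add_lie (u 0 + Qf X p 2 1 0), cm' 0 4 3 1 2 (by decide) (by decide)
        (by decide) (by decide) (by decide) (by decide) (by decide) (by decide) (by decide)
        (by decide), add_zero]
    have d4 : d 4 = ⁅u 0, X 3 4⁆ := by
      rw [← hdi, e4, ← r34, add_lie, cm' 2 1 0 3 4 (by decide) (by decide)
        (by decide) (by decide) (by decide) (by decide) (by decide) (by decide) (by decide)
        (by decide), add_zero]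
    obtain ⟨V, hV⟩ : ∃ V : M, V = u 0 + (Qf X p 2 4 3 + Qf X p 3 0 1) := ⟨_, rfl⟩
    -- `δ X_03 = [V, X_03]`
    have dX03 : d 3 - d 4 - d 2 = ⁅V, X 0 3⁆ := by
      rw [hV, add_lie (u 0), ← st, d3, d4, d2]
      have e : X 0 3 = X 1 2 - X 3 4 - X 0 4 := by rw [x03, r12, r34, r04]
      rw [e]
      simp only [add_lie, sub_lie, lie_sub]
      abel
    -- `δ X_24 = [V, X_24]`
    have dX24 : d 0 - d 1 - d 4 = ⁅V, X 2 4⁆ := by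
      have s := S 4 3 2 (by decide) (by decide) (by decide)
      have g1 : ⁅Qf X p 3 0 1, X 2 4⁆ = 0 := cm' 3 0 1 2 4 (by decide) (by decide)
        (by decide) (by decide) (by decide) (by decide) (by decide) (by decide) (by decide)
        (by decide)
      have g2 : Qf X p 2 4 3 = - Qf X p 3 4 2 := Q_anti hX ha 3 4 2
      have g3 : ⁅Qf X p 4 3 2, X 2 3⁆ = ⁅Qf X p 2 4 3, X 2 4⁆ := by
        rw [g2, neg_lie, lie_skew, ← sub_eq_zero, ← neg_eq_zero, ← s, hX.symm 3 2, hX.symm 4 2,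
          ← lie_skew (Qf X p 4 3 2) (X 2 3)]
        abel
      rw [hV, add_lie (u 0), add_lie (Qf X p 2 4 3), g1, add_zero, ← g3, d0, d1, d4]
      have e : X 2 4 = X 0 1 - X 2 3 - X 3 4 := by rw [x24, r01, r23, r34]
      rw [e]
      simp only [add_lie, sub_lie, lie_sub]
      abel
    have main : ⁅d 3 - d 4 - d 2, X 2 4⁆ + ⁅X 0 3, d 0 - d 1 - d 4⁆ = 0 := by
      rw [dX03, dX24, ← leibniz_lie, hX.comm 0 3 2 4 (by decide) (by decide) (by decide)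
        (by decide) (by decide) (by decide), lie_zero]
    have a12 := adj' 1
    have a34 := adj' 3
    have a40 := adj' 4
    have b44 : ⁅d 4, R 4⁆ + ⁅R 4, d 4⁆ = 0 := by rw [← lie_skew (R 4) (d 4)]; abel
    change ⁅d 1, R 2⁆ + ⁅R 1, d 2⁆ = 0 at a12
    change ⁅d 3, R 4⁆ + ⁅R 3, d 4⁆ = 0 at a34
    change ⁅d 4, R 0⁆ + ⁅R 4, d 0⁆ = 0 at a40
    rw [x24, x03] at main
    simp only [hdi]
    rw [Fin.sum_univ_five]
    change (⁅d 0, R 2⁆ + ⁅R 0, d 2⁆) + (⁅d 1, R 3⁆ + ⁅R 1, d 3⁆) + (⁅d 2, R 4⁆ + ⁅R 2, d 4⁆) +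
      (⁅d 3, R 0⁆ + ⁅R 3, d 0⁆) + (⁅d 4, R 1⁆ + ⁅R 4, d 1⁆) = 0
    have key : (⁅d 0, R 2⁆ + ⁅R 0, d 2⁆) + (⁅d 1, R 3⁆ + ⁅R 1, d 3⁆) + (⁅d 2, R 4⁆ + ⁅R 2, d 4⁆) +
      (⁅d 3, R 0⁆ + ⁅R 3, d 0⁆) + (⁅d 4, R 1⁆ + ⁅R 4, d 1⁆) =
      (⁅d 3 - d 4 - d 2, R 0 - R 1 - R 4⁆ + ⁅R 3 - R 4 - R 2, d 0 - d 1 - d 4⁆) +
      (⁅d 3, R 4⁆ + ⁅R 3, d 4⁆) + (⁅d 4, R 0⁆ + ⁅R 4, d 0⁆) - (⁅d 4, R 4⁆ + ⁅R 4, d 4⁆) +
      (⁅d 1, R 2⁆ + ⁅R 1, d 2⁆) := by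
      rw [← lie_skew (d 0) (R 2), ← lie_skew (R 0) (d 2), ← lie_skew (R 1) (d 3),
        ← lie_skew (d 1) (R 3)]
      simp only [lie_sub, sub_lie, lie_add, add_lie]
      rw [← lie_skew (R 1) (d 2), ← lie_skew (R 2) (d 1)]
      abel
    rw [key, main, a12, a34, a40, b44]
    simp

end Crest.Agent.R010.EB
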