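import Crest.Prelude.Def_GTLie

/-!
Row 10, module (E-B), part 0: elementary facts on the substitution `gtSubst`.
-/

set_option autoImplicit false

noncomputable section

open Crest.NumberTheoryR.GT

namespace Crest.Agent.R010.EB

section subst

variable {M : Type*} [LieRing M] [LieAlgebra ℚ M]

@[simp] theorem gtSubst_gx (a b : M) : gtSubst a b gx = a := by
  simp [gtSubst, gx, FreeLieAlgebra.lift_of_apply]

@[simp] theorem gtSubst_gy (a b : M) : gtSubst a b gy = b := by
  simp [gtSubst, gy, FreeLieAlgebra.lift_of_apply]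

/-- Uniqueness of substitution. -/
theorem gtLie_hom_ext {f g : GTLie →ₗ⁅ℚ⁆ M} (hx : f gx = g gx) (hy : f gy = g gy) : f = g := by
  apply FreeLieAlgebra.hom_ext
  intro i
  fin_cases i
  · exact hx
  · exact hy

theorem eq_gtSubst (f : GTLie →ₗ⁅ℚ⁆ M) : f = gtSubst (f gx) (f gy) :=
  gtLie_hom_ext (by simp) (by simp)

/-- Substitution commutes with Lie homomorphisms. -/
theorem map_gtSubst {M' : Type*} [LieRing M'] [LieAlgebra ℚ M'] (f : M →ₗ⁅ℚ⁆ M') (a b : M)
    (p : GTLie) : f (gtSubst a b p) = gtSubst (f a) (f b) p := by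
  have h : f.comp (gtSubst a b) = gtSubst (f a) (f b) :=
    gtLie_hom_ext (by simp) (by simp)
  exact congrArg (fun g : GTLie →ₗ⁅ℚ⁆ M' => g p) h

theorem gtSubst_gtSubst (a b : M) (u v : GTLie) (p : GTLie) :
    gtSubst a b (gtSubst u v p) = gtSubst (gtSubst a b u) (gtSubst a b v) p :=
  map_gtSubst (gtSubst a b) u v p

theorem gtSubst_id (p : GTLie) : gtSubst gx gy p = p := by
  have h : (gtSubst gx gy : GTLie →ₗ⁅ℚ⁆ GTLie) = LieHom.id :=
    gtLie_hom_ext (by simp) (by simp)
  rw [h]; rfl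

/-- Induction principle for a weight subspace (both letters of weight one). -/
theorem weight_induction {n : ℕ} {P : GTLie → Prop}
    (hm : ∀ q, IsBracketMonomial (fun _ : Fin 2 => 1) n q → P q)
    (h0 : P 0) (hadd : ∀ q q', P q → P q' → P (q + q')) (hsmul : ∀ (c : ℚ) q, P q → P (c • q))
    {p : GTLie} (hp : p ∈ weightSubspace (fun _ : Fin 2 => 1) n) : P p := by
  unfold weightSubspace at hp
  induction hp using Submodule.span_induction with
  | mem x hx => exact hm x hx
  | zero => exact h0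
  | add x y _ _ hx hy => exact hadd _ _ hx hy
  | smul c x _ hx => exact hsmul _ _ hx

theorem weight_pos {n : ℕ} {q : GTLie}
    (hq : IsBracketMonomial (fun _ : Fin 2 => 1) n q) : 1 ≤ n := by
  induction hq with
  | of i => exact le_refl 1
  | lie _ _ h1 h2 => omega

/-- An element commuting with `a` and `b` commutes with everything substituted. -/
theorem lie_gtSubst_of_comm {a b c : M} (ha : ⁅c, a⁆ = 0) (hb : ⁅c, b⁆ = 0) {n : ℕ} {q : GTLie}
    (hq : IsBracketMonomial (fun _ : Fin 2 => 1) n q) : ⁅c, gtSubst a b q⁆ = 0 := by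
  induction hq with
  | of i =>
    fin_cases i
    · have := gtSubst_gx a b
      simp only [gx] at this
      simp [this, ha]
    · have := gtSubst_gy a b
      simp only [gy] at this
      simp [this, hb]
  | lie _ _ h1 h2 => rw [LieHom.map_lie, leibniz_lie, h1, h2]; simp

theorem lie_gtSubst_eq_zero {a b c : M} (ha : ⁅c, a⁆ = 0) (hb : ⁅c, b⁆ = 0) {n : ℕ} {p : GTLie}
    (hp : p ∈ weightSubspace (fun _ : Fin 2 => 1) n) : ⁅c, gtSubst a b p⁆ = 0 := by
  refine weight_induction (P := fun p => ⁅c, gtSubst a b p⁆ = 0)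
    (fun q hq => lie_gtSubst_of_comm ha hb hq) (by simp) ?_ ?_ hp
  · intro q q' h h'; simp only [map_add, lie_add, h, h', add_zero]
  · intro r q h; simp only [map_smul, lie_smul, h, smul_zero]

theorem gtSubst_lie_eq_zero {a b c : M} (ha : ⁅a, c⁆ = 0) (hb : ⁅b, c⁆ = 0) {n : ℕ} {p : GTLie}
    (hp : p ∈ weightSubspace (fun _ : Fin 2 => 1) n) : ⁅gtSubst a b p, c⁆ = 0 := by
  rw [← lie_skew, lie_gtSubst_eq_zero (by rw [← lie_skew, ha, neg_zero])
    (by rw [← lie_skew, hb, neg_zero]) hp, neg_zero]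

/-- Adding elements that commute with everything in sight changes only the linear part. -/
theorem gtSubst_shift_mono {a b c c' : M} (hca : ⁅c, a⁆ = 0) (hcb : ⁅c, b⁆ = 0)
    (hca' : ⁅c', a⁆ = 0) (hcb' : ⁅c', b⁆ = 0) (hcc : ⁅c, c'⁆ = 0) {n : ℕ} {q : GTLie}
    (hq : IsBracketMonomial (fun _ : Fin 2 => 1) n q) :
    ∃ s s' : ℚ, gtSubst (a + c) (b + c') q = gtSubst a b q + (s • c + s' • c') ∧
      (2 ≤ n → s = 0 ∧ s' = 0) := by
  induction hq with
  | of i =>
    fin_cases i
    · refine ⟨1, 0, ?_, fun h => absurd h (by norm_num)⟩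
      have h1 := gtSubst_gx a b
      have h2 := gtSubst_gx (a + c) (b + c')
      simp only [gx] at h1 h2
      simp [h1, h2]
    · refine ⟨0, 1, ?_, fun h => absurd h (by norm_num)⟩
      have h1 := gtSubst_gy a b
      have h2 := gtSubst_gy (a + c) (b + c')
      simp only [gy] at h1 h2
      simp [h1, h2]
  | @lie m n q1 q2 hq1 hq2 h1 h2 =>
    obtain ⟨s, s', h1, -⟩ := h1
    obtain ⟨t, t', h2, -⟩ := h2
    refine ⟨0, 0, ?_, fun _ => ⟨rfl, rfl⟩⟩
    have e1 := lie_gtSubst_of_comm hca hcb hq2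
    have e2 := lie_gtSubst_of_comm hca' hcb' hq2
    have e3 : ⁅gtSubst a b q1, c⁆ = 0 := by
      rw [← lie_skew, lie_gtSubst_of_comm hca hcb hq1, neg_zero]
    have e4 : ⁅gtSubst a b q1, c'⁆ = 0 := by
      rw [← lie_skew, lie_gtSubst_of_comm hca' hcb' hq1, neg_zero]
    have e5 : ⁅c', c⁆ = 0 := by rw [← lie_skew, hcc, neg_zero]
    rw [LieHom.map_lie, LieHom.map_lie, h1, h2]
    simp only [lie_add, add_lie, lie_smul, smul_lie, e1, e2, e3, e4, e5, hcc, lie_self,
      smul_zero, add_zero, zero_smul]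

theorem gtSubst_shift {a b c c' : M} (hca : ⁅c, a⁆ = 0) (hcb : ⁅c, b⁆ = 0)
    (hca' : ⁅c', a⁆ = 0) (hcb' : ⁅c', b⁆ = 0) (hcc : ⁅c, c'⁆ = 0) {n : ℕ} (hn : 2 ≤ n)
    {p : GTLie} (hp : p ∈ weightSubspace (fun _ : Fin 2 => 1) n) :
    gtSubst (a + c) (b + c') p = gtSubst a b p := by
  refine weight_induction (P := fun p => gtSubst (a + c) (b + c') p = gtSubst a b p)
    (fun q hq => ?_) (by simp) ?_ ?_ hp
  · obtain ⟨s, s', h, h'⟩ := gtSubst_shift_mono hca hcb hca' hcb' hcc hq
    obtain ⟨rfl, rfl⟩ := h' hn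
    rw [h]; simp
  · intro q q' h h'; rw [map_add, map_add, h, h']
  · intro r q h; rw [map_smul, map_smul, h]

theorem gtSubst_smul (k : ℚ) (a b : M) {n : ℕ} {p : GTLie}
    (hp : p ∈ weightSubspace (fun _ : Fin 2 => 1) n) :
    gtSubst (k • a) (k • b) p = k ^ n • gtSubst a b p := by
  refine weight_induction
    (P := fun p => gtSubst (k • a) (k • b) p = k ^ n • gtSubst a b p)
    (fun q hq => ?_) (by simp) ?_ ?_ hp
  · clear hp
    induction hq with
    | of i =>
      fin_cases i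
      · have h1 := gtSubst_gx a b
        have h2 := gtSubst_gx (k • a) (k • b)
        simp only [gx] at h1 h2
        simp [h1, h2]
      · have h1 := gtSubst_gy a b
        have h2 := gtSubst_gy (k • a) (k • b)
        simp only [gy] at h1 h2
        simp [h1, h2]
    | @lie m n q1 q2 hq1 hq2 h1 h2 =>
      rw [LieHom.map_lie, LieHom.map_lie, h1, h2, smul_lie, lie_smul, smul_smul, pow_add]
  · intro q q' h h'; rw [map_add, map_add, h, h', smul_add]
  · intro r q h; rw [map_smul, map_smul, h, smul_comm]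

theorem gtSubst_zero_zero {n : ℕ} (hn : 1 ≤ n) {p : GTLie}
    (hp : p ∈ weightSubspace (fun _ : Fin 2 => 1) n) : gtSubst (0 : M) (0 : M) p = 0 := by
  have := gtSubst_smul 0 (0 : M) (0 : M) hp
  rw [smul_zero, zero_pow (by omega), zero_smul] at this
  exact this

theorem gtSubst_comm {a b : M} (hab : ⁅a, b⁆ = 0) {n : ℕ} (hn : 2 ≤ n) {p : GTLie}
    (hp : p ∈ weightSubspace (fun _ : Fin 2 => 1) n) : gtSubst a b p = 0 := by
  have h := gtSubst_shift (a := (0 : M)) (b := 0) (c := a) (c' := b) (by simp) (by simp)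
    (by simp) (by simp) hab hn hp
  rw [zero_add, zero_add, gtSubst_zero_zero (by omega) hp] at h
  exact h

/-- Antisymmetry in every Lie algebra. -/
theorem gtSubst_swap {p : GTLie} (hp : antisymDefect p = 0) (a b : M) :
    gtSubst b a p = - gtSubst a b p := by
  have h : gtSubst a b (antisymDefect p) = 0 := by rw [hp]; simp
  have e : antisymDefect p = p + gtSubst gy gx p := rfl
  rw [e, map_add, gtSubst_gtSubst, gtSubst_gy, gtSubst_gx] at h
  exact (neg_eq_of_add_eq_zero_right h).symm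

/-- The three-term expression in a Lie algebra. -/
def T3 (p : GTLie) (a b : M) : M :=
  gtSubst a b p + gtSubst b (-a - b) p + gtSubst (-a - b) a p

theorem gtSubst_threeTerm (p : GTLie) (a b : M) :
    gtSubst a b (threeTermDefect p) = T3 p a b := by
  have e : threeTermDefect p = p + gtSubst gy (-gx - gy) p + gtSubst (-gx - gy) gx p := rfl
  rw [e, map_add, map_add, gtSubst_gtSubst, gtSubst_gtSubst, map_sub, map_neg, gtSubst_gx,
    gtSubst_gy]
  rfl

theorem map_T3 {M' : Type*} [LieRing M'] [LieAlgebra ℚ M'] (f : M →ₗ⁅ℚ⁆ M') (p : GTLie)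
    (a b : M) : f (T3 p a b) = T3 p (f a) (f b) := by
  simp only [T3, map_add, map_gtSubst, map_sub, map_neg]

theorem T3_gx_gy (p : GTLie) : T3 p gx gy = threeTermDefect p := by
  rw [← gtSubst_threeTerm, gtSubst_id]

end subst

end Crest.Agent.R010.EB
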