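import Crest.Agent.R010.EB0

/-!
Row 10, module (E-B), part 1: 5-configurations `X : Fin 5 → Fin 5 → M` in a Lie algebra over ℚ, the
homomorphism from `braidLie4`, and the pentagon for all 5-cycles.
-/

set_option autoImplicit false
set_option linter.unusedSectionVars false
set_option linter.unusedVariables false

noncomputable section

open Crest.NumberTheoryR.GT

namespace Crest.Agent.R010.EB

variable {M : Type*} [LieRing M] [LieAlgebra ℚ M]

/-- A 5-configuration (with vanishing row sums). -/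
structure Conf (X : Fin 5 → Fin 5 → M) : Prop where
  symm : ∀ a b, X a b = X b a
  comm : ∀ a b c d, a ≠ b → a ≠ c → a ≠ d → b ≠ c → b ≠ d → c ≠ d → ⁅X a b, X c d⁆ = 0
  sum3 : ∀ a b c d e, a ≠ b → a ≠ c → a ≠ d → a ≠ e → b ≠ c → b ≠ d → b ≠ e → c ≠ d → c ≠ e →
    d ≠ e → X a b + X b c + X a c = X d e

namespace Conf

variable {X : Fin 5 → Fin 5 → M}

theorem comp (hX : Conf X) (π : Fin 5 → Fin 5) (hπ : Function.Injective π) :
    Conf (fun a b => X (π a) (π b)) where
  symm a b := hX.symm _ _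
  comm a b c d h1 h2 h3 h4 h5 h6 := hX.comm _ _ _ _ (hπ.ne h1) (hπ.ne h2) (hπ.ne h3) (hπ.ne h4)
    (hπ.ne h5) (hπ.ne h6)
  sum3 a b c d e h1 h2 h3 h4 h5 h6 h7 h8 h9 h10 := hX.sum3 _ _ _ _ _ (hπ.ne h1) (hπ.ne h2)
    (hπ.ne h3) (hπ.ne h4) (hπ.ne h5) (hπ.ne h6) (hπ.ne h7) (hπ.ne h8) (hπ.ne h9) (hπ.ne h10)

/-- The homomorphism `FreeBraid4 → M` of a configuration. -/
def free (X : Fin 5 → Fin 5 → M) : FreeBraid4 →ₗ⁅ℚ⁆ M :=
  FreeLieAlgebra.lift ℚ (fun g : BraidGen4 => X g.1.1.castSucc g.1.2.castSucc)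

theorem free_tFree (hX : Conf X) {i j : Fin 4} (hij : i ≠ j) :
    free X (tFree i j) = X i.castSucc j.castSucc := by
  unfold free tFree
  by_cases h : i < j
  · rw [dif_pos h, FreeLieAlgebra.lift_of_apply]
  · have h' : j < i := lt_of_le_of_ne (not_lt.mp h) (Ne.symm hij)
    rw [dif_neg h, dif_pos h', FreeLieAlgebra.lift_of_apply]
    exact hX.symm _ _

theorem free_rel (hX : Conf X) {r : FreeBraid4} (hr : r ∈ braidRelations4) : free X r = 0 := by
  have inj : Function.Injective (Fin.castSucc : Fin 4 → Fin 5) := Fin.castSucc_injective 4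
  rcases hr with ⟨i, j, k, l, h1, h2, h3, h4, h5, h6, rfl⟩ | ⟨i, j, k, h1, h2, h3, rfl⟩
  · rw [LieHom.map_lie, free_tFree hX h1, free_tFree hX h6]
    exact hX.comm _ _ _ _ (inj.ne h1) (inj.ne h2) (inj.ne h3) (inj.ne h4) (inj.ne h5) (inj.ne h6)
  · rw [LieHom.map_lie, map_add, free_tFree hX h1, free_tFree hX h2, free_tFree hX h3]
    obtain ⟨l, hl⟩ : ∃ l : Fin 4, i ≠ l ∧ j ≠ l ∧ k ≠ l := by
      revert i j k; decide
    obtain ⟨h4, h5, h6⟩ := hl
    have hlast : ∀ i : Fin 4, i.castSucc ≠ Fin.last 4 := fun i => Fin.castSucc_ne_last i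
    have e : X i.castSucc k.castSucc + X j.castSucc k.castSucc =
        X l.castSucc (Fin.last 4) - X i.castSucc j.castSucc := by
      rw [← hX.sum3 i.castSucc j.castSucc k.castSucc l.castSucc (Fin.last 4) (inj.ne h1)
        (inj.ne h2) (inj.ne h4) (hlast _) (inj.ne h3) (inj.ne h5) (hlast _) (inj.ne h6) (hlast _)
        (hlast _)]
      abel
    rw [e, lie_sub, lie_self, sub_zero]
    exact hX.comm _ _ _ _ (inj.ne h1) (inj.ne h4) (hlast _) (inj.ne h5) (hlast _) (hlast _)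

/-- The homomorphism `braidLie4 → M` of a configuration. -/
theorem exists_braidHom (hX : Conf X) :
    ∃ θ : braidLie4 →ₗ⁅ℚ⁆ M, ∀ i j : Fin 4, i ≠ j → θ (tB i j) = X i.castSucc j.castSucc := by
  have hker : braidIdeal4 ≤ (free X).ker := by
    unfold braidIdeal4
    rw [LieSubmodule.lieSpan_le]
    intro r hr
    exact free_rel hX hr
  let θl : braidLie4 →ₗ[ℚ] M := Submodule.liftQ braidIdeal4.toSubmodule
    (free X).toLinearMap (fun x hx => hker hx)
  have hmk : ∀ x : FreeBraid4, θl (LieSubmodule.Quotient.mk x) = free X x := fun x => rfl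
  refine ⟨{ toLinearMap := θl, map_lie' := ?_ }, ?_⟩
  · intro x y
    obtain ⟨x, rfl⟩ := LieSubmodule.Quotient.surjective_mk' braidIdeal4 x
    obtain ⟨y, rfl⟩ := LieSubmodule.Quotient.surjective_mk' braidIdeal4 y
    exact LieHom.map_lie (free X) x y
  · intro i j hij
    exact free_tFree hX hij

end Conf

end Crest.Agent.R010.EB
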