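import Crest.Agent.R010.EBPent
import Crest.Agent.R010.EDefs

/-!
Row 10, module (E-B), part 5: derivations of the free associative algebra, the fibre
configuration, and `EB1`.
-/

set_option autoImplicit false
set_option linter.unusedSectionVars false
set_option linter.unusedVariables false
set_option linter.unusedSimpArgs false

noncomputable section

open Crest.NumberTheoryR.GT

namespace Crest.Agent.R010.EB

attribute [local instance 100] LieRing.ofAssociativeRing

/-- The free associative algebra on three letters. -/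
abbrev T3alg : Type := FreeAlgebra ℚ (Fin 3)

/-- The homomorphism to dual numbers attached to the values `δ` of a derivation. -/
def derHom (δ : Fin 3 → T3alg) : T3alg →ₐ[ℚ] TrivSqZeroExt T3alg T3alg :=
  FreeAlgebra.lift ℚ (fun i => TrivSqZeroExt.inl (FreeAlgebra.ι ℚ i) + TrivSqZeroExt.inr (δ i))

theorem derHom_fst (δ : Fin 3 → T3alg) (f : T3alg) : (derHom δ f).fst = f := by
  induction f using FreeAlgebra.induction with
  | grade0 r => rw [AlgHom.commutes]; rfl
  | grade1 x => simp [derHom]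
  | mul a b ha hb => rw [map_mul, TrivSqZeroExt.fst_mul, ha, hb]
  | add a b ha hb => rw [map_add, TrivSqZeroExt.fst_add, ha, hb]

/-- The derivation with values `δ` on the letters. -/
def der (δ : Fin 3 → T3alg) : Module.End ℚ T3alg where
  toFun f := (derHom δ f).snd
  map_add' f g := by rw [map_add, TrivSqZeroExt.snd_add]
  map_smul' c f := by rw [map_smul, TrivSqZeroExt.snd_smul, RingHom.id_apply]

theorem der_ι (δ : Fin 3 → T3alg) (i : Fin 3) : der δ (FreeAlgebra.ι ℚ i) = δ i := by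
  change (derHom δ (FreeAlgebra.ι ℚ i)).snd = δ i
  simp [derHom]

theorem der_mul (δ : Fin 3 → T3alg) (f g : T3alg) :
    der δ (f * g) = f * der δ g + der δ f * g := by
  change (derHom δ (f * g)).snd = f * (derHom δ g).snd + (derHom δ f).snd * g
  rw [map_mul, TrivSqZeroExt.snd_mul, derHom_fst, derHom_fst]
  rfl

/-- Left multiplication as a Lie homomorphism. -/
def Lm : T3alg →ₗ⁅ℚ⁆ Module.End ℚ T3alg := AlgHom.toLieHom (Algebra.lmul ℚ T3alg)

theorem Lm_apply (f g : T3alg) : Lm f g = f * g := rfl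

theorem Lm_inj {f : T3alg} (h : Lm f = 0) : f = 0 := by
  have := congrArg (fun u : Module.End ℚ T3alg => u 1) h
  simpa [Lm_apply] using this

theorem der_Lm (δ : Fin 3 → T3alg) (f : T3alg) : ⁅der δ, Lm f⁆ = Lm (der δ f) := by
  ext g
  change der δ (f * g) - f * der δ g = der δ f * g
  rw [der_mul]; abel

/-- The three letters. -/
def y2 : T3alg := FreeAlgebra.ι ℚ 0
def y3 : T3alg := FreeAlgebra.ι ℚ 1
def y4 : T3alg := FreeAlgebra.ι ℚ 2

def Dop : Module.End ℚ T3alg := der ![⁅y2, y3⁆, ⁅y3, y2⁆, 0]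
def Dop' : Module.End ℚ T3alg := der ![0, ⁅y3, y4⁆, ⁅y4, y3⁆]

theorem rconf_T : RConf (M := Module.End ℚ T3alg)
    ![-(Lm y2 + Lm y3 + Lm y4), Lm y2, Dop, Dop', Lm y2 + Lm y3 + Dop] := by
  apply rconf_fib
  · rw [Dop, der_Lm, y2, der_ι]; exact LieHom.map_lie Lm _ _
  · rw [Dop, der_Lm, y3, der_ι]; exact LieHom.map_lie Lm _ _
  · rw [Dop, der_Lm, y4, der_ι]; exact map_zero Lm
  · rw [Dop', der_Lm, y2, der_ι]; exact map_zero Lm
  · rw [Dop', der_Lm, y3, der_ι]; exact LieHom.map_lie Lm _ _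
  · rw [Dop', der_Lm, y4, der_ι]; exact LieHom.map_lie Lm _ _

/-- The fibre configuration. -/
def XT : Fin 5 → Fin 5 → Module.End ℚ T3alg :=
  XR ![-(Lm y2 + Lm y3 + Lm y4), Lm y2, Dop, Dop', Lm y2 + Lm y3 + Dop]

theorem conf_XT : Conf XT := rconf_T.conf

theorem XT_01 : XT 0 1 = Lm (-(y2 + y3 + y4)) := by
  rw [map_neg, map_add, map_add]; rfl

theorem XT_12 : XT 1 2 = Lm y2 := rfl

theorem XT_13 : XT 1 3 = Lm y3 := by
  change (Lm y2 + Lm y3 + Dop) - Lm y2 - Dop = Lm y3
  abel

theorem XT_14 : XT 1 4 = Lm y4 := by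
  change Dop - (Lm y2 + Lm y3 + Dop) - (-(Lm y2 + Lm y3 + Lm y4)) = Lm y4
  abel

/-- Specialisation of the three letters. -/
def spec {B : Type*} [Ring B] [Algebra ℚ B] (a b c : B) : T3alg →ₐ[ℚ] B :=
  FreeAlgebra.lift ℚ ![a, b, c]

theorem spec_y2 {B : Type*} [Ring B] [Algebra ℚ B] (a b c : B) : spec a b c y2 = a := by
  simp [spec, y2]

theorem spec_y3 {B : Type*} [Ring B] [Algebra ℚ B] (a b c : B) : spec a b c y3 = b := by
  simp [spec, y3]

theorem spec_y4 {B : Type*} [Ring B] [Algebra ℚ B] (a b c : B) : spec a b c y4 = c := by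
  simp [spec, y4]

section

variable {n : ℕ} (hn : 2 ≤ n) {p : GTLie} (hp : p ∈ weightSubspace (fun _ : Fin 2 => 1) n)
  (ha : antisymDefect p = 0) (hpent : pentagonDefect p = 0)

include hn hp ha hpent

theorem sumT3_T :
    T3 p (-(y2 + y3 + y4)) y2 + T3 p (-(y2 + y3 + y4)) y3 + T3 p (-(y2 + y3 + y4)) y4 = 0 := by
  apply Lm_inj
  rw [map_add, map_add, map_T3, map_T3, map_T3, ← XT_01, ← XT_12, ← XT_13, ← XT_14]
  rw [← Q_T3 conf_XT hn hp 0 1 2 (by decide) (by decide) (by decide),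
    ← Q_T3 conf_XT hn hp 0 1 3 (by decide) (by decide) (by decide),
    ← Q_T3 conf_XT hn hp 0 1 4 (by decide) (by decide) (by decide)]
  exact sumS_aux (Qf XT p) (fun a b c _ _ _ => Q_anti conf_XT ha a b c)
    (pent_all conf_XT hn hp ha hpent)

theorem sumT3 {B : Type*} [Ring B] [Algebra ℚ B] (a b c : B) :
    T3 p (-(a + b + c)) a + T3 p (-(a + b + c)) b + T3 p (-(a + b + c)) c = 0 := by
  have h := congrArg (AlgHom.toLieHom (spec a b c)) (sumT3_T hn hp ha hpent)
  rw [map_add, map_add, map_T3, map_T3, map_T3, map_neg, map_add, map_add, map_zero] at h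
  have e2 : (AlgHom.toLieHom (spec a b c)) y2 = a := spec_y2 a b c
  have e3 : (AlgHom.toLieHom (spec a b c)) y3 = b := spec_y3 a b c
  have e4 : (AlgHom.toLieHom (spec a b c)) y4 = c := spec_y4 a b c
  rw [e2, e3, e4] at h
  exact h

end

end Crest.Agent.R010.EB
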