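import Crest.Agent.R010.EBLin

/-!
Row 10, module (E-B), part 3: configurations from five elements `r`, and the fibre configuration
`(-(y₂+y₃+y₄), y₂, D, D', y₂+y₃+D)` on the free associative algebra.
-/

set_option autoImplicit false
set_option linter.unusedSectionVars false
set_option linter.unusedVariables false
set_option linter.unusedSimpArgs false

noncomputable section

open Crest.NumberTheoryR.GT

namespace Crest.Agent.R010.EB

section ofR

variable {M : Type*} [LieRing M] [LieAlgebra ℚ M]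

/-- The configuration of five elements `r₀,…,r₄` (`X_{i,i+1} = r_i`). -/
def XR (r : Fin 5 → M) : Fin 5 → Fin 5 → M :=
  ![![0, r 0, r 3 - r 0 - r 1, r 1 - r 3 - r 4, r 4],
    ![r 0, 0, r 1, r 4 - r 1 - r 2, r 2 - r 4 - r 0],
    ![r 3 - r 0 - r 1, r 1, 0, r 2, r 0 - r 2 - r 3],
    ![r 1 - r 3 - r 4, r 4 - r 1 - r 2, r 2, 0, r 3],
    ![r 4, r 2 - r 4 - r 0, r 0 - r 2 - r 3, r 3, 0]]

/-- The relations on five elements. -/
def RConf (r : Fin 5 → M) : Prop :=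
  (∀ i, ⁅r i, r (i + 2)⁆ = 0) ∧ ∑ i, ⁅r i, r (i + 1)⁆ = 0

theorem RConf.rot {r : Fin 5 → M} (h : RConf r) (k : Fin 5) : RConf (fun i => r (i + k)) := by
  refine ⟨fun i => ?_, ?_⟩
  · have := h.1 (i + k)
    rw [add_right_comm i k 2] at this
    exact this
  · rw [← h.2]
    refine Fintype.sum_equiv (Equiv.addRight (k : Fin 5)) _ _ (fun i => ?_)
    simp only [Equiv.coe_addRight]
    rw [add_right_comm i 1 k]

theorem XR_rot (r : Fin 5 → M) (k a b : Fin 5) :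
    XR r (a + k) (b + k) = XR (fun i => r (i + k)) a b := by
  fin_cases k <;> fin_cases a <;> fin_cases b <;> rfl

theorem XR_rot' (r : Fin 5 → M) (k a b : Fin 5) :
    XR r a b = XR (fun i => r (i + k)) (a - k) (b - k) := by
  rw [← XR_rot, sub_add_cancel, sub_add_cancel]

theorem XR_symm (r : Fin 5 → M) (a b : Fin 5) : XR r a b = XR r b a := by
  fin_cases a <;> fin_cases b <;> rfl

theorem XR_comm0 {r : Fin 5 → M} (h : RConf r) (b c d : Fin 5) (h1 : 0 ≠ b) (h2 : 0 ≠ c)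
    (h3 : 0 ≠ d) (h4 : b ≠ c) (h5 : b ≠ d) (h6 : c ≠ d) : ⁅XR r 0 b, XR r c d⁆ = 0 := by
  have c02 : ⁅r 0, r 2⁆ = 0 := h.1 0
  have c13 : ⁅r 1, r 3⁆ = 0 := h.1 1
  have c24 : ⁅r 2, r 4⁆ = 0 := h.1 2
  have c30 : ⁅r 3, r 0⁆ = 0 := h.1 3
  have c41 : ⁅r 4, r 1⁆ = 0 := h.1 4
  have c20 : ⁅r 2, r 0⁆ = 0 := by rw [← lie_skew, c02, neg_zero]
  have c31 : ⁅r 3, r 1⁆ = 0 := by rw [← lie_skew, c13, neg_zero]
  have c42 : ⁅r 4, r 2⁆ = 0 := by rw [← lie_skew, c24, neg_zero]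
  have c03 : ⁅r 0, r 3⁆ = 0 := by rw [← lie_skew, c30, neg_zero]
  have c14 : ⁅r 1, r 4⁆ = 0 := by rw [← lie_skew, c41, neg_zero]
  have k10 : ⁅r 1, r 0⁆ = -⁅r 0, r 1⁆ := (lie_skew _ _).symm
  have k21 : ⁅r 2, r 1⁆ = -⁅r 1, r 2⁆ := (lie_skew _ _).symm
  have k32 : ⁅r 3, r 2⁆ = -⁅r 2, r 3⁆ := (lie_skew _ _).symm
  have k43 : ⁅r 4, r 3⁆ = -⁅r 3, r 4⁆ := (lie_skew _ _).symm
  have k04 : ⁅r 0, r 4⁆ = -⁅r 4, r 0⁆ := (lie_skew _ _).symm
  have om : ⁅r 0, r 1⁆ + ⁅r 1, r 2⁆ + ⁅r 2, r 3⁆ + ⁅r 3, r 4⁆ + ⁅r 4, r 0⁆ = 0 := by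
    have := h.2
    rw [Fin.sum_univ_five] at this
    exact this
  have e : ⁅r 4, r 0⁆ = -⁅r 0, r 1⁆ - ⁅r 1, r 2⁆ - ⁅r 2, r 3⁆ - ⁅r 3, r 4⁆ := by
    rw [← sub_eq_zero, ← om]; abel
  have f123 : ⁅r 0, r 2⁆ = 0 := c02
  have f134 : ⁅r 0, r 3⁆ = 0 := c03
  have f124 : ⁅r 0, r 0 - r 2 - r 3⁆ = 0 := by
    simp only [lie_sub, lie_self, c02, c03]; abel
  have f234 : ⁅r 3 - r 0 - r 1, r 3⁆ = 0 := by
    simp only [sub_lie, lie_self, c03, c13]; abel
  have f213 : ⁅r 3 - r 0 - r 1, r 4 - r 1 - r 2⁆ = 0 := by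
    simp only [sub_lie, lie_sub, lie_self, c31, c14, c02, k32, k04, e]; abel
  have f214 : ⁅r 3 - r 0 - r 1, r 2 - r 4 - r 0⁆ = 0 := by
    simp only [sub_lie, lie_sub, lie_self, c30, c14, c02, k32, k04, k10, e]; abel
  have f312 : ⁅r 1 - r 3 - r 4, r 1⁆ = 0 := by
    simp only [sub_lie, lie_self, c31, c41]; abel
  have f314 : ⁅r 1 - r 3 - r 4, r 2 - r 4 - r 0⁆ = 0 := by
    simp only [sub_lie, lie_sub, lie_self, c30, c14, c42, k32, k10, e]; abel
  have f324 : ⁅r 1 - r 3 - r 4, r 0 - r 2 - r 3⁆ = 0 := by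
    simp only [sub_lie, lie_sub, lie_self, c30, c13, c42, k32, k10, k43, e]; abel
  have f412 : ⁅r 4, r 1⁆ = 0 := c41
  have f423 : ⁅r 4, r 2⁆ = 0 := c42
  have f413 : ⁅r 4, r 4 - r 1 - r 2⁆ = 0 := by
    simp only [lie_sub, lie_self, c41, c42]; abel
  fin_cases b
  · exact absurd rfl h1
  · fin_cases c <;> fin_cases d <;>
      first
      | exact absurd rfl h2
      | exact absurd rfl h3
      | exact absurd rfl h4
      | exact absurd rfl h5
      | exact absurd rfl h6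
      | exact f123
      | exact f134
      | exact f124
  · fin_cases c <;> fin_cases d <;>
      first
      | exact absurd rfl h2
      | exact absurd rfl h3
      | exact absurd rfl h4
      | exact absurd rfl h5
      | exact absurd rfl h6
      | exact f234
      | exact f213
      | exact f214
  · fin_cases c <;> fin_cases d <;>
      first
      | exact absurd rfl h2
      | exact absurd rfl h3
      | exact absurd rfl h4
      | exact absurd rfl h5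
      | exact absurd rfl h6
      | exact f312
      | exact f314
      | exact f324
  · fin_cases c <;> fin_cases d <;>
      first
      | exact absurd rfl h2
      | exact absurd rfl h3
      | exact absurd rfl h4
      | exact absurd rfl h5
      | exact absurd rfl h6
      | exact f412
      | exact f423
      | exact f413

theorem XR_sum0 (r : Fin 5 → M) (b c d e : Fin 5) (h1 : 0 ≠ b) (h2 : 0 ≠ c)
    (h3 : 0 ≠ d) (h3' : 0 ≠ e) (h4 : b ≠ c) (h5 : b ≠ d) (h5' : b ≠ e) (h6 : c ≠ d) (h6' : c ≠ e)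
    (h7 : d ≠ e) : XR r 0 b + XR r b c + XR r 0 c = XR r d e := by
  have f12 : r 0 + r 1 + (r 3 - r 0 - r 1) = r 3 := by abel
  have f21 : (r 3 - r 0 - r 1) + r 1 + r 0 = r 3 := by abel
  have f13 : r 0 + (r 4 - r 1 - r 2) + (r 1 - r 3 - r 4) = r 0 - r 2 - r 3 := by abel
  have f31 : (r 1 - r 3 - r 4) + (r 4 - r 1 - r 2) + r 0 = r 0 - r 2 - r 3 := by abel
  have f14 : r 0 + (r 2 - r 4 - r 0) + r 4 = r 2 := by abel
  have f41 : r 4 + (r 2 - r 4 - r 0) + r 0 = r 2 := by abel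
  have f23 : (r 3 - r 0 - r 1) + r 2 + (r 1 - r 3 - r 4) = r 2 - r 4 - r 0 := by abel
  have f32 : (r 1 - r 3 - r 4) + r 2 + (r 3 - r 0 - r 1) = r 2 - r 4 - r 0 := by abel
  have f24 : (r 3 - r 0 - r 1) + (r 0 - r 2 - r 3) + r 4 = r 4 - r 1 - r 2 := by abel
  have f42 : r 4 + (r 0 - r 2 - r 3) + (r 3 - r 0 - r 1) = r 4 - r 1 - r 2 := by abel
  have f34 : (r 1 - r 3 - r 4) + r 3 + r 4 = r 1 := by abel
  have f43 : r 4 + r 3 + (r 1 - r 3 - r 4) = r 1 := by abel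
  fin_cases b
  · exact absurd rfl h1
  all_goals fin_cases c <;> first | exact absurd rfl h2 | exact absurd rfl h4 | skip
  all_goals fin_cases d <;>
    first | exact absurd rfl h3 | exact absurd rfl h5 | exact absurd rfl h6 | skip
  all_goals fin_cases e <;>
    first
    | exact absurd rfl h3'
    | exact absurd rfl h5'
    | exact absurd rfl h6'
    | exact absurd rfl h7
    | exact f12 | exact f21 | exact f13 | exact f31 | exact f14 | exact f41
    | exact f23 | exact f32 | exact f24 | exact f42 | exact f34 | exact f43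

theorem RConf.conf {r : Fin 5 → M} (h : RConf r) : Conf (XR r) where
  symm := XR_symm r
  comm a b c d h1 h2 h3 h4 h5 h6 := by
    rw [XR_rot' r a a b, XR_rot' r a c d, sub_self]
    refine XR_comm0 (h.rot a) _ _ _ ?_ ?_ ?_ ?_ ?_ ?_
    · rw [← sub_self a]; exact (sub_left_injective).ne h1
    · rw [← sub_self a]; exact (sub_left_injective).ne h2
    · rw [← sub_self a]; exact (sub_left_injective).ne h3
    · exact (sub_left_injective).ne h4
    · exact (sub_left_injective).ne h5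
    · exact (sub_left_injective).ne h6
  sum3 a b c d e h1 h2 h3 h4 h5 h6 h7 h8 h9 h10 := by
    rw [XR_rot' r a a b, XR_rot' r a b c, XR_rot' r a a c, XR_rot' r a d e, sub_self]
    refine XR_sum0 _ _ _ _ _ ?_ ?_ ?_ ?_ ?_ ?_ ?_ ?_ ?_ ?_
    · rw [← sub_self a]; exact (sub_left_injective).ne h1
    · rw [← sub_self a]; exact (sub_left_injective).ne h2
    · rw [← sub_self a]; exact (sub_left_injective).ne h3
    · rw [← sub_self a]; exact (sub_left_injective).ne h4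
    · exact (sub_left_injective).ne h5
    · exact (sub_left_injective).ne h6
    · exact (sub_left_injective).ne h7
    · exact (sub_left_injective).ne h8
    · exact (sub_left_injective).ne h9
    · exact (sub_left_injective).ne h10

/-- The fibre configuration. -/
theorem rconf_fib {y2 y3 y4 D D' : M} (h1 : ⁅D, y2⁆ = ⁅y2, y3⁆) (h2 : ⁅D, y3⁆ = ⁅y3, y2⁆)
    (h3 : ⁅D, y4⁆ = 0) (h4 : ⁅D', y2⁆ = 0) (h5 : ⁅D', y3⁆ = ⁅y3, y4⁆)
    (h6 : ⁅D', y4⁆ = ⁅y4, y3⁆) :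
    RConf ![-(y2 + y3 + y4), y2, D, D', y2 + y3 + D] := by
  have g1 : ⁅y2, D⁆ = -⁅y2, y3⁆ := by rw [← lie_skew, h1]
  have g2 : ⁅y3, D⁆ = ⁅y2, y3⁆ := by rw [← lie_skew, h2, lie_skew]
  have g3 : ⁅y4, D⁆ = 0 := by rw [← lie_skew, h3, neg_zero]
  have g4 : ⁅y2, D'⁆ = 0 := by rw [← lie_skew, h4, neg_zero]
  have g5 : ⁅y3, D'⁆ = -⁅y3, y4⁆ := by rw [← lie_skew, h5]
  have g6 : ⁅y4, D'⁆ = ⁅y3, y4⁆ := by rw [← lie_skew, h6, lie_skew]
  have k32 : ⁅y3, y2⁆ = -⁅y2, y3⁆ := (lie_skew _ _).symm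
  have k42 : ⁅y4, y2⁆ = -⁅y2, y4⁆ := (lie_skew _ _).symm
  have k43 : ⁅y4, y3⁆ = -⁅y3, y4⁆ := (lie_skew _ _).symm
  have kD : ⁅D', D⁆ = -⁅D, D'⁆ := (lie_skew _ _).symm
  constructor
  · intro i
    fin_cases i
    · change ⁅-(y2 + y3 + y4), D⁆ = 0
      simp only [lie_add, add_lie, lie_neg, neg_lie, lie_self, g1, g2, g3]
      abel
    · change ⁅y2, D'⁆ = 0
      exact g4
    · change ⁅D, y2 + y3 + D⁆ = 0
      simp only [lie_add, add_lie, lie_neg, neg_lie, lie_self, h1, h2, k32]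
      abel
    · change ⁅D', -(y2 + y3 + y4)⁆ = 0
      simp only [lie_add, add_lie, lie_neg, neg_lie, lie_self, h4, h5, h6, k43]
      abel
    · change ⁅y2 + y3 + D, y2⁆ = 0
      simp only [lie_add, add_lie, lie_neg, neg_lie, lie_self, h1, k32]
      abel
  · rw [Fin.sum_univ_five]
    change ⁅-(y2 + y3 + y4), y2⁆ + ⁅y2, D⁆ + ⁅D, D'⁆ + ⁅D', y2 + y3 + D⁆ +
      ⁅y2 + y3 + D, -(y2 + y3 + y4)⁆ = 0
    simp only [lie_add, add_lie, lie_neg, neg_lie, lie_self, h1, h2, h3, h4, h5, h6, g1, g2, g3,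
      g4, g5, g6, k32, k42, k43, kD]
    abel

end ofR

end Crest.Agent.R010.EB
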