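import Crest.Agent.R010.EB
import Crest.Agent.R010.Witt2

/-! Row 10: `EB1` and `EB2` hold. -/

set_option autoImplicit false

namespace Crest.Agent.R010

theorem EB1_holds : EB1 := EB.EB1_of Witt.S1_holds

theorem EB2_holds : EB2 := EB.EB2_of Witt.S1_holds

end Crest.Agent.R010
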