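import Crest.Agent.R010.EBConf

/-!
Row 10, module (E-B), part 2: the linear algebra of the pentagons in a configuration.
-/

set_option autoImplicit false
set_option linter.unusedSectionVars false
set_option linter.unusedVariables false
set_option linter.unusedSimpArgs false

noncomputable section

open Crest.NumberTheoryR.GT

namespace Crest.Agent.R010.EB

section sums

variable {M : Type*} [AddCommGroup M] [Module ℚ M]

/-- The signed sum of the twelve pentagons. -/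
theorem sumS_aux (Q : Fin 5 → Fin 5 → Fin 5 → M)
    (anti : ∀ a b c, a ≠ b → b ≠ c → a ≠ c → Q c b a = - Q a b c)
    (pent : ∀ a b c d e : Fin 5, Function.Injective ![b, a, e, d, c] →
      Q a b c + Q b c d + Q c d e + Q d e a + Q e a b = 0) :
    (Q 0 1 2 + Q 1 2 0 + Q 2 0 1) + (Q 0 1 3 + Q 1 3 0 + Q 3 0 1) +
      (Q 0 1 4 + Q 1 4 0 + Q 4 0 1) = 0 := by
  have p0 := pent 0 1 2 3 4 (by decide)
  have p1 := pent 0 1 2 4 3 (by decide)
  have p2 := pent 0 1 3 2 4 (by decide)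
  have p3 := pent 0 1 3 4 2 (by decide)
  have p4 := pent 0 1 4 2 3 (by decide)
  have p5 := pent 0 1 4 3 2 (by decide)
  have p6 := pent 0 2 3 1 4 (by decide)
  have p7 := pent 0 2 4 1 3 (by decide)
  have p8 := pent 0 3 2 1 4 (by decide)
  have p9 := pent 0 2 1 3 4 (by decide)
  have p10 := pent 0 2 1 4 3 (by decide)
  have p11 := pent 0 3 1 2 4 (by decide)
  have a0 : Q 2 1 0 = - Q 0 1 2 := anti 0 1 2 (by decide) (by decide) (by decide)
  have a1 : Q 3 1 0 = - Q 0 1 3 := anti 0 1 3 (by decide) (by decide) (by decide)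
  have a2 : Q 4 1 0 = - Q 0 1 4 := anti 0 1 4 (by decide) (by decide) (by decide)
  have a3 : Q 1 2 0 = - Q 0 2 1 := anti 0 2 1 (by decide) (by decide) (by decide)
  have a4 : Q 3 2 0 = - Q 0 2 3 := anti 0 2 3 (by decide) (by decide) (by decide)
  have a5 : Q 4 2 0 = - Q 0 2 4 := anti 0 2 4 (by decide) (by decide) (by decide)
  have a6 : Q 1 3 0 = - Q 0 3 1 := anti 0 3 1 (by decide) (by decide) (by decide)
  have a7 : Q 2 3 0 = - Q 0 3 2 := anti 0 3 2 (by decide) (by decide) (by decide)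
  have a8 : Q 4 3 0 = - Q 0 3 4 := anti 0 3 4 (by decide) (by decide) (by decide)
  have a9 : Q 1 4 0 = - Q 0 4 1 := anti 0 4 1 (by decide) (by decide) (by decide)
  have a10 : Q 2 4 0 = - Q 0 4 2 := anti 0 4 2 (by decide) (by decide) (by decide)
  have a11 : Q 3 4 0 = - Q 0 4 3 := anti 0 4 3 (by decide) (by decide) (by decide)
  have a12 : Q 2 0 1 = - Q 1 0 2 := anti 1 0 2 (by decide) (by decide) (by decide)
  have a13 : Q 3 0 1 = - Q 1 0 3 := anti 1 0 3 (by decide) (by decide) (by decide)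
  have a14 : Q 4 0 1 = - Q 1 0 4 := anti 1 0 4 (by decide) (by decide) (by decide)
  have a15 : Q 3 2 1 = - Q 1 2 3 := anti 1 2 3 (by decide) (by decide) (by decide)
  have a16 : Q 4 2 1 = - Q 1 2 4 := anti 1 2 4 (by decide) (by decide) (by decide)
  have a17 : Q 2 3 1 = - Q 1 3 2 := anti 1 3 2 (by decide) (by decide) (by decide)
  have a18 : Q 4 3 1 = - Q 1 3 4 := anti 1 3 4 (by decide) (by decide) (by decide)
  have a19 : Q 2 4 1 = - Q 1 4 2 := anti 1 4 2 (by decide) (by decide) (by decide)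
  have a20 : Q 3 4 1 = - Q 1 4 3 := anti 1 4 3 (by decide) (by decide) (by decide)
  have a21 : Q 3 0 2 = - Q 2 0 3 := anti 2 0 3 (by decide) (by decide) (by decide)
  have a22 : Q 4 0 2 = - Q 2 0 4 := anti 2 0 4 (by decide) (by decide) (by decide)
  have a23 : Q 3 1 2 = - Q 2 1 3 := anti 2 1 3 (by decide) (by decide) (by decide)
  have a24 : Q 4 1 2 = - Q 2 1 4 := anti 2 1 4 (by decide) (by decide) (by decide)
  have a25 : Q 4 3 2 = - Q 2 3 4 := anti 2 3 4 (by decide) (by decide) (by decide)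
  have a26 : Q 3 4 2 = - Q 2 4 3 := anti 2 4 3 (by decide) (by decide) (by decide)
  have a27 : Q 4 0 3 = - Q 3 0 4 := anti 3 0 4 (by decide) (by decide) (by decide)
  have a28 : Q 4 1 3 = - Q 3 1 4 := anti 3 1 4 (by decide) (by decide) (by decide)
  have a29 : Q 4 2 3 = - Q 3 2 4 := anti 3 2 4 (by decide) (by decide) (by decide)
  simp only [a0, a1, a2, a3, a4, a5, a6, a7, a8, a9, a10, a11, a12, a13, a14, a15, a16, a17, a18, a19, a20, a21, a22, a23, a24, a25, a26, a27, a28, a29] at p0 p1 p2 p3 p4 p5 p6 p7 p8 p9 p10 p11 ⊢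
  refine (smul_right_injective M (two_ne_zero (α := ℚ))) ?_
  simp only [smul_zero, two_smul]
  have key : ∀ x y : M, y = 0 → x = y → x = 0 := fun x y h1 h2 => h2.trans h1
  refine key _ (0 + (Q 0 1 2 + Q 1 2 3 + Q 2 3 4 + -Q 0 4 3 + -Q 1 0 4) + (Q 0 1 2 + Q 1 2 4 + Q 2 4 3 + -Q 0 3 4 + -Q 1 0 3) + (Q 0 1 3 + Q 1 3 2 + Q 3 2 4 + -Q 0 4 2 + -Q 1 0 4) + (Q 0 1 3 + Q 1 3 4 + -Q 2 4 3 + -Q 0 2 4 + -Q 1 0 2) + (Q 0 1 4 + Q 1 4 2 + -Q 3 2 4 + -Q 0 3 2 + -Q 1 0 3) + (Q 0 1 4 + Q 1 4 3 + -Q 2 3 4 + -Q 0 2 3 + -Q 1 0 2) + (Q 0 2 3 + -Q 1 3 2 + Q 3 1 4 + -Q 0 4 1 + -Q 2 0 4) + (Q 0 2 4 + -Q 1 4 2 + -Q 3 1 4 + -Q 0 3 1 + -Q 2 0 3) + (Q 0 3 2 + -Q 1 2 3 + Q 2 1 4 + -Q 0 4 1 + -Q 3 0 4) - (Q 0 2 1 + Q 2 1 3 + Q 1 3 4 + -Q 0 4 3 + -Q 2 0 4) - (Q 0 2 1 + Q 2 1 4 + Q 1 4 3 + -Q 0 3 4 + -Q 2 0 3) - (Q 0 3 1 + -Q 2 1 3 + Q 1 2 4 + -Q 0 4 2 + -Q 3 0 4)) ?_ ?_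
  · rw [p0, p1, p2, p3, p4, p5, p6, p7, p8, p9, p10, p11]; simp
  · abel

end sums


section coc

variable {M : Type*} [LieRing M] [LieAlgebra ℚ M]

/-- The expression `σ_{abc} = [X_bc, Q_abc] + [X_ac, Q_bac]`. -/
def sig (X : Fin 5 → Fin 5 → M) (Q : Fin 5 → Fin 5 → Fin 5 → M) (a b c : Fin 5) : M :=
  ⁅X b c, Q a b c⁆ + ⁅X a c, Q b a c⁆

/-- The cocycle identity from the brackets of the pentagons. -/
theorem coc_aux {X : Fin 5 → Fin 5 → M} (hX : Conf X) (Q : Fin 5 → Fin 5 → Fin 5 → M)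
    (anti : ∀ a b c, a ≠ b → b ≠ c → a ≠ c → Q c b a = - Q a b c)
    (three : ∀ a b c, a ≠ b → b ≠ c → a ≠ c → Q a b c + Q b c a + Q c a b = 0)
    (comm : ∀ a b c d e : Fin 5, a ≠ b → b ≠ c → a ≠ c → d ≠ e → d ≠ a → d ≠ b → d ≠ c →
      e ≠ a → e ≠ b → e ≠ c → ⁅X d e, Q a b c⁆ = 0)
    (pent : ∀ a b c d e : Fin 5, Function.Injective ![b, a, e, d, c] →
      Q a b c + Q b c d + Q c d e + Q d e a + Q e a b = 0) :
    sig X Q 1 2 3 + sig X Q 1 0 4 = sig X Q 1 2 4 + sig X Q 1 0 3 := by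
  rw [← sub_eq_zero]
  unfold sig
  have p0 : ⁅X 1 2, Q 0 1 2 + Q 1 2 3 + Q 2 3 4 + Q 3 4 0 + Q 4 0 1⁆ = 0 := by rw [pent 0 1 2 3 4 (by decide), lie_zero]
  have p1 : ⁅X 1 2, Q 0 1 2 + Q 1 2 4 + Q 2 4 3 + Q 4 3 0 + Q 3 0 1⁆ = 0 := by rw [pent 0 1 2 4 3 (by decide), lie_zero]
  have p2 : ⁅X 1 3, Q 0 1 3 + Q 1 3 2 + Q 3 2 4 + Q 2 4 0 + Q 4 0 1⁆ = 0 := by rw [pent 0 1 3 2 4 (by decide), lie_zero]
  have p3 : ⁅X 0 1, Q 0 1 4 + Q 1 4 2 + Q 4 2 3 + Q 2 3 0 + Q 3 0 1⁆ = 0 := by rw [pent 0 1 4 2 3 (by decide), lie_zero]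
  have p4 : ⁅X 1 2, Q 0 1 4 + Q 1 4 2 + Q 4 2 3 + Q 2 3 0 + Q 3 0 1⁆ = 0 := by rw [pent 0 1 4 2 3 (by decide), lie_zero]
  have p5 : ⁅X 1 3, Q 0 1 4 + Q 1 4 2 + Q 4 2 3 + Q 2 3 0 + Q 3 0 1⁆ = 0 := by rw [pent 0 1 4 2 3 (by decide), lie_zero]
  have c0 : ⁅X 2 4, Q 0 1 3⁆ = 0 := comm 0 1 3 2 4 (by decide) (by decide) (by decide) (by decide) (by decide) (by decide) (by decide) (by decide) (by decide) (by decide)
  have c1 : ⁅X 2 4, Q 1 3 0⁆ = 0 := comm 1 3 0 2 4 (by decide) (by decide) (by decide) (by decide) (by decide) (by decide) (by decide) (by decide) (by decide) (by decide)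
  have c2 : ⁅X 2 3, Q 0 1 4⁆ = 0 := comm 0 1 4 2 3 (by decide) (by decide) (by decide) (by decide) (by decide) (by decide) (by decide) (by decide) (by decide) (by decide)
  have c3 : ⁅X 2 3, Q 1 4 0⁆ = 0 := comm 1 4 0 2 3 (by decide) (by decide) (by decide) (by decide) (by decide) (by decide) (by decide) (by decide) (by decide) (by decide)
  have c4 : ⁅X 1 4, Q 2 3 0⁆ = 0 := comm 2 3 0 1 4 (by decide) (by decide) (by decide) (by decide) (by decide) (by decide) (by decide) (by decide) (by decide) (by decide)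
  have c5 : ⁅X 1 3, Q 2 4 0⁆ = 0 := comm 2 4 0 1 3 (by decide) (by decide) (by decide) (by decide) (by decide) (by decide) (by decide) (by decide) (by decide) (by decide)
  have c6 : ⁅X 1 2, Q 0 3 4⁆ = 0 := comm 0 3 4 1 2 (by decide) (by decide) (by decide) (by decide) (by decide) (by decide) (by decide) (by decide) (by decide) (by decide)
  have c7 : ⁅X 1 2, Q 3 4 0⁆ = 0 := comm 3 4 0 1 2 (by decide) (by decide) (by decide) (by decide) (by decide) (by decide) (by decide) (by decide) (by decide) (by decide)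
  have c8 : ⁅X 0 4, Q 1 2 3⁆ = 0 := comm 1 2 3 0 4 (by decide) (by decide) (by decide) (by decide) (by decide) (by decide) (by decide) (by decide) (by decide) (by decide)
  have c9 : ⁅X 0 3, Q 1 2 4⁆ = 0 := comm 1 2 4 0 3 (by decide) (by decide) (by decide) (by decide) (by decide) (by decide) (by decide) (by decide) (by decide) (by decide)
  have c10 : ⁅X 0 1, Q 2 3 4⁆ = 0 := comm 2 3 4 0 1 (by decide) (by decide) (by decide) (by decide) (by decide) (by decide) (by decide) (by decide) (by decide) (by decide)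
  have c11 : ⁅X 0 1, Q 3 4 2⁆ = 0 := comm 3 4 2 0 1 (by decide) (by decide) (by decide) (by decide) (by decide) (by decide) (by decide) (by decide) (by decide) (by decide)
  have n0 : Q 2 0 1 = - Q 0 1 2 - Q 1 2 0 := by
    have := three 0 1 2 (by decide) (by decide) (by decide)
    rw [← sub_eq_zero, ← this]; abel
  have n1 : Q 2 1 0 = - Q 0 1 2 := anti _ _ _ (by decide) (by decide) (by decide)
  have n2 : Q 0 2 1 = - Q 1 2 0 := anti _ _ _ (by decide) (by decide) (by decide)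
  have n3 : Q 1 0 2 = - Q 2 0 1 := anti _ _ _ (by decide) (by decide) (by decide)
  have n4 : Q 3 0 1 = - Q 0 1 3 - Q 1 3 0 := by
    have := three 0 1 3 (by decide) (by decide) (by decide)
    rw [← sub_eq_zero, ← this]; abel
  have n5 : Q 3 1 0 = - Q 0 1 3 := anti _ _ _ (by decide) (by decide) (by decide)
  have n6 : Q 0 3 1 = - Q 1 3 0 := anti _ _ _ (by decide) (by decide) (by decide)
  have n7 : Q 1 0 3 = - Q 3 0 1 := anti _ _ _ (by decide) (by decide) (by decide)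
  have n8 : Q 4 0 1 = - Q 0 1 4 - Q 1 4 0 := by
    have := three 0 1 4 (by decide) (by decide) (by decide)
    rw [← sub_eq_zero, ← this]; abel
  have n9 : Q 4 1 0 = - Q 0 1 4 := anti _ _ _ (by decide) (by decide) (by decide)
  have n10 : Q 0 4 1 = - Q 1 4 0 := anti _ _ _ (by decide) (by decide) (by decide)
  have n11 : Q 1 0 4 = - Q 4 0 1 := anti _ _ _ (by decide) (by decide) (by decide)
  have n12 : Q 3 0 2 = - Q 0 2 3 - Q 2 3 0 := by
    have := three 0 2 3 (by decide) (by decide) (by decide)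
    rw [← sub_eq_zero, ← this]; abel
  have n13 : Q 3 2 0 = - Q 0 2 3 := anti _ _ _ (by decide) (by decide) (by decide)
  have n14 : Q 0 3 2 = - Q 2 3 0 := anti _ _ _ (by decide) (by decide) (by decide)
  have n15 : Q 2 0 3 = - Q 3 0 2 := anti _ _ _ (by decide) (by decide) (by decide)
  have n16 : Q 4 0 2 = - Q 0 2 4 - Q 2 4 0 := by
    have := three 0 2 4 (by decide) (by decide) (by decide)
    rw [← sub_eq_zero, ← this]; abel
  have n17 : Q 4 2 0 = - Q 0 2 4 := anti _ _ _ (by decide) (by decide) (by decide)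
  have n18 : Q 0 4 2 = - Q 2 4 0 := anti _ _ _ (by decide) (by decide) (by decide)
  have n19 : Q 2 0 4 = - Q 4 0 2 := anti _ _ _ (by decide) (by decide) (by decide)
  have n20 : Q 4 0 3 = - Q 0 3 4 - Q 3 4 0 := by
    have := three 0 3 4 (by decide) (by decide) (by decide)
    rw [← sub_eq_zero, ← this]; abel
  have n21 : Q 4 3 0 = - Q 0 3 4 := anti _ _ _ (by decide) (by decide) (by decide)
  have n22 : Q 0 4 3 = - Q 3 4 0 := anti _ _ _ (by decide) (by decide) (by decide)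
  have n23 : Q 3 0 4 = - Q 4 0 3 := anti _ _ _ (by decide) (by decide) (by decide)
  have n24 : Q 3 1 2 = - Q 1 2 3 - Q 2 3 1 := by
    have := three 1 2 3 (by decide) (by decide) (by decide)
    rw [← sub_eq_zero, ← this]; abel
  have n25 : Q 3 2 1 = - Q 1 2 3 := anti _ _ _ (by decide) (by decide) (by decide)
  have n26 : Q 1 3 2 = - Q 2 3 1 := anti _ _ _ (by decide) (by decide) (by decide)
  have n27 : Q 2 1 3 = - Q 3 1 2 := anti _ _ _ (by decide) (by decide) (by decide)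
  have n28 : Q 4 1 2 = - Q 1 2 4 - Q 2 4 1 := by
    have := three 1 2 4 (by decide) (by decide) (by decide)
    rw [← sub_eq_zero, ← this]; abel
  have n29 : Q 4 2 1 = - Q 1 2 4 := anti _ _ _ (by decide) (by decide) (by decide)
  have n30 : Q 1 4 2 = - Q 2 4 1 := anti _ _ _ (by decide) (by decide) (by decide)
  have n31 : Q 2 1 4 = - Q 4 1 2 := anti _ _ _ (by decide) (by decide) (by decide)
  have n32 : Q 4 1 3 = - Q 1 3 4 - Q 3 4 1 := by
    have := three 1 3 4 (by decide) (by decide) (by decide)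
    rw [← sub_eq_zero, ← this]; abel
  have n33 : Q 4 3 1 = - Q 1 3 4 := anti _ _ _ (by decide) (by decide) (by decide)
  have n34 : Q 1 4 3 = - Q 3 4 1 := anti _ _ _ (by decide) (by decide) (by decide)
  have n35 : Q 3 1 4 = - Q 4 1 3 := anti _ _ _ (by decide) (by decide) (by decide)
  have n36 : Q 4 2 3 = - Q 2 3 4 - Q 3 4 2 := by
    have := three 2 3 4 (by decide) (by decide) (by decide)
    rw [← sub_eq_zero, ← this]; abel
  have n37 : Q 4 3 2 = - Q 2 3 4 := anti _ _ _ (by decide) (by decide) (by decide)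
  have n38 : Q 2 4 3 = - Q 3 4 2 := anti _ _ _ (by decide) (by decide) (by decide)
  have n39 : Q 3 2 4 = - Q 4 2 3 := anti _ _ _ (by decide) (by decide) (by decide)
  have s01 : X 1 0 = X 0 1 := hX.symm _ _
  have s02 : X 2 0 = X 0 2 := hX.symm _ _
  have s03 : X 3 0 = X 0 3 := hX.symm _ _
  have s04 : X 4 0 = X 0 4 := hX.symm _ _
  have s12 : X 2 1 = X 1 2 := hX.symm _ _
  have s13 : X 3 1 = X 1 3 := hX.symm _ _
  have s14 : X 4 1 = X 1 4 := hX.symm _ _
  have s23 : X 3 2 = X 2 3 := hX.symm _ _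
  have s24 : X 4 2 = X 2 4 := hX.symm _ _
  have s34 : X 4 3 = X 3 4 := hX.symm _ _
  have x02 : X 0 2 = X 3 4 - X 0 1 - X 1 2 := by
    have := hX.sum3 0 1 2 3 4 (by decide) (by decide) (by decide) (by decide) (by decide) (by decide) (by decide) (by decide) (by decide) (by decide)
    try simp only [s01, s02, s03, s04, s12, s13, s14, s23, s24, s34] at this
    rw [← this]; abel
  have x13 : X 1 3 = X 0 4 - X 1 2 - X 2 3 := by
    have := hX.sum3 1 2 3 0 4 (by decide) (by decide) (by decide) (by decide) (by decide) (by decide) (by decide) (by decide) (by decide) (by decide)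
    try simp only [s01, s02, s03, s04, s12, s13, s14, s23, s24, s34] at this
    rw [← this]; abel
  have x24 : X 2 4 = X 0 1 - X 2 3 - X 3 4 := by
    have := hX.sum3 2 3 4 0 1 (by decide) (by decide) (by decide) (by decide) (by decide) (by decide) (by decide) (by decide) (by decide) (by decide)
    try simp only [s01, s02, s03, s04, s12, s13, s14, s23, s24, s34] at this
    rw [← this]; abel
  have x03 : X 0 3 = X 1 2 - X 3 4 - X 0 4 := by
    have := hX.sum3 3 4 0 1 2 (by decide) (by decide) (by decide) (by decide) (by decide) (by decide) (by decide) (by decide) (by decide) (by decide)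
    try simp only [s01, s02, s03, s04, s12, s13, s14, s23, s24, s34] at this
    rw [← this]; abel
  have x14 : X 1 4 = X 2 3 - X 0 4 - X 0 1 := by
    have := hX.sum3 4 0 1 2 3 (by decide) (by decide) (by decide) (by decide) (by decide) (by decide) (by decide) (by decide) (by decide) (by decide)
    try simp only [s01, s02, s03, s04, s12, s13, s14, s23, s24, s34] at this
    rw [← this]; abel
  have key : ∀ x y : M, y = 0 → x = y → x = 0 := fun x y h1 h2 => h2.trans h1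
  refine key _ (0 - ⁅X 1 2, Q 0 1 2 + Q 1 2 3 + Q 2 3 4 + Q 3 4 0 + Q 4 0 1⁆ + ⁅X 1 2, Q 0 1 2 + Q 1 2 4 + Q 2 4 3 + Q 4 3 0 + Q 3 0 1⁆ - ⁅X 1 3, Q 0 1 3 + Q 1 3 2 + Q 3 2 4 + Q 2 4 0 + Q 4 0 1⁆ - ⁅X 0 1, Q 0 1 4 + Q 1 4 2 + Q 4 2 3 + Q 2 3 0 + Q 3 0 1⁆ - ⁅X 1 2, Q 0 1 4 + Q 1 4 2 + Q 4 2 3 + Q 2 3 0 + Q 3 0 1⁆ - ⁅X 1 3, Q 0 1 4 + Q 1 4 2 + Q 4 2 3 + Q 2 3 0 + Q 3 0 1⁆ - ⁅X 2 4, Q 0 1 3⁆ - ⁅X 2 4, Q 1 3 0⁆ + ⁅X 2 3, Q 0 1 4⁆ + ⁅X 2 3, Q 1 4 0⁆ - ⁅X 1 4, Q 2 3 0⁆ + ⁅X 1 3, Q 2 4 0⁆ + ⁅X 1 2, Q 0 3 4⁆ + ⁅X 1 2, Q 3 4 0⁆ + ⁅X 0 4, Q 1 2 3⁆ - ⁅X 0 3, Q 1 2 4⁆ - ⁅X 0 1, Q 2 3 4⁆ - ⁅X 0 1, Q 3 4 2⁆) ?_ ?_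
  · rw [p0, p1, p2, p3, p4, p5, c0, c1, c2, c3, c4, c5, c6, c7, c8, c9, c10, c11]; simp
  · simp only [n0, n1, n2, n3, n4, n5, n6, n7, n8, n9, n10, n11, n12, n13, n14, n15, n16, n17, n18, n19, n20, n21, n22, n23, n24, n25, n26, n27, n28, n29, n30, n31, n32, n33, n34, n35, n36, n37, n38, n39, s01, s02, s03, s04, s12, s13, s14, s23, s24, s34]
    simp only [x02, x13, x24, x03, x14]
    simp only [lie_add, lie_sub, lie_neg, add_lie, sub_lie, neg_lie, neg_neg, neg_sub]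
    abel

end coc

end Crest.Agent.R010.EB
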