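import Crest.Agent.R010.EBDer

/-!
Row 10, module (E-B), part 6: `EB1` and `EB2` from the injectivity `S1` of `iota`.
-/

set_option autoImplicit false
set_option linter.unusedSectionVars false
set_option linter.unusedVariables false
set_option linter.unusedSimpArgs false

noncomputable section

open Crest.NumberTheoryR.GT

namespace Crest.Agent.R010.EB

attribute [local instance 100] LieRing.ofAssociativeRing

section general

variable {M : Type*} [LieRing M] [LieAlgebra ℚ M] {n : ℕ} {p : GTLie}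

theorem T3_smul (k : ℚ) (hp : p ∈ weightSubspace (fun _ : Fin 2 => 1) n) (a b : M) :
    T3 p (k • a) (k • b) = k ^ n • T3 p a b := by
  unfold T3
  have e : -(k • a) - k • b = k • (-a - b) := by rw [smul_sub, smul_neg]
  rw [e, gtSubst_smul k a b hp, gtSubst_smul k b _ hp, gtSubst_smul k _ a hp, smul_add, smul_add]

theorem T3_swap (ha : antisymDefect p = 0) (a b : M) : T3 p b a = - T3 p a b := by
  unfold T3
  have e : -b - a = -a - b := by abel
  rw [e, gtSubst_swap ha a b, gtSubst_swap ha (-a - b) a, gtSubst_swap ha b (-a - b)]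
  abel

theorem T3_zero_right (hn : 2 ≤ n) (hp : p ∈ weightSubspace (fun _ : Fin 2 => 1) n) (a : M) :
    T3 p a 0 = 0 := by
  unfold T3
  rw [gtSubst_comm (lie_zero _) hn hp, gtSubst_comm (zero_lie _) hn hp,
    gtSubst_comm (by rw [sub_zero, neg_lie, lie_self, neg_zero]) hn hp]
  simp

end general

/-- `EB1` from the injectivity of `iota`. -/
theorem EB1_of (hS1 : S1) : EB1 := by
  intro n p hn3 hp ha hpent
  have hn : 2 ≤ n := by omega
  have two : ∀ x y : FreeAlgebra ℚ (Fin 2), T3 p x ((2 : ℚ) • y) = (2 : ℚ) • T3 p x y := by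
    intro x y
    have h1 := sumT3 hn hp ha hpent y (-x - y) 0
    have h2 := sumT3 hn hp ha hpent y y (-x - (2 : ℚ) • y)
    have h3 := sumT3 hn hp ha hpent ((2 : ℚ) • y) (-x - (2 : ℚ) • y) 0
    have e1 : -(y + (-x - y) + 0) = x := by abel
    have e2 : -(y + y + (-x - (2 : ℚ) • y)) = x := by rw [two_smul]; abel
    have e3 : -((2 : ℚ) • y + (-x - (2 : ℚ) • y) + 0) = x := by abel
    rw [e1, T3_zero_right hn hp, add_zero] at h1
    rw [e2] at h2
    rw [e3, T3_zero_right hn hp, add_zero] at h3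
    rw [two_smul ℚ (T3 p x y)]
    have h4 : T3 p x ((2 : ℚ) • y) = - T3 p x (-x - (2 : ℚ) • y) := by
      rw [← sub_eq_zero, sub_neg_eq_add]; exact h3
    rw [h4, ← sub_eq_zero, ← neg_eq_zero, ← h2]; abel
  have two' : ∀ x y : FreeAlgebra ℚ (Fin 2), T3 p ((2 : ℚ) • x) y = (2 : ℚ) • T3 p x y := by
    intro x y
    rw [T3_swap ha y ((2 : ℚ) • x), two, T3_swap ha x y]
    simp
  have key : ∀ x y : FreeAlgebra ℚ (Fin 2), T3 p x y = 0 := by
    intro x y
    have h := T3_smul (2 : ℚ) hp x y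
    rw [two, two', smul_smul] at h
    have hne : (2 : ℚ) ^ n - 2 * 2 ≠ 0 := by
      have : (2 : ℚ) ^ 3 ≤ 2 ^ n := pow_le_pow_right₀ (by norm_num) hn3
      have h8 : (2 : ℚ) ^ 3 = 8 := by norm_num
      rw [h8] at this
      intro h0
      linarith
    have h' : ((2 : ℚ) ^ n - 2 * 2) • T3 p x y = 0 := by rw [sub_smul, ← h, sub_self]
    exact (smul_eq_zero.mp h').resolve_left hne
  apply hS1
  rw [map_zero, ← T3_gx_gy, map_T3]
  exact key _ _

section spec

variable {M : Type*} [LieRing M] [LieAlgebra ℚ M] {n : ℕ} {p : GTLie}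

/-- The special derivation expression. -/
def sg (p : GTLie) (u v : M) : M :=
  ⁅v, gtSubst u v p⁆ + ⁅-u - v, gtSubst u (-u - v) p⁆

theorem map_sg {M' : Type*} [LieRing M'] [LieAlgebra ℚ M'] (f : M →ₗ⁅ℚ⁆ M') (u v : M) :
    f (sg p u v) = sg p (f u) (f v) := by
  unfold sg
  rw [map_add, LieHom.map_lie, LieHom.map_lie, map_gtSubst, map_gtSubst, map_sub, map_neg]

theorem three_all (h3 : threeTermDefect p = 0) (a b : M) :
    gtSubst a b p + gtSubst b (-a - b) p + gtSubst (-a - b) a p = 0 := by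
  have := gtSubst_threeTerm p a b
  rw [h3, map_zero] at this
  exact this.symm

theorem sg_third (ha : antisymDefect p = 0) (h3 : threeTermDefect p = 0) (u v : M) :
    sg p (-u - v) v = sg p u v := by
  unfold sg
  have e : -(-u - v) - v = u := by abel
  have t := three_all h3 u v
  have t1 : gtSubst (-u - v) v p = gtSubst u v p + gtSubst (-u - v) u p := by
    rw [gtSubst_swap ha v (-u - v), ← sub_eq_zero, ← neg_eq_zero, ← t]; abel
  have t2 : gtSubst u (-u - v) p = - gtSubst (-u - v) u p := gtSubst_swap ha _ _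
  rw [e, t1, t2]
  simp only [lie_add, sub_lie, neg_lie, lie_neg]
  abel

theorem sg_symm (ha : antisymDefect p = 0) (h3 : threeTermDefect p = 0) (u v : M) :
    sg p v u = sg p u v := by
  unfold sg
  have e : -v - u = -u - v := by abel
  have t := three_all h3 u v
  have t1 : gtSubst v (-u - v) p = - gtSubst u v p - gtSubst (-u - v) u p := by
    rw [← sub_eq_zero, ← t]; abel
  have t2 : gtSubst u (-u - v) p = - gtSubst (-u - v) u p := gtSubst_swap ha _ _
  have t3 : gtSubst v u p = - gtSubst u v p := gtSubst_swap ha _ _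
  rw [e, t1, t2, t3]
  simp only [lie_add, lie_sub, sub_lie, neg_lie, lie_neg]
  abel

theorem sg_self (hn : 2 ≤ n) (hp : p ∈ weightSubspace (fun _ : Fin 2 => 1) n) (u : M) :
    sg p u u = 0 := by
  unfold sg
  rw [gtSubst_comm (lie_self _) hn hp, gtSubst_comm (by simp) hn hp]
  simp

theorem sg_smul (k : ℚ) (hp : p ∈ weightSubspace (fun _ : Fin 2 => 1) n) (u v : M) :
    sg p (k • u) (k • v) = k ^ (n + 1) • sg p u v := by
  unfold sg
  have e : -(k • u) - k • v = k • (-u - v) := by rw [smul_sub, smul_neg]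
  rw [e, gtSubst_smul k u v hp, gtSubst_smul k u _ hp, smul_add]
  simp only [smul_lie, lie_smul, smul_smul]
  rw [pow_succ]

variable {X : Fin 5 → Fin 5 → M} (hX : Conf X) (hn : 2 ≤ n)
  (hp : p ∈ weightSubspace (fun _ : Fin 2 => 1) n)

include hX hn hp

theorem sig_eq_sg (a b c : Fin 5) (hab : a ≠ b) (hbc : b ≠ c) (hac : a ≠ c) :
    sig X (Qf X p) a b c = sg p (X a b) (X b c) := by
  obtain ⟨d, e, had, hae, hbd, hbe, hcd, hce, hde⟩ := exists_compl a b c hab hbc hac
  obtain ⟨-, -, h3⟩ := subst_third hX hn hp a b c hab hbc hac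
  have e1 : X a c = (-X a b - X b c) + X d e := by
    rw [← hX.sum3 a b c d e hab hac had hae hbc hbd hbe hcd hce hde]; abel
  have e2 : ⁅X d e, Qf X p b a c⁆ = 0 :=
    Q_comm hX hp b a c d e hab.symm hac hbc hde hbd.symm had.symm hcd.symm hbe.symm hae.symm
      hce.symm
  have e3 : Qf X p b a c = gtSubst (X a b) (-X a b - X b c) p := by
    unfold Qf; rw [hX.symm b a, h3]
  unfold sig sg
  rw [e1, add_lie, e2, add_zero, e3]
  rfl

theorem coc_conf (ha : antisymDefect p = 0) (h3 : threeTermDefect p = 0)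
    (hpent : pentagonDefect p = 0) :
    sg p (X 1 2) (X 1 3) + sg p (X 0 1) (X 1 4) = sg p (X 1 2) (X 1 4) + sg p (X 0 1) (X 1 3) := by
  have h := coc_aux hX (Qf X p) (fun a b c _ _ _ => Q_anti hX ha a b c)
    (fun a b c hab hbc hac => by
      rw [Q_T3 hX hn hp a b c hab hbc hac]; exact three_all h3 _ _)
    (fun a b c d e h1 h2 h3 h4 h5 h6 h7 h8 h9 h10 => Q_comm hX hp a b c d e h1 h2 h3 h4 h5 h6 h7 h8 h9 h10)
    (pent_all hX hn hp ha hpent)
  have sw : ∀ a b c, sig X (Qf X p) a b c = sig X (Qf X p) b a c := by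
    intro a b c; unfold sig; rw [add_comm]
  rw [sw 1 2 3, sw 1 0 4, sw 1 2 4, sw 1 0 3] at h
  rw [sig_eq_sg hX hn hp 2 1 3 (by decide) (by decide) (by decide),
    sig_eq_sg hX hn hp 0 1 4 (by decide) (by decide) (by decide),
    sig_eq_sg hX hn hp 2 1 4 (by decide) (by decide) (by decide),
    sig_eq_sg hX hn hp 0 1 3 (by decide) (by decide) (by decide), hX.symm 2 1] at h
  exact h

end spec

section specAssoc

variable {n : ℕ} (hn : 2 ≤ n) {p : GTLie} (hp : p ∈ weightSubspace (fun _ : Fin 2 => 1) n)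
  (ha : antisymDefect p = 0) (h3 : threeTermDefect p = 0) (hpent : pentagonDefect p = 0)

include hn hp ha h3 hpent

theorem coc_T : sg p y2 y3 + sg p (-(y2 + y3 + y4)) y4 =
    sg p y2 y4 + sg p (-(y2 + y3 + y4)) y3 := by
  rw [← sub_eq_zero]
  apply Lm_inj
  rw [map_sub, map_add, map_add, map_sg, map_sg, map_sg, map_sg, ← XT_01, ← XT_12, ← XT_13,
    ← XT_14, sub_eq_zero]
  exact coc_conf conf_XT hn hp ha h3 hpent

theorem coc_B {B : Type*} [Ring B] [Algebra ℚ B] (a b c : B) :
    sg p a b + sg p (a + b) c = sg p a c + sg p (a + c) b := by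
  have h := congrArg (AlgHom.toLieHom (spec a b c)) (coc_T hn hp ha h3 hpent)
  rw [map_add, map_add, map_sg, map_sg, map_sg, map_sg, map_neg, map_add, map_add] at h
  have e2 : (AlgHom.toLieHom (spec a b c)) y2 = a := spec_y2 a b c
  have e3 : (AlgHom.toLieHom (spec a b c)) y3 = b := spec_y3 a b c
  have e4 : (AlgHom.toLieHom (spec a b c)) y4 = c := spec_y4 a b c
  rw [e2, e3, e4] at h
  have f1 : sg p (a + b) c = sg p (-(a + b + c)) c := by
    rw [← sg_third ha h3 (a + b) c]; congr 1; abel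
  have f2 : sg p (a + c) b = sg p (-(a + b + c)) b := by
    rw [← sg_third ha h3 (a + c) b]; congr 1; abel
  rw [f1, f2, h]

theorem sg_B {B : Type*} [Ring B] [Algebra ℚ B] (a b : B) : sg p a b = 0 := by
  have C := coc_B (B := B) hn hp ha h3 hpent
  have sy : ∀ u v : B, sg p v u = sg p u v := fun u v => sg_symm ha h3 u v
  have se : ∀ u : B, sg p u u = 0 := fun u => sg_self hn hp u
  -- `s(2a,b) = s(a,b) + s(a+b,a)`
  have h1 : sg p (a + a) b = sg p a b + sg p (a + b) a := by
    have := C a b a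
    rw [se a, zero_add] at this
    exact this.symm
  -- `s(x,2b) = s(x,b) + s(x+b,b)`
  have h2 : ∀ x : B, sg p x (b + b) = sg p x b + sg p (x + b) b := by
    intro x
    have := C b x b
    rw [se b, zero_add, sy x b, add_comm b x] at this
    rw [sy (b + b) x]
    exact this.symm
  have h4 : sg p (a + a) (b + b) = sg p a b + sg p a b := by
    rw [h2, h1]
    have := C (a + b) a b
    -- s(a+b,a) + s(2a+b,b) = s(a+b,b) + s(a+2b,a)
    have q1 := C a b (a + b)
    -- s(a,b) + s(a+b,a+b) = s(a,a+b) + s(2a+b,b)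
    rw [se (a + b), add_zero, sy (a + b) a] at q1
    have e : a + (a + b) = a + a + b := by abel
    rw [e] at q1
    rw [add_assoc, ← q1]
  have h5 := sg_smul (2 : ℚ) hp a b
  rw [two_smul, two_smul, h4, ← two_smul ℚ (sg p a b)] at h5
  have hne : (2 : ℚ) ^ (n + 1) - 2 ≠ 0 := by
    have : (2 : ℚ) ^ 2 ≤ 2 ^ (n + 1) := pow_le_pow_right₀ (by norm_num) (by omega)
    have h8 : (2 : ℚ) ^ 2 = 4 := by norm_num
    rw [h8] at this
    intro h0
    linarith
  have h' : ((2 : ℚ) ^ (n + 1) - 2) • sg p a b = 0 := by rw [sub_smul, ← h5, sub_self]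
  exact (smul_eq_zero.mp h').resolve_left hne

end specAssoc

/-- (S): the special derivation property in every Lie algebra. -/
theorem sg_eq_zero (hS1 : S1) {n : ℕ} (hn : 2 ≤ n) {p : GTLie}
    (hp : p ∈ weightSubspace (fun _ : Fin 2 => 1) n)
    (ha : antisymDefect p = 0) (h3 : threeTermDefect p = 0) (hpent : pentagonDefect p = 0)
    {M : Type*} [LieRing M] [LieAlgebra ℚ M] (u v : M) : sg p u v = 0 := by
  have h0 : sg p gx gy = 0 := by
    apply hS1
    rw [map_zero, map_sg]
    exact sg_B hn hp ha h3 hpent _ _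
  have := congrArg (gtSubst u v) h0
  rw [map_sg, gtSubst_gx, gtSubst_gy, map_zero] at this
  exact this

end Crest.Agent.R010.EB
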