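import Crest.Agent.R010.EBFib

/-!
Row 10, module (E-B), part 4: the functions `Q a b c = p(X_ab, X_bc)` of a configuration.
-/

set_option autoImplicit false
set_option linter.unusedSectionVars false
set_option linter.unusedVariables false
set_option linter.unusedSimpArgs false

noncomputable section

open Crest.NumberTheoryR.GT

namespace Crest.Agent.R010.EB

variable {M : Type*} [LieRing M] [LieAlgebra ℚ M]

/-- `p(X_ab, X_bc)`. -/
def Qf (X : Fin 5 → Fin 5 → M) (p : GTLie) (a b c : Fin 5) : M :=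
  gtSubst (X a b) (X b c) p

theorem exists_compl (a b c : Fin 5) (hab : a ≠ b) (hbc : b ≠ c) (hac : a ≠ c) :
    ∃ d e : Fin 5, a ≠ d ∧ a ≠ e ∧ b ≠ d ∧ b ≠ e ∧ c ≠ d ∧ c ≠ e ∧ d ≠ e := by
  revert a b c; decide

section

variable {X : Fin 5 → Fin 5 → M} (hX : Conf X) {n : ℕ} (hn : 2 ≤ n) {p : GTLie}
  (hp : p ∈ weightSubspace (fun _ : Fin 2 => 1) n)

include hX

theorem Q_anti (ha : antisymDefect p = 0) (a b c : Fin 5) :
    Qf X p c b a = - Qf X p a b c := by
  unfold Qf
  rw [hX.symm c b, hX.symm b a, gtSubst_swap ha]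

include hp

theorem Q_comm (a b c d e : Fin 5) (hab : a ≠ b) (hbc : b ≠ c) (hac : a ≠ c) (hde : d ≠ e)
    (hda : d ≠ a) (hdb : d ≠ b) (hdc : d ≠ c) (hea : e ≠ a) (heb : e ≠ b) (hec : e ≠ c) :
    ⁅X d e, Qf X p a b c⁆ = 0 := by
  unfold Qf
  exact lie_gtSubst_eq_zero (hX.comm _ _ _ _ hde hda hdb hea heb hab)
    (hX.comm _ _ _ _ hde hdb hdc heb hec hbc) hp

include hn

/-- Replacing `X_ac` by `-X_ab-X_bc` inside `p`. -/
theorem subst_third (a b c : Fin 5) (hab : a ≠ b) (hbc : b ≠ c) (hac : a ≠ c) :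
    gtSubst (X b c) (X c a) p = gtSubst (X b c) (-X a b - X b c) p ∧
    gtSubst (X c a) (X a b) p = gtSubst (-X a b - X b c) (X a b) p ∧
    gtSubst (X a b) (X a c) p = gtSubst (X a b) (-X a b - X b c) p := by
  obtain ⟨d, e, had, hae, hbd, hbe, hcd, hce, hde⟩ := exists_compl a b c hab hbc hac
  have e1 : X a c = (-X a b - X b c) + X d e := by
    rw [← hX.sum3 a b c d e hab hac had hae hbc hbd hbe hcd hce hde]; abel
  have e2 : X c a = (-X a b - X b c) + X d e := by rw [hX.symm c a, e1]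
  have k1 : ⁅X d e, X a b⁆ = 0 :=
    hX.comm _ _ _ _ hde had.symm hbd.symm hae.symm hbe.symm hab
  have k2 : ⁅X d e, X b c⁆ = 0 :=
    hX.comm _ _ _ _ hde hbd.symm hcd.symm hbe.symm hce.symm hbc
  have k3 : ⁅X d e, -X a b - X b c⁆ = 0 := by rw [lie_sub, lie_neg, k1, k2]; simp
  refine ⟨?_, ?_, ?_⟩
  · have := gtSubst_shift (a := X b c) (b := -X a b - X b c) (c := 0) (c' := X d e)
      (zero_lie _) (zero_lie _) k2 k3 (zero_lie _) hn hp
    rw [add_zero] at this
    rw [e2, this]
  · have := gtSubst_shift (a := -X a b - X b c) (b := X a b) (c := X d e) (c' := 0)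
      k3 k1 (zero_lie _) (zero_lie _) (lie_zero _) hn hp
    rw [add_zero] at this
    rw [e2, this]
  · have := gtSubst_shift (a := X a b) (b := -X a b - X b c) (c := 0) (c' := X d e)
      (zero_lie _) (zero_lie _) k1 k3 (zero_lie _) hn hp
    rw [add_zero] at this
    rw [e1, this]

theorem Q_T3 (a b c : Fin 5) (hab : a ≠ b) (hbc : b ≠ c) (hac : a ≠ c) :
    Qf X p a b c + Qf X p b c a + Qf X p c a b = T3 p (X a b) (X b c) := by
  obtain ⟨h1, h2, -⟩ := subst_third hX hn hp a b c hab hbc hac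
  unfold Qf T3
  rw [h1, h2]

/-- The pentagon for the identity labelling. -/
theorem pent_id (ha : antisymDefect p = 0) (hpent : pentagonDefect p = 0) :
    Qf X p 1 0 4 + Qf X p 0 4 3 + Qf X p 4 3 2 + Qf X p 3 2 1 + Qf X p 2 1 0 = 0 := by
  obtain ⟨θ, hθ⟩ := hX.exists_braidHom
  have h01 : θ (tB 0 1) = X 0 1 := hθ 0 1 (by decide)
  have h02 : θ (tB 0 2) = X 0 2 := hθ 0 2 (by decide)
  have h12 : θ (tB 1 2) = X 1 2 := hθ 1 2 (by decide)
  have h13 : θ (tB 1 3) = X 1 3 := hθ 1 3 (by decide)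
  have h23 : θ (tB 2 3) = X 2 3 := hθ 2 3 (by decide)
  have h : θ (pentagonDefect p) = 0 := by rw [hpent, map_zero]
  have e : pentagonDefect p = gtSubst (tB 0 1) (tB 1 2 + tB 1 3) p +
      gtSubst (tB 0 2 + tB 1 2) (tB 2 3) p - gtSubst (tB 1 2) (tB 2 3) p -
      gtSubst (tB 0 1 + tB 0 2) (tB 1 3 + tB 2 3) p - gtSubst (tB 0 1) (tB 1 2) p := rfl
  rw [e] at h
  simp only [map_sub, map_add, map_gtSubst, h01, h02, h12, h13, h23] at h
  have z : ∀ x y : M, ⁅(0 : M), x⁆ = 0 := fun x _ => zero_lie x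
  have a1 : X 1 2 + X 1 3 = X 0 4 + -X 2 3 := by
    have := hX.sum3 1 2 3 0 4 (by decide) (by decide) (by decide) (by decide) (by decide)
      (by decide) (by decide) (by decide) (by decide) (by decide)
    rw [← this]; abel
  have a2 : X 0 2 + X 1 2 = X 3 4 + -X 0 1 := by
    have := hX.sum3 0 1 2 3 4 (by decide) (by decide) (by decide) (by decide) (by decide)
      (by decide) (by decide) (by decide) (by decide) (by decide)
    rw [← this]; abel
  have a3 : X 0 1 + X 0 2 = X 3 4 + -X 1 2 := by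
    have := hX.sum3 0 1 2 3 4 (by decide) (by decide) (by decide) (by decide) (by decide)
      (by decide) (by decide) (by decide) (by decide) (by decide)
    rw [← this]; abel
  have a4 : X 1 3 + X 2 3 = X 0 4 + -X 1 2 := by
    have := hX.sum3 1 2 3 0 4 (by decide) (by decide) (by decide) (by decide) (by decide)
      (by decide) (by decide) (by decide) (by decide) (by decide)
    rw [← this]; abel
  have b1 : gtSubst (X 0 1) (X 0 4 + -X 2 3) p = gtSubst (X 0 1) (X 0 4) p := by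
    have := gtSubst_shift (a := X 0 1) (b := X 0 4) (c := 0) (c' := -X 2 3)
      (zero_lie _) (zero_lie _)
      (by rw [neg_lie, hX.comm 2 3 0 1 (by decide) (by decide) (by decide) (by decide) (by decide) (by decide), neg_zero])
      (by rw [neg_lie, hX.comm 2 3 0 4 (by decide) (by decide) (by decide) (by decide) (by decide) (by decide), neg_zero])
      (zero_lie _) hn hp
    rw [add_zero] at this
    exact this
  have b2 : gtSubst (X 3 4 + -X 0 1) (X 2 3) p = gtSubst (X 3 4) (X 2 3) p := by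
    have := gtSubst_shift (a := X 3 4) (b := X 2 3) (c := -X 0 1) (c' := 0)
      (by rw [neg_lie, hX.comm 0 1 3 4 (by decide) (by decide) (by decide) (by decide) (by decide) (by decide), neg_zero])
      (by rw [neg_lie, hX.comm 0 1 2 3 (by decide) (by decide) (by decide) (by decide) (by decide) (by decide), neg_zero])
      (zero_lie _) (zero_lie _)
      (lie_zero _) hn hp
    rw [add_zero] at this
    exact this
  have b3 : gtSubst (X 3 4 + -X 1 2) (X 0 4 + -X 1 2) p = gtSubst (X 3 4) (X 0 4) p := by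
    have k1 : ⁅-X 1 2, X 3 4⁆ = 0 := by
      rw [neg_lie, hX.comm 1 2 3 4 (by decide) (by decide) (by decide) (by decide) (by decide) (by decide), neg_zero]
    have k2 : ⁅-X 1 2, X 0 4⁆ = 0 := by
      rw [neg_lie, hX.comm 1 2 0 4 (by decide) (by decide) (by decide) (by decide) (by decide) (by decide), neg_zero]
    exact gtSubst_shift k1 k2 k1 k2 (lie_self _) hn hp
  rw [a1, a2, a3, a4, b1, b2, b3] at h
  have q1 : Qf X p 1 0 4 = gtSubst (X 0 1) (X 0 4) p := by
    unfold Qf; rw [hX.symm 1 0]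
  have q2 : Qf X p 0 4 3 = - gtSubst (X 3 4) (X 0 4) p := by
    unfold Qf; rw [hX.symm 4 3, gtSubst_swap ha]
  have q3 : Qf X p 4 3 2 = gtSubst (X 3 4) (X 2 3) p := by
    unfold Qf; rw [hX.symm 4 3, hX.symm 3 2]
  have q4 : Qf X p 3 2 1 = - gtSubst (X 1 2) (X 2 3) p := by
    unfold Qf; rw [hX.symm 3 2, hX.symm 2 1, gtSubst_swap ha]
  have q5 : Qf X p 2 1 0 = - gtSubst (X 0 1) (X 1 2) p := by
    unfold Qf; rw [hX.symm 2 1, hX.symm 1 0, gtSubst_swap ha]
  rw [q1, q2, q3, q4, q5, ← h]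
  abel

/-- The pentagon for all 5-cycles. -/
theorem pent_all (ha : antisymDefect p = 0) (hpent : pentagonDefect p = 0) (a b c d e : Fin 5)
    (h : Function.Injective ![b, a, e, d, c]) :
    Qf X p a b c + Qf X p b c d + Qf X p c d e + Qf X p d e a + Qf X p e a b = 0 :=
  pent_id (hX.comp _ h) hn hp ha hpent

end

end Crest.Agent.R010.EB
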