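import Mathlib

/-!
Row 10, module EB: the purely linear "2-cocycle" identity in a `ℚ`-Lie algebra.
-/

namespace Crest.Agent.R010.EB.Sig

variable {L : Type*} [LieRing L] [LieAlgebra ℚ L]

/-- `sigma_abc = [X b c, psi a b c] + [X a c, psi b a c]`. -/
def sigma (X : Fin 5 → Fin 5 → L) (psi : Fin 5 → Fin 5 → Fin 5 → L) (a b c : Fin 5) : L :=
  ⁅X b c, psi a b c⁆ + ⁅X a c, psi b a c⁆

theorem cocycle (X : Fin 5 → Fin 5 → L) (psi : Fin 5 → Fin 5 → Fin 5 → L)
    (hs : ∀ i j, X i j = X j i) (h0 : ∀ i, X i i = 0) (hrow : ∀ i, ∑ j, X i j = 0)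
    (hanti : ∀ a b c, a ≠ b → b ≠ c → a ≠ c → psi a b c = - psi c b a)
    (hcomm : ∀ a b c d e, [a, b, c, d, e].Nodup → ⁅X d e, psi a b c⁆ = 0)
    (h3 : ∀ a b c, a ≠ b → b ≠ c → a ≠ c → psi a b c + psi b c a + psi c a b = 0)
    (P1 : psi 0 1 2 + psi 1 2 3 + psi 2 3 4 + psi 3 4 0 + psi 4 0 1 = 0)
    (P2 : psi 0 3 2 + psi 3 2 1 + psi 2 1 4 + psi 1 4 0 + psi 4 0 3 = 0)
    (P3 : psi 0 2 1 + psi 2 1 4 + psi 1 4 3 + psi 4 3 0 + psi 3 0 2 = 0) :
    sigma X psi 0 1 2 - sigma X psi 0 1 4 - sigma X psi 0 2 3 + sigma X psi 0 3 4 = 0 := by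
  -- the X's in the basis 01, 02, 12, 03, 13
  have r0 := hrow 0
  have r1 := hrow 1
  have r2 := hrow 2
  have r3 := hrow 3
  have r4 := hrow 4
  simp only [Fin.sum_univ_five, h0, add_zero, zero_add] at r0 r1 r2 r3 r4
  have e04 : X 0 4 = -(X 0 1 + X 0 2 + X 0 3) := by
    linear_combination (norm := module) r0
  have e14 : X 1 4 = -(X 0 1 + X 1 2 + X 1 3) := by
    have := r1
    rw [hs 1 0] at this
    linear_combination (norm := module) this
  have e23 : X 2 3 = -(X 0 1 + X 0 2 + X 1 2 + X 0 3 + X 1 3) := by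
    have t2 := r2
    have t3 := r3
    have t4 := r4
    rw [hs 2 0, hs 2 1] at t2
    rw [hs 3 0, hs 3 1, hs 3 2] at t3
    rw [hs 4 0, hs 4 1, hs 4 2, hs 4 3, e04, e14] at t4
    linear_combination (norm := module) (1/2 : ℚ) • t2 + (1/2 : ℚ) • t3 - (1/2 : ℚ) • t4
  have e24 : X 2 4 = X 0 1 + X 0 3 + X 1 3 := by
    have t2 := r2
    rw [hs 2 0, hs 2 1, e23] at t2
    linear_combination (norm := module) t2
  have e34 : X 3 4 = X 0 1 + X 0 2 + X 1 2 := by
    have t3 := r3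
    rw [hs 3 0, hs 3 1, hs 3 2, e23] at t3
    linear_combination (norm := module) t3
  -- the psi's in the basis
  have c1 := hcomm 0 1 2 3 4 (by decide)
  have c2 := hcomm 0 1 4 2 3 (by decide)
  have c3 := hcomm 0 2 3 1 4 (by decide)
  have c4 := hcomm 0 3 4 1 2 (by decide)
  have c5 := hcomm 1 2 3 0 4 (by decide)
  have c6 := hcomm 1 2 4 0 3 (by decide)
  have c7 := hcomm 2 4 1 0 3 (by decide)
  have c8 := hcomm 3 4 1 0 2 (by decide)
  have c9 := hcomm 2 3 4 0 1 (by decide)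
  have q1 : ⁅X 0 1, psi 0 1 2 + psi 1 2 3 + psi 2 3 4 + psi 3 4 0 + psi 4 0 1⁆ = 0 := by
    rw [P1, lie_zero]
  have q2 : ⁅X 0 1 + X 0 4, psi 0 3 2 + psi 3 2 1 + psi 2 1 4 + psi 1 4 0 + psi 4 0 3⁆ = 0 := by
    rw [P2, lie_zero]
  have q3 : ⁅X 0 2, psi 0 2 1 + psi 2 1 4 + psi 1 4 3 + psi 4 3 0 + psi 3 0 2⁆ = 0 := by
    rw [P3, lie_zero]
  -- middle-minimum elements
  have p3 : ∀ a b c : Fin 5, a ≠ b → b ≠ c → a ≠ c → psi c a b = - psi a b c - psi b c a := by
    intro a b c h1 h2 h3'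
    have := h3 a b c h1 h2 h3'
    linear_combination (norm := module) this
  have a102 : psi 1 0 2 = psi 0 1 2 + psi 1 2 0 := by
    rw [hanti 1 0 2 (by decide) (by decide) (by decide), p3 0 1 2 (by decide) (by decide) (by decide)]
    module
  have a104 : psi 1 0 4 = psi 0 1 4 + psi 1 4 0 := by
    rw [hanti 1 0 4 (by decide) (by decide) (by decide), p3 0 1 4 (by decide) (by decide) (by decide)]
    module
  have a203 : psi 2 0 3 = psi 0 2 3 + psi 2 3 0 := by
    rw [hanti 2 0 3 (by decide) (by decide) (by decide), p3 0 2 3 (by decide) (by decide) (by decide)]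
    module
  have a304 : psi 3 0 4 = psi 0 3 4 + psi 3 4 0 := by
    rw [hanti 3 0 4 (by decide) (by decide) (by decide), p3 0 3 4 (by decide) (by decide) (by decide)]
    module
  have a401 : psi 4 0 1 = - psi 0 1 4 - psi 1 4 0 := p3 0 1 4 (by decide) (by decide) (by decide)
  have a032 : psi 0 3 2 = - psi 2 3 0 := hanti 0 3 2 (by decide) (by decide) (by decide)
  have a321 : psi 3 2 1 = - psi 1 2 3 := hanti 3 2 1 (by decide) (by decide) (by decide)
  have a214 : psi 2 1 4 = psi 1 2 4 + psi 2 4 1 := by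
    rw [hanti 2 1 4 (by decide) (by decide) (by decide), p3 1 2 4 (by decide) (by decide) (by decide)]
    module
  have a403 : psi 4 0 3 = - psi 0 3 4 - psi 3 4 0 := p3 0 3 4 (by decide) (by decide) (by decide)
  have a021 : psi 0 2 1 = - psi 1 2 0 := hanti 0 2 1 (by decide) (by decide) (by decide)
  have a143 : psi 1 4 3 = - psi 3 4 1 := hanti 1 4 3 (by decide) (by decide) (by decide)
  have a430 : psi 4 3 0 = - psi 0 3 4 := hanti 4 3 0 (by decide) (by decide) (by decide)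
  have a302 : psi 3 0 2 = - psi 0 2 3 - psi 2 3 0 := p3 0 2 3 (by decide) (by decide) (by decide)
  simp only [sigma]
  simp only [a102, a104, a203, a304, a401, a032, a321, a214, a403, a021, a143, a430, a302,
    e04, e14, e23, e24, e34, neg_lie, lie_neg, add_lie, lie_add, sub_lie, lie_sub]
    at c1 c2 c3 c4 c5 c6 c7 c8 c9 q1 q2 q3 ⊢
  linear_combination (norm := module) c1 - c2 - c3 + c4 - c5 - c6 - c7 - c8 + c9 - q1 - q2 - q3

end Crest.Agent.R010.EB.Sig
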