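import Crest.Agent.R010.EDefs

/-! Row 10, module E-D, part 1 (helper249): truncated exponentials of operators on a
noncommutative algebra. -/

set_option autoImplicit false
set_option linter.unusedSectionVars false
open Finset

namespace Crest.Agent.R010.EDx

variable {K : Type*} [Field K] [CharZero K]
variable {E : Type*} [Ring E] [Algebra K E]
variable {E' : Type*} [Ring E'] [Algebra K E']

/-- Leibniz rule for divided powers -/
theorem divpow_mul (T T₁ T₂ : E →ₗ[K] E)
    (h : ∀ x y, T (x * y) = T₁ x * y + x * T₂ y) (j : ℕ) (x y : E) :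
    ((j.factorial : K)⁻¹ • T ^ j) (x * y) =
      ∑ p ∈ antidiagonal j, ((p.1.factorial : K)⁻¹ • T₁ ^ p.1) x * ((p.2.factorial : K)⁻¹ • T₂ ^ p.2) y := by
  have hp : ∀ (j : ℕ) (x y : E), (T ^ j) (x * y) =
      ∑ p ∈ antidiagonal j, (j.choose p.1 : K) • ((T₁ ^ p.1) x * (T₂ ^ p.2) y) := by
    intro j
    induction j with
    | zero => intro x y; simp
    | succ j ih =>
      intro x y
      rw [pow_succ, Module.End.mul_apply, h, map_add, ih, ih]
      have e1 : ∀ p ∈ antidiagonal j, (j.choose p.1 : K) • ((T₁ ^ p.1) (T₁ x) * (T₂ ^ p.2) y) =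
          (j.choose p.1 : K) • ((T₁ ^ (p.1 + 1)) x * (T₂ ^ p.2) y) := by
        intro p _; rw [pow_succ (n := p.1), Module.End.mul_apply]
      have e2 : ∀ p ∈ antidiagonal j, (j.choose p.1 : K) • ((T₁ ^ p.1) x * (T₂ ^ p.2) (T₂ y)) =
          (j.choose p.1 : K) • ((T₁ ^ p.1) x * (T₂ ^ (p.2 + 1)) y) := by
        intro p _; rw [pow_succ (n := p.2), Module.End.mul_apply]
      rw [Finset.sum_congr rfl e1, Finset.sum_congr rfl e2]
      have key := Finset.sum_antidiagonal_choose_succ_nsmul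
        (fun a b => ((T₁ ^ a) x * (T₂ ^ b) y)) j
      simp only [← Nat.cast_smul_eq_nsmul K] at key
      rw [key, add_comm]
      congr 1
      apply Finset.sum_congr rfl
      intro p hp
      have : j.choose p.1 = j.choose p.2 := by
        have := HasAntidiagonal.mem_antidiagonal.mp hp
        subst this
        rw [Nat.choose_symm_add]
      rw [this]
  rw [LinearMap.smul_apply, hp, Finset.smul_sum]
  apply Finset.sum_congr rfl
  intro p hpm
  have hpj := HasAntidiagonal.mem_antidiagonal.mp hpm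
  simp only [LinearMap.smul_apply, smul_mul_smul_comm]
  rw [smul_smul]
  congr 1
  subst hpj
  have h1 : ((p.1 + p.2).choose p.1 : K) * (p.1.factorial : K) * (p.2.factorial : K) =
      ((p.1 + p.2).factorial : K) := by
    rw [Nat.choose_symm_add]
    exact_mod_cast Nat.add_choose_mul_factorial_mul_factorial p.1 p.2
  have h2 : ((p.1 + p.2).factorial : K) ≠ 0 := by exact_mod_cast Nat.factorial_ne_zero _
  have h3 : (p.1.factorial : K) ≠ 0 := by exact_mod_cast Nat.factorial_ne_zero _
  have h4 : (p.2.factorial : K) ≠ 0 := by exact_mod_cast Nat.factorial_ne_zero _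
  field_simp
  linear_combination h1

/-- truncated exponential of an operator -/
noncomputable def expN (T : E →ₗ[K] E) (J : ℕ) (x : E) : E :=
  ∑ j ∈ range (J + 1), ((j.factorial : K)⁻¹ • T ^ j) x

theorem expN_mul (T T₁ T₂ : E →ₗ[K] E)
    (h : ∀ x y, T (x * y) = T₁ x * y + x * T₂ y) (N : ℕ) (h₁ : T₁ ^ (N + 1) = 0)
    (h₂ : T₂ ^ (N + 1) = 0) (x y : E) :
    expN T (2 * N) (x * y) = expN T₁ (2 * N) x * expN T₂ (2 * N) y := by
  unfold expN
  rw [Finset.sum_mul_sum, ← Finset.sum_product']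
  simp only [divpow_mul T T₁ T₂ h]
  rw [← Finset.sum_filter_add_sum_filter_not (range (2 * N + 1) ×ˢ range (2 * N + 1))
    (fun p => p.1 + p.2 ≤ 2 * N)]
  have hz : ∑ p ∈ (range (2 * N + 1) ×ˢ range (2 * N + 1)).filter (fun p => ¬ p.1 + p.2 ≤ 2 * N),
      ((p.1.factorial : K)⁻¹ • T₁ ^ p.1) x * ((p.2.factorial : K)⁻¹ • T₂ ^ p.2) y = 0 := by
    apply Finset.sum_eq_zero
    intro p hp
    have hp2 := (Finset.mem_filter.mp hp).2
    rcases Nat.lt_or_ge N p.1 with h3 | h3
    · have : T₁ ^ p.1 = 0 := pow_eq_zero_of_le (by omega) h₁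
      simp [this]
    · have : T₂ ^ p.2 = 0 := pow_eq_zero_of_le (by omega) h₂
      simp [this]
  rw [hz, add_zero]
  rw [← Finset.sum_fiberwise_of_maps_to (s := (range (2 * N + 1) ×ˢ range (2 * N + 1)).filter
    (fun p => p.1 + p.2 ≤ 2 * N)) (t := range (2 * N + 1)) (g := fun p => p.1 + p.2)]
  · apply Finset.sum_congr rfl
    intro j hj
    have hj2 := Finset.mem_range.mp hj
    apply Finset.sum_congr _ (fun _ _ => rfl)
    ext p
    simp only [HasAntidiagonal.mem_antidiagonal, Finset.mem_filter, Finset.mem_product,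
      Finset.mem_range]
    omega
  · intro p hp
    have hp2 := (Finset.mem_filter.mp hp).2
    exact Finset.mem_range.mpr (by omega)

theorem expN_transfer (d : E →ₗ[K] E') (T : E →ₗ[K] E) (T' : E' →ₗ[K] E')
    (h : ∀ x, d (T x) = T' (d x)) (J : ℕ) (x : E) :
    d (expN T J x) = expN T' J (d x) := by
  have hp : ∀ (j : ℕ) (x : E), d ((T ^ j) x) = (T' ^ j) (d x) := by
    intro j
    induction j with
    | zero => intro x; simp
    | succ j ih => intro x; rw [pow_succ', pow_succ', Module.End.mul_apply, Module.End.mul_apply, h, ih]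
  unfold expN
  rw [map_sum]
  apply Finset.sum_congr rfl
  intro j _
  rw [LinearMap.smul_apply, LinearMap.smul_apply, map_smul, hp]

theorem expN_of_ker (T : E →ₗ[K] E) (J : ℕ) (x : E) (hx : T x = 0) : expN T J x = x := by
  unfold expN
  rw [Finset.sum_range_succ']
  have : ∀ j ∈ range J, (((j + 1).factorial : K)⁻¹ • T ^ (j + 1)) x = 0 := by
    intro j _
    rw [LinearMap.smul_apply, pow_succ, Module.End.mul_apply, hx, map_zero, smul_zero]
  rw [Finset.sum_eq_zero this]
  simp

/-- if a linear functional satisfies `ℓ (T x) = c * ε x` with `ε (T x) = 0` then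
`ℓ (exp T x) = ℓ x + c * ε x` -/
theorem expN_functional (T : E →ₗ[K] E) (J : ℕ) (hJ : 1 ≤ J) (ℓ ε : E →ₗ[K] K) (c : K)
    (h1 : ∀ x, ℓ (T x) = c * ε x) (h2 : ∀ x, ε (T x) = 0) (x : E) :
    ℓ (expN T J x) = ℓ x + c * ε x := by
  obtain ⟨J, rfl⟩ : ∃ J', J = J' + 1 := ⟨J - 1, by omega⟩
  unfold expN
  rw [Finset.sum_range_succ', Finset.sum_range_succ']
  simp only [map_add, map_sum]
  have : ∀ j ∈ range J, ℓ ((((j + 1 + 1).factorial : K)⁻¹ • T ^ (j + 1 + 1)) x) = 0 := by
    intro j _
    rw [LinearMap.smul_apply, pow_succ', Module.End.mul_apply, map_smul, h1, pow_succ',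
      Module.End.mul_apply, h2, mul_zero, smul_zero]
  rw [Finset.sum_eq_zero this]
  simp [h1, add_comm]

end Crest.Agent.R010.EDx
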