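import Crest.Agent.R010.ED1

/-! Row 10, module E-D, part 2 (helper249): words and their coefficients in free algebras. -/

set_option autoImplicit false
set_option linter.unusedSectionVars false
open Finset

namespace Crest.Agent.R010.EDx

section words

variable {K : Type*} [CommRing K] {X : Type*}

/-- the word `l` as an element of the free algebra -/
noncomputable def wd (K : Type*) [CommRing K] {X : Type*} (l : List X) : FreeAlgebra K X :=
  (l.map (FreeAlgebra.ι K)).prod

@[simp] theorem wd_nil : wd K ([] : List X) = 1 := by simp [wd]
theorem wd_cons (a : X) (l : List X) : wd K (a :: l) = FreeAlgebra.ι K a * wd K l := by simp [wd]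
theorem wd_append (l l' : List X) : wd K (l ++ l') = wd K l * wd K l' := by simp [wd]
theorem wd_singleton (a : X) : wd K [a] = FreeAlgebra.ι K a := by simp [wd]

theorem equiv_wd (l : List X) : FreeAlgebra.equivMonoidAlgebraFreeMonoid (wd K l) =
    MonoidAlgebra.single (FreeMonoid.ofList l) (1 : K) := by
  induction l with
  | nil => simp [MonoidAlgebra.one_def]
  | cons a l ih =>
    rw [wd_cons, map_mul, ih]
    have : FreeAlgebra.equivMonoidAlgebraFreeMonoid (FreeAlgebra.ι K a) =
        MonoidAlgebra.single (FreeMonoid.of a) (1 : K) := by
      simp [FreeAlgebra.equivMonoidAlgebraFreeMonoid, MonoidAlgebra.of]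
    rw [this, MonoidAlgebra.single_mul_single, one_mul]
    rfl

theorem cf_wd [DecidableEq X] (w l : List X) : cf w (wd K l) = if l = w then 1 else 0 := by
  have : cf w (wd K l) = (FreeAlgebra.equivMonoidAlgebraFreeMonoid (wd K l)).coeff
    (FreeMonoid.ofList w) := rfl
  rw [this, equiv_wd, MonoidAlgebra.coeff_single]
  classical
  rw [Finsupp.single_apply]
  by_cases h : l = w
  · rw [if_pos (by rw [h]), if_pos h]
  · rw [if_neg (fun h' => h (FreeMonoid.ofList.injective h')), if_neg h]

theorem span_wd : Submodule.span K (Set.range (wd K : List X → FreeAlgebra K X)) = ⊤ := by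
  rw [eq_top_iff]
  intro x _
  induction x using FreeAlgebra.induction with
  | grade0 r =>
    rw [Algebra.algebraMap_eq_smul_one]
    exact Submodule.smul_mem _ _ (Submodule.subset_span ⟨[], wd_nil⟩)
  | grade1 a => exact Submodule.subset_span ⟨[a], wd_singleton a⟩
  | mul a b ha hb =>
    have h : a * b ∈ Submodule.span K (Set.range (wd K : List X → FreeAlgebra K X)) *
        Submodule.span K (Set.range (wd K : List X → FreeAlgebra K X)) :=
      Submodule.mul_mem_mul (ha trivial) (hb trivial)
    rw [Submodule.span_mul_span] at h
    refine Submodule.span_mono ?_ h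
    rintro _ ⟨_, ⟨l, rfl⟩, _, ⟨l', rfl⟩, rfl⟩
    exact ⟨l ++ l', wd_append l l'⟩
  | add a b ha hb => exact Submodule.add_mem _ (ha trivial) (hb trivial)

theorem wd_induction {P : FreeAlgebra K X → Prop} (h0 : P 0) (ha : ∀ x y, P x → P y → P (x + y))
    (hs : ∀ (r : K) x, P x → P (r • x)) (hw : ∀ l, P (wd K l)) (x : FreeAlgebra K X) : P x := by
  have hx : x ∈ Submodule.span K (Set.range (wd K : List X → FreeAlgebra K X)) := by
    rw [span_wd]; trivial
  induction hx using Submodule.span_induction with
  | mem x h => obtain ⟨l, rfl⟩ := h; exact hw l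
  | zero => exact h0
  | add x y _ _ hx hy => exact ha x y hx hy
  | smul r x _ hx => exact hs r x hx

/-- two linear maps that agree on words are equal -/
theorem wd_ext {M : Type*} [AddCommMonoid M] [Module K M] (f g : FreeAlgebra K X →ₗ[K] M)
    (h : ∀ l, f (wd K l) = g (wd K l)) (x : FreeAlgebra K X) : f x = g x := by
  induction x using wd_induction with
  | h0 => simp
  | ha x y hx hy => rw [map_add, map_add, hx, hy]
  | hs r x hx => rw [map_smul, map_smul, hx]
  | hw l => exact h l

/-- deconcatenation -/
theorem cf_mul (w : List X) (x y : FreeAlgebra K X) :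
    cf w (x * y) = ∑ i ∈ range (w.length + 1), cf (w.take i) x * cf (w.drop i) y := by
  classical
  induction x using wd_induction with
  | h0 => simp
  | ha x x' hx hx' => simp only [add_mul, map_add, hx, hx', Finset.sum_add_distrib]
  | hs r x hx => simp only [smul_mul_assoc, map_smul, hx, smul_eq_mul, Finset.mul_sum, mul_assoc]
  | hw l =>
    induction y using wd_induction with
    | h0 => simp
    | ha y y' hy hy' => simp only [mul_add, map_add, hy, hy', Finset.sum_add_distrib]
    | hs r y hy =>
      simp only [mul_smul_comm, map_smul, hy, smul_eq_mul, Finset.mul_sum]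
      apply Finset.sum_congr rfl
      intro i _; ring
    | hw l' =>
      rw [← wd_append]
      simp only [cf_wd]
      by_cases h : l ++ l' = w
      · subst h
        rw [if_pos rfl, Finset.sum_eq_single l.length]
        · simp
        · intro i hi hne
          have : l ≠ (l ++ l').take i := by
            intro h
            have := congrArg List.length h
            rw [List.length_take, List.length_append] at this
            have hi2 := Finset.mem_range.mp hi
            rw [List.length_append] at hi2
            omega
          rw [if_neg this, zero_mul]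
        · intro h
          exact absurd (Finset.mem_range.mpr (by rw [List.length_append]; omega)) h
      · rw [if_neg h]
        symm
        apply Finset.sum_eq_zero
        intro i _
        by_cases h1 : l = w.take i
        · have h2 : l' ≠ w.drop i := by
            intro h2
            apply h
            rw [h1, h2, List.take_append_drop]
          rw [if_neg h2, mul_zero]
        · rw [if_neg h1, zero_mul]

theorem cf_nil_mul (x y : FreeAlgebra K X) :
    cf ([] : List X) (x * y) = cf ([] : List X) x * cf ([] : List X) y := by
  rw [cf_mul]; simp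

theorem cf_one (w : List X) : cf w (1 : FreeAlgebra K X) = if w = [] then 1 else 0 := by
  classical
  rw [← wd_nil, cf_wd]
  simp only [eq_comm]

theorem cf_ι [DecidableEq X] (w : List X) (a : X) :
    cf w (FreeAlgebra.ι K a) = if [a] = w then 1 else 0 := by
  rw [← wd_singleton, cf_wd]

theorem homog_mul {m n : ℕ} {x y : FreeAlgebra K X} (hx : Homog m x) (hy : Homog n y) :
    Homog (m + n) (x * y) := by
  intro w hw
  rw [cf_mul]
  apply Finset.sum_eq_zero
  intro i hi
  by_cases h : (w.take i).length = m
  · have h2 : (w.drop i).length ≠ n := by
      intro h2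
      apply hw
      rw [← List.take_append_drop i w, List.length_append, h, h2]
    rw [hy _ h2, mul_zero]
  · rw [hx _ h, zero_mul]

theorem homog_sub {m : ℕ} {x y : FreeAlgebra K X} (hx : Homog m x) (hy : Homog m y) :
    Homog m (x - y) := by
  intro w hw
  rw [map_sub, hx w hw, hy w hw, sub_zero]

theorem homog_add {m : ℕ} {x y : FreeAlgebra K X} (hx : Homog m x) (hy : Homog m y) :
    Homog m (x + y) := by
  intro w hw
  rw [map_add, hx w hw, hy w hw, add_zero]

theorem homog_smul {m : ℕ} {x : FreeAlgebra K X} (r : K) (hx : Homog m x) :
    Homog m (r • x) := by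
  intro w hw
  rw [map_smul, hx w hw, smul_zero]

theorem homog_zero {m : ℕ} : Homog m (0 : FreeAlgebra K X) := by
  intro w hw
  rw [map_zero]

theorem homog_ι (a : X) : Homog 1 (FreeAlgebra.ι K a) := by
  classical
  intro w hw
  rw [cf_ι, if_neg]
  rintro rfl
  simp at hw

end words

end Crest.Agent.R010.EDx
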