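import Crest.Agent.R010.ED2

/-! Row 10, module E-D, part 3 (helper249): derivations of free algebras along homomorphisms,
the operators `sig δ v w = δ - L_v + R_w`, and the operator `s_ψ = D_ψ + L_ψ`. -/

set_option autoImplicit false
set_option linter.unusedSectionVars false
open Finset

namespace Crest.Agent.R010.EDx

variable {K : Type*} [Field K] [CharZero K]
variable {E : Type*} [Ring E] [Algebra K E]
variable {E' : Type*} [Ring E'] [Algebra K E']
variable {ι : Type*}

/-- the algebra homomorphism into the dual numbers defining a derivation -/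
noncomputable def derF (X X' : ι → E) : FreeAlgebra K ι →ₐ[K] TrivSqZeroExt E E :=
  FreeAlgebra.lift K (fun i => TrivSqZeroExt.inl (X i) + TrivSqZeroExt.inr (X' i))

theorem derF_fst (X X' : ι → E) (x : FreeAlgebra K ι) :
    (derF (K := K) X X' x).fst = FreeAlgebra.lift K X x := by
  have : (TrivSqZeroExt.fstHom K E E).comp (derF (K := K) X X') = FreeAlgebra.lift K X := by
    ext i
    simp [derF]
  exact DFunLike.congr_fun this x

/-- the derivation along `lift X` with `ι i ↦ X' i` -/
noncomputable def derL (X X' : ι → E) : FreeAlgebra K ι →ₗ[K] E :=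
  (TrivSqZeroExt.sndHom E E).restrictScalars K ∘ₗ (derF (K := K) X X').toLinearMap

theorem derF_snd (X X' : ι → E) (x : FreeAlgebra K ι) :
    (derF (K := K) X X' x).snd = derL X X' x := rfl

theorem derL_mul (X X' : ι → E) (x y : FreeAlgebra K ι) :
    derL X X' (x * y) = FreeAlgebra.lift K X x * derL X X' y + derL X X' x * FreeAlgebra.lift K X y := by
  simp [derL, TrivSqZeroExt.snd_mul, derF_fst]

theorem derL_ι (X X' : ι → E) (i : ι) : derL (K := K) X X' (FreeAlgebra.ι K i) = X' i := by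
  simp [derL, derF]

theorem derL_one (X X' : ι → E) : derL (K := K) X X' 1 = 0 := by
  simp [derL, derF]

/-- two derivations along the same homomorphism agreeing on generators are equal -/
theorem der_ext (d : FreeAlgebra K ι →ₐ[K] E) (D D' : FreeAlgebra K ι →ₗ[K] E)
    (h : ∀ x y, D (x * y) = d x * D y + D x * d y)
    (h' : ∀ x y, D' (x * y) = d x * D' y + D' x * d y)
    (hg : ∀ i, D (FreeAlgebra.ι K i) = D' (FreeAlgebra.ι K i)) (x : FreeAlgebra K ι) :
    D x = D' x := by
  have h1 : D 1 = 0 := by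
    have := h 1 1
    rw [mul_one, map_one d, one_mul, mul_one] at this
    simpa using this
  have h1' : D' 1 = 0 := by
    have := h' 1 1
    rw [mul_one, map_one d, one_mul, mul_one] at this
    simpa using this
  induction x using FreeAlgebra.induction with
  | grade0 r =>
    rw [Algebra.algebraMap_eq_smul_one, map_smul, map_smul, h1, h1']
  | grade1 i => exact hg i
  | mul a b ha hb => rw [h, h', ha, hb]
  | add a b ha hb => rw [map_add, map_add, ha, hb]

/-- derivations of an algebra -/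
def IsDer (δ : E →ₗ[K] E) : Prop := ∀ x y, δ (x * y) = δ x * y + x * δ y

theorem IsDer.one {δ : E →ₗ[K] E} (h : IsDer δ) : δ 1 = 0 := by
  have := h 1 1
  rw [mul_one, one_mul, mul_one] at this
  simpa using this

/-- `σ_{v,w} = δ - L_v + R_w` -/
noncomputable def sig (δ : E →ₗ[K] E) (v w : E) : E →ₗ[K] E :=
  δ - LinearMap.mulLeft K v + LinearMap.mulRight K w

theorem sig_apply (δ : E →ₗ[K] E) (v w x : E) : sig δ v w x = δ x - v * x + x * w := by
  simp [sig]

theorem sig_mul {δ : E →ₗ[K] E} (h : IsDer δ) (v z w x y : E) :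
    sig δ v w (x * y) = sig δ v z x * y + x * sig δ z w y := by
  simp only [sig_apply, h x y]
  noncomm_ring

theorem sig_one {δ : E →ₗ[K] E} (h : IsDer δ) (v : E) : sig δ v v 1 = 0 := by
  rw [sig_apply, h.one]; noncomm_ring

theorem expN_sig_mul {δ : E →ₗ[K] E} (h : IsDer δ) (N : ℕ) (v z w : E)
    (h₁ : (sig δ v z) ^ (N + 1) = 0) (h₂ : (sig δ z w) ^ (N + 1) = 0) (x y : E) :
    expN (sig δ v w) (2 * N) (x * y) =
      expN (sig δ v z) (2 * N) x * expN (sig δ z w) (2 * N) y :=
  expN_mul _ _ _ (sig_mul h v z w) N h₁ h₂ x y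

/-! ### The free algebra on two letters -/

@[simp] theorem ev_ι_zero (X Y : E) : ev (K := K) X Y (FreeAlgebra.ι K 0) = X := by simp [ev]
@[simp] theorem ev_ι_one (X Y : E) : ev (K := K) X Y (FreeAlgebra.ι K 1) = Y := by simp [ev]

theorem ev_comp (X Y : E) (g : E →ₐ[K] E') (x : FreeAlgebra K (Fin 2)) :
    g (ev X Y x) = ev (g X) (g Y) x := by
  have : g.comp (ev (K := K) X Y) = ev (g X) (g Y) := by
    ext i; fin_cases i <;> simp
  exact DFunLike.congr_fun this x

/-- `D_ψ : A ↦ 0, B ↦ [B, ψ]` -/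
noncomputable def Dpsi (ψ : FreeAlgebra K (Fin 2)) :
    FreeAlgebra K (Fin 2) →ₗ[K] FreeAlgebra K (Fin 2) :=
  derL (FreeAlgebra.ι K)
    (fun i => if i = 0 then 0 else FreeAlgebra.ι K 1 * ψ - ψ * FreeAlgebra.ι K 1)

theorem lift_ι_self (x : FreeAlgebra K ι) : FreeAlgebra.lift K (FreeAlgebra.ι K) x = x := by
  have : FreeAlgebra.lift K (FreeAlgebra.ι K) = AlgHom.id K (FreeAlgebra K ι) := by
    ext i; simp
  rw [this]; rfl

theorem Dpsi_isDer (ψ : FreeAlgebra K (Fin 2)) : IsDer (Dpsi ψ) := by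
  intro x y
  unfold Dpsi
  rw [derL_mul, lift_ι_self, lift_ι_self, add_comm]

theorem Dpsi_zero (ψ : FreeAlgebra K (Fin 2)) : Dpsi ψ (FreeAlgebra.ι K 0) = 0 := by
  simp [Dpsi, derL_ι]

theorem Dpsi_one (ψ : FreeAlgebra K (Fin 2)) : Dpsi ψ (FreeAlgebra.ι K 1) =
    FreeAlgebra.ι K 1 * ψ - ψ * FreeAlgebra.ι K 1 := by
  simp [Dpsi, derL_ι]

/-- `s_ψ = D_ψ + L_ψ` -/
noncomputable def sOp (ψ : FreeAlgebra K (Fin 2)) :
    FreeAlgebra K (Fin 2) →ₗ[K] FreeAlgebra K (Fin 2) := Dpsi ψ + LinearMap.mulLeft K ψ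

theorem sOp_apply (ψ x : FreeAlgebra K (Fin 2)) : sOp ψ x = Dpsi ψ x + ψ * x := by
  simp [sOp]

/-- intertwining: if `δ a = [u, a]` and `δ b = [u - ψ(a,b), b]` then
`d ∘ s_ψ = σ_{u - ψ(a,b), u} ∘ d` where `d = ev a b` -/
theorem ev_sOp {δ : E →ₗ[K] E} (h : IsDer δ) (a b u : E) (ψ : FreeAlgebra K (Fin 2))
    (ha : δ a = u * a - a * u)
    (hb : δ b = (u - ev a b ψ) * b - b * (u - ev a b ψ)) (x : FreeAlgebra K (Fin 2)) :
    ev a b (sOp ψ x) = sig δ (u - ev a b ψ) u (ev a b x) := by
  have key : ev a b (Dpsi ψ x) = δ (ev a b x) - (u * ev a b x - ev a b x * u) := by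
    have := der_ext (ev (K := K) a b) ((ev (K := K) a b).toLinearMap ∘ₗ Dpsi ψ)
      ((δ - LinearMap.mulLeft K u + LinearMap.mulRight K u) ∘ₗ (ev (K := K) a b).toLinearMap)
      ?_ ?_ ?_ x
    · simp only [LinearMap.comp_apply, AlgHom.toLinearMap_apply, LinearMap.add_apply,
        LinearMap.sub_apply, LinearMap.mulLeft_apply, LinearMap.mulRight_apply] at this
      rw [this]; noncomm_ring
    · intro x y
      simp only [LinearMap.comp_apply, AlgHom.toLinearMap_apply]
      rw [Dpsi_isDer ψ x y, map_add, map_mul, map_mul, add_comm]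
    · intro x y
      simp only [LinearMap.comp_apply, AlgHom.toLinearMap_apply, LinearMap.add_apply,
        LinearMap.sub_apply, LinearMap.mulLeft_apply, LinearMap.mulRight_apply, map_mul]
      rw [h (ev a b x) (ev a b y)]
      noncomm_ring
    · intro i
      simp only [LinearMap.comp_apply, AlgHom.toLinearMap_apply, LinearMap.add_apply,
        LinearMap.sub_apply, LinearMap.mulLeft_apply, LinearMap.mulRight_apply]
      fin_cases i
      · simp only [Fin.zero_eta, Fin.isValue, Dpsi_zero, ev_ι_zero, map_zero, ha]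
        noncomm_ring
      · simp only [Fin.mk_one, Fin.isValue, Dpsi_one, ev_ι_one, map_sub, map_mul, hb]
        noncomm_ring
  rw [sOp_apply, map_add, map_mul, key, sig_apply]
  noncomm_ring

end Crest.Agent.R010.EDx
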