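import Crest.Agent.R010.ED3

/-! Row 10, module E-D, part 4 (helper249): nilpotent algebras given by generators and relations,
their word-length filtration, derivations and nilpotency of `sig δ v w`. -/

set_option autoImplicit false
set_option linter.unusedSectionVars false
open Finset

namespace Crest.Agent.R010.EDx

section fil

variable {K : Type*} [Field K] [CharZero K] {ι : Type*} {U : Type*} [Ring U] [Algebra K U]

/-- filtration by word length -/
def Fil (K : Type*) [Field K] {ι : Type*} {U : Type*} [Ring U] [Algebra K U] (G : ι → U) (m : ℕ) :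
    Submodule K U :=
  Submodule.span K {x | ∃ l : List ι, m ≤ l.length ∧ x = (l.map G).prod}

variable {G : ι → U}

theorem word_mem_Fil (l : List ι) : (l.map G).prod ∈ Fil K G l.length :=
  Submodule.subset_span ⟨l, le_refl _, rfl⟩

theorem gen_mem_Fil (i : ι) : G i ∈ Fil K G 1 := by
  have := word_mem_Fil (K := K) (G := G) [i]
  simpa using this

theorem Fil_mono {m m' : ℕ} (h : m ≤ m') : Fil K G m' ≤ Fil K G m := by
  apply Submodule.span_mono
  rintro _ ⟨l, hl, rfl⟩
  exact ⟨l, le_trans h hl, rfl⟩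

theorem Fil_mul {a b : ℕ} {x y : U} (hx : x ∈ Fil K G a) (hy : y ∈ Fil K G b) :
    x * y ∈ Fil K G (a + b) := by
  have h : x * y ∈ Fil K G a * Fil K G b := Submodule.mul_mem_mul hx hy
  unfold Fil at h
  rw [Submodule.span_mul_span] at h
  refine Submodule.span_mono ?_ h
  rintro _ ⟨_, ⟨l, hl, rfl⟩, _, ⟨l', hl', rfl⟩, rfl⟩
  refine ⟨l ++ l', ?_, ?_⟩
  · rw [List.length_append]; omega
  · simp

theorem one_mem_Fil : (1 : U) ∈ Fil K G 0 := by
  have := word_mem_Fil (K := K) (G := G) []
  simpa using this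

theorem nilp_word {N : ℕ} (h : Nilp N G) (l : List ι) (hl : N + 1 ≤ l.length) :
    (l.map G).prod = 0 := by
  rw [← List.take_append_drop (N + 1) l, List.map_append, List.prod_append,
    h (l.take (N + 1)) (by rw [List.length_take]; omega), zero_mul]

theorem Fil_bot {N : ℕ} (h : Nilp N G) : Fil K G (N + 1) = ⊥ := by
  unfold Fil
  rw [Submodule.span_eq_bot]
  rintro _ ⟨l, hl, rfl⟩
  exact nilp_word h l hl

theorem Fil_bot' {N m : ℕ} (h : Nilp N G) (hm : N + 1 ≤ m) : Fil K G m = ⊥ := by
  rw [eq_bot_iff, ← Fil_bot (K := K) h]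
  exact Fil_mono hm

theorem IsDer.word_mem {δ : U →ₗ[K] U} (hδ : IsDer δ) (hG : ∀ i, δ (G i) ∈ Fil K G 2)
    (l : List ι) : δ ((l.map G).prod) ∈ Fil K G (l.length + 1) := by
  induction l with
  | nil => simp [hδ.one]
  | cons a l ih =>
    rw [List.map_cons, List.prod_cons, hδ, List.length_cons]
    apply Submodule.add_mem
    · have := Fil_mul (hG a) (word_mem_Fil (K := K) (G := G) l)
      rwa [show 2 + l.length = l.length + 1 + 1 by ring] at this
    · have := Fil_mul (gen_mem_Fil (K := K) (G := G) a) ih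
      rwa [show 1 + (l.length + 1) = l.length + 1 + 1 by ring] at this

theorem IsDer.mem_Fil {δ : U →ₗ[K] U} (hδ : IsDer δ) (hG : ∀ i, δ (G i) ∈ Fil K G 2)
    {m : ℕ} {x : U} (hx : x ∈ Fil K G m) : δ x ∈ Fil K G (m + 1) := by
  unfold Fil at hx
  induction hx using Submodule.span_induction with
  | mem x h =>
    obtain ⟨l, hl, rfl⟩ := h
    exact Fil_mono (by omega) (hδ.word_mem hG l)
  | zero => simp
  | add x y _ _ hx hy => rw [map_add]; exact Submodule.add_mem _ hx hy
  | smul r x _ hx => rw [map_smul]; exact Submodule.smul_mem _ _ hx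

theorem sig_mem_Fil {δ : U →ₗ[K] U} (hδ : IsDer δ) (hG : ∀ i, δ (G i) ∈ Fil K G 2)
    {v w : U} (hv : v ∈ Fil K G 1) (hw : w ∈ Fil K G 1)
    {m : ℕ} {x : U} (hx : x ∈ Fil K G m) : sig δ v w x ∈ Fil K G (m + 1) := by
  rw [sig_apply]
  apply Submodule.add_mem
  · apply Submodule.sub_mem _ (hδ.mem_Fil hG hx)
    have := Fil_mul hv hx
    rwa [add_comm] at this
  · exact Fil_mul hx hw

theorem sig_nilp {N : ℕ} (h : Nilp N G) (hgen : Fil K G 0 = ⊤) {δ : U →ₗ[K] U} (hδ : IsDer δ)
    (hG : ∀ i, δ (G i) ∈ Fil K G 2) {v w : U} (hv : v ∈ Fil K G 1) (hw : w ∈ Fil K G 1) :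
    (sig δ v w) ^ (N + 1) = 0 := by
  have key : ∀ (j : ℕ) (x : U), ((sig δ v w) ^ j) x ∈ Fil K G j := by
    intro j
    induction j with
    | zero => intro x; rw [hgen]; trivial
    | succ j ih => intro x; rw [pow_succ', Module.End.mul_apply]; exact sig_mem_Fil hδ hG hv hw (ih x)
  ext x
  have := key (N + 1) x
  rw [Fil_bot h] at this
  simpa using this

end fil

section quot

variable {K : Type} [Field K] [CharZero K] {ι : Type}

/-- relations `r` together with the vanishing of all words of length `N+1` -/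
inductive NRel (N : ℕ) (r : FreeAlgebra K ι → FreeAlgebra K ι → Prop) :
    FreeAlgebra K ι → FreeAlgebra K ι → Prop
  | base {x y : FreeAlgebra K ι} : r x y → NRel N r x y
  | nil (l : List ι) : l.length = N + 1 → NRel N r (wd K l) 0

/-- the nilpotent algebra with relations `r` -/
def QN (N : ℕ) (r : FreeAlgebra K ι → FreeAlgebra K ι → Prop) : Type := RingQuot (NRel N r)

variable (N : ℕ) (r : FreeAlgebra K ι → FreeAlgebra K ι → Prop)

noncomputable instance : Ring (QN N r) := inferInstanceAs (Ring (RingQuot (NRel N r)))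
noncomputable instance : Algebra K (QN N r) := inferInstanceAs (Algebra K (RingQuot (NRel N r)))

/-- the quotient map -/
noncomputable def qmk : FreeAlgebra K ι →ₐ[K] QN N r := RingQuot.mkAlgHom K (NRel N r)

/-- the generators -/
noncomputable def qgen (i : ι) : QN N r := qmk N r (FreeAlgebra.ι K i)

theorem qmk_surj : Function.Surjective (qmk N r) := RingQuot.mkAlgHom_surjective K (NRel N r)

theorem qmk_rel {x y : FreeAlgebra K ι} (h : NRel N r x y) : qmk N r x = qmk N r y :=
  RingQuot.mkAlgHom_rel K h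

theorem lift_qgen (x : FreeAlgebra K ι) : FreeAlgebra.lift K (qgen N r) x = qmk N r x := by
  have : FreeAlgebra.lift K (qgen N r) = qmk N r := by
    ext i; simp [qgen]
  rw [this]

theorem qmk_wd (l : List ι) : qmk N r (wd K l) = (l.map (qgen N r)).prod := by
  induction l with
  | nil => simp
  | cons a l ih => rw [wd_cons, map_mul, ih, List.map_cons, List.prod_cons]; rfl

theorem qgen_nilp : Nilp N (qgen N r) := by
  intro l hl
  rw [← qmk_wd, qmk_rel N r (NRel.nil l hl), map_zero]

theorem qgen_Fil : Fil K (qgen N r) 0 = ⊤ := by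
  rw [eq_top_iff]
  intro x _
  obtain ⟨y, rfl⟩ := qmk_surj N r x
  induction y using wd_induction with
  | h0 => simp
  | ha x y hx hy => rw [map_add]; exact Submodule.add_mem _ (hx trivial) (hy trivial)
  | hs r x hx => rw [map_smul]; exact Submodule.smul_mem _ _ (hx trivial)
  | hw l =>
    rw [qmk_wd]
    exact Fil_mono (Nat.zero_le _) (word_mem_Fil l)

theorem exists_qlift {B : Type} [Ring B] [Algebra K B] (f : ι → B)
    (hr : ∀ x y, r x y → FreeAlgebra.lift K f x = FreeAlgebra.lift K f y) (hN : Nilp N f) :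
    ∃ g : QN N r →ₐ[K] B, ∀ i, g (qgen N r i) = f i := by
  have hwd : ∀ l : List ι, FreeAlgebra.lift K f (wd K l) = (l.map f).prod := by
    intro l
    induction l with
    | nil => simp
    | cons a l ih => rw [wd_cons, map_mul, ih, List.map_cons, List.prod_cons]; simp
  have h : ∀ ⦃x y : FreeAlgebra K ι⦄, NRel N r x y →
      FreeAlgebra.lift K f x = FreeAlgebra.lift K f y := by
    intro x y hxy
    cases hxy with
    | base h => exact hr _ _ h
    | nil l hl => rw [hwd, hN l hl, map_zero]
  refine ⟨RingQuot.liftAlgHom K ⟨FreeAlgebra.lift K f, h⟩, fun i => ?_⟩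
  have := RingQuot.liftAlgHom_mkAlgHom_apply K (FreeAlgebra.lift K f) h (FreeAlgebra.ι K i)
  rw [FreeAlgebra.lift_ι_apply] at this
  exact this

theorem exists_qder (Y : ι → QN N r) (hY : ∀ i, Y i ∈ Fil K (qgen N r) 2)
    (hr : ∀ x y, r x y → derL (K := K) (qgen N r) Y x = derL (qgen N r) Y y) :
    ∃ δ : QN N r →ₗ[K] QN N r, IsDer δ ∧ (∀ i, δ (qgen N r i) = Y i) := by
  have hword : ∀ l : List ι, derL (K := K) (qgen N r) Y (wd K l) ∈
      Fil K (qgen N r) (l.length + 1) := by
    intro l
    induction l with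
    | nil => simp [derL_one]
    | cons a l ih =>
      rw [wd_cons, derL_mul, derL_ι, lift_qgen, lift_qgen, qmk_wd, List.length_cons]
      apply Submodule.add_mem
      · have := Fil_mul (gen_mem_Fil (K := K) (G := qgen N r) a) ih
        rwa [show 1 + (l.length + 1) = l.length + 1 + 1 by ring] at this
      · have := Fil_mul (hY a) (word_mem_Fil (K := K) (G := qgen N r) l)
        rwa [show 2 + l.length = l.length + 1 + 1 by ring] at this
  have h : ∀ ⦃x y : FreeAlgebra K ι⦄, NRel N r x y →
      derF (K := K) (qgen N r) Y x = derF (K := K) (qgen N r) Y y := by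
    intro x y hxy
    apply TrivSqZeroExt.ext
    · rw [derF_fst, derF_fst, lift_qgen, lift_qgen]
      exact qmk_rel N r hxy
    · rw [derF_snd, derF_snd]
      cases hxy with
      | base h => exact hr _ _ h
      | nil l hl =>
        have := hword l
        rw [hl, Fil_bot' (qgen_nilp N r) (by omega)] at this
        rw [map_zero]
        simpa using this
  let F : QN N r →ₐ[K] TrivSqZeroExt (QN N r) (QN N r) :=
    RingQuot.liftAlgHom K ⟨derF (K := K) (qgen N r) Y, h⟩
  have hF : ∀ x, F (qmk N r x) = derF (K := K) (qgen N r) Y x := fun x =>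
    RingQuot.liftAlgHom_mkAlgHom_apply K (derF (K := K) (qgen N r) Y) h x
  have hfst : ∀ z, (F z).fst = z := by
    intro z
    obtain ⟨x, rfl⟩ := qmk_surj N r z
    rw [hF, derF_fst, lift_qgen]
  refine ⟨(TrivSqZeroExt.sndHom (QN N r) (QN N r)).restrictScalars K ∘ₗ F.toLinearMap, ?_, ?_⟩
  · intro x y
    have : (F (x * y)).snd = x * (F y).snd + (F x).snd * y := by
      rw [map_mul, TrivSqZeroExt.snd_mul, hfst, hfst]
      simp
    rw [add_comm] at this
    exact this
  · intro i
    have : (F (qgen N r i)).snd = Y i := by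
      unfold qgen
      rw [hF, derF_snd]
      exact derL_ι _ _ i
    exact this

end quot

end Crest.Agent.R010.EDx
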