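import Crest.Agent.R010.DynBraid

/-!
# Row 10, (S3): associative pentagon identity ⇒ pentagon in `braidLie4` (helper477)

* `gtSubst_add_of_comm`: for commuting pairs `p(a+c, b+d) = p(a,b) + p(c,d)`;
* `gtSubst_shift`: in weight `≥ 2`, adding elements commuting with everything does not change `p(a,b)`;
* `pent_bconf`: the frozen pentagon is the cyclic pentagon of `bconf t`;
* `S3_holds : S3`.
-/

set_option autoImplicit false
open Crest.NumberTheoryR.GT

noncomputable section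
namespace Crest.Agent.R010

attribute [local instance 100] LieRing.ofAssociativeRing

/-- induction on bracket monomials for linear predicates -/
theorem weight_induction {X : Type*} {w : X → ℕ} {n : ℕ} {C : FreeLieAlgebra ℚ X → Prop}
    (hmon : ∀ x, IsBracketMonomial w n x → C x) (h0 : C 0)
    (hadd : ∀ x y, C x → C y → C (x + y)) (hsmul : ∀ (r : ℚ) x, C x → C (r • x))
    {p : FreeLieAlgebra ℚ X} (hp : p ∈ weightSubspace w n) : C p := by
  unfold weightSubspace at hp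
  induction hp using Submodule.span_induction with
  | mem x hx => exact hmon x hx
  | zero => exact h0
  | add x y _ _ hx hy => exact hadd x y hx hy
  | smul r x _ hx => exact hsmul r x hx

section
variable {L : Type*} [LieRing L] [LieAlgebra ℚ L]

theorem gtSubst_comm_right {n : ℕ} {p : GTLie} (hp : p ∈ weightSubspace (fun _ : Fin 2 => 1) n)
    {a b z : L} (ha : ⁅a, z⁆ = 0) (hb : ⁅b, z⁆ = 0) : ⁅gtSubst a b p, z⁆ = 0 := by
  refine weight_induction (C := fun q => ⁅gtSubst a b q, z⁆ = 0) ?_ ?_ ?_ ?_ hp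
  · intro x hx
    clear hp
    induction hx with
    | of i =>
      by_cases hi : i = 0 <;> simp [gtSubst, hi, ha, hb]
    | lie _ _ h1 h2 =>
      rw [LieHom.map_lie, lie_lie, h2, h1]
      simp
  · simp
  · intro x y hx hy
    rw [map_add, add_lie, hx, hy, add_zero]
  · intro r x hx
    rw [map_smul, smul_lie, hx, smul_zero]

theorem gtSubst_comm {n m : ℕ} {p q : GTLie} (hp : p ∈ weightSubspace (fun _ : Fin 2 => 1) n)
    (hq : q ∈ weightSubspace (fun _ : Fin 2 => 1) m)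
    {a b c d : L} (hac : ⁅a, c⁆ = 0) (had : ⁅a, d⁆ = 0) (hbc : ⁅b, c⁆ = 0) (hbd : ⁅b, d⁆ = 0) :
    ⁅gtSubst a b p, gtSubst c d q⁆ = 0 := by
  have h1 : ⁅gtSubst c d q, a⁆ = 0 :=
    gtSubst_comm_right hq (by rw [← lie_skew, hac, neg_zero]) (by rw [← lie_skew, had, neg_zero])
  have h2 : ⁅gtSubst c d q, b⁆ = 0 :=
    gtSubst_comm_right hq (by rw [← lie_skew, hbc, neg_zero]) (by rw [← lie_skew, hbd, neg_zero])
  exact gtSubst_comm_right hp (by rw [← lie_skew, h1, neg_zero]) (by rw [← lie_skew, h2, neg_zero])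

theorem mono_mem {X : Type*} {w : X → ℕ} {n : ℕ} {x : FreeLieAlgebra ℚ X}
    (h : IsBracketMonomial w n x) : x ∈ weightSubspace w n :=
  Submodule.subset_span h

theorem gtSubst_add_of_comm {n : ℕ} {p : GTLie}
    (hp : p ∈ weightSubspace (fun _ : Fin 2 => 1) n)
    {a b c d : L} (hac : ⁅a, c⁆ = 0) (had : ⁅a, d⁆ = 0) (hbc : ⁅b, c⁆ = 0) (hbd : ⁅b, d⁆ = 0) :
    gtSubst (a + c) (b + d) p = gtSubst a b p + gtSubst c d p := by
  refine weight_induction
    (C := fun q => gtSubst (a + c) (b + d) q = gtSubst a b q + gtSubst c d q) ?_ ?_ ?_ ?_ hp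
  · intro x hx
    clear hp
    induction hx with
    | of i =>
      by_cases hi : i = 0 <;> simp [gtSubst, hi]
    | @lie m n x y hx hy h1 h2 =>
      have e1 : ⁅gtSubst a b x, gtSubst c d y⁆ = 0 :=
        gtSubst_comm (mono_mem hx) (mono_mem hy) hac had hbc hbd
      have e2 : ⁅gtSubst c d x, gtSubst a b y⁆ = 0 :=
        gtSubst_comm (mono_mem hx) (mono_mem hy) (by rw [← lie_skew, hac, neg_zero])
          (by rw [← lie_skew, hbc, neg_zero]) (by rw [← lie_skew, had, neg_zero])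
          (by rw [← lie_skew, hbd, neg_zero])
      rw [LieHom.map_lie, h1, h2, LieHom.map_lie, LieHom.map_lie, add_lie, lie_add, lie_add, e1, e2]
      simp
  · simp
  · intro x y hx hy
    rw [map_add, map_add, map_add, hx, hy]
    abel
  · intro r x hx
    rw [map_smul, map_smul, map_smul, hx, smul_add]

theorem gtSubst_abelian {n : ℕ} (hn : 2 ≤ n) {p : GTLie}
    (hp : p ∈ weightSubspace (fun _ : Fin 2 => 1) n)
    {c d : L} (h : ⁅c, d⁆ = 0) : gtSubst c d p = 0 := by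
  refine weight_induction (C := fun q => gtSubst c d q = 0) ?_ ?_ ?_ ?_ hp
  · intro x hx
    cases hx with
    | of i => omega
    | @lie m n x y hx hy =>
      rw [LieHom.map_lie]
      exact gtSubst_comm (mono_mem hx) (mono_mem hy) (lie_self c) h (by rw [← lie_skew, h, neg_zero])
        (lie_self d)
  · simp
  · intro x y hx hy
    rw [map_add, hx, hy, add_zero]
  · intro r x hx
    rw [map_smul, hx, smul_zero]

theorem gtSubst_shift {n : ℕ} (hn : 2 ≤ n) {p : GTLie}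
    (hp : p ∈ weightSubspace (fun _ : Fin 2 => 1) n)
    {a b c d : L} (hac : ⁅a, c⁆ = 0) (had : ⁅a, d⁆ = 0) (hbc : ⁅b, c⁆ = 0) (hbd : ⁅b, d⁆ = 0)
    (hcd : ⁅c, d⁆ = 0) : gtSubst (a + c) (b + d) p = gtSubst a b p := by
  rw [gtSubst_add_of_comm hp hac had hbc hbd, gtSubst_abelian hn hp hcd, add_zero]

theorem gtSubst_swap {p : GTLie} (h : antisymDefect p = 0) (a b : L) :
    gtSubst b a p = -gtSubst a b p := by
  have h1 : p + gtSubst gy gx p = 0 := h
  have h2 := congrArg (gtSubst a b) h1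
  rw [map_add, map_zero, DynB.hom_gtSubst] at h2
  have e1 : gtSubst a b gy = b := by simp [gtSubst, gy]
  have e2 : gtSubst a b gx = a := by simp [gtSubst, gx]
  rw [e1, e2] at h2
  exact eq_neg_of_add_eq_zero_right h2

/-- the cyclic pentagon of the configuration `bconf t` is the frozen pentagon -/
theorem pent_bconf {t : Fin 4 → Fin 4 → L} (ht : DynB.BraidRel t) {n : ℕ} (hn : 2 ≤ n) {p : GTLie}
    (hp : p ∈ weightSubspace (fun _ : Fin 2 => 1) n) (ha : antisymDefect p = 0) :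
    ∑ i : Fin 5, gtSubst (DynB.bconf t (i - 1)) (DynB.bconf t (i + 1)) p =
      gtSubst (t 0 1) (t 1 2 + t 1 3) p + gtSubst (t 0 2 + t 1 2) (t 2 3) p
        - gtSubst (t 1 2) (t 2 3) p - gtSubst (t 0 1 + t 0 2) (t 1 3 + t 2 3) p
        - gtSubst (t 0 1) (t 1 2) p := by
  have z1 : ⁅t 0 1, t 2 3⁆ = 0 := ht.comm 0 1 2 3 (by decide) (by decide) (by decide) (by decide)
    (by decide) (by decide)
  have z2 : ⁅t 0 2, t 1 3⁆ = 0 := ht.comm 0 2 1 3 (by decide) (by decide) (by decide) (by decide)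
    (by decide) (by decide)
  have z3 : ⁅t 1 2, t 0 3⁆ = 0 := ht.comm 1 2 0 3 (by decide) (by decide) (by decide) (by decide)
    (by decide) (by decide)
  have s012 : ⁅t 0 1, t 0 2 + t 1 2⁆ = 0 := ht.three 0 1 2 (by decide) (by decide) (by decide)
  have s013 : ⁅t 0 1, t 0 3 + t 1 3⁆ = 0 := ht.three 0 1 3 (by decide) (by decide) (by decide)
  have s021 : ⁅t 0 2, t 0 1 + t 1 2⁆ = 0 := by
    have := ht.three 0 2 1 (by decide) (by decide) (by decide)
    rwa [ht.symm 2 1] at this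
  have s023 : ⁅t 0 2, t 0 3 + t 2 3⁆ = 0 := ht.three 0 2 3 (by decide) (by decide) (by decide)
  have s120 : ⁅t 1 2, t 0 1 + t 0 2⁆ = 0 := by
    have := ht.three 1 2 0 (by decide) (by decide) (by decide)
    rwa [ht.symm 1 0, ht.symm 2 0] at this
  have s123 : ⁅t 1 2, t 1 3 + t 2 3⁆ = 0 := ht.three 1 2 3 (by decide) (by decide) (by decide)
  have s130 : ⁅t 1 3, t 0 1 + t 0 3⁆ = 0 := by
    have := ht.three 1 3 0 (by decide) (by decide) (by decide)
    rwa [ht.symm 1 0, ht.symm 3 0] at this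
  have s132 : ⁅t 1 3, t 1 2 + t 2 3⁆ = 0 := by
    have := ht.three 1 3 2 (by decide) (by decide) (by decide)
    rwa [ht.symm 3 2] at this
  have s230 : ⁅t 2 3, t 0 2 + t 0 3⁆ = 0 := by
    have := ht.three 2 3 0 (by decide) (by decide) (by decide)
    rwa [ht.symm 2 0, ht.symm 3 0] at this
  have s231 : ⁅t 2 3, t 1 2 + t 1 3⁆ = 0 := by
    have := ht.three 2 3 1 (by decide) (by decide) (by decide)
    rwa [ht.symm 2 1, ht.symm 3 1] at this
  set C := t 0 1 + t 0 2 + t 0 3 + t 1 2 + t 1 3 + t 2 3 with hC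
  have c01 : ⁅t 0 1, C⁆ = 0 := by
    have e : C = t 0 1 + (t 0 2 + t 1 2) + (t 0 3 + t 1 3) + t 2 3 := by rw [hC]; abel
    rw [e, lie_add, lie_add, lie_add, lie_self, s012, s013, z1]; simp
  have c02 : ⁅t 0 2, C⁆ = 0 := by
    have e : C = t 0 2 + (t 0 1 + t 1 2) + (t 0 3 + t 2 3) + t 1 3 := by rw [hC]; abel
    rw [e, lie_add, lie_add, lie_add, lie_self, s021, s023, z2]; simp
  have c12 : ⁅t 1 2, C⁆ = 0 := by
    have e : C = t 1 2 + (t 0 1 + t 0 2) + (t 1 3 + t 2 3) + t 0 3 := by rw [hC]; abel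
    rw [e, lie_add, lie_add, lie_add, lie_self, s120, s123, z3]; simp
  have z2' : ⁅t 1 3, t 0 2⁆ = 0 := by rw [← lie_skew, z2, neg_zero]
  have c13 : ⁅t 1 3, C⁆ = 0 := by
    have e : C = t 1 3 + (t 0 1 + t 0 3) + (t 1 2 + t 2 3) + t 0 2 := by rw [hC]; abel
    rw [e, lie_add, lie_add, lie_add, lie_self, s130, s132, z2']; simp
  have z1' : ⁅t 2 3, t 0 1⁆ = 0 := by rw [← lie_skew, z1, neg_zero]
  have c23 : ⁅t 2 3, C⁆ = 0 := by
    have e : C = t 2 3 + (t 0 2 + t 0 3) + (t 1 2 + t 1 3) + t 0 1 := by rw [hC]; abel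
    rw [e, lie_add, lie_add, lie_add, lie_self, s230, s231, z1']; simp
  rw [Fin.sum_univ_five]
  show gtSubst (t 1 2) (t 0 1) p + gtSubst (-(t 0 3 + t 1 3 + t 2 3)) (t 2 3) p +
    gtSubst (t 0 1) (-(t 0 1 + t 0 2 + t 0 3)) p + gtSubst (t 2 3) (t 1 2) p +
    gtSubst (-(t 0 1 + t 0 2 + t 0 3)) (-(t 0 3 + t 1 3 + t 2 3)) p = _
  have T0 : gtSubst (t 1 2) (t 0 1) p = -gtSubst (t 0 1) (t 1 2) p := gtSubst_swap ha _ _
  have T3 : gtSubst (t 2 3) (t 1 2) p = -gtSubst (t 1 2) (t 2 3) p := gtSubst_swap ha _ _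
  have T1 : gtSubst (-(t 0 3 + t 1 3 + t 2 3)) (t 2 3) p = gtSubst (t 0 2 + t 1 2) (t 2 3) p := by
    have e : -(t 0 3 + t 1 3 + t 2 3) = (t 0 2 + t 1 2) + (t 0 1 - C) := by rw [hC]; abel
    have h := gtSubst_shift hn hp (a := t 0 2 + t 1 2) (b := t 2 3) (c := t 0 1 - C) (d := 0)
      (by rw [lie_sub, ← lie_skew, s012, add_lie, c02, c12]; simp) (lie_zero _)
      (by rw [lie_sub, z1', c23]; simp) (lie_zero _) (lie_zero _)
    rw [add_zero] at h
    rw [e, h]
  have T2 : gtSubst (t 0 1) (-(t 0 1 + t 0 2 + t 0 3)) p = gtSubst (t 0 1) (t 1 2 + t 1 3) p := by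
    have e : -(t 0 1 + t 0 2 + t 0 3) = (t 1 2 + t 1 3) + (t 2 3 - C) := by rw [hC]; abel
    have h := gtSubst_shift hn hp (a := t 0 1) (b := t 1 2 + t 1 3) (c := 0) (d := t 2 3 - C)
      (lie_zero _) (by rw [lie_sub, z1, c01]; simp) (lie_zero _)
      (by rw [lie_sub, ← lie_skew, s231, add_lie, c12, c13]; simp) (zero_lie _)
    rw [add_zero] at h
    rw [e, h]
  have T4 : gtSubst (-(t 0 1 + t 0 2 + t 0 3)) (-(t 0 3 + t 1 3 + t 2 3)) p =
      -gtSubst (t 0 1 + t 0 2) (t 1 3 + t 2 3) p := by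
    have e1 : -(t 0 1 + t 0 2 + t 0 3) = (t 1 3 + t 2 3) + (t 1 2 - C) := by rw [hC]; abel
    have e2 : -(t 0 3 + t 1 3 + t 2 3) = (t 0 1 + t 0 2) + (t 1 2 - C) := by rw [hC]; abel
    have h1 : ⁅t 1 3 + t 2 3, t 1 2 - C⁆ = 0 := by
      rw [lie_sub, ← lie_skew, s123, add_lie, c13, c23]; simp
    have h2 : ⁅t 0 1 + t 0 2, t 1 2 - C⁆ = 0 := by
      rw [lie_sub, ← lie_skew, s120, add_lie, c01, c02]; simp
    rw [e1, e2, gtSubst_shift hn hp h1 h1 h2 h2 (lie_self _), gtSubst_swap ha]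
  rw [T0, T1, T2, T3, T4]
  abel

end

theorem pentagonDefect_apply (p : GTLie) : pentagonDefect p =
    gtSubst (tB 0 1) (tB 1 2 + tB 1 3) p + gtSubst (tB 0 2 + tB 1 2) (tB 2 3) p
        - gtSubst (tB 1 2) (tB 2 3) p - gtSubst (tB 0 1 + tB 0 2) (tB 1 3 + tB 2 3) p
        - gtSubst (tB 0 1) (tB 1 2) p := rfl

/-- cyclic form of the frozen pentagon -/
theorem pentagonDefect_eq_sum {n : ℕ} (hn : 2 ≤ n) {p : GTLie}
    (hp : p ∈ weightSubspace (fun _ : Fin 2 => 1) n) (ha : antisymDefect p = 0) :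
    pentagonDefect p = ∑ i : Fin 5, gtSubst (DynB.bconf tB (i - 1)) (DynB.bconf tB (i + 1)) p := by
  rw [pent_bconf DynB.braidRel_tB hn hp ha, pentagonDefect_apply]

open DynB in
theorem PP_bconf (i : Fin 5) : PP 1 (bconf tFree i) := by
  have h01 : PP 1 (tFree 0 1) := PP_tFree (by decide)
  have h02 : PP 1 (tFree 0 2) := PP_tFree (by decide)
  have h03 : PP 1 (tFree 0 3) := PP_tFree (by decide)
  have h12 : PP 1 (tFree 1 2) := PP_tFree (by decide)
  have h13 : PP 1 (tFree 1 3) := PP_tFree (by decide)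
  have h23 : PP 1 (tFree 2 3) := PP_tFree (by decide)
  fin_cases i
  · exact PP_neg (PP_add (PP_add h03 h13) h23)
  · exact h01
  · exact h23
  · exact PP_neg (PP_add (PP_add h01 h02) h03)
  · exact h12

open DynB in
theorem map_bconf {L M : Type*} [LieRing L] [LieAlgebra ℚ L] [LieRing M] [LieAlgebra ℚ M]
    (f : L →ₗ⁅ℚ⁆ M) (t : Fin 4 → Fin 4 → L) (i : Fin 5) :
    f (bconf t i) = bconf (fun a b => f (t a b)) i := by
  fin_cases i <;> simp [bconf]

open DynB in
/-- **(S3)** -/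
theorem S3_holds : S3 := by
  intro n p hn hp ha h
  rw [pentagonDefect_eq_sum hn hp ha]
  have h1 := h (Module.End ℚ (ℚ × braidLie4)) (bconf (fun i j => rhoF (tFree i j)))
    (conf5_bconf braidRel_rhoF)
  set Z : FreeBraid4 := ∑ i : Fin 5, gtSubst (bconf tFree (i - 1)) (bconf tFree (i + 1)) p with hZ
  have h2 : rhoF Z = 0 := by
    rw [hZ, map_sum, ← h1]
    refine Finset.sum_congr rfl fun i _ => ?_
    rw [ev_iota, hom_gtSubst, map_bconf, map_bconf]
  have h3 : PP n Z := by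
    rw [hZ]
    have : ∀ s : Finset (Fin 5), PP n (∑ i ∈ s, gtSubst (bconf tFree (i - 1))
        (bconf tFree (i + 1)) p) := by
      intro s
      induction s using Finset.induction_on with
      | empty => simpa using PP_zero
      | insert a s has ih =>
        rw [Finset.sum_insert has]
        exact PP_add (PP_subst hp (PP_bconf _) (PP_bconf _)) ih
    exact this _
  have h4 := h3 1 0
  rw [h2, lie_zero, add_zero, one_mul] at h4
  have h5 : (0 : braidLie4) = (n : ℚ) • mkL Z := congrArg Prod.snd h4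
  have hn0 : (n : ℚ) ≠ 0 := by
    have : 0 < n := by omega
    positivity
  have h6 : mkL Z = 0 := by
    rcases smul_eq_zero.1 h5.symm with h | h
    · exact absurd h hn0
    · exact h
  rw [← h6, hZ, map_sum]
  refine Finset.sum_congr rfl fun i _ => ?_
  rw [hom_gtSubst, map_bconf, map_bconf]
  rfl

end Crest.Agent.R010
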