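import Crest.Agent.R010.ED4
import Crest.Agent.R010.ES3

/-! Row 10, module E-D, part 5 (helper249): properties of the elements of `grtR n`. -/

set_option autoImplicit false
set_option linter.unusedSectionVars false
set_option linter.style.haveILetI false
open Finset Crest.NumberTheoryR.GT

namespace Crest.Agent.R010.EDx

attribute [local instance 100] LieRing.ofAssociativeRing

/-- rational structure on a real algebra -/
noncomputable abbrev ratAlg (U : Type*) [Ring U] [Algebra ℝ U] : Algebra ℚ U :=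
  Algebra.compHom U (algebraMap ℚ ℝ)

theorem ev_toReal {U : Type*} [Ring U] [Algebra ℝ U] (a b : U) (p : GTLie) :
    letI := ratAlg U
    ev (K := ℝ) a b (toReal (iota p)) = gtSubst a b p := by
  letI := ratAlg U
  haveI : IsScalarTower ℚ ℝ U := IsScalarTower.of_algebraMap_eq' rfl
  have : ((ev (K := ℝ) a b).restrictScalars ℚ).comp toReal = ev (K := ℚ) a b := by
    ext i
    simp [toReal, ev]
  rw [← DynB.ev_iota, ← this]
  rfl

theorem grtR_induction {n : ℕ} {C : FreeAlgebra ℝ (Fin 2) → Prop} (h0 : C 0)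
    (hadd : ∀ x y, C x → C y → C (x + y)) (hsmul : ∀ (r : ℝ) x, C x → C (r • x))
    (hp : ∀ p ∈ grtW n, C (toReal (iota p))) {ψ : FreeAlgebra ℝ (Fin 2)} (hψ : ψ ∈ grtR n) :
    C ψ := by
  unfold grtR at hψ
  induction hψ using Submodule.span_induction with
  | mem x h => obtain ⟨p, h1, rfl⟩ := h; exact hp p h1
  | zero => exact h0
  | add x y _ _ hx hy => exact hadd x y hx hy
  | smul r x _ hx => exact hsmul r x hx

theorem grtR_add {U : Type*} [Ring U] [Algebra ℝ U] {n : ℕ} {ψ : FreeAlgebra ℝ (Fin 2)}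
    (hψ : ψ ∈ grtR n) {a b a' b' : U} (h1 : Commute a a') (h2 : Commute a b') (h3 : Commute b a')
    (h4 : Commute b b') : ev (a + a') (b + b') ψ = ev a b ψ + ev a' b' ψ := by
  refine grtR_induction (C := fun ψ => ev (a + a') (b + b') ψ = ev a b ψ + ev a' b' ψ)
    ?_ ?_ ?_ ?_ hψ
  · simp
  · intro x y hx hy
    rw [map_add, map_add, map_add, hx, hy]; abel
  · intro r x hx
    rw [map_smul, map_smul, map_smul, hx, smul_add]
  · intro p hp
    letI := ratAlg U
    rw [ev_toReal, ev_toReal, ev_toReal]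
    have hc : ∀ {x y : U}, Commute x y → ⁅x, y⁆ = 0 := by
      intro x y h
      rw [Ring.lie_def, h.eq, sub_self]
    exact gtSubst_add_of_comm hp.2 (hc h1) (hc h2) (hc h3) (hc h4)

theorem grtR_abelian {U : Type*} [Ring U] [Algebra ℝ U] {n : ℕ} (hn : 2 ≤ n)
    {ψ : FreeAlgebra ℝ (Fin 2)} (hψ : ψ ∈ grtR n) {a b : U} (h : Commute a b) : ev a b ψ = 0 := by
  refine grtR_induction (C := fun ψ => ev a b ψ = 0) ?_ ?_ ?_ ?_ hψ
  · simp
  · intro x y hx hy
    rw [map_add, hx, hy, add_zero]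
  · intro r x hx
    rw [map_smul, hx, smul_zero]
  · intro p hp
    letI := ratAlg U
    rw [ev_toReal]
    exact gtSubst_abelian hn hp.2 (by rw [Ring.lie_def, h.eq, sub_self])

/-- elements commuting with `a, b` commute with `ψ(a,b)` -/
theorem ev_commute {K : Type*} [CommRing K] {U : Type*} [Ring U] [Algebra K U] {a b z : U}
    (ha : Commute z a) (hb : Commute z b) (x : FreeAlgebra K (Fin 2)) : Commute z (ev a b x) := by
  induction x using FreeAlgebra.induction with
  | grade0 r => rw [AlgHom.commutes]; exact (Algebra.commutes r z).symm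
  | grade1 i => fin_cases i <;> simpa [ev]
  | mul x y hx hy => rw [map_mul]; exact hx.mul_right hy
  | add x y hx hy => rw [map_add]; exact hx.add_right hy

theorem iota_homog {n : ℕ} {p : GTLie} (hp : p ∈ weightSubspace (fun _ : Fin 2 => 1) n) :
    Homog n (toReal (iota p)) := by
  refine weight_induction (C := fun p => Homog n (toReal (iota p))) ?_ ?_ ?_ ?_ hp
  · intro x hx
    clear hp
    induction hx with
    | of i =>
      have : toReal (iota (FreeLieAlgebra.of ℚ i)) = FreeAlgebra.ι ℝ i := by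
        simp [toReal, iota]
      rw [this]
      exact homog_ι i
    | @lie m n x y hx hy h1 h2 =>
      rw [LieHom.map_lie, Ring.lie_def, map_sub, map_mul, map_mul]
      apply homog_sub (homog_mul h1 h2)
      rw [add_comm]
      exact homog_mul h2 h1
  · rw [map_zero, map_zero]; exact homog_zero
  · intro x y hx hy
    rw [map_add, map_add]; exact homog_add hx hy
  · intro r x hx
    rw [map_smul, map_smul]
    have : r • toReal (iota x) = (r : ℝ) • toReal (iota x) := by
      rw [← algebraMap_smul ℝ r (toReal (iota x))]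
      rfl
    rw [this]
    exact homog_smul _ hx

theorem grtR_homog {n : ℕ} {ψ : FreeAlgebra ℝ (Fin 2)} (hψ : ψ ∈ grtR n) : Homog n ψ := by
  refine grtR_induction (C := fun ψ => Homog n ψ) homog_zero (fun _ _ => homog_add)
    (fun r _ => homog_smul r) ?_ hψ
  intro p hp
  exact iota_homog hp.2

theorem grtR_Fil {ι U : Type*} [Ring U] [Algebra ℝ U] {G : ι → U} {n : ℕ}
    {ψ : FreeAlgebra ℝ (Fin 2)} (hψ : ψ ∈ grtR n) {a b : U} (ha : a ∈ Fil ℝ G 1)
    (hb : b ∈ Fil ℝ G 1) : ev a b ψ ∈ Fil ℝ G n := by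
  refine grtR_induction (C := fun ψ => ev a b ψ ∈ Fil ℝ G n) ?_ ?_ ?_ ?_ hψ
  · rw [map_zero]; exact Submodule.zero_mem _
  · intro x y hx hy
    rw [map_add]; exact Submodule.add_mem _ hx hy
  · intro r x hx
    rw [map_smul]; exact Submodule.smul_mem _ _ hx
  · intro p hp
    refine weight_induction (C := fun p => ev a b (toReal (iota p)) ∈ Fil ℝ G n) ?_ ?_ ?_ ?_ hp.2
    · intro x hx
      clear hp hψ
      induction hx with
      | of i =>
        have : toReal (iota (FreeLieAlgebra.of ℚ i)) = FreeAlgebra.ι ℝ i := by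
          simp [toReal, iota]
        rw [this]
        fin_cases i <;> simpa
      | @lie m n x y hx hy h1 h2 =>
        rw [LieHom.map_lie, Ring.lie_def, map_sub, map_mul, map_mul, map_sub, map_mul, map_mul]
        apply Submodule.sub_mem _ (Fil_mul h1 h2)
        rw [add_comm]
        exact Fil_mul h2 h1
    · rw [map_zero, map_zero, map_zero]; exact Submodule.zero_mem _
    · intro x y hx hy
      rw [map_add, map_add, map_add]; exact Submodule.add_mem _ hx hy
    · intro r x hx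
      rw [map_smul, map_smul]
      have : r • toReal (iota x) = (r : ℝ) • toReal (iota x) := by
        rw [← algebraMap_smul ℝ r (toReal (iota x))]
        rfl
      rw [this, map_smul]
      exact Submodule.smul_mem _ _ hx

/-- the pair number `i` of a five-configuration, inserted in `ψ` -/
noncomputable def qq {U : Type*} [Ring U] [Algebra ℝ U] (R : Fin 5 → U)
    (ψ : FreeAlgebra ℝ (Fin 2)) (i : Fin 5) : U := ev (R (i - 1)) (R (i + 1)) ψ

/-- the sequence `u` -/
noncomputable def uu {U : Type*} [Ring U] [Algebra ℝ U] (R : Fin 5 → U)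
    (ψ : FreeAlgebra ℝ (Fin 2)) : Fin 5 → U :=
  ![-qq R ψ 1 - qq R ψ 2 - qq R ψ 3 - qq R ψ 4, 0, -qq R ψ 1, -qq R ψ 1 - qq R ψ 2,
    -qq R ψ 1 - qq R ψ 2 - qq R ψ 3]

theorem qq_add {U : Type*} [Ring U] [Algebra ℝ U] (R : Fin 5 → U) (ψ φ : FreeAlgebra ℝ (Fin 2))
    (i : Fin 5) : qq R (ψ + φ) i = qq R ψ i + qq R φ i := by simp [qq]

theorem qq_smul {U : Type*} [Ring U] [Algebra ℝ U] (R : Fin 5 → U) (r : ℝ)
    (ψ : FreeAlgebra ℝ (Fin 2)) (i : Fin 5) : qq R (r • ψ) i = r • qq R ψ i := by simp [qq]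

theorem uu_add {U : Type*} [Ring U] [Algebra ℝ U] (R : Fin 5 → U) (ψ φ : FreeAlgebra ℝ (Fin 2))
    (i : Fin 5) : uu R (ψ + φ) i = uu R ψ i + uu R φ i := by
  fin_cases i <;> simp [uu, qq_add] <;> abel

theorem uu_smul {U : Type*} [Ring U] [Algebra ℝ U] (R : Fin 5 → U) (r : ℝ)
    (ψ : FreeAlgebra ℝ (Fin 2)) (i : Fin 5) : uu R (r • ψ) i = r • uu R ψ i := by
  fin_cases i <;> simp [uu, qq_smul, smul_sub]

theorem uu_succ {U : Type*} [Ring U] [Algebra ℝ U] (R : Fin 5 → U) (ψ : FreeAlgebra ℝ (Fin 2))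
    (h : ∑ i, qq R ψ i = 0) (i : Fin 5) : uu R ψ (i + 1) = uu R ψ i - qq R ψ i := by
  rw [Fin.sum_univ_five] at h
  fin_cases i
  · have h' : -qq R ψ 1 - qq R ψ 2 - qq R ψ 3 - qq R ψ 4 - qq R ψ 0 =
        -(qq R ψ 0 + qq R ψ 1 + qq R ψ 2 + qq R ψ 3 + qq R ψ 4) := by abel
    have h2 : -qq R ψ 1 - qq R ψ 2 - qq R ψ 3 - qq R ψ 4 - qq R ψ 0 = 0 := by rw [h', h, neg_zero]
    simpa [uu] using h2.symm
  · simp [uu]
  · simp [uu]
  · simp [uu]
  · simp [uu]

/-- the three linear conditions provided by `EB2` -/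
def TT {U : Type*} [Ring U] [Algebra ℝ U] (R : Fin 5 → U) (ψ : FreeAlgebra ℝ (Fin 2)) : Prop :=
  (∑ i, qq R ψ i = 0) ∧
  (∀ i, ⁅⁅uu R ψ i, R i⁆, R (i + 1)⁆ + ⁅R i, ⁅uu R ψ (i + 1), R (i + 1)⁆⁆ = 0) ∧
    ∑ i, (⁅⁅uu R ψ i, R i⁆, R (i + 2)⁆ + ⁅R i, ⁅uu R ψ (i + 2), R (i + 2)⁆⁆) = 0

theorem grtR_TT (hEB2 : EB2) {U : Type} [Ring U] [Algebra ℝ U] {n : ℕ} (hn : 3 ≤ n)
    {ψ : FreeAlgebra ℝ (Fin 2)} (hψ : ψ ∈ grtR n) (R : Fin 5 → U) (hR : Conf5 R) : TT R ψ := by
  refine grtR_induction (C := fun ψ => TT R ψ) ?_ ?_ ?_ ?_ hψ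
  · have h0 : ∀ i, qq R 0 i = 0 := by intro i; simp [qq]
    have h1 : ∀ i, uu R 0 i = 0 := by
      intro i
      have := uu_smul R (0 : ℝ) 0 i
      rwa [zero_smul, zero_smul] at this
    refine ⟨by simp [h0], ?_, ?_⟩
    · intro i; simp [h1]
    · simp [h1]
  · rintro x y ⟨hx1, hx2, hx3⟩ ⟨hy1, hy2, hy3⟩
    refine ⟨?_, ?_, ?_⟩
    · simp only [qq_add, Finset.sum_add_distrib, hx1, hy1, add_zero]
    · intro i
      have := congrArg₂ (· + ·) (hx2 i) (hy2 i)
      simp only [add_zero] at this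
      rw [← this]
      simp only [uu_add, add_lie, lie_add]
      abel
    · have := congrArg₂ (· + ·) hx3 hy3
      simp only [add_zero] at this
      rw [← this, ← Finset.sum_add_distrib]
      apply Finset.sum_congr rfl
      intro i _
      simp only [uu_add, add_lie, lie_add]
      abel
  · rintro r x ⟨hx1, hx2, hx3⟩
    refine ⟨?_, ?_, ?_⟩
    · simp only [qq_smul, ← Finset.smul_sum, hx1, smul_zero]
    · intro i
      have := congrArg (fun z => r • z) (hx2 i)
      simp only [smul_zero] at this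
      rw [← this]
      simp only [uu_smul, Ring.lie_def, smul_mul_assoc, mul_smul_comm, smul_add, smul_sub,
        sub_mul, mul_sub]
    · have := congrArg (fun z => r • z) hx3
      simp only [smul_zero] at this
      rw [← this, Finset.smul_sum]
      apply Finset.sum_congr rfl
      intro i _
      simp only [uu_smul, Ring.lie_def, smul_mul_assoc, mul_smul_comm, smul_add, smul_sub,
        sub_mul, mul_sub]
  · intro p hp
    letI := ratAlg U
    obtain ⟨h1, h2⟩ := hEB2 n p hn hp U R hR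
    have hq : ∀ i, qq R (toReal (iota p)) i = gtSubst (R (i - 1)) (R (i + 1)) p := by
      intro i
      unfold qq
      rw [ev_toReal]
    have hs : ∑ i, qq R (toReal (iota p)) i = 0 := by
      simp only [hq]; exact h1
    obtain ⟨h3, h4⟩ := h2 (uu R (toReal (iota p))) (by
      intro i
      rw [uu_succ R _ hs i, hq])
    exact ⟨hs, h3, h4⟩

end Crest.Agent.R010.EDx
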