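import Crest.Agent.R010.ED5

/-! Row 10, module E-D, part 6 (helper249): the action of `exp s_ψ` on truncated associators. -/

set_option autoImplicit false
set_option linter.unusedSectionVars false
set_option linter.style.haveILetI false
open Finset Crest.NumberTheoryR.GT

namespace Crest.Agent.R010.EDx

attribute [local instance 100] LieRing.ofAssociativeRing

/-! ### coefficients of `s_ψ` -/

/-- a set of words closed under `take` and `drop` -/
def TDClosed (W : List (Fin 2) → Prop) : Prop := ∀ w, W w → ∀ i, W (w.take i) ∧ W (w.drop i)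

theorem cf_Dpsi_zero {W : List (Fin 2) → Prop} (hW : TDClosed W) {ψ : FreeAlgebra ℝ (Fin 2)}
    (h : ∀ w, W w → cf w (FreeAlgebra.ι ℝ 1 * ψ - ψ * FreeAlgebra.ι ℝ 1) = 0)
    (x : FreeAlgebra ℝ (Fin 2)) : ∀ w, W w → cf w (Dpsi ψ x) = 0 := by
  induction x using FreeAlgebra.induction with
  | grade0 r =>
    intro w _
    rw [Algebra.algebraMap_eq_smul_one, map_smul, (Dpsi_isDer ψ).one, smul_zero, map_zero]
  | grade1 i =>
    intro w hw
    fin_cases i
    · simp [Dpsi_zero]
    · have := h w hw
      simpa [Dpsi_one] using this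
  | mul a b ha hb =>
    intro w hw
    rw [Dpsi_isDer ψ a b, map_add, cf_mul, cf_mul]
    rw [Finset.sum_eq_zero, Finset.sum_eq_zero, add_zero]
    · intro i _
      rw [hb _ (hW w hw i).2, mul_zero]
    · intro i _
      rw [ha _ (hW w hw i).1, zero_mul]
  | add a b ha hb =>
    intro w hw
    rw [map_add, map_add, ha w hw, hb w hw, add_zero]

theorem cf_sOp {W : List (Fin 2) → Prop} (hW : TDClosed W) {ψ : FreeAlgebra ℝ (Fin 2)}
    (h : ∀ w, W w → cf w (FreeAlgebra.ι ℝ 1 * ψ - ψ * FreeAlgebra.ι ℝ 1) = 0) (w : List (Fin 2))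
    (hw : W w) (h2 : ∀ i, i < w.length → cf (w.take i) ψ = 0) (x : FreeAlgebra ℝ (Fin 2)) :
    cf w (sOp ψ x) = cf w ψ * cf ([] : List (Fin 2)) x := by
  rw [sOp_apply, map_add, cf_Dpsi_zero hW h x w hw, zero_add, cf_mul,
    Finset.sum_range_succ, Finset.sum_eq_zero, zero_add, List.take_length, List.drop_length]
  intro i hi
  rw [h2 i (Finset.mem_range.mp hi), zero_mul]

theorem cf_comm_zero {ψ : FreeAlgebra ℝ (Fin 2)} (w : List (Fin 2))
    (h1 : ∀ v, w = 1 :: v → cf v ψ = 0) (h2 : ∀ v, w = v ++ [1] → cf v ψ = 0) :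
    cf w (FreeAlgebra.ι ℝ 1 * ψ - ψ * FreeAlgebra.ι ℝ 1) = 0 := by
  rw [map_sub, cf_mul, cf_mul, Finset.sum_eq_zero, Finset.sum_eq_zero, sub_zero]
  · intro i hi
    rw [cf_ι]
    split_ifs with h
    · rw [h2 (w.take i), zero_mul]
      rw [h, List.take_append_drop]
    · rw [mul_zero]
  · intro i hi
    rw [cf_ι]
    split_ifs with h
    · rw [h1 (w.drop i), mul_zero]
      have := List.take_append_drop i w
      rw [← h] at this
      simpa using this.symm
    · rw [zero_mul]

theorem coeff_ev_X (k : ℕ) (x : FreeAlgebra ℝ (Fin 2)) :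
    (ev (B := Polynomial ℝ) Polynomial.X 0 x).coeff k = cf (List.replicate k (0 : Fin 2)) x := by
  refine wd_ext (Polynomial.lcoeff ℝ k ∘ₗ (ev (K := ℝ) (B := Polynomial ℝ) Polynomial.X 0).toLinearMap)
    (cf (List.replicate k (0 : Fin 2))) ?_ x
  intro l
  simp only [LinearMap.comp_apply, AlgHom.toLinearMap_apply, Polynomial.lcoeff_apply, cf_wd]
  induction l generalizing k with
  | nil =>
    rw [wd_nil, map_one, Polynomial.coeff_one]
    cases k with
    | zero => simp
    | succ k => simp [List.replicate_succ]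
  | cons a l ih =>
    rw [wd_cons, map_mul]
    fin_cases a
    · simp only [Fin.zero_eta, Fin.isValue, ev_ι_zero]
      cases k with
      | zero => simp
      | succ k => rw [Polynomial.coeff_X_mul, ih, List.replicate_succ]; simp
    · simp only [Fin.mk_one, Fin.isValue, ev_ι_one, zero_mul, Polynomial.coeff_zero]
      cases k with
      | zero => simp
      | succ k => simp [List.replicate_succ]

/-- `A^k` does not occur in `ψ` -/
theorem grtR_pure {n : ℕ} (hn : 2 ≤ n) {ψ : FreeAlgebra ℝ (Fin 2)} (hψ : ψ ∈ grtR n)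
    (w : List (Fin 2)) (hw : ∀ a ∈ w, a = 0) : cf w ψ = 0 := by
  rw [List.eq_replicate_of_mem hw, ← coeff_ev_X,
    grtR_abelian hn hψ (Commute.zero_right _), Polynomial.coeff_zero]

/-- coefficients of `s_ψ x` for short words -/
theorem cf_sOp_short {n : ℕ} {ψ : FreeAlgebra ℝ (Fin 2)} (hψ : ψ ∈ grtR n)
    (w : List (Fin 2)) (hw : w.length ≤ n) (x : FreeAlgebra ℝ (Fin 2)) :
    cf w (sOp ψ x) = cf w ψ * cf ([] : List (Fin 2)) x := by
  refine cf_sOp (W := fun w => w.length ≤ n) ?_ ?_ w hw ?_ x
  · intro w hw i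
    have h1 := List.length_take_le i w
    have h2 : (w.drop i).length ≤ w.length := by rw [List.length_drop]; omega
    exact ⟨le_trans (by rw [List.length_take]; exact Nat.min_le_right _ _) hw, le_trans h2 hw⟩
  · intro w hw
    apply cf_comm_zero
    · rintro v rfl
      apply grtR_homog hψ
      rw [List.length_cons] at hw; omega
    · rintro v rfl
      apply grtR_homog hψ
      rw [List.length_append, List.length_singleton] at hw; omega
  · intro i hi
    apply grtR_homog hψ
    rw [List.length_take]; omega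

/-- coefficients of `s_ψ x` for the depth one words -/
theorem cf_sOp_dep1 {n : ℕ} (hn : 2 ≤ n) {ψ : FreeAlgebra ℝ (Fin 2)} (hψ : ψ ∈ grtR n)
    (m : ℕ) (x : FreeAlgebra ℝ (Fin 2)) :
    cf (dep1 m) (sOp ψ x) = cf (dep1 m) ψ * cf ([] : List (Fin 2)) x := by
  refine cf_sOp (W := fun w => w.count 1 ≤ 1) ?_ ?_ (dep1 m) ?_ ?_ x
  · intro w hw i
    constructor
    · exact le_trans (List.Sublist.count_le 1 (List.take_sublist i w)) hw
    · exact le_trans (List.Sublist.count_le 1 (List.drop_sublist i w)) hw
  · intro w hw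
    have aux : ∀ v : List (Fin 2), v.count 1 = 0 → cf v ψ = 0 := by
      intro v hv
      apply grtR_pure hn hψ
      intro a ha
      have h1 : (1 : Fin 2) ∉ v := List.count_eq_zero.mp hv
      fin_cases a
      · rfl
      · exact absurd ha h1
    apply cf_comm_zero
    · rintro v rfl
      apply aux
      rw [List.count_cons_self] at hw; omega
    · rintro v rfl
      apply aux
      rw [List.count_append, List.count_singleton_self] at hw; omega
  · have h0 : List.count (1 : Fin 2) (List.replicate (m - 1) 0) = 0 := by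
      rw [List.count_eq_zero]
      intro h
      exact absurd (List.eq_of_mem_replicate h) (by decide)
    show List.count (1 : Fin 2) (List.replicate (m - 1) 0 ++ [1]) ≤ 1
    rw [List.count_append, h0, List.count_singleton_self]
  · intro i hi
    apply grtR_pure hn hψ
    intro a ha
    have h1 : i ≤ (List.replicate (m - 1) (0 : Fin 2)).length := by
      rw [dep1, List.length_append, List.length_singleton] at hi
      omega
    rw [dep1, List.take_append_of_le_length h1] at ha
    exact List.eq_of_mem_replicate (List.mem_of_mem_take ha)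

end Crest.Agent.R010.EDx
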