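import Crest.Agent.R010.ED6

/-! Row 10, module E-D, part 7 (helper249): the action of `exp s_ψ` on truncated associators:
the theorem `ED_of : EB2 → ED`. -/

set_option autoImplicit false
set_option linter.unusedSectionVars false
set_option linter.style.haveILetI false
open Finset Crest.NumberTheoryR.GT

namespace Crest.Agent.R010.EDx

attribute [local instance 100] LieRing.ofAssociativeRing

theorem ev_zero_zero (x : FreeAlgebra ℝ (Fin 2)) :
    ev (B := ℝ) 0 0 x = cf ([] : List (Fin 2)) x := by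
  refine wd_ext (ev (K := ℝ) (B := ℝ) 0 0).toLinearMap (cf ([] : List (Fin 2))) ?_ x
  intro l
  simp only [AlgHom.toLinearMap_apply, cf_wd]
  cases l with
  | nil => simp
  | cons a l =>
    rw [wd_cons, map_mul]
    fin_cases a <;> simp

theorem IsAssoc.cf_nil {N : ℕ} {P : FreeAlgebra ℝ (Fin 2)} (h : IsAssoc N P) :
    cf ([] : List (Fin 2)) P = 1 := by
  rw [← ev_zero_zero]
  apply h.left ℝ 0
  intro l hl
  cases l with
  | nil => simp at hl
  | cons a l => simp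

/-! ### the pentagon -/

/-- relations of a five-configuration -/
inductive r5 : FreeAlgebra ℝ (Fin 5) → FreeAlgebra ℝ (Fin 5) → Prop
  | comm (i : Fin 5) : r5 (FreeAlgebra.ι ℝ i * FreeAlgebra.ι ℝ (i + 1))
      (FreeAlgebra.ι ℝ (i + 1) * FreeAlgebra.ι ℝ i)
  | omega : r5 (∑ i, FreeAlgebra.ι ℝ i * FreeAlgebra.ι ℝ (i + 2))
      (∑ i, FreeAlgebra.ι ℝ (i + 2) * FreeAlgebra.ι ℝ i)

theorem conf5_qgen (N : ℕ) : Conf5 (qgen N r5) := by
  constructor
  · intro i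
    rw [Ring.lie_def, sub_eq_zero]
    have := qmk_rel N r5 (NRel.base (r5.comm i))
    simpa [qgen, map_mul] using this
  · simp only [Ring.lie_def]
    rw [Finset.sum_sub_distrib, sub_eq_zero]
    have := qmk_rel N r5 (NRel.base r5.omega)
    simpa [qgen, map_mul, map_sum] using this

theorem pent_act (hEB2 : EB2) {N n : ℕ} (hn : 3 ≤ n) {P ψ : FreeAlgebra ℝ (Fin 2)}
    (hP : IsAssoc N P) (hψ : ψ ∈ grtR n) (B : Type) [Ring B] [Algebra ℝ B] (R : Fin 5 → B)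
    (hR : Conf5 R) (hN : Nilp N R) :
    ev (R 4) (R 1) (expN (sOp ψ) (2 * N) P) * ev (R 3) (R 0) (expN (sOp ψ) (2 * N) P) *
      ev (R 2) (R 4) (expN (sOp ψ) (2 * N) P) * ev (R 1) (R 3) (expN (sOp ψ) (2 * N) P) *
      ev (R 0) (R 2) (expN (sOp ψ) (2 * N) P) = 1 := by
  -- the universal algebra
  obtain ⟨g, hg⟩ := exists_qlift N r5 R (by
    intro x y hxy
    cases hxy with
    | comm i =>
      have := hR.1 i
      rw [Ring.lie_def, sub_eq_zero] at this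
      simpa using this
    | omega =>
      have := hR.2
      simp only [Ring.lie_def] at this
      rw [Finset.sum_sub_distrib, sub_eq_zero] at this
      simpa using this) hN
  set Q := qgen N r5 with hQ
  set u := uu Q ψ with hu
  obtain ⟨hT1, hT2, hT3⟩ := grtR_TT hEB2 hn hψ Q (conf5_qgen N)
  have hus : ∀ i, u (i + 1) = u i - qq Q ψ i := uu_succ Q ψ hT1
  have hq2 : ∀ i, qq Q ψ i ∈ Fil ℝ Q 2 := fun i =>
    Fil_mono (by omega) (grtR_Fil hψ (gen_mem_Fil _) (gen_mem_Fil _))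
  have hu2 : ∀ i, u i ∈ Fil ℝ Q 2 := by
    intro i
    rw [hu]
    fin_cases i <;> simp only [uu] <;> simp
    · exact Submodule.sub_mem _ (Submodule.sub_mem _ (Submodule.sub_mem _
        (Submodule.neg_mem _ (hq2 1)) (hq2 2)) (hq2 3)) (hq2 4)
    · exact hq2 1
    · exact Submodule.sub_mem _ (Submodule.neg_mem _ (hq2 1)) (hq2 2)
    · exact Submodule.sub_mem _ (Submodule.sub_mem _ (Submodule.neg_mem _ (hq2 1)) (hq2 2)) (hq2 3)
  have hu1 : ∀ i, u i ∈ Fil ℝ Q 1 := fun i => Fil_mono (by omega) (hu2 i)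
  obtain ⟨δ, hδ, hδg⟩ := exists_qder N r5 (fun i => u i * Q i - Q i * u i) (by
    intro i
    have h1 := Fil_mul (hu2 i) (gen_mem_Fil (K := ℝ) (G := Q) i)
    have h2 := Fil_mul (gen_mem_Fil (K := ℝ) (G := Q) i) (hu2 i)
    exact Submodule.sub_mem _ (Fil_mono (by omega) h1) (Fil_mono (by omega) h2)) (by
    intro x y hxy
    cases hxy with
    | comm i =>
      rw [derL_mul, derL_mul]
      simp only [derL_ι, FreeAlgebra.lift_ι_apply]
      have := hT2 i
      simp only [Ring.lie_def] at this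
      rw [← sub_eq_zero, ← this]
      noncomm_ring
    | omega =>
      rw [map_sum, map_sum, ← sub_eq_zero, ← Finset.sum_sub_distrib, ← hT3]
      apply Finset.sum_congr rfl
      intro i _
      rw [derL_mul, derL_mul]
      simp only [derL_ι, FreeAlgebra.lift_ι_apply, Ring.lie_def]
      noncomm_ring)
  have hδ2 : ∀ i, δ (Q i) ∈ Fil ℝ Q 2 := by
    intro i
    rw [hδg]
    have h1 := Fil_mul (hu2 i) (gen_mem_Fil (K := ℝ) (G := Q) i)
    have h2 := Fil_mul (gen_mem_Fil (K := ℝ) (G := Q) i) (hu2 i)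
    exact Submodule.sub_mem _ (Fil_mono (by omega) h1) (Fil_mono (by omega) h2)
  have hnil : ∀ i j, (sig δ (u i) (u j)) ^ (N + 1) = 0 := fun i j =>
    sig_nilp (qgen_nilp N r5) (qgen_Fil N r5) hδ hδ2 (hu1 i) (hu1 j)
  -- intertwining
  have hint : ∀ i : Fin 5, ∀ x, ev (Q (i - 1)) (Q (i + 1)) (sOp ψ x) =
      sig δ (u (i + 1)) (u i) (ev (Q (i - 1)) (Q (i + 1)) x) := by
    intro i x
    rw [hus i]
    apply ev_sOp hδ
    · rw [hδg]
      have h1 : u i = u (i - 1) - qq Q ψ (i - 1) := by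
        have := hus (i - 1)
        rwa [sub_add_cancel] at this
      have h2 : Commute (Q (i - 1)) (qq Q ψ (i - 1)) := by
        apply ev_commute
        · have := (conf5_qgen N).1 (i - 1 - 1)
          rw [Ring.lie_def, sub_eq_zero, sub_add_cancel] at this
          exact this.symm
        · have := (conf5_qgen N).1 (i - 1)
          rw [Ring.lie_def, sub_eq_zero] at this
          exact this
      rw [h1, sub_mul, mul_sub, h2.eq]
      noncomm_ring
    · rw [hδg, hus i]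
      rfl
  have hexp : ∀ i : Fin 5, ev (Q (i - 1)) (Q (i + 1)) (expN (sOp ψ) (2 * N) P) =
      expN (sig δ (u (i + 1)) (u i)) (2 * N) (ev (Q (i - 1)) (Q (i + 1)) P) := fun i =>
    expN_transfer (ev (Q (i - 1)) (Q (i + 1))).toLinearMap (sOp ψ) _ (hint i) (2 * N) P
  have main : ev (Q 4) (Q 1) (expN (sOp ψ) (2 * N) P) * ev (Q 3) (Q 0) (expN (sOp ψ) (2 * N) P) *
      ev (Q 2) (Q 4) (expN (sOp ψ) (2 * N) P) * ev (Q 1) (Q 3) (expN (sOp ψ) (2 * N) P) *
      ev (Q 0) (Q 2) (expN (sOp ψ) (2 * N) P) = 1 := by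
    have h0 := hexp 0
    have h1 := hexp 1
    have h2 := hexp 2
    have h3 := hexp 3
    have h4 := hexp 4
    have e1 : (0 : Fin 5) - 1 = 4 := rfl
    have e2 : (0 : Fin 5) + 1 = 1 := rfl
    have e3 : (1 : Fin 5) - 1 = 0 := rfl
    have e4 : (1 : Fin 5) + 1 = 2 := rfl
    have e5 : (2 : Fin 5) - 1 = 1 := rfl
    have e6 : (2 : Fin 5) + 1 = 3 := rfl
    have e7 : (3 : Fin 5) - 1 = 2 := rfl
    have e8 : (3 : Fin 5) + 1 = 4 := rfl
    have e9 : (4 : Fin 5) - 1 = 3 := rfl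
    have e10 : (4 : Fin 5) + 1 = 0 := rfl
    rw [e1, e2] at h0
    rw [e3, e4] at h1
    rw [e5, e6] at h2
    rw [e7, e8] at h3
    rw [e9, e10] at h4
    rw [h0, h1, h2, h3, h4]
    rw [← expN_sig_mul hδ N _ _ _ (hnil _ _) (hnil _ _),
      ← expN_sig_mul hδ N _ _ _ (hnil _ _) (hnil _ _),
      ← expN_sig_mul hδ N _ _ _ (hnil _ _) (hnil _ _),
      ← expN_sig_mul hδ N _ _ _ (hnil _ _) (hnil _ _),
      hP.pent (QN N r5) Q (conf5_qgen N) (qgen_nilp N r5)]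
    exact expN_of_ker _ _ _ (sig_one hδ _)
  have := congrArg g main
  simp only [map_mul, map_one, ev_comp, hg] at this
  exact this

/-! ### group-likeness -/

/-- relations of two commuting pairs -/
inductive r4 : FreeAlgebra ℝ (Fin 4) → FreeAlgebra ℝ (Fin 4) → Prop
  | c02 : r4 (FreeAlgebra.ι ℝ 0 * FreeAlgebra.ι ℝ 2) (FreeAlgebra.ι ℝ 2 * FreeAlgebra.ι ℝ 0)
  | c03 : r4 (FreeAlgebra.ι ℝ 0 * FreeAlgebra.ι ℝ 3) (FreeAlgebra.ι ℝ 3 * FreeAlgebra.ι ℝ 0)
  | c12 : r4 (FreeAlgebra.ι ℝ 1 * FreeAlgebra.ι ℝ 2) (FreeAlgebra.ι ℝ 2 * FreeAlgebra.ι ℝ 1)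
  | c13 : r4 (FreeAlgebra.ι ℝ 1 * FreeAlgebra.ι ℝ 3) (FreeAlgebra.ι ℝ 3 * FreeAlgebra.ι ℝ 1)

theorem mult_act {N n : ℕ} (hn : 3 ≤ n) {P ψ : FreeAlgebra ℝ (Fin 2)}
    (hP : IsAssoc N P) (hψ : ψ ∈ grtR n) (B : Type) [Ring B] [Algebra ℝ B] (a b a' b' : B)
    (hN : Nilp N ![a, b, a', b']) (h1 : Commute a a') (h2 : Commute a b') (h3 : Commute b a')
    (h4 : Commute b b') :
    ev (a + a') (b + b') (expN (sOp ψ) (2 * N) P) =
      ev a b (expN (sOp ψ) (2 * N) P) * ev a' b' (expN (sOp ψ) (2 * N) P) := by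
  obtain ⟨g, hg⟩ := exists_qlift N r4 ![a, b, a', b'] (by
    intro x y hxy
    cases hxy with
    | c02 => simpa using h1.eq
    | c03 => simpa using h2.eq
    | c12 => simpa using h3.eq
    | c13 => simpa using h4.eq) hN
  set Q := qgen N r4 with hQ
  have q02 : Commute (Q 0) (Q 2) := by
    have := qmk_rel N r4 (NRel.base r4.c02)
    rw [map_mul, map_mul] at this
    exact this
  have q03 : Commute (Q 0) (Q 3) := by
    have := qmk_rel N r4 (NRel.base r4.c03)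
    rw [map_mul, map_mul] at this
    exact this
  have q12 : Commute (Q 1) (Q 2) := by
    have := qmk_rel N r4 (NRel.base r4.c12)
    rw [map_mul, map_mul] at this
    exact this
  have q13 : Commute (Q 1) (Q 3) := by
    have := qmk_rel N r4 (NRel.base r4.c13)
    rw [map_mul, map_mul] at this
    exact this
  set ψ1 := ev (Q 0) (Q 1) ψ with hψ1
  set ψ2 := ev (Q 2) (Q 3) ψ with hψ2
  have f1 : ψ1 ∈ Fil ℝ Q 2 := Fil_mono (by omega) (grtR_Fil hψ (gen_mem_Fil _) (gen_mem_Fil _))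
  have f2 : ψ2 ∈ Fil ℝ Q 2 := Fil_mono (by omega) (grtR_Fil hψ (gen_mem_Fil _) (gen_mem_Fil _))
  have c0 : Commute (Q 0) ψ2 := ev_commute q02 q03 ψ
  have c1 : Commute (Q 1) ψ2 := ev_commute q12 q13 ψ
  have c2 : Commute (Q 2) ψ1 := ev_commute q02.symm q12.symm ψ
  have c3 : Commute (Q 3) ψ1 := ev_commute q03.symm q13.symm ψ
  obtain ⟨Y, hY⟩ : ∃ Y : Fin 4 → QN N r4, Y = ![0, Q 1 * ψ1 - ψ1 * Q 1, 0, Q 3 * ψ2 - ψ2 * Q 3] :=
    ⟨_, rfl⟩
  have Y0 : Y 0 = 0 := by rw [hY]; rfl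
  have Y1 : Y 1 = Q 1 * ψ1 - ψ1 * Q 1 := by rw [hY]; rfl
  have Y2 : Y 2 = 0 := by rw [hY]; rfl
  have Y3 : Y 3 = Q 3 * ψ2 - ψ2 * Q 3 := by rw [hY]; rfl
  have hYF : ∀ i, Y i ∈ Fil ℝ Q 2 := by
    intro i
    fin_cases i
    · show Y 0 ∈ _
      rw [Y0]; exact Submodule.zero_mem _
    · show Y 1 ∈ _
      rw [Y1]
      exact Submodule.sub_mem _ (Fil_mono (by omega) (Fil_mul (gen_mem_Fil (K := ℝ) (G := Q) 1) f1))
        (Fil_mono (by omega) (Fil_mul f1 (gen_mem_Fil (K := ℝ) (G := Q) 1)))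
    · show Y 2 ∈ _
      rw [Y2]; exact Submodule.zero_mem _
    · show Y 3 ∈ _
      rw [Y3]
      exact Submodule.sub_mem _ (Fil_mono (by omega) (Fil_mul (gen_mem_Fil (K := ℝ) (G := Q) 3) f2))
        (Fil_mono (by omega) (Fil_mul f2 (gen_mem_Fil (K := ℝ) (G := Q) 3)))
  have k03 : Commute (Q 0) (Y 3) := by
    rw [Y3]; exact (q03.mul_right c0).sub_right (c0.mul_right q03)
  have k13 : Commute (Q 1) (Y 3) := by
    rw [Y3]; exact (q13.mul_right c1).sub_right (c1.mul_right q13)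
  have k21 : Commute (Q 2) (Y 1) := by
    rw [Y1]; exact (q12.symm.mul_right c2).sub_right (c2.mul_right q12.symm)
  have k31 : Commute (Q 3) (Y 1) := by
    rw [Y1]; exact (q13.symm.mul_right c3).sub_right (c3.mul_right q13.symm)
  obtain ⟨δ, hδ, hδg⟩ := exists_qder N r4 Y hYF (by
    intro x y hxy
    cases hxy with
    | c02 =>
      rw [derL_mul, derL_mul]
      simp only [derL_ι, FreeAlgebra.lift_ι_apply, Y0, Y2, mul_zero, zero_mul]
    | c03 =>
      rw [derL_mul, derL_mul]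
      simp only [derL_ι, FreeAlgebra.lift_ι_apply, Y0, mul_zero, zero_mul, add_zero, zero_add]
      exact k03.eq
    | c12 =>
      rw [derL_mul, derL_mul]
      simp only [derL_ι, FreeAlgebra.lift_ι_apply, Y2, mul_zero, zero_mul, add_zero, zero_add]
      exact k21.eq.symm
    | c13 =>
      rw [derL_mul, derL_mul]
      simp only [derL_ι, FreeAlgebra.lift_ι_apply]
      rw [add_comm]
      exact congrArg₂ (· + ·) k31.eq.symm k13.eq)
  have hδ2 : ∀ i, δ (Q i) ∈ Fil ℝ Q 2 := fun i => by rw [hδg]; exact hYF i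
  have g1 : ψ1 ∈ Fil ℝ Q 1 := Fil_mono (by omega) f1
  have g2 : ψ2 ∈ Fil ℝ Q 1 := Fil_mono (by omega) f2
  have hnil : ∀ v w, v ∈ Fil ℝ Q 1 → w ∈ Fil ℝ Q 1 → (sig δ v w) ^ (N + 1) = 0 := fun v w hv hw =>
    sig_nilp (qgen_nilp N r4) (qgen_Fil N r4) hδ hδ2 hv hw
  have i1 : ∀ x, ev (Q 0) (Q 1) (sOp ψ x) = sig δ (-ψ2 - ψ1) (-ψ2) (ev (Q 0) (Q 1) x) := by
    intro x
    apply ev_sOp hδ
    · rw [hδg, Y0, neg_mul, mul_neg, c0.eq]; abel
    · rw [hδg, Y1, ← hψ1, sub_mul, mul_sub, neg_mul, mul_neg, c1.eq]; abel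
  have i2 : ∀ x, ev (Q 2) (Q 3) (sOp ψ x) = sig δ (-ψ2) 0 (ev (Q 2) (Q 3) x) := by
    intro x
    have := ev_sOp hδ (Q 2) (Q 3) 0 ψ (by rw [hδg, Y2]; simp)
      (by rw [hδg, Y3, ← hψ2]; noncomm_ring) x
    rw [this, zero_sub]
  have hadd : ev (Q 0 + Q 2) (Q 1 + Q 3) ψ = ψ1 + ψ2 := grtR_add hψ q02 q03 q12 q13
  have i3 : ∀ x, ev (Q 0 + Q 2) (Q 1 + Q 3) (sOp ψ x) =
      sig δ (-ψ2 - ψ1) 0 (ev (Q 0 + Q 2) (Q 1 + Q 3) x) := by
    intro x
    have := ev_sOp hδ (Q 0 + Q 2) (Q 1 + Q 3) 0 ψ (by rw [map_add, hδg, hδg, Y2, Y0]; simp)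
      (by
        rw [map_add, hδg, hδg, Y3, Y1, hadd]
        simp only [zero_sub, neg_mul, mul_neg, add_mul, mul_add, c1.eq, c3.eq]
        abel) x
    rw [this, hadd]
    congr 2
    abel
  have e1 := expN_transfer (ev (Q 0) (Q 1)).toLinearMap (sOp ψ) _ i1 (2 * N) P
  have e2 := expN_transfer (ev (Q 2) (Q 3)).toLinearMap (sOp ψ) _ i2 (2 * N) P
  have e3 := expN_transfer (ev (Q 0 + Q 2) (Q 1 + Q 3)).toLinearMap (sOp ψ) _ i3 (2 * N) P
  simp only [AlgHom.toLinearMap_apply] at e1 e2 e3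
  have main : ev (Q 0 + Q 2) (Q 1 + Q 3) (expN (sOp ψ) (2 * N) P) =
      ev (Q 0) (Q 1) (expN (sOp ψ) (2 * N) P) * ev (Q 2) (Q 3) (expN (sOp ψ) (2 * N) P) := by
    rw [e1, e2, e3, ← expN_sig_mul hδ N _ _ _
      (hnil _ _ (Submodule.sub_mem _ (Submodule.neg_mem _ g2) g1) (Submodule.neg_mem _ g2))
      (hnil _ _ (Submodule.neg_mem _ g2) (Submodule.zero_mem _)),
      hP.mult (QN N r4) (Q 0) (Q 1) (Q 2) (Q 3) (by
        have : ![Q 0, Q 1, Q 2, Q 3] = Q := by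
          ext i; fin_cases i <;> rfl
        rw [this]
        exact qgen_nilp N r4) q02 q03 q12 q13]
  have := congrArg g main
  rw [map_mul, ev_comp, ev_comp, ev_comp, map_add, map_add, hg, hg, hg, hg] at this
  exact this

/-! ### normalisation -/

theorem comm_act {N n : ℕ} (hn : 3 ≤ n) {P ψ : FreeAlgebra ℝ (Fin 2)}
    (hψ : ψ ∈ grtR n) {B : Type} [Ring B] [Algebra ℝ B] {a b : B} (hab : Commute a b) :
    ev a b (expN (sOp ψ) (2 * N) P) = ev a b P := by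
  have h0 : ev a b ψ = 0 := grtR_abelian (by omega) hψ hab
  have h : ∀ x, ev a b (sOp ψ x) = sig (0 : B →ₗ[ℝ] B) 0 0 (ev a b x) := by
    intro x
    have := ev_sOp (δ := (0 : B →ₗ[ℝ] B)) (by intro x y; simp) a b 0 ψ (by simp)
      (by rw [h0]; simp) x
    rw [this, h0, sub_zero]
  have e := expN_transfer (ev a b).toLinearMap (sOp ψ) _ h (2 * N) P
  simp only [AlgHom.toLinearMap_apply] at e
  rw [e]
  apply expN_of_ker
  rw [sig_apply]; simp

end Crest.Agent.R010.EDx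

namespace Crest.Agent.R010

open EDx

theorem ED_of (hEB2 : EB2) : ED := by
  intro N n P ψ hn hnN hP hψ
  have hJ : 1 ≤ 2 * N := by omega
  have hnil0 : cf ([] : List (Fin 2)) ψ = 0 := grtR_homog hψ [] (by simp; omega)
  have hε : ∀ x, cf ([] : List (Fin 2)) (sOp ψ x) = 0 := by
    intro x
    rw [cf_sOp_short hψ [] (by simp), hnil0, zero_mul]
  refine ⟨expN (sOp ψ) (2 * N) P, ⟨?_, ?_, ?_, ?_⟩, ?_, ?_, ?_⟩
  · intro B _ _ R hR hN
    exact pent_act hEB2 hn hP hψ B R hR hN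
  · intro B _ _ a b a' b' hN h1 h2 h3 h4
    exact mult_act hn hP hψ B a b a' b' hN h1 h2 h3 h4
  · intro B _ _ a hN
    rw [comm_act hn hψ (Commute.zero_right a)]
    exact hP.left B a hN
  · intro B _ _ b hN
    rw [comm_act hn hψ (Commute.zero_left b)]
    exact hP.right B b hN
  · intro w hw
    rw [expN_functional (sOp ψ) (2 * N) hJ (cf w) (cf ([] : List (Fin 2))) (cf w ψ)
      (cf_sOp_short hψ w (by omega)) hε, grtR_homog hψ w (by omega), zero_mul, add_zero]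
  · intro w hw
    rw [expN_functional (sOp ψ) (2 * N) hJ (cf w) (cf ([] : List (Fin 2))) (cf w ψ)
      (cf_sOp_short hψ w (by omega)) hε, IsAssoc.cf_nil hP, mul_one]
  · intro m hm hmN
    rw [expN_functional (sOp ψ) (2 * N) hJ (cf (dep1 m)) (cf ([] : List (Fin 2))) (cf (dep1 m) ψ)
      (cf_sOp_dep1 (by omega) hψ m) hε, grtR_homog hψ (dep1 m) (by
        rw [dep1, List.length_append, List.length_replicate, List.length_singleton]; omega),
      zero_mul, add_zero]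

end Crest.Agent.R010
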