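import Mathlib

/-!
# Row 10, module (E-E), general lemmas (helper477)

* `coeff_mul_diff`: first order comparison of products of power series over a noncommutative ring;
* `TruncCon`: the truncation `W⟦t⟧/(t^{M+1})` as a quotient by a ring congruence;
* `lamT`: extension of a `ℚ`-linear functional `ℝ → ℚ` to `ℝ ⊗ U → U`.
-/

set_option autoImplicit false

noncomputable section
namespace Crest.Agent.R010.EE

open PowerSeries TensorProduct

/-! ### first order comparison -/

section Diff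
variable {W : Type*} [Ring W]

theorem coeff_mul_diff {n : ℕ} (hn : 0 < n) {f g f' g' : PowerSeries W}
    (hf : ∀ m < n, coeff m f = coeff m f') (hg : ∀ m < n, coeff m g = coeff m g')
    (hf0 : coeff 0 f = 1) (hg0 : coeff 0 g = 1) :
    coeff n (f * g) - coeff n (f' * g') =
      (coeff n f - coeff n f') + (coeff n g - coeff n g') := by
  have hf0' : coeff 0 f' = 1 := by rw [← hf 0 hn, hf0]
  have hg0' : coeff 0 g' = 1 := by rw [← hg 0 hn, hg0]
  rw [coeff_mul, coeff_mul, ← Finset.sum_sub_distrib]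
  obtain ⟨m, rfl⟩ : ∃ m, n = m + 1 := ⟨n - 1, by omega⟩
  have h0 : ((0, m + 1) : ℕ × ℕ) ∈ Finset.HasAntidiagonal.antidiagonal (m + 1) := by simp
  have h1 : ((m + 1, 0) : ℕ × ℕ) ∈ (Finset.HasAntidiagonal.antidiagonal (m + 1)).erase (0, m + 1) := by simp
  rw [← Finset.add_sum_erase _ _ h0, ← Finset.add_sum_erase _ _ h1, Finset.sum_eq_zero]
  · simp only [hf0, hg0, hf0', hg0', one_mul, mul_one]
    abel
  · rintro ⟨a, b⟩ hab
    simp only [Finset.mem_erase, Finset.HasAntidiagonal.mem_antidiagonal, ne_eq, Prod.mk.injEq] at hab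
    have ha : a < m + 1 := by omega
    have hb : b < m + 1 := by omega
    rw [hf a ha, hg b hb, sub_self]

theorem coeff_mul_congr {n : ℕ} {f g f' g' : PowerSeries W}
    (hf : ∀ m < n, coeff m f = coeff m f') (hg : ∀ m < n, coeff m g = coeff m g') :
    ∀ m < n, coeff m (f * g) = coeff m (f' * g') := by
  intro m hm
  rw [coeff_mul, coeff_mul]
  refine Finset.sum_congr rfl fun p hp => ?_
  rw [Finset.HasAntidiagonal.mem_antidiagonal] at hp
  rw [hf _ (by omega), hg _ (by omega)]

theorem coeff_zero_mul' {f g : PowerSeries W} (hf : coeff 0 f = 1) (hg : coeff 0 g = 1) :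
    coeff 0 (f * g) = 1 := by
  rw [coeff_mul]
  simp [hf, hg]

end Diff

/-! ### truncation -/

section Trunc
variable (W : Type*) [Ring W]

/-- the congruence "equal coefficients up to degree `M`" -/
def TruncCon (M : ℕ) : RingCon (PowerSeries W) where
  r f g := ∀ m ≤ M, coeff m f = coeff m g
  iseqv := ⟨fun _ _ _ => rfl, fun h m hm => (h m hm).symm, fun h h' m hm => (h m hm).trans (h' m hm)⟩
  mul' := by
    intro a b c d h h' m hm
    exact coeff_mul_congr (n := M + 1) (fun k hk => h k (by omega)) (fun k hk => h' k (by omega)) m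
      (by omega)
  add' := by
    intro a b c d h h' m hm
    simp only [map_add, h m hm, h' m hm]

theorem truncCon_iff {M : ℕ} {f g : PowerSeries W} :
    (f : (TruncCon W M).Quotient) = g ↔ ∀ m ≤ M, coeff m f = coeff m g := by
  rw [RingCon.eq]
  rfl

end Trunc

/-! ### extension of `ℚ`-linear functionals -/

section Lam
variable {U : Type*} [Ring U] [Algebra ℚ U]

/-- `λ ⊗ id : ℝ ⊗ U → U` -/
def lamT (lam : ℝ →ₗ[ℚ] ℚ) : ℝ ⊗[ℚ] U →ₗ[ℚ] U :=
  (TensorProduct.lid ℚ U).toLinearMap ∘ₗ TensorProduct.map lam LinearMap.id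

@[simp] theorem lamT_tmul (lam : ℝ →ₗ[ℚ] ℚ) (r : ℝ) (u : U) :
    lamT lam (r ⊗ₜ[ℚ] u) = lam r • u := by
  simp [lamT]

/-- `u ↦ 1 ⊗ u` -/
abbrev inR : U →ₐ[ℚ] ℝ ⊗[ℚ] U := Algebra.TensorProduct.includeRight

theorem lamT_smul_inR (lam : ℝ →ₗ[ℚ] ℚ) (r : ℝ) (u : U) :
    lamT lam (r • (inR u : ℝ ⊗[ℚ] U)) = lam r • u := by
  rw [Algebra.TensorProduct.includeRight_apply, TensorProduct.smul_tmul']
  simp

end Lam

end Crest.Agent.R010.EE
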