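import Crest.Agent.R010.EDefs

/-!
# Row 10: word coefficients of free algebras (API for `cf`, helper477)
-/

set_option autoImplicit false

noncomputable section
namespace Crest.Agent.R010

section
variable {K : Type*} [CommRing K] {X : Type*}

/-- the word `w` as an element of the free algebra -/
def wd (K : Type*) [CommRing K] {X : Type*} (w : List X) : FreeAlgebra K X :=
  (w.map (FreeAlgebra.ι K)).prod

@[simp] theorem wd_nil : wd K ([] : List X) = 1 := rfl

@[simp] theorem wd_cons (x : X) (w : List X) : wd K (x :: w) = FreeAlgebra.ι K x * wd K w := by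
  simp [wd]

theorem wd_append (u v : List X) : wd K (u ++ v) = wd K u * wd K v := by
  simp [wd]

theorem equiv_wd (w : List X) :
    FreeAlgebra.equivMonoidAlgebraFreeMonoid (wd K w) =
      MonoidAlgebra.single (FreeMonoid.ofList w) (1 : K) := by
  induction w with
  | nil => rw [wd_nil, map_one, MonoidAlgebra.one_def]; rfl
  | cons x w ih =>
    rw [wd_cons, map_mul, ih]
    have : FreeAlgebra.equivMonoidAlgebraFreeMonoid (FreeAlgebra.ι K x) =
        (MonoidAlgebra.single (FreeMonoid.of x) (1 : K) : MonoidAlgebra K (FreeMonoid X)) := by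
      simp [FreeAlgebra.equivMonoidAlgebraFreeMonoid]
    rw [this, MonoidAlgebra.single_mul_single, mul_one]
    rfl

open Classical in
theorem cf_wd (w v : List X) : cf w (wd K v) = if v = w then 1 else 0 := by
  show (FreeAlgebra.equivMonoidAlgebraFreeMonoid (wd K v)).coeff (FreeMonoid.ofList w) = _
  rw [equiv_wd, MonoidAlgebra.coeff_single, Finsupp.single_apply]
  simp

/-- `K`-linear combinations of words -/
theorem fa_induction {C : FreeAlgebra K X → Prop}
    (hadd : ∀ f g, C f → C g → C (f + g)) (hwd : ∀ (r : K) (w : List X), C (r • wd K w))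
    (f : FreeAlgebra K X) : C f := by
  have key : ∀ g : MonoidAlgebra K (FreeMonoid X),
      C (FreeAlgebra.equivMonoidAlgebraFreeMonoid.symm g) := by
    intro g
    induction g using MonoidAlgebra.induction_linear with
    | zero =>
      rw [map_zero]
      have := hwd 0 []
      rwa [zero_smul] at this
    | add f g hf hg => rw [map_add]; exact hadd _ _ hf hg
    | single m r =>
      have : (FreeAlgebra.equivMonoidAlgebraFreeMonoid.symm
          (MonoidAlgebra.single m r : MonoidAlgebra K (FreeMonoid X))) =
          r • wd K (FreeMonoid.toList m) := by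
        apply FreeAlgebra.equivMonoidAlgebraFreeMonoid.injective
        rw [AlgEquiv.apply_symm_apply, map_smul, equiv_wd, MonoidAlgebra.smul_single]
        simp
      rw [this]
      exact hwd _ _
  have := key (FreeAlgebra.equivMonoidAlgebraFreeMonoid f)
  rwa [AlgEquiv.symm_apply_apply] at this

theorem ext_cf {f g : FreeAlgebra K X} (h : ∀ w, cf w f = cf w g) : f = g := by
  apply FreeAlgebra.equivMonoidAlgebraFreeMonoid.injective
  apply MonoidAlgebra.coeff_injective
  ext m
  exact h (FreeMonoid.toList m)

end

/-! ### evaluation of words -/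

section
variable {K : Type*} [CommRing K] {B : Type*} [Ring B] [Algebra K B]

/-- value of a word -/
def wv (a b : B) (w : List (Fin 2)) : B := (w.map (fun i : Fin 2 => if i = 0 then a else b)).prod

@[simp] theorem wv_nil (a b : B) : wv a b [] = 1 := rfl

@[simp] theorem wv_cons (a b : B) (i : Fin 2) (w : List (Fin 2)) :
    wv a b (i :: w) = (if i = 0 then a else b) * wv a b w := by
  simp [wv]

theorem ev_wd (a b : B) (w : List (Fin 2)) : ev a b (wd K w) = wv a b w := by
  induction w with
  | nil => simp
  | cons x w ih => rw [wd_cons, map_mul, ih, wv_cons]; simp [ev]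

end

/-! ### words of length `n` -/

/-- the finite set of words of length `n` -/
def wdsN (n : ℕ) : Finset (List (Fin 2)) :=
  Finset.univ.image (fun v : Fin n → Fin 2 => List.ofFn v)

@[simp] theorem mem_wdsN {n : ℕ} {w : List (Fin 2)} : w ∈ wdsN n ↔ w.length = n := by
  unfold wdsN
  rw [Finset.mem_image]
  constructor
  · rintro ⟨v, _, rfl⟩
    simp
  · rintro rfl
    exact ⟨fun i => w[i], Finset.mem_univ _, by simp⟩

theorem cf_sum_wdsN {K : Type*} [CommRing K] (n : ℕ) (c : List (Fin 2) → K) (w : List (Fin 2)) :
    cf w (∑ v ∈ wdsN n, c v • wd K v) = if w.length = n then c w else 0 := by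
  classical
  rw [map_sum]
  simp only [map_smul, cf_wd, smul_eq_mul, mul_ite, mul_one, mul_zero]
  rw [Finset.sum_ite_eq']
  simp

end Crest.Agent.R010
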