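import Crest.Agent.R010.EE1

/-!
Row 10: `EE_of : EA → ED → EE1 → EE` (helper450).
-/

set_option autoImplicit false
set_option linter.unusedSimpArgs false
set_option linter.unusedVariables false

noncomputable section

namespace Crest.Agent.R010

attribute [local instance 100] LieRing.ofAssociativeRing

namespace EEfin

open Crest.NumberTheoryR.GT

/-- `P(-x,-y)` -/
def neg (P : FreeAlgebra ℝ (Fin 2)) : FreeAlgebra ℝ (Fin 2) :=
  ev (-FreeAlgebra.ι ℝ 0) (-FreeAlgebra.ι ℝ 1) P

theorem ev_neg {B : Type} [Ring B] [Algebra ℝ B] (a b : B) (P : FreeAlgebra ℝ (Fin 2)) :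
    ev a b (neg P) = ev (-a) (-b) P := by
  have h : (ev a b).comp (ev (-FreeAlgebra.ι ℝ 0) (-FreeAlgebra.ι ℝ 1)) =
      (ev (-a) (-b) : FreeAlgebra ℝ (Fin 2) →ₐ[ℝ] B) := by
    apply FreeAlgebra.hom_ext
    funext i
    fin_cases i <;> simp [ev]
  exact congrArg (fun f : FreeAlgebra ℝ (Fin 2) →ₐ[ℝ] B => f P) h

theorem cf_neg (w : List (Fin 2)) (P : FreeAlgebra ℝ (Fin 2)) :
    cf w (neg P) = (-1) ^ w.length * cf w P := by
  classical
  induction P using fa_induction with
  | hadd f g hf hg =>
    have : neg (f + g) = neg f + neg g := by simp [neg]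
    rw [this, map_add, map_add, hf, hg]; ring
  | hwd r v =>
    have h1 : neg (r • wd ℝ v) = (r * (-1) ^ v.length) • wd ℝ v := by
      have h2 : ∀ v : List (Fin 2), neg (wd ℝ v) = ((-1 : ℝ) ^ v.length) • wd ℝ v := by
        intro v
        induction v with
        | nil => simp [neg]
        | cons i v ih =>
          rw [wd_cons]
          have : neg (FreeAlgebra.ι ℝ i * wd ℝ v) = neg (FreeAlgebra.ι ℝ i) * neg (wd ℝ v) := by
            simp [neg]
          rw [this, ih]
          have h3 : neg (FreeAlgebra.ι ℝ i) = -FreeAlgebra.ι ℝ i := by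
            fin_cases i <;> simp [neg, ev]
          rw [h3, List.length_cons, pow_succ]
          simp [mul_smul]
      have : neg (r • wd ℝ v) = r • neg (wd ℝ v) := by simp [neg]
      rw [this, h2, smul_smul]
    rw [h1, map_smul, map_smul, cf_wd, smul_eq_mul, smul_eq_mul]
    by_cases hv : v = w
    · subst hv; rw [if_pos rfl]; ring
    · rw [if_neg hv]; ring

theorem prod_map_neg {ι B : Type} [Ring B] (x : ι → B) (l : List ι) :
    (l.map (fun i => -x i)).prod = (-1) ^ l.length * (l.map x).prod := by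
  induction l with
  | nil => simp
  | cons i l ih =>
    rw [List.map_cons, List.prod_cons, ih, List.map_cons, List.prod_cons, List.length_cons,
      pow_succ']
    rcases neg_one_pow_eq_or B l.length with h | h <;> rw [h] <;> noncomm_ring

theorem nilp_neg {N : ℕ} {ι B : Type} [Ring B] {x : ι → B} (h : Nilp N x) :
    Nilp N (fun i => -x i) := by
  intro l hl
  rw [prod_map_neg, h l hl, mul_zero]

theorem isAssoc_neg {N : ℕ} {P : FreeAlgebra ℝ (Fin 2)} (hP : IsAssoc N P) :
    IsAssoc N (neg P) := by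
  refine ⟨?_, ?_, ?_, ?_⟩
  · intro B _ _ R hR hN
    simp only [ev_neg]
    have hR' : Conf5 (fun i => -R i) := by
      constructor
      · intro i
        have := hR.1 i
        simpa using this
      · have := hR.2
        simpa using this
    exact hP.pent B (fun i => -R i) hR' (nilp_neg hN)
  · intro B _ _ a b a' b' hN h1 h2 h3 h4
    simp only [ev_neg]
    rw [neg_add, neg_add]
    have hN' : Nilp N ![-a, -b, -a', -b'] := by
      have := nilp_neg hN
      have e : (fun i => -(![a, b, a', b'] : Fin 4 → B) i) = ![-a, -b, -a', -b'] := by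
        funext i; fin_cases i <;> rfl
      rwa [e] at this
    exact hP.mult B (-a) (-b) (-a') (-b') hN' (h1.neg_left.neg_right) (h2.neg_left.neg_right)
      (h3.neg_left.neg_right) (h4.neg_left.neg_right)
  · intro B _ _ a hN
    rw [ev_neg, neg_zero]
    apply hP.left
    have := nilp_neg hN
    have e : (fun i => -(![a] : Fin 1 → B) i) = ![-a] := by
      funext i; fin_cases i; rfl
    rwa [e] at this
  · intro B _ _ b hN
    rw [ev_neg, neg_zero]
    apply hP.right
    have := nilp_neg hN
    have e : (fun i => -(![b] : Fin 1 → B) i) = ![-b] := by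
      funext i; fin_cases i; rfl
    rwa [e] at this

theorem wdsN_one : wdsN 1 = {[0], [1]} := by
  ext w
  rw [mem_wdsN, List.length_eq_one_iff]
  constructor
  · rintro ⟨i, rfl⟩
    fin_cases i <;> simp
  · intro h
    simp only [Finset.mem_insert, Finset.mem_singleton] at h
    rcases h with rfl | rfl
    · exact ⟨0, rfl⟩
    · exact ⟨1, rfl⟩

theorem cf_len_one {N : ℕ} (hN : 1 ≤ N) {P : FreeAlgebra ℝ (Fin 2)} (hP : IsAssoc N P)
    (w : List (Fin 2)) (hw : w.length = 1) : cf w P = 0 := by
  have h0 := EE.assoc_left (W := ℝ) hP 1 1 hN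
  have h1 := EE.assoc_right (W := ℝ) hP 1 1 hN
  rw [EE.coeff_pser, wdsN_one, Finset.sum_pair (by decide), PowerSeries.coeff_one,
    if_neg one_ne_zero] at h0 h1
  simp [wv] at h0 h1
  obtain ⟨i, rfl⟩ := List.length_eq_one_iff.1 hw
  fin_cases i
  · exact h0
  · exact h1

theorem dep1_length {n : ℕ} (hn : 1 ≤ n) : (dep1 n).length = n := by
  simp [dep1]; omega

end EEfin

open EEfin Crest.NumberTheoryR.GT in
/-- **(EE)** from (EA), (ED), (EE1). -/
theorem EE_of (hEA : EA) (hED : ED) (hEE1 : EE1) : EE := by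
  intro k
  set N := 2 * k + 3 with hNdef
  obtain ⟨P, hP, hPc⟩ := hEA N
  have hQ : IsAssoc N (neg P) := isAssoc_neg hP
  have hagree : ∀ w : List (Fin 2), w.length < 3 → cf w P = cf w (neg P) := by
    intro w hw
    rw [cf_neg]
    rcases Nat.lt_or_ge w.length 1 with h | h
    · have : w.length = 0 := by omega
      rw [this]; simp
    · rcases Nat.lt_or_ge w.length 2 with h2 | h2
      · have : w.length = 1 := by omega
        rw [cf_len_one (by omega) hP w this, mul_zero]
      · have : w.length = 2 := by omega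
        rw [this]; simp
  have main : ∀ n, 3 ≤ n → n ≤ N → ∃ P' : FreeAlgebra ℝ (Fin 2), IsAssoc N P' ∧
      (∀ w : List (Fin 2), w.length < n → cf w P' = cf w (neg P)) ∧
      ∀ m, n ≤ m → m ≤ N → cf (dep1 m) P' = cf (dep1 m) P := by
    intro n hn
    induction n, hn using Nat.le_induction with
    | base => intro _; exact ⟨P, hP, hagree, fun _ _ _ => rfl⟩
    | succ n hn ih =>
      intro hnN
      obtain ⟨P₁, hP₁, ha, hd⟩ := ih (by omega)
      obtain ⟨ψ, hψ, hψc⟩ := hEE1 N n P₁ (neg P) hn (by omega) hP₁ hQ ha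
      obtain ⟨P₂, hP₂, h1, h2, h3⟩ := hED N n P₁ ψ hn (by omega) hP₁ hψ
      refine ⟨P₂, hP₂, ?_, ?_⟩
      · intro w hw
        rcases Nat.lt_or_ge w.length n with h | h
        · rw [h1 w h, ha w h]
        · have hwn : w.length = n := by omega
          rw [h2 w hwn, hψc w hwn]; ring
      · intro m hm hmN
        rw [h3 m (by omega) hmN, hd m (by omega) hmN]
  obtain ⟨P', hP', ha, hd⟩ := main N (by omega) le_rfl
  obtain ⟨ψ, hψ, hψc⟩ := hEE1 N N P' (neg P) (by omega) le_rfl hP' hQ ha
  have hlen : (dep1 N).length = N := dep1_length (by omega)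
  have hne : cf (dep1 N) ψ ≠ 0 := by
    rw [hψc _ hlen, hd N le_rfl le_rfl, cf_neg, hlen]
    have hodd : Odd N := ⟨k + 1, by omega⟩
    rw [hodd.neg_one_pow]
    have := hPc N (by omega) le_rfl
    intro h
    apply this
    linarith
  by_contra hcon
  push Not at hcon
  apply hne
  refine Submodule.span_induction (p := fun ψ _ => cf (dep1 N) ψ = 0) ?_ ?_ ?_ ?_ hψ
  · rintro _ ⟨p, hp, rfl⟩
    change cf (dep1 N) (toReal (iota p)) = 0
    rw [EE.cf_toReal, hcon p hp, Rat.cast_zero]
  · exact map_zero _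
  · intro x y _ _ hx hy; rw [map_add, hx, hy, add_zero]
  · intro c x _ hx; rw [map_smul, hx, smul_zero]

end Crest.Agent.R010

end
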