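import Crest.Agent.R010.EE1

/-!
# Row 10, (S2): primitive homogeneous elements of `ℚ⟨x,y⟩` are Lie elements (helper477)

Dynkin–Specht–Wever without antipode: on `R = End(F)` consider `a_i : T ↦ L_i T` and `a'_i : T ↦ -T L_i`, two
commuting pairs; `a_i + a'_i = ad L_i`. For primitive `f`: `f(ad L)(T) = L_f T + T g`, `T = 1` gives `g = - L_f`, and
`T = E` (Euler operator) gives `f(ad L)(E) = [L_f, E] = - n L_f`, while for every word `w` of positive length
`w(ad L)(E) = - L_{[x_1,[x_2,...]]}`.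
-/

set_option autoImplicit false
open Crest.NumberTheoryR.GT
open scoped TensorProduct

noncomputable section
namespace Crest.Agent.R010

attribute [local instance 100] LieRing.ofAssociativeRing

namespace SW

abbrev F : Type := FreeAlgebra ℚ (Fin 2)
abbrev R : Type := Module.End ℚ F

/-- the Euler operator -/
def eul : R :=
  (Finsupp.linearCombination ℚ
    (fun m : FreeMonoid (Fin 2) => ((FreeMonoid.toList m).length : ℚ) • wd ℚ (FreeMonoid.toList m))) ∘ₗ
  (MonoidAlgebra.coeffLinearEquiv ℚ).toLinearMap ∘ₗ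
  (FreeAlgebra.equivMonoidAlgebraFreeMonoid (R := ℚ) (X := Fin 2)).toLinearMap

theorem eul_wd (w : List (Fin 2)) : eul (wd ℚ w) = (w.length : ℚ) • wd ℚ w := by
  simp [eul, equiv_wd]

theorem homog_eq {n : ℕ} {f : F} (hf : Homog n f) : f = ∑ w ∈ wdsN n, cf w f • wd ℚ w := by
  apply ext_cf
  intro w
  rw [cf_sum_wdsN]
  by_cases h : w.length = n
  · rw [if_pos h]
  · rw [if_neg h, hf w h]

theorem eul_homog {n : ℕ} {f : F} (hf : Homog n f) : eul f = (n : ℚ) • f := by
  conv_lhs => rw [homog_eq hf]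
  conv_rhs => rw [homog_eq hf]
  rw [map_sum, Finset.smul_sum]
  refine Finset.sum_congr rfl fun w hw => ?_
  rw [map_smul, eul_wd, mem_wdsN.1 hw, smul_comm]

theorem eul_one : eul (1 : F) = 0 := by
  have := eul_wd []
  simpa using this

/-- left multiplication -/
def Lf : F →ₐ[ℚ] R := Algebra.lmul ℚ F

@[simp] theorem Lf_apply (f g : F) : Lf f g = f * g := rfl

/-- letters -/
abbrev li (i : Fin 2) : F := FreeAlgebra.ι ℚ i

theorem Lf_eul (i : Fin 2) : Lf (li i) * eul - eul * Lf (li i) = -Lf (li i) := by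
  apply LinearMap.ext
  intro g
  simp only [LinearMap.sub_apply, Module.End.mul_apply, Lf_apply, LinearMap.neg_apply]
  induction g using fa_induction with
  | hadd f g hf hg => rw [map_add, mul_add, mul_add, map_add, neg_add, ← hf, ← hg]; abel
  | hwd r w =>
    rw [map_smul, eul_wd, mul_smul_comm, mul_smul_comm, mul_smul_comm, map_smul,
      ← wd_cons, eul_wd, List.length_cons]
    push_cast
    module

abbrev UU : Type := Module.End ℚ R

/-- `T ↦ L_i T` -/
def aL (i : Fin 2) : UU := Algebra.lmul ℚ R (Lf (li i))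
/-- `T ↦ - T L_i` -/
def aR (i : Fin 2) : UU := -LinearMap.mulRight ℚ (Lf (li i))

@[simp] theorem aL_apply (i : Fin 2) (T : R) : aL i T = Lf (li i) * T := rfl
@[simp] theorem aR_apply (i : Fin 2) (T : R) : aR i T = -(T * Lf (li i)) := rfl

theorem ev_aL (f : F) : ev (aL 0) (aL 1) f = Algebra.lmul ℚ R (Lf f) :=
  (EE.hom_eq_ev ((Algebra.lmul ℚ R).comp Lf) f).symm

theorem ev_aR (f : F) (T : R) : ev (aR 0) (aR 1) f T = T * ev (aR 0) (aR 1) f 1 := by
  induction f using fa_induction with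
  | hadd f g hf hg => rw [map_add, LinearMap.add_apply, LinearMap.add_apply, hf, hg, mul_add]
  | hwd r w =>
    rw [map_smul, LinearMap.smul_apply, LinearMap.smul_apply, mul_smul_comm]
    congr 1
    induction w with
    | nil => simp
    | cons i w ih =>
      rw [ev_wd] at ih ⊢
      rw [wv_cons]
      have e : (if i = 0 then aR 0 else aR 1) = aR i := by
        fin_cases i <;> rfl
      rw [e, Module.End.mul_apply, Module.End.mul_apply, ih, aR_apply, aR_apply, mul_neg, mul_assoc]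

theorem commute_ev (f g : F) : Commute (ev (aL 0) (aL 1) f) (ev (aR 0) (aR 1) g) := by
  show _ * _ = _ * _
  apply LinearMap.ext
  intro T
  rw [Module.End.mul_apply, Module.End.mul_apply, ev_aR g T, ev_aR g (ev (aL 0) (aL 1) f T), ev_aL]
  show Lf f * (T * _) = (Lf f * T) * _
  rw [mul_assoc]

theorem prim_split {f : F} (hf : Prim f) :
    ev (aL 0 + aR 0) (aL 1 + aR 1) f = ev (aL 0) (aL 1) f + ev (aR 0) (aR 1) f := by
  let Φ : F ⊗[ℚ] F →ₐ[ℚ] UU :=
    Algebra.TensorProduct.lift (ev (aL 0) (aL 1)) (ev (aR 0) (aR 1)) commute_ev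
  have h1 := congrArg Φ hf
  have e : ∀ g : F, Φ (ev (FreeAlgebra.ι ℚ 0 ⊗ₜ 1 + 1 ⊗ₜ FreeAlgebra.ι ℚ 0)
      (FreeAlgebra.ι ℚ 1 ⊗ₜ 1 + 1 ⊗ₜ FreeAlgebra.ι ℚ 1) g) = ev (aL 0 + aR 0) (aL 1 + aR 1) g := by
    intro g
    have := EE.hom_eq_ev (Φ.comp (ev (FreeAlgebra.ι ℚ 0 ⊗ₜ 1 + 1 ⊗ₜ FreeAlgebra.ι ℚ 0)
      (FreeAlgebra.ι ℚ 1 ⊗ₜ 1 + 1 ⊗ₜ FreeAlgebra.ι ℚ 1))) g
    rw [AlgHom.comp_apply] at this
    rw [this]
    congr 2 <;> simp [Φ, ev]
  rw [e] at h1
  rw [h1, map_add]
  simp [Φ]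

/-- `ad L_i` -/
theorem ad_one (w : List (Fin 2)) (hw : w ≠ []) :
    wv (aL 0 + aR 0) (aL 1 + aR 1) w (1 : R) = 0 := by
  induction w with
  | nil => exact absurd rfl hw
  | cons i w ih =>
    rw [wv_cons]
    have e : (if i = 0 then aL 0 + aR 0 else aL 1 + aR 1) = aL i + aR i := by
      fin_cases i <;> rfl
    rw [e, Module.End.mul_apply]
    by_cases h : w = []
    · subst h
      simp
    · rw [ih h, map_zero]

theorem ad_eul (w : List (Fin 2)) (hw : w ≠ []) :
    ∃ q ∈ weightSubspace (fun _ : Fin 2 => 1) w.length,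
      wv (aL 0 + aR 0) (aL 1 + aR 1) w eul = -Lf (iota q) := by
  induction w with
  | nil => exact absurd rfl hw
  | cons i w ih =>
    have e : (if i = 0 then aL 0 + aR 0 else aL 1 + aR 1) = aL i + aR i := by
      fin_cases i <;> rfl
    rw [wv_cons, e, Module.End.mul_apply]
    have hi : iota (FreeLieAlgebra.of ℚ i) = li i := by simp [iota]
    by_cases h : w = []
    · subst h
      refine ⟨FreeLieAlgebra.of ℚ i, mono_mem (IsBracketMonomial.of i), ?_⟩
      rw [wv_nil, Module.End.one_apply, LinearMap.add_apply, aL_apply, aR_apply, ← sub_eq_add_neg,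
        Lf_eul, hi]
    · obtain ⟨q, hq, hqe⟩ := ih h
      refine ⟨⁅FreeLieAlgebra.of ℚ i, q⁆, ?_, ?_⟩
      · refine weight_induction
          (C := fun q => ⁅FreeLieAlgebra.of ℚ i, q⁆ ∈ weightSubspace (fun _ : Fin 2 => 1)
            (i :: w).length) ?_ ?_ ?_ ?_ hq
        · intro x hx
          rw [List.length_cons, add_comm]
          exact mono_mem (IsBracketMonomial.lie (IsBracketMonomial.of i) hx)
        · rw [lie_zero]; exact Submodule.zero_mem _
        · intro x y hx hy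
          rw [lie_add]; exact Submodule.add_mem _ hx hy
        · intro r x hx
          rw [lie_smul]; exact Submodule.smul_mem _ _ hx
      · rw [hqe, LinearMap.add_apply, aL_apply, aR_apply, LieHom.map_lie, hi,
          LieRing.of_associative_ring_bracket, map_sub, map_mul, map_mul]
        simp only [mul_neg, neg_mul, neg_neg, neg_sub]
        abel

theorem exists_lie {n : ℕ} (hn : 1 ≤ n) {f : F} (hf : Homog n f) :
    ∃ q ∈ weightSubspace (fun _ : Fin 2 => 1) n,
      ev (aL 0 + aR 0) (aL 1 + aR 1) f eul = -Lf (iota q) := by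
  have hne : ∀ w ∈ wdsN n, w ≠ [] := by
    intro w hw h
    rw [mem_wdsN] at hw
    subst h
    simp at hw
    omega
  have key : ∀ w ∈ wdsN n, ∃ q ∈ weightSubspace (fun _ : Fin 2 => 1) n,
      wv (aL 0 + aR 0) (aL 1 + aR 1) w eul = -Lf (iota q) := by
    intro w hw
    obtain ⟨q, hq, h⟩ := ad_eul w (hne w hw)
    rw [mem_wdsN.1 hw] at hq
    exact ⟨q, hq, h⟩
  choose! q hq hqe using key
  refine ⟨∑ w ∈ wdsN n, cf w f • q w, Submodule.sum_mem _ fun w hw =>
    Submodule.smul_mem _ _ (hq w hw), ?_⟩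
  conv_lhs => rw [homog_eq hf]
  rw [map_sum, map_sum, map_sum, LinearMap.sum_apply, ← Finset.sum_neg_distrib]
  refine Finset.sum_congr rfl fun w hw => ?_
  rw [map_smul, LinearMap.smul_apply, ev_wd, hqe w hw, map_smul, map_smul, smul_neg]

theorem ad_one_homog {n : ℕ} (hn : 1 ≤ n) {f : F} (hf : Homog n f) :
    ev (aL 0 + aR 0) (aL 1 + aR 1) f (1 : R) = 0 := by
  conv_lhs => rw [homog_eq hf]
  rw [map_sum, LinearMap.sum_apply, Finset.sum_eq_zero]
  intro w hw
  rw [map_smul, LinearMap.smul_apply, ev_wd, ad_one w, smul_zero]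
  intro h
  rw [mem_wdsN] at hw
  subst h
  simp at hw
  omega

end SW

open SW in
/-- **(S2)** -/
theorem S2_holds : S2 := by
  intro n f hn hf hp
  obtain ⟨q, hq, hqe⟩ := exists_lie hn hf
  have h1 := ad_one_homog hn hf
  rw [prim_split hp, LinearMap.add_apply] at h1 hqe
  rw [ev_aR f eul] at hqe
  rw [ev_aL] at h1 hqe
  have h2 : ev (aR 0) (aR 1) f (1 : R) = -Lf f := by
    have h3 : Lf f * 1 + ev (aR 0) (aR 1) f (1 : R) = 0 := h1
    rw [mul_one] at h3
    exact eq_neg_of_add_eq_zero_right h3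
  rw [h2] at hqe
  have h4 : Lf f * eul + eul * -Lf f = -Lf (iota q) := hqe
  have h5 := LinearMap.congr_fun h4 (1 : F)
  simp only [LinearMap.add_apply, Module.End.mul_apply, LinearMap.neg_apply, Lf_apply, mul_one,
    eul_one, mul_zero, zero_add, map_neg, eul_homog hf] at h5
  have h6 : iota q = (n : ℚ) • f := (neg_injective h5).symm
  have hn0 : (n : ℚ) ≠ 0 := by positivity
  refine ⟨(n : ℚ)⁻¹ • q, Submodule.smul_mem _ _ hq, ?_⟩
  rw [map_smul, h6, smul_smul, inv_mul_cancel₀ hn0, one_smul]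

end Crest.Agent.R010
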