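import Crest.Agent.R010.EEfin
import Crest.Agent.R010.ECmain
import Crest.Agent.R010.ED7
import Crest.Agent.R010.EA
import Crest.Agent.R010.ES2
import Crest.Agent.R010.Witt2
import Crest.Agent.R010.EBHolds

/-! Row 10: (ED), (EE1), (EE) proved; (EC) modulo (S4) (helper450). -/

set_option autoImplicit false

namespace Crest.Agent.R010

theorem ED_holds : ED := ED_of EB2_holds

theorem EE1_holds : EE1 := EE1_of Witt.S1_holds S2_holds EB1_holds

/-- existence of the generators -/
theorem EE_holds : EE := EE_of EA_holds ED_holds EE1_holds

/-- closure, from (S4) -/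
theorem EC_holds_of (hS4 : S4) : EC := EC_of hS4 EB1_holds EB2_holds

end Crest.Agent.R010
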