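import Crest.Agent.R010.UBridge
import Crest.Agent.R010.Witt2
import Crest.Agent.R010.DynBraid
import Crest.Agent.R010.ECpent

/-! Row 10, (S4): `grtSpace` is graded and lives in weights `≥ 3` (helper379). -/

set_option autoImplicit false

noncomputable section

namespace Crest.Agent.R010.ES4

open Crest.NumberTheoryR.GT Crest.Agent.R010
open Crest.Agent.R010.Witt (WS exists_hom_sum weightSubspace_eq)

attribute [local instance 100] LieRing.ofAssociativeRing

section family

variable {L : Type*} [LieRing L] [LieAlgebra ℚ L]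

/-- a zero of the pentagon defect satisfies the pentagon for every family with the braid
relations -/
theorem pent_family {t : Fin 4 → Fin 4 → L} (ht : DynB.BraidRel t) {p : GTLie}
    (hp : pentagonDefect p = 0) :
    gtSubst (t 0 1) (t 1 2 + t 1 3) p + gtSubst (t 0 2 + t 1 2) (t 2 3) p
      - gtSubst (t 1 2) (t 2 3) p - gtSubst (t 0 1 + t 0 2) (t 1 3 + t 2 3) p
      - gtSubst (t 0 1) (t 1 2) p = 0 := by
  let φ : FreeBraid4 →ₗ⁅ℚ⁆ L := FreeLieAlgebra.lift ℚ (fun g : BraidGen4 => t g.1.1 g.1.2)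
  have hφ : ∀ i j : Fin 4, i ≠ j → φ (tFree i j) = t i j := by
    intro i j hij
    unfold tFree
    split_ifs with h h'
    · simp only [φ, FreeLieAlgebra.lift_of_apply]
    · simp only [φ, FreeLieAlgebra.lift_of_apply]
      exact ht.symm j i
    · exact absurd (le_antisymm (not_lt.mp h') (not_lt.mp h)) hij
  have h1 : U.pentFree p ∈ braidIdeal4 := by
    have h2 := U.mkB_pentFree p
    rw [hp, U.mkB_apply] at h2
    exact (LieSubmodule.Quotient.mk_eq_zero').mp h2
  have h3 : φ (U.pentFree p) = 0 := by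
    refine U.lift_zero_on_ideal φ ?_ _ h1
    rintro r (⟨i, j, k, l, h1, h2, h3, h4, h5, h6, rfl⟩ | ⟨i, j, k, h1, h2, h3, rfl⟩)
    · rw [LieHom.map_lie, hφ _ _ h1, hφ _ _ h6]
      exact ht.comm i j k l h1 h2 h3 h4 h5 h6
    · rw [LieHom.map_lie, map_add, hφ _ _ h1, hφ _ _ h2, hφ _ _ h3]
      exact ht.three i j k h1 h2 h3
  simp only [U.pentFree, map_add, map_sub, U.gtSubst_comp] at h3
  rw [hφ 0 1 (by decide), hφ 1 2 (by decide), hφ 1 3 (by decide), hφ 0 2 (by decide),
    hφ 2 3 (by decide)] at h3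
  exact h3

theorem gtSubst_smul {n : ℕ} {p : GTLie} (hp : p ∈ weightSubspace (fun _ : Fin 2 => 1) n)
    (q : ℚ) (a b : L) : gtSubst (q • a) (q • b) p = q ^ n • gtSubst a b p := by
  induction hp using Submodule.span_induction with
  | mem x hx =>
    have hx' : IsBracketMonomial (fun _ : Fin 2 => 1) n x := hx
    clear hx
    induction hx' with
    | of i =>
      rw [pow_one]
      fin_cases i
      · show gtSubst (q • a) (q • b) gx = q • gtSubst a b gx
        rw [gtSubst_gx, gtSubst_gx]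
      · show gtSubst (q • a) (q • b) gy = q • gtSubst a b gy
        rw [gtSubst_gy, gtSubst_gy]
    | lie _ _ h1 h2 =>
      rw [LieHom.map_lie, LieHom.map_lie, h1, h2, smul_lie, lie_smul, smul_smul, pow_add]
  | zero => simp
  | add x y _ _ hx hy => rw [map_add, map_add, hx, hy, smul_add]
  | smul r x _ hx => rw [map_smul, map_smul, hx, smul_comm]

end family

theorem vand {V : Type*} [AddCommGroup V] [Module ℚ V] (s : Finset ℕ) (v : ℕ → V)
    (h : ∀ q : ℚ, ∑ n ∈ s, q ^ n • v n = 0) : ∀ n ∈ s, v n = 0 := by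
  classical
  intro n hn
  rw [← Module.forall_dual_apply_eq_zero_iff ℚ]
  intro φ
  have hP : ∑ m ∈ s, Polynomial.monomial m (φ (v m)) = 0 := by
    apply Polynomial.funext
    intro q
    have := congrArg φ (h q)
    rw [map_sum, map_zero] at this
    rw [Polynomial.eval_finsetSum, Polynomial.eval_zero, ← this]
    refine Finset.sum_congr rfl fun m _ => ?_
    rw [Polynomial.eval_monomial, map_smul, smul_eq_mul, mul_comm]
  have h1 := congrArg (fun P => Polynomial.coeff P n) hP
  simp only [Polynomial.finsetSum_coeff, Polynomial.coeff_monomial, Polynomial.coeff_zero] at h1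
  rw [Finset.sum_ite_eq' s n] at h1
  rwa [if_pos hn] at h1

theorem antisym_apply (p : GTLie) : antisymDefect p = gtSubst gx gy p + gtSubst gy gx p := by
  rw [gtSubst_gx_gy']; rfl
where
  gtSubst_gx_gy' : gtSubst gx gy p = p := by
    have : (gtSubst gx gy : GTLie →ₗ⁅ℚ⁆ GTLie) = LieHom.id := by
      apply gt_hom_ext
      · rw [gtSubst_gx]; rfl
      · rw [gtSubst_gy]; rfl
    rw [this]; rfl

theorem three_apply (p : GTLie) : threeTermDefect p =
    gtSubst gx gy p + gtSubst gy (-gx - gy) p + gtSubst (-gx - gy) gx p := by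
  rw [antisym_apply.gtSubst_gx_gy']; rfl

theorem pent_apply (p : GTLie) : pentagonDefect p =
    gtSubst (tB 0 1) (tB 1 2 + tB 1 3) p + gtSubst (tB 0 2 + tB 1 2) (tB 2 3) p
      - gtSubst (tB 1 2) (tB 2 3) p - gtSubst (tB 0 1 + tB 0 2) (tB 1 3 + tB 2 3) p
      - gtSubst (tB 0 1) (tB 1 2) p := rfl

/-- homogeneous components of an element of `grtSpace` are in `grtSpace` -/
theorem comp_mem {p : GTLie} (hp : p ∈ grtSpace) (s : Finset ℕ) (f : ℕ → GTLie)
    (hf : ∀ n, f n ∈ weightSubspace (fun _ : Fin 2 => 1) n) (hs : p = ∑ n ∈ s, f n) :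
    ∀ n ∈ s, f n ∈ grtSpace := by
  have ha : antisymDefect p = 0 := hp.1.1
  have ht : threeTermDefect p = 0 := hp.1.2
  have hpe : pentagonDefect p = 0 := hp.2
  have h1 : ∀ n ∈ s, antisymDefect (f n) = 0 := by
    apply vand
    intro q
    have e : (gtSubst (q • gx) (q • gy) : GTLie →ₗ⁅ℚ⁆ GTLie) (antisymDefect p) = 0 := by
      rw [ha, map_zero]
    rw [antisym_apply, map_add, U.gtSubst_comp, U.gtSubst_comp, gtSubst_gx, gtSubst_gy, hs,
      map_sum, map_sum, ← Finset.sum_add_distrib] at e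
    rw [← e]
    refine Finset.sum_congr rfl fun n _ => ?_
    rw [gtSubst_smul (hf n), gtSubst_smul (hf n), antisym_apply, smul_add]
  have h2 : ∀ n ∈ s, threeTermDefect (f n) = 0 := by
    apply vand
    intro q
    have e : (gtSubst (q • gx) (q • gy) : GTLie →ₗ⁅ℚ⁆ GTLie) (threeTermDefect p) = 0 := by
      rw [ht, map_zero]
    have e2 : -(q • gx) - q • gy = q • (-gx - gy) := by
      rw [smul_sub, smul_neg]
    rw [three_apply, map_add, map_add, U.gtSubst_comp, U.gtSubst_comp, U.gtSubst_comp, map_sub,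
      map_neg, gtSubst_gx, gtSubst_gy, e2, hs, map_sum, map_sum, map_sum,
      ← Finset.sum_add_distrib, ← Finset.sum_add_distrib] at e
    rw [← e]
    refine Finset.sum_congr rfl fun n _ => ?_
    rw [gtSubst_smul (hf n), gtSubst_smul (hf n), gtSubst_smul (hf n), three_apply, smul_add,
      smul_add]
  have h3 : ∀ n ∈ s, pentagonDefect (f n) = 0 := by
    apply vand
    intro q
    have hq : DynB.BraidRel (fun i j => q • tB i j) := by
      refine ⟨fun i j => ?_, fun i j k l h1 h2 h3 h4 h5 h6 => ?_, fun i j k h1 h2 h3 => ?_⟩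
      · rw [DynB.tB_symm i j]
      · rw [smul_lie, lie_smul, DynB.tB_comm h1 h2 h3 h4 h5 h6, smul_zero, smul_zero]
      · rw [← smul_add, smul_lie, lie_smul, DynB.tB_three h1 h2 h3, smul_zero, smul_zero]
    have e := pent_family hq hpe
    simp only [← smul_add] at e
    rw [hs] at e
    simp only [map_sum] at e
    rw [← Finset.sum_add_distrib, ← Finset.sum_sub_distrib, ← Finset.sum_sub_distrib,
      ← Finset.sum_sub_distrib] at e
    rw [← e]
    refine Finset.sum_congr rfl fun n _ => ?_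
    rw [gtSubst_smul (hf n), gtSubst_smul (hf n), gtSubst_smul (hf n), gtSubst_smul (hf n),
      gtSubst_smul (hf n), pent_apply, smul_sub, smul_sub, smul_sub, smul_add]
  intro n hn
  exact ⟨⟨h1 n hn, h2 n hn⟩, h3 n hn⟩

theorem mono_pos {m : ℕ} {x : GTLie} (h : IsBracketMonomial (fun _ : Fin 2 => 1) m x) : 1 ≤ m := by
  induction h with
  | of i => exact le_rfl
  | lie _ _ h1 h2 => omega

theorem weight_zero {x : GTLie} (h : x ∈ weightSubspace (fun _ : Fin 2 => 1) 0) : x = 0 := by
  induction h using Submodule.span_induction with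
  | mem x hx => exact absurd (mono_pos hx) (by omega)
  | zero => rfl
  | add x y _ _ hx hy => rw [hx, hy, add_zero]
  | smul r x _ hx => rw [hx, smul_zero]

theorem weight_one {x : GTLie} (h : x ∈ weightSubspace (fun _ : Fin 2 => 1) 1) :
    ∃ a b : ℚ, x = a • gx + b • gy := by
  induction h using Submodule.span_induction with
  | mem x hx =>
    have key : ∀ (n : ℕ) (x : GTLie), IsBracketMonomial (fun _ : Fin 2 => 1) n x → n = 1 →
        ∃ a b : ℚ, x = a • gx + b • gy := by
      intro n x hx hn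
      induction hx with
      | of i =>
        fin_cases i
        · exact ⟨1, 0, by rw [one_smul, zero_smul, add_zero]; rfl⟩
        · exact ⟨0, 1, by rw [one_smul, zero_smul, zero_add]; rfl⟩
      | lie h1 h2 _ _ =>
        have := mono_pos h1; have := mono_pos h2; omega
    exact key 1 x hx rfl
  | zero => exact ⟨0, 0, by simp⟩
  | add x y _ _ hx hy =>
    obtain ⟨a, b, rfl⟩ := hx
    obtain ⟨c, d, rfl⟩ := hy
    exact ⟨a + c, b + d, by rw [add_smul, add_smul]; abel⟩
  | smul r x _ hx =>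
    obtain ⟨a, b, rfl⟩ := hx
    exact ⟨r * a, r * b, by rw [smul_add, smul_smul, smul_smul]⟩

theorem weight_two {x : GTLie} (h : x ∈ weightSubspace (fun _ : Fin 2 => 1) 2) :
    ∃ a : ℚ, x = a • ⁅gx, gy⁆ := by
  induction h using Submodule.span_induction with
  | mem x hx =>
    have key : ∀ (n : ℕ) (x : GTLie), IsBracketMonomial (fun _ : Fin 2 => 1) n x → n = 2 →
        ∃ a : ℚ, x = a • ⁅gx, gy⁆ := by
      intro n x hx hn
      cases hx with
      | of i => simp at hn
      | @lie m n u v h1 h2 =>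
        have g1 := mono_pos h1
        have g2 := mono_pos h2
        have e1 : m = 1 := by omega
        have e2 : n = 1 := by omega
        subst e1 e2
        obtain ⟨a, b, rfl⟩ := weight_one (Submodule.subset_span h1)
        obtain ⟨c, d, rfl⟩ := weight_one (Submodule.subset_span h2)
        refine ⟨a * d - b * c, ?_⟩
        have hs : ⁅gy, gx⁆ = -⁅gx, gy⁆ := (lie_skew gy gx).symm
        simp only [add_lie, lie_add, smul_lie, lie_smul, lie_self, hs, smul_neg, smul_zero,
          zero_add, add_zero, smul_smul, sub_smul]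
        rw [mul_comm d a, mul_comm c b]
        abel
    exact key 2 x hx rfl
  | zero => exact ⟨0, by simp⟩
  | add x y _ _ hx hy =>
    obtain ⟨a, rfl⟩ := hx
    obtain ⟨c, rfl⟩ := hy
    exact ⟨a + c, by rw [add_smul]⟩
  | smul r x _ hx =>
    obtain ⟨a, rfl⟩ := hx
    exact ⟨r * a, by rw [smul_smul]⟩

theorem grt_one {x : GTLie} (hx : x ∈ grtSpace)
    (h : x ∈ weightSubspace (fun _ : Fin 2 => 1) 1) : x = 0 := by
  obtain ⟨a, b, rfl⟩ := weight_one h
  have ha : antisymDefect (a • gx + b • gy) = 0 := hx.1.1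
  have hpe : pentagonDefect (a • gx + b • gy) = 0 := hx.2
  let t : Fin 4 → Fin 4 → ℚ := fun i j => if (i = 0 ∧ j = 1) ∨ (i = 1 ∧ j = 0) then 1 else 0
  have hlie : ∀ x y : ℚ, ⁅x, y⁆ = 0 := fun x y => by
    rw [LieRing.of_associative_ring_bracket, mul_comm, sub_self]
  have ht : DynB.BraidRel t := by
    refine ⟨fun i j => ?_, fun i j k l _ _ _ _ _ _ => hlie _ _, fun i j k _ _ _ => hlie _ _⟩
    simp only [t]
    congr 1
    apply propext
    constructor <;> rintro (⟨h1, h2⟩ | ⟨h1, h2⟩) <;> simp [h1, h2]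
  have h1 := pent_family ht hpe
  have t01 : t 0 1 = 1 := by simp [t]
  have t12 : t 1 2 = 0 := by simp [t]
  have t13 : t 1 3 = 0 := by simp [t]
  have t02 : t 0 2 = 0 := by simp [t]
  have t23 : t 2 3 = 0 := by simp [t]
  rw [t01, t12, t13, t02, t23] at h1
  simp only [map_add, map_smul, gtSubst_gx, gtSubst_gy] at h1
  norm_num at h1
  have h2 : (gtSubst (1 : ℚ) 0 : GTLie →ₗ⁅ℚ⁆ ℚ) (antisymDefect (a • gx + b • gy)) = 0 := by
    rw [ha, map_zero]
  rw [antisym_apply] at h2
  simp only [map_add, map_smul, gtSubst_gx, gtSubst_gy] at h2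
  norm_num at h2
  have h3 : a = 0 := by linarith
  have h4 : b = 0 := by linarith
  rw [h3, h4]; simp

theorem grt_two {x : GTLie} (hx : x ∈ grtSpace)
    (h : x ∈ weightSubspace (fun _ : Fin 2 => 1) 2) : x = 0 := by
  obtain ⟨a, rfl⟩ := weight_two h
  have ht : threeTermDefect (a • ⁅gx, gy⁆) = 0 := hx.1.2
  rw [three_apply] at ht
  have hs : ⁅gy, gx⁆ = -⁅gx, gy⁆ := (lie_skew gy gx).symm
  simp only [map_smul, LieHom.map_lie, gtSubst_gx, gtSubst_gy, lie_sub, sub_lie, lie_neg, neg_lie,
    lie_self, hs, neg_neg, sub_zero, neg_zero, zero_sub] at ht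
  have h3 : (3 : ℚ) • (a • ⁅gx, gy⁆) = 0 := by
    rw [← ht, show (3 : ℚ) = 1 + 1 + 1 by norm_num, add_smul, add_smul, one_smul]
  exact (smul_eq_zero.1 h3).resolve_left (by norm_num)

end Crest.Agent.R010.ES4

namespace Crest.Agent.R010

open Crest.NumberTheoryR.GT in
/-- (S4) -/
theorem S4_holds : S4 := by
  classical
  intro p hp
  obtain ⟨f, hf, hs⟩ := Witt.exists_hom_sum (fun _ : Fin 2 => 1) p
  have hf' : ∀ n, f n ∈ weightSubspace (fun _ : Fin 2 => 1) n := by
    intro n; rw [Witt.weightSubspace_eq]; exact hf n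
  have hmem := ES4.comp_mem hp f.support f hf' hs.symm
  refine ⟨f.support.filter (fun n => 3 ≤ n), f, ?_, ?_⟩
  · intro n hn
    rw [Finset.mem_filter] at hn
    exact ⟨hn.2, hmem n hn.1, hf' n⟩
  · rw [← hs, Finset.sum_filter]
    refine Finset.sum_congr rfl fun n hn => ?_
    by_cases h3 : 3 ≤ n
    · rw [if_pos h3]
    · rw [if_neg h3]
      have h4 : n = 0 ∨ n = 1 ∨ n = 2 := by omega
      rcases h4 with rfl | rfl | rfl
      · exact ES4.weight_zero (hf' 0)
      · exact ES4.grt_one (hmem 1 hn) (hf' 1)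
      · exact ES4.grt_two (hmem 2 hn) (hf' 2)

end Crest.Agent.R010

end
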