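import Crest.Agent.R010.CDefs

/-!
Row 10 (S0011), upper bound (U), section 0: over `F₂`, every Lie element of weight `≥ 3` of
`F₂⟨x, y⟩` is `j P` with `P` a Lie polynomial in the five letters
`c = [x,y], e₀ = x², e₁ = y², f₀ = [y,x²], f₁ = [x,y²]`, `P ∈ W = ⟨f₀, f₁⟩ + [Lie, Lie]`.
-/

set_option autoImplicit false

noncomputable section

namespace Crest.Agent.R010.El

attribute [local instance 100] LieRing.ofAssociativeRing

open Crest.Agent.R010.C

/-- the free algebra on the five letters `c, e₀, e₁, f₀, f₁`. -/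
abbrev B5 : Type := FreeAlgebra F2 (Fin 5)

/-- the letters of `B5`: `0 = c`, `1 = e₀`, `2 = e₁`, `3 = f₀`, `4 = f₁`. -/
def l5 (i : Fin 5) : B5 := FreeAlgebra.ι F2 i

/-- the five elements `[a,b], a², b², [b,a²], [a,b²]` of any ring. -/
def five {A : Type*} [Ring A] (a b : A) : Fin 5 → A :=
  ![a * b - b * a, a ^ 2, b ^ 2, b * a ^ 2 - a ^ 2 * b, a * b ^ 2 - b ^ 2 * a]

section five
variable {A : Type*} [Ring A] (a b : A)
@[simp] theorem five_zero : five a b 0 = a * b - b * a := rfl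
@[simp] theorem five_one : five a b 1 = a ^ 2 := rfl
@[simp] theorem five_two : five a b 2 = b ^ 2 := rfl
@[simp] theorem five_three : five a b 3 = b * a ^ 2 - a ^ 2 * b := rfl
@[simp] theorem five_four : five a b 4 = a * b ^ 2 - b ^ 2 * a := rfl

theorem map_five {B : Type*} [Ring B] (f : A →+* B) (i : Fin 5) :
    f (five a b i) = five (f a) (f b) i := by
  fin_cases i <;> simp [five]
end five

/-- the map `j : B5 → F₂⟨x,y⟩`. -/
def j : B5 →ₐ[F2] Alg F2 := FreeAlgebra.lift F2 (five (X F2) (Y F2))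

@[simp] theorem j_l5 (i : Fin 5) : j (l5 i) = five (X F2) (Y F2) i := by
  simp [j, l5]

/-- evaluation of `j P` in any algebra. -/
theorem ev_j {A : Type*} [Ring A] [Algebra F2 A] (a b : A) (P : B5) :
    ev2 F2 a b (j P) = FreeAlgebra.lift F2 (five a b) P := by
  have : (ev2 F2 a b).comp j = FreeAlgebra.lift F2 (five a b) := by
    apply FreeAlgebra.hom_ext
    funext i
    have h : (ev2 F2 a b) (five (X F2) (Y F2) i) = five a b i := by
      have h1 := map_five (X F2) (Y F2) ((ev2 F2 a b) : Alg F2 →+* A) i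
      have hx : ev2 F2 a b (X F2) = a := by simp [ev2, X]
      have hy : ev2 F2 a b (Y F2) = b := by simp [ev2, Y]
      simpa [hx, hy] using h1
    simp [j, h]
  exact DFunLike.congr_fun this P

/-- `ad x` on `B5`. -/
def dx : B5 →ₗ[F2] B5 :=
  der F2 ![l5 3, 0, l5 4, l5 0 * l5 1 - l5 1 * l5 0, l5 1 * l5 2 - l5 2 * l5 1]

/-- `ad y` on `B5`. -/
def dy : B5 →ₗ[F2] B5 :=
  der F2 ![l5 4, l5 3, 0, l5 2 * l5 1 - l5 1 * l5 2, l5 0 * l5 2 - l5 2 * l5 0]

theorem dx_mul (a b : B5) : dx (a * b) = dx a * b + a * dx b := der_mul _ a b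
theorem dy_mul (a b : B5) : dy (a * b) = dy a * b + a * dy b := der_mul _ a b
@[simp] theorem dx_l5 (i : Fin 5) : dx (l5 i) =
    (![l5 3, 0, l5 4, l5 0 * l5 1 - l5 1 * l5 0, l5 1 * l5 2 - l5 2 * l5 1] : Fin 5 → B5) i :=
  der_ι _ i
@[simp] theorem dy_l5 (i : Fin 5) : dy (l5 i) =
    (![l5 4, l5 3, 0, l5 2 * l5 1 - l5 1 * l5 2, l5 0 * l5 2 - l5 2 * l5 0] : Fin 5 → B5) i :=
  der_ι _ i

theorem two_smul_zero {A : Type*} [Ring A] [Algebra F2 A] (a : A) : (2 : ℤ) • a = 0 := by
  have h : ((2 : F2)) • a = 0 := by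
    have : (2 : F2) = 0 := by decide
    rw [this, zero_smul]
  have h2 : (2 : F2) • a = a + a := two_smul F2 a
  rw [two_zsmul, ← h2, h]

theorem two_nsmul_zero' {A : Type*} [Ring A] [Algebra F2 A] (a : A) : (2 : ℕ) • a = 0 := by
  rw [two_nsmul]
  have := two_smul_zero a
  rwa [two_zsmul] at this

theorem two_eq_zero' {A : Type*} [Ring A] [Algebra F2 A] : (2 : A) = 0 := by
  have := two_smul_zero (1 : A)
  simpa using this

theorem add_self_zero {A : Type*} [Ring A] [Algebra F2 A] (a : A) : a + a = 0 := by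
  have := two_smul_zero a
  rwa [two_zsmul] at this

theorem neg_self_eq {A : Type*} [Ring A] [Algebra F2 A] (a : A) : -a = a :=
  neg_eq_of_add_eq_zero_left (add_self_zero a)

theorem sub_self_eq {A : Type*} [Ring A] [Algebra F2 A] (a b : A) : a - b = a + b := by
  rw [sub_eq_add_neg, neg_self_eq]

theorem add_add_cancel' {A : Type*} [Ring A] [Algebra F2 A] (a b : A) : a + (a + b) = b := by
  rw [← add_assoc, add_self_zero, zero_add]

theorem j_dx (P : B5) : j (dx P) = X F2 * j P - j P * X F2 := by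
  induction P using FreeAlgebra.induction with
  | grade0 r =>
    have : dx (algebraMap F2 B5 r) = 0 := der_algebraMap _ r
    rw [this, map_zero, AlgHom.commutes, Algebra.commutes, sub_self]
  | grade1 i =>
    change j (dx (l5 i)) = X F2 * j (l5 i) - j (l5 i) * X F2
    fin_cases i
    all_goals simp [sub_self_eq, pow_two, mul_add, add_mul, mul_assoc]
    all_goals (try abel_nf)
    all_goals (try simp only [two_smul_zero, add_zero])
  | mul a b ha hb =>
    rw [dx_mul, map_add, map_mul, map_mul, ha, hb, map_mul]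
    noncomm_ring
  | add a b ha hb =>
    rw [map_add, map_add, ha, hb, map_add]
    noncomm_ring

theorem j_dy (P : B5) : j (dy P) = Y F2 * j P - j P * Y F2 := by
  induction P using FreeAlgebra.induction with
  | grade0 r =>
    have : dy (algebraMap F2 B5 r) = 0 := der_algebraMap _ r
    rw [this, map_zero, AlgHom.commutes, Algebra.commutes, sub_self]
  | grade1 i =>
    change j (dy (l5 i)) = Y F2 * j (l5 i) - j (l5 i) * Y F2
    fin_cases i
    all_goals simp [sub_self_eq, pow_two, mul_add, add_mul, mul_assoc]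
    all_goals (try abel_nf)
    all_goals (try simp only [two_smul_zero, add_zero])
  | mul a b ha hb =>
    rw [dy_mul, map_add, map_mul, map_mul, ha, hb, map_mul]
    noncomm_ring
  | add a b ha hb =>
    rw [map_add, map_add, ha, hb, map_add]
    noncomm_ring


/-! ### The subspace `W` -/

/-- Lie polynomials in the five letters. -/
abbrev L5 : LieSubalgebra F2 B5 := LieX F2 (Fin 5)

theorem l5_mem (i : Fin 5) : l5 i ∈ L5 := LieSubalgebra.subset_lieSpan ⟨i, rfl⟩

theorem comm_mem {R : Type*} [CommRing R] {Z : Type*} {a b : FreeAlgebra R Z}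
    (ha : a ∈ LieX R Z) (hb : b ∈ LieX R Z) : a * b - b * a ∈ LieX R Z := by
  have := (LieX R Z).lie_mem ha hb
  rwa [LieRing.of_associative_ring_bracket] at this

/-- Induction principle for Lie polynomials. -/
theorem LieX_induction {R : Type*} [CommRing R] {Z : Type*} {p : FreeAlgebra R Z → Prop}
    (hι : ∀ i, p (FreeAlgebra.ι R i)) (h0 : p 0)
    (hadd : ∀ a b, a ∈ LieX R Z → b ∈ LieX R Z → p a → p b → p (a + b))
    (hsmul : ∀ (r : R) a, a ∈ LieX R Z → p a → p (r • a))
    (hlie : ∀ a b, a ∈ LieX R Z → b ∈ LieX R Z → p a → p b → p (a * b - b * a))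
    {a : FreeAlgebra R Z} (ha : a ∈ LieX R Z) : p a := by
  induction ha using LieSubalgebra.lieSpan_induction with
  | mem x h => obtain ⟨i, rfl⟩ := h; exact hι i
  | zero => exact h0
  | add x y hx hy h1 h2 => exact hadd x y hx hy h1 h2
  | smul r x hx h1 => exact hsmul r x hx h1
  | lie x y hx hy h1 h2 =>
    rw [LieRing.of_associative_ring_bracket]
    exact hlie x y hx hy h1 h2

theorem der_LieX {R : Type*} [CommRing R] {Z : Type*} {d : Z → FreeAlgebra R Z}
    (hd : ∀ i, d i ∈ LieX R Z) {a : FreeAlgebra R Z} (ha : a ∈ LieX R Z) :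
    der R d a ∈ LieX R Z := by
  refine LieX_induction (p := fun a => der R d a ∈ LieX R Z) ?_ ?_ ?_ ?_ ?_ ha
  · intro i; rw [der_ι]; exact hd i
  · rw [map_zero]; exact zero_mem _
  · intro a b _ _ h1 h2; rw [map_add]; exact add_mem h1 h2
  · intro r a _ h1; rw [map_smul]; exact (LieX R Z).smul_mem r h1
  · intro a b ha hb h1 h2
    rw [map_sub, der_mul, der_mul]
    have e : der R d a * b + a * der R d b - (der R d b * a + b * der R d a)
        = (der R d a * b - b * der R d a) + (a * der R d b - der R d b * a) := by noncomm_ring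
    rw [e]
    exact add_mem (comm_mem h1 hb) (comm_mem ha h2)

/-- `[Lie, Lie]`. -/
def LL : Submodule F2 B5 := Submodule.span F2 {p | ∃ a ∈ L5, ∃ b ∈ L5, p = a * b - b * a}

/-- `W = ⟨f₀, f₁⟩ + [Lie, Lie]`. -/
def W : Submodule F2 B5 := Submodule.span F2 {l5 3, l5 4} ⊔ LL

theorem LL_le_W : LL ≤ W := le_sup_right
theorem l3_W : l5 3 ∈ W := (le_sup_left : _ ≤ W) (Submodule.subset_span (by simp))
theorem l4_W : l5 4 ∈ W := (le_sup_left : _ ≤ W) (Submodule.subset_span (by simp))
theorem comm_LL {a b : B5} (ha : a ∈ L5) (hb : b ∈ L5) : a * b - b * a ∈ LL :=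
  Submodule.subset_span ⟨a, ha, b, hb, rfl⟩

theorem LL_le_L5 : LL ≤ L5.toSubmodule := by
  refine Submodule.span_le.2 ?_
  rintro _ ⟨a, ha, b, hb, rfl⟩
  exact comm_mem ha hb

theorem W_le_L5 : W ≤ L5.toSubmodule := by
  refine sup_le (Submodule.span_le.2 ?_) LL_le_L5
  intro p hp
  rcases hp with rfl | rfl
  · exact l5_mem 3
  · exact l5_mem 4

theorem dx_L5 {a : B5} (ha : a ∈ L5) : dx a ∈ L5 := by
  refine der_LieX ?_ ha
  intro i
  fin_cases i
  · exact l5_mem 3
  · exact zero_mem _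
  · exact l5_mem 4
  · exact comm_mem (l5_mem 0) (l5_mem 1)
  · exact comm_mem (l5_mem 1) (l5_mem 2)

theorem dy_L5 {a : B5} (ha : a ∈ L5) : dy a ∈ L5 := by
  refine der_LieX ?_ ha
  intro i
  fin_cases i
  · exact l5_mem 4
  · exact l5_mem 3
  · exact zero_mem _
  · exact comm_mem (l5_mem 2) (l5_mem 1)
  · exact comm_mem (l5_mem 0) (l5_mem 2)

theorem der_LL {D : B5 →ₗ[F2] B5} (hD : ∀ a b, D (a * b) = D a * b + a * D b)
    (hL : ∀ a ∈ L5, D a ∈ L5) {p : B5} (hp : p ∈ LL) : D p ∈ LL := by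
  refine Submodule.span_induction (p := fun p _ => D p ∈ LL) ?_ ?_ ?_ ?_ hp
  · rintro _ ⟨a, ha, b, hb, rfl⟩
    rw [map_sub, hD, hD]
    have e : D a * b + a * D b - (D b * a + b * D a)
        = (D a * b - b * D a) + (a * D b - D b * a) := by noncomm_ring
    rw [e]
    exact add_mem (comm_LL (hL a ha) hb) (comm_LL ha (hL b hb))
  · rw [map_zero]; exact zero_mem _
  · intro a b _ _ h1 h2; rw [map_add]; exact add_mem h1 h2
  · intro r a _ h1; rw [map_smul]; exact LL.smul_mem r h1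

theorem W_induction {p : B5 → Prop} (h3 : p (l5 3)) (h4 : p (l5 4)) (hLL : ∀ a ∈ LL, p a)
    (hadd : ∀ a b, a ∈ W → b ∈ W → p a → p b → p (a + b))
    (hsmul : ∀ (r : F2) a, a ∈ W → p a → p (r • a)) {a : B5} (ha : a ∈ W) : p a := by
  obtain ⟨b, hb, c, hc, rfl⟩ := Submodule.mem_sup.1 ha
  obtain ⟨r, s, rfl⟩ := Submodule.mem_span_pair.1 hb
  refine hadd _ _ ?_ (LL_le_W hc) (hadd _ _ (W.smul_mem r l3_W) (W.smul_mem s l4_W)
    (hsmul _ _ l3_W h3) (hsmul _ _ l4_W h4)) (hLL _ hc)
  exact W.add_mem (W.smul_mem r l3_W) (W.smul_mem s l4_W)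

theorem dx_W {a : B5} (ha : a ∈ W) : dx a ∈ W := by
  refine W_induction (p := fun a => dx a ∈ W) ?_ ?_ ?_ ?_ ?_ ha
  · rw [dx_l5]; exact LL_le_W (comm_LL (l5_mem 0) (l5_mem 1))
  · rw [dx_l5]; exact LL_le_W (comm_LL (l5_mem 1) (l5_mem 2))
  · intro a ha; exact LL_le_W (der_LL dx_mul (fun _ h => dx_L5 h) ha)
  · intro a b _ _ h1 h2; rw [map_add]; exact add_mem h1 h2
  · intro r a _ h1; rw [map_smul]; exact W.smul_mem r h1

theorem dy_W {a : B5} (ha : a ∈ W) : dy a ∈ W := by
  refine W_induction (p := fun a => dy a ∈ W) ?_ ?_ ?_ ?_ ?_ ha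
  · rw [dy_l5]; exact LL_le_W (comm_LL (l5_mem 2) (l5_mem 1))
  · rw [dy_l5]; exact LL_le_W (comm_LL (l5_mem 0) (l5_mem 2))
  · intro a ha; exact LL_le_W (der_LL dy_mul (fun _ h => dy_L5 h) ha)
  · intro a b _ _ h1 h2; rw [map_add]; exact add_mem h1 h2
  · intro r a _ h1; rw [map_smul]; exact W.smul_mem r h1

/-- Every Lie element is `α x + β y + γ [x,y] + j P` with `P ∈ W`. -/
theorem LieX_decomp {ψ : Alg F2} (hψ : ψ ∈ LieX F2 (Fin 2)) :
    ∃ (r s t : F2) (P : B5), P ∈ W ∧
      ψ = r • X F2 + s • Y F2 + t • (X F2 * Y F2 - Y F2 * X F2) + j P := by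
  refine LieX_induction (p := fun ψ => ∃ (r s t : F2) (P : B5), P ∈ W ∧
      ψ = r • X F2 + s • Y F2 + t • (X F2 * Y F2 - Y F2 * X F2) + j P) ?_ ?_ ?_ ?_ ?_ hψ
  · intro i
    fin_cases i
    · exact ⟨1, 0, 0, 0, zero_mem _, by simp [X]⟩
    · exact ⟨0, 1, 0, 0, zero_mem _, by simp [Y]⟩
  · exact ⟨0, 0, 0, 0, zero_mem _, by simp⟩
  · rintro a b _ _ ⟨r, s, t, P, hP, rfl⟩ ⟨r', s', t', P', hP', rfl⟩
    refine ⟨r + r', s + s', t + t', P + P', add_mem hP hP', ?_⟩
    rw [map_add]
    module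
  · rintro q a _ ⟨r, s, t, P, hP, rfl⟩
    refine ⟨q * r, q * s, q * t, q • P, W.smul_mem q hP, ?_⟩
    rw [map_smul]
    module
  · rintro a b _ _ ⟨r, s, t, P, hP, rfl⟩ ⟨r', s', t', P', hP', rfl⟩
    have hPL : P ∈ L5 := W_le_L5 hP
    have hPL' : P' ∈ L5 := W_le_L5 hP'
    refine ⟨0, 0, r * s' - s * r',
      (r * t' - t * r') • l5 3 + (s * t' - t * s') • l5 4 + r • dx P' - r' • dx P
        + s • dy P' - s' • dy P + t • (l5 0 * P' - P' * l5 0) - t' • (l5 0 * P - P * l5 0)
        + (P * P' - P' * P), ?_, ?_⟩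
    · refine add_mem (sub_mem (add_mem (sub_mem (add_mem (sub_mem (add_mem (add_mem ?_ ?_) ?_)
        ?_) ?_) ?_) ?_) ?_) ?_
      · exact W.smul_mem _ l3_W
      · exact W.smul_mem _ l4_W
      · exact W.smul_mem _ (dx_W hP')
      · exact W.smul_mem _ (dx_W hP)
      · exact W.smul_mem _ (dy_W hP')
      · exact W.smul_mem _ (dy_W hP)
      · exact W.smul_mem _ (LL_le_W (comm_LL (l5_mem 0) hPL'))
      · exact W.smul_mem _ (LL_le_W (comm_LL (l5_mem 0) hPL))
      · exact LL_le_W (comm_LL hPL hPL')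
    · have hx : j (l5 3) = X F2 * (X F2 * Y F2 - Y F2 * X F2)
          - (X F2 * Y F2 - Y F2 * X F2) * X F2 := by
        have := j_dx (l5 0)
        simpa using this
      have hy : j (l5 4) = Y F2 * (X F2 * Y F2 - Y F2 * X F2)
          - (X F2 * Y F2 - Y F2 * X F2) * Y F2 := by
        have := j_dy (l5 0)
        simpa using this
      simp only [map_add, map_sub, map_smul, map_mul, j_dx, j_dy, hx, hy]
      have h0 : j (l5 0) = X F2 * Y F2 - Y F2 * X F2 := by simp
      rw [h0]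
      simp only [add_mul, mul_add, sub_mul, mul_sub, smul_mul_assoc, mul_smul_comm, smul_sub,
        smul_add, mul_assoc, smul_smul]
      module


/-! ### Weights -/

/-- detection of the words of length `≤ 2`: strictly upper triangular `3 × 3` matrices. -/
def MX : Matrix (Fin 3) (Fin 3) F2 := !![0, 1, 0; 0, 0, 0; 0, 0, 0]
/-- see `MX`. -/
def MY : Matrix (Fin 3) (Fin 3) F2 := !![0, 0, 0; 0, 0, 1; 0, 0, 0]
/-- see `MX`. -/
def MT : Matrix (Fin 3) (Fin 3) F2 := !![0, 0, 1; 0, 0, 0; 0, 0, 0]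

/-- see `MX`. -/
def rho : Alg F2 →ₐ[F2] Matrix (Fin 3) (Fin 3) F2 := ev2 F2 MX MY

theorem rho_ι (i : Fin 2) : rho (FreeAlgebra.ι F2 i) = ![MX, MY] i := by simp [rho, ev2]

theorem rho_three (a b c : Fin 2) :
    (![MX, MY] a : Matrix (Fin 3) (Fin 3) F2) * (![MX, MY] b * ![MX, MY] c) = 0 := by
  revert a b c; decide

theorem rho_word (l : List (Fin 2)) (h : 3 ≤ l.length) :
    rho ((l.map (FreeAlgebra.ι F2)).prod) = 0 := by
  match l, h with
  | a :: b :: c :: l', _ =>
    simp only [List.map_cons, List.prod_cons, map_mul, rho_ι]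
    have := rho_three a b c
    calc _ = ((![MX, MY] a : Matrix (Fin 3) (Fin 3) F2) * (![MX, MY] b * ![MX, MY] c))
        * rho ((l'.map (FreeAlgebra.ι F2)).prod) := by simp only [mul_assoc]
      _ = 0 := by rw [this, zero_mul]

theorem rho_wtA {N : ℕ} (hN : 3 ≤ N) {ψ : Alg F2} (hψ : ψ ∈ wtA F2 (fun _ : Fin 2 => 1) N) :
    rho ψ = 0 := by
  refine Submodule.span_induction (p := fun ψ _ => rho ψ = 0) ?_ ?_ ?_ ?_ hψ
  · rintro _ ⟨l, hl, rfl⟩
    apply rho_word
    have : (l.map (fun _ : Fin 2 => 1)).sum = l.length := by simp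
    omega
  · simp
  · intro a b _ _ h1 h2; rw [map_add, h1, h2, add_zero]
  · intro r a _ h1; rw [map_smul, h1, smul_zero]

theorem rho_j_l5 (i : Fin 5) : ∃ u : F2, rho (j (l5 i)) = u • MT := by
  have h : rho (j (l5 i)) = five MX MY i := by
    have := ev_j MX MY (l5 i)
    rw [rho, this]
    simp [l5]
  rw [h]
  fin_cases i
  · exact ⟨1, by decide⟩
  · exact ⟨0, by decide⟩
  · exact ⟨0, by decide⟩
  · exact ⟨0, by decide⟩
  · exact ⟨0, by decide⟩

theorem rho_j_l3 : rho (j (l5 3)) = 0 := by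
  have h : rho (j (l5 3)) = five MX MY 3 := by
    have := ev_j MX MY (l5 3)
    rw [rho, this]
    simp [l5]
  rw [h]; decide

theorem rho_j_l4 : rho (j (l5 4)) = 0 := by
  have h : rho (j (l5 4)) = five MX MY 4 := by
    have := ev_j MX MY (l5 4)
    rw [rho, this]
    simp [l5]
  rw [h]; decide

theorem rho_j_L5 {a : B5} (ha : a ∈ L5) : ∃ u : F2, rho (j a) = u • MT := by
  refine LieX_induction (p := fun a => ∃ u : F2, rho (j a) = u • MT) rho_j_l5 ?_ ?_ ?_ ?_ ha
  · exact ⟨0, by simp⟩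
  · rintro a b _ _ ⟨u, hu⟩ ⟨v, hv⟩
    exact ⟨u + v, by rw [map_add, map_add, hu, hv, add_smul]⟩
  · rintro r a _ ⟨u, hu⟩
    exact ⟨r * u, by rw [map_smul, map_smul, hu, mul_smul]⟩
  · rintro a b _ _ ⟨u, hu⟩ ⟨v, hv⟩
    refine ⟨0, ?_⟩
    rw [map_sub, map_mul, map_mul, map_sub, map_mul, map_mul, hu, hv]
    simp [mul_comm u v, smul_smul]

theorem rho_j_W {a : B5} (ha : a ∈ W) : rho (j a) = 0 := by
  refine W_induction (p := fun a => rho (j a) = 0) rho_j_l3 rho_j_l4 ?_ ?_ ?_ ha
  · intro a ha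
    refine Submodule.span_induction (p := fun a _ => rho (j a) = 0) ?_ ?_ ?_ ?_ ha
    · rintro _ ⟨a, ha, b, hb, rfl⟩
      obtain ⟨u, hu⟩ := rho_j_L5 ha
      obtain ⟨v, hv⟩ := rho_j_L5 hb
      rw [map_sub, map_mul, map_mul, map_sub, map_mul, map_mul, hu, hv]
      simp [mul_comm u v, smul_smul]
    · simp
    · intro a b _ _ h1 h2; rw [map_add, map_add, h1, h2, add_zero]
    · intro r a _ h1; rw [map_smul, map_smul, h1, smul_zero]
  · intro a b _ _ h1 h2; rw [map_add, map_add, h1, h2, add_zero]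
  · intro r a _ h1; rw [map_smul, map_smul, h1, smul_zero]

/-- **Elimination.** Every Lie element of weight `N ≥ 3` over `F₂` is `j P` with `P ∈ W`. -/
theorem elim5 {N : ℕ} (hN : 3 ≤ N) {ψ : Alg F2} (hw : ψ ∈ wtA F2 (fun _ : Fin 2 => 1) N)
    (hψ : ψ ∈ LieX F2 (Fin 2)) : ∃ P ∈ W, j P = ψ := by
  obtain ⟨r, s, t, P, hP, h⟩ := LieX_decomp hψ
  have h1 := congrArg rho h
  rw [rho_wtA hN hw, map_add, rho_j_W hP, add_zero] at h1
  have hX : rho (X F2) = MX := by simp [X, rho_ι]
  have hY : rho (Y F2) = MY := by simp [Y, rho_ι]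
  simp only [map_add, map_sub, map_smul, map_mul, hX, hY] at h1
  have key : ∀ r s t : F2, (0 : Matrix (Fin 3) (Fin 3) F2)
      = r • MX + s • MY + t • (MX * MY - MY * MX) → r = 0 ∧ s = 0 ∧ t = 0 := by decide
  obtain ⟨rfl, rfl, rfl⟩ := key r s t h1
  exact ⟨P, hP, by rw [h]; simp⟩

/-! ### Evaluation of Lie polynomials at commuting families -/

section eval
variable {R : Type*} [CommRing R] {Z : Type*} {M : Type*} [Ring M] [Algebra R M]

theorem lift_mem_adjoin (u : Z → M) (P : FreeAlgebra R Z) :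
    FreeAlgebra.lift R u P ∈ Algebra.adjoin R (Set.range u) := by
  induction P using FreeAlgebra.induction with
  | grade0 r => rw [AlgHom.commutes]; exact Subalgebra.algebraMap_mem _ r
  | grade1 i => rw [FreeAlgebra.lift_ι_apply]; exact Algebra.subset_adjoin ⟨i, rfl⟩
  | mul a b ha hb => rw [map_mul]; exact Subalgebra.mul_mem _ ha hb
  | add a b ha hb => rw [map_add]; exact Subalgebra.add_mem _ ha hb

/-- values of polynomials in commuting families commute. -/
theorem lift_commute {Z' : Type*} {u : Z → M} {v : Z' → M} (h : ∀ i k, Commute (u i) (v k))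
    (P : FreeAlgebra R Z) (Q : FreeAlgebra R Z') :
    Commute (FreeAlgebra.lift R u P) (FreeAlgebra.lift R v Q) := by
  induction P using FreeAlgebra.induction with
  | grade0 r => rw [AlgHom.commutes]; exact Algebra.commutes r _
  | grade1 i =>
    rw [FreeAlgebra.lift_ι_apply]
    induction Q using FreeAlgebra.induction with
    | grade0 r => rw [AlgHom.commutes]; exact (Algebra.commutes r _).symm
    | grade1 k => rw [FreeAlgebra.lift_ι_apply]; exact h i k
    | mul a b ha hb => rw [map_mul]; exact ha.mul_right hb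
    | add a b ha hb => rw [map_add]; exact ha.add_right hb
  | mul a b ha hb => rw [map_mul]; exact ha.mul_left hb
  | add a b ha hb => rw [map_add]; exact ha.add_left hb

/-- **Additivity** of the value of a Lie polynomial on two mutually commuting families. -/
theorem lift_add_of_commute {u v : Z → M} (h : ∀ i k, Commute (u i) (v k))
    {P : FreeAlgebra R Z} (hP : P ∈ LieX R Z) :
    FreeAlgebra.lift R (fun i => u i + v i) P
      = FreeAlgebra.lift R u P + FreeAlgebra.lift R v P := by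
  refine LieX_induction (p := fun P => FreeAlgebra.lift R (fun i => u i + v i) P
      = FreeAlgebra.lift R u P + FreeAlgebra.lift R v P) ?_ ?_ ?_ ?_ ?_ hP
  · intro i; simp
  · simp
  · intro a b _ _ h1 h2
    rw [map_add, map_add, map_add, h1, h2]; abel
  · intro r a _ h1
    rw [map_smul, map_smul, map_smul, h1, smul_add]
  · intro a b _ _ h1 h2
    simp only [map_sub, map_mul, h1, h2]
    have c1 := (lift_commute (R := R) h a b).eq
    have c2 := (lift_commute (R := R) h b a).eq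
    simp only [add_mul, mul_add]
    rw [c1, c2]
    abel

end eval

section evalW
variable {M : Type*} [Ring M] [Algebra F2 M]

/-- A commuting family kills `[Lie, Lie]`. -/
theorem lift_LL_of_comm {u : Fin 5 → M} (h : ∀ i k, Commute (u i) (u k)) {P : B5} (hP : P ∈ LL) :
    FreeAlgebra.lift F2 u P = 0 := by
  refine Submodule.span_induction (p := fun P _ => FreeAlgebra.lift F2 u P = 0) ?_ ?_ ?_ ?_ hP
  · rintro _ ⟨a, _, b, _, rfl⟩
    rw [map_sub, map_mul, map_mul, (lift_commute h a b).eq, sub_self]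
  · simp
  · intro a b _ _ h1 h2; rw [map_add, h1, h2, add_zero]
  · intro r a _ h1; rw [map_smul, h1, smul_zero]

/-- A commuting family with `f₀ = f₁ = 0` kills `W`. -/
theorem lift_W_of_comm {u : Fin 5 → M} (h : ∀ i k, Commute (u i) (u k)) (h3 : u 3 = 0)
    (h4 : u 4 = 0) {P : B5} (hP : P ∈ W) : FreeAlgebra.lift F2 u P = 0 := by
  refine W_induction (p := fun P => FreeAlgebra.lift F2 u P = 0) ?_ ?_ ?_ ?_ ?_ hP
  · simp [l5, h3]
  · simp [l5, h4]
  · intro a ha; exact lift_LL_of_comm h ha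
  · intro a b _ _ h1 h2; rw [map_add, h1, h2, add_zero]
  · intro r a _ h1; rw [map_smul, h1, smul_zero]

/-- **Shift.** Adding to the family `u` a commuting family `v` which commutes with `u` and has
`v f₀ = v f₁ = 0` does not change the value of `P ∈ W`. -/
theorem lift_W_shift {u v : Fin 5 → M} (h : ∀ i k, Commute (u i) (v k))
    (hv : ∀ i k, Commute (v i) (v k)) (h3 : v 3 = 0) (h4 : v 4 = 0) {P : B5} (hP : P ∈ W) :
    FreeAlgebra.lift F2 (fun i => u i + v i) P = FreeAlgebra.lift F2 u P := by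
  rw [lift_add_of_commute h (W_le_L5 hP), lift_W_of_comm hv h3 h4 hP, add_zero]

/-- left multiplication operators: `P(L_{a_i}) 1 = P(a_i)`. -/
theorem lift_mulLeft {N : Type*} [Ring N] [Algebra F2 N] {Z : Type*} (u : Z → N)
    (P : FreeAlgebra F2 Z) :
    FreeAlgebra.lift F2 (fun i => (LinearMap.mulLeft F2 (u i) : Module.End F2 N)) P
      = LinearMap.mulLeft F2 (FreeAlgebra.lift F2 u P) := by
  induction P using FreeAlgebra.induction with
  | grade0 r =>
    rw [AlgHom.commutes, AlgHom.commutes]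
    ext n
    simp [Algebra.smul_def, Module.algebraMap_end_apply]
  | grade1 i => simp
  | mul a b ha hb =>
    rw [map_mul, map_mul, ha, hb, LinearMap.mulLeft_mul]; rfl
  | add a b ha hb =>
    rw [map_add, map_add, ha, hb]
    ext n
    simp [add_mul]

end evalW

end Crest.Agent.R010.El
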