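import Crest.Agent.R010.EDefs
import Crest.Agent.R010.CDefs
import Crest.Agent.R010.Witt

/-! Row 10, module (cC) GLUE, part A (helper379): word coefficients, base change, homogeneity. -/

set_option autoImplicit false

noncomputable section

namespace Crest.Agent.R010.G

open Crest.NumberTheoryR.GT Crest.Agent.R010 Crest.Agent.R010.C

attribute [local instance 100] LieRing.ofAssociativeRing

/-- the word `l` as an element of the free algebra -/
def wd (R : Type*) [CommRing R] {T : Type*} (l : List T) : FreeAlgebra R T :=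
  (l.map (FreeAlgebra.ι R)).prod

section words

variable {R : Type*} [CommRing R] {T : Type*}

@[simp] theorem wd_nil : wd R ([] : List T) = 1 := rfl

@[simp] theorem wd_cons (i : T) (l : List T) : wd R (i :: l) = FreeAlgebra.ι R i * wd R l := by
  simp [wd]

theorem wd_append (l l' : List T) : wd R (l ++ l') = wd R l * wd R l' := by
  simp [wd]

theorem equiv_wd (l : List T) : FreeAlgebra.equivMonoidAlgebraFreeMonoid (wd R l) =
    MonoidAlgebra.single (FreeMonoid.ofList l) (1 : R) := by
  induction l with
  | nil => simp [MonoidAlgebra.one_def]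
  | cons i l ih =>
    rw [wd_cons, map_mul, ih]
    have : FreeAlgebra.equivMonoidAlgebraFreeMonoid (FreeAlgebra.ι R i) =
        MonoidAlgebra.single (FreeMonoid.of i) (1 : R) := by
      simp [FreeAlgebra.equivMonoidAlgebraFreeMonoid]
    rw [this, MonoidAlgebra.single_mul_single]
    simp

open Classical in
theorem cf_wd (l l' : List T) : cf l (wd R l') = if l' = l then (1 : R) else 0 := by
  show (FreeAlgebra.equivMonoidAlgebraFreeMonoid (wd R l')).coeff (FreeMonoid.ofList l) = _
  rw [equiv_wd, MonoidAlgebra.coeff_single, Finsupp.single_apply]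
  by_cases h : l' = l
  · rw [if_pos h, if_pos (by rw [h])]
  · rw [if_neg h, if_neg (fun h' => h (FreeMonoid.ofList.injective h'))]

theorem cf_wd_self (l : List T) : cf l (wd R l) = (1 : R) := by
  classical
  rw [cf_wd, if_pos rfl]

theorem cf_wd_ne {l l' : List T} (h : l' ≠ l) : cf l (wd R l') = (0 : R) := by
  classical
  rw [cf_wd, if_neg h]

theorem ext_cf {a b : FreeAlgebra R T} (h : ∀ l : List T, cf l a = cf l b) : a = b := by
  apply FreeAlgebra.equivMonoidAlgebraFreeMonoid.injective
  apply MonoidAlgebra.ext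
  ext l
  exact h (FreeMonoid.toList l)

/-- the words occurring in `a` -/
def supp (a : FreeAlgebra R T) : Finset (List T) :=
  (FreeAlgebra.equivMonoidAlgebraFreeMonoid a).coeff.support.map
    (FreeMonoid.toList (α := T)).toEmbedding

theorem mem_supp {a : FreeAlgebra R T} {l : List T} : l ∈ supp a ↔ cf l a ≠ 0 := by
  rw [supp, Finset.mem_map]
  constructor
  · rintro ⟨m, hm, rfl⟩
    exact Finsupp.mem_support_iff.1 hm
  · intro h
    exact ⟨FreeMonoid.ofList l, Finsupp.mem_support_iff.2 h, rfl⟩

theorem eq_sum (a : FreeAlgebra R T) : a = ∑ l ∈ supp a, cf l a • wd R l := by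
  classical
  apply ext_cf
  intro l
  rw [map_sum]
  have : ∀ m ∈ supp a, cf l (cf m a • wd R m) = if m = l then cf l a else 0 := by
    intro m _
    rw [map_smul, cf_wd]
    split_ifs with h
    · subst h; simp
    · simp
  rw [Finset.sum_congr rfl this, Finset.sum_ite_eq']
  split_ifs with h
  · rfl
  · rw [mem_supp, not_not] at h
    exact h

/-- span of the words satisfying `p` -/
def sw (R : Type*) [CommRing R] {T : Type*} (p : List T → Prop) : Submodule R (FreeAlgebra R T) :=
  Submodule.span R {a | ∃ l : List T, p l ∧ a = wd R l}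

theorem wd_mem_sw {p : List T → Prop} {l : List T} (h : p l) : wd R l ∈ sw R p :=
  Submodule.subset_span ⟨l, h, rfl⟩

theorem mem_sw_iff {p : List T → Prop} {a : FreeAlgebra R T} :
    a ∈ sw R p ↔ ∀ l, cf l a ≠ 0 → p l := by
  constructor
  · intro h
    induction h using Submodule.span_induction with
    | mem x hx =>
      obtain ⟨l, hl, rfl⟩ := hx
      intro m hm
      by_contra hp
      have : l ≠ m := fun h => hp (h ▸ hl)
      exact hm (cf_wd_ne this)
    | zero => intro l hl; simp at hl
    | add x y _ _ hx hy =>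
      intro l hl
      rw [map_add] at hl
      by_contra hp
      have h1 : cf l x = 0 := by by_contra h1; exact hp (hx l h1)
      have h2 : cf l y = 0 := by by_contra h2; exact hp (hy l h2)
      rw [h1, h2, add_zero] at hl
      exact hl rfl
    | smul r x _ hx =>
      intro l hl
      rw [map_smul] at hl
      refine hx l fun h => hl ?_
      rw [h, smul_zero]
  · intro h
    rw [eq_sum a]
    refine Submodule.sum_mem _ fun l hl => Submodule.smul_mem _ _ (wd_mem_sw (h l (mem_supp.1 hl)))

theorem sw_mono {p q : List T → Prop} (h : ∀ l, p l → q l) : sw R p ≤ sw R q := by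
  intro a ha
  rw [mem_sw_iff] at ha ⊢
  exact fun l hl => h l (ha l hl)

theorem mem_sw_and {p q : List T → Prop} {a : FreeAlgebra R T} (h1 : a ∈ sw R p)
    (h2 : a ∈ sw R q) : a ∈ sw R (fun l => p l ∧ q l) := by
  rw [mem_sw_iff] at h1 h2 ⊢
  exact fun l hl => ⟨h1 l hl, h2 l hl⟩

theorem wtA_eq_sw (w : T → ℕ) (N : ℕ) : wtA R w N = sw R (fun l => (l.map w).sum = N) := rfl

theorem mem_wtA_iff {w : T → ℕ} {N : ℕ} {a : FreeAlgebra R T} :
    a ∈ wtA R w N ↔ ∀ l, cf l a ≠ 0 → (l.map w).sum = N := by
  rw [wtA_eq_sw, mem_sw_iff]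

theorem sw_induction {p : List T → Prop} {C : FreeAlgebra R T → Prop}
    (hw : ∀ l, p l → C (wd R l)) (h0 : C 0) (ha : ∀ a b, C a → C b → C (a + b))
    (hs : ∀ (r : R) a, C a → C (r • a)) {a : FreeAlgebra R T} (h : a ∈ sw R p) : C a := by
  induction h using Submodule.span_induction with
  | mem x hx => obtain ⟨l, hl, rfl⟩ := hx; exact hw l hl
  | zero => exact h0
  | add x y _ _ hx hy => exact ha x y hx hy
  | smul r x _ hx => exact hs r x hx

/-- words are a spanning set -/
theorem mem_sw_true (a : FreeAlgebra R T) : a ∈ sw R (fun _ : List T => True) := by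
  rw [mem_sw_iff]; exact fun _ _ => trivial

/-- restriction of an element to the words with `p` -/
def res (p : List T → Prop) (a : FreeAlgebra R T) : FreeAlgebra R T :=
  open Classical in ∑ l ∈ (supp a).filter p, cf l a • wd R l

theorem cf_res (p : List T → Prop) (a : FreeAlgebra R T) (l : List T) :
    cf l (res p a) = open Classical in if p l then cf l a else 0 := by
  classical
  rw [res, map_sum]
  have : ∀ m ∈ (supp a).filter p, cf l (cf m a • wd R m) = if m = l then cf l a else 0 := by
    intro m _
    rw [map_smul, cf_wd]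
    split_ifs with h
    · subst h; simp
    · simp
  rw [Finset.sum_congr rfl this, Finset.sum_ite_eq']
  by_cases hp : p l
  · by_cases hl : l ∈ supp a
    · rw [if_pos (Finset.mem_filter.2 ⟨hl, hp⟩), if_pos hp]
    · rw [if_neg (fun h => hl (Finset.mem_filter.1 h).1), if_pos hp]
      rw [mem_supp, not_not] at hl
      exact hl.symm
  · rw [if_neg (fun h => hp (Finset.mem_filter.1 h).2), if_neg hp]

theorem res_mem (p : List T → Prop) (a : FreeAlgebra R T) : res p a ∈ sw R p := by
  classical
  rw [mem_sw_iff]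
  intro l hl
  rw [cf_res] at hl
  by_contra hp
  rw [if_neg hp] at hl
  exact hl rfl

theorem sub_res_mem (p : List T → Prop) (a : FreeAlgebra R T) :
    a - res p a ∈ sw R (fun l => ¬ p l) := by
  classical
  rw [mem_sw_iff]
  intro l hl hp
  rw [map_sub, cf_res, if_pos hp, sub_self] at hl
  exact hl rfl

theorem res_eq_self {p : List T → Prop} {a : FreeAlgebra R T} (h : a ∈ sw R p) :
    res p a = a := by
  classical
  apply ext_cf
  intro l
  rw [cf_res]
  split_ifs with hp
  · rfl
  · by_contra hl
    exact hp (mem_sw_iff.1 h l (fun h => hl h.symm))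

end words

section basechange

variable {R S : Type*} [CommRing R] [CommRing S] (f : R →+* S) {T : Type*}

theorem bc_wd (l : List T) : bc f T (wd R l) = wd S l := by
  induction l with
  | nil => simp
  | cons i l ih => rw [wd_cons, wd_cons, map_mul, bc_ι, ih]

theorem cf_bc (a : FreeAlgebra R T) (l : List T) : cf l (bc f T a) = f (cf l a) := by
  classical
  refine sw_induction (C := fun a => cf l (bc f T a) = f (cf l a)) ?_ ?_ ?_ ?_ (mem_sw_true a)
  · intro m _
    rw [bc_wd, cf_wd, cf_wd]
    split_ifs <;> simp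
  · simp
  · intro a b ha hb; simp [ha, hb]
  · intro r a ha
    rw [bc_smul, map_smul, map_smul, ha, smul_eq_mul, smul_eq_mul, map_mul]

theorem bc_injective (hf : Function.Injective f) : Function.Injective (bc f T) := by
  intro a b h
  apply ext_cf
  intro l
  apply hf
  rw [← cf_bc, ← cf_bc, h]

theorem bc_mem_sw {p : List T → Prop} {a : FreeAlgebra R T} (h : a ∈ sw R p) :
    bc f T a ∈ sw S p := by
  rw [mem_sw_iff] at h ⊢
  intro l hl
  rw [cf_bc] at hl
  exact h l fun h0 => hl (by rw [h0, map_zero])

theorem mem_sw_of_bc (hf : Function.Injective f) {p : List T → Prop} {a : FreeAlgebra R T}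
    (h : bc f T a ∈ sw S p) : a ∈ sw R p := by
  rw [mem_sw_iff] at h ⊢
  intro l hl
  refine h l fun h0 => hl ?_
  rw [cf_bc] at h0
  exact hf (by rw [h0, map_zero])

theorem bc_res (p : List T → Prop) (a : FreeAlgebra R T) :
    bc f T (res p a) = res p (bc f T a) := by
  classical
  apply ext_cf
  intro l
  rw [cf_bc, cf_res, cf_res, cf_bc]
  split_ifs <;> simp

theorem bc_surjective (hf : Function.Surjective f) : Function.Surjective (bc f T) := by
  intro a
  refine sw_induction (C := fun a => ∃ b, bc f T b = a) ?_ ?_ ?_ ?_ (mem_sw_true a)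
  · intro m _; exact ⟨wd R m, bc_wd f m⟩
  · exact ⟨0, map_zero _⟩
  · intro a b ha hb
    obtain ⟨a, rfl⟩ := ha
    obtain ⟨b, rfl⟩ := hb
    exact ⟨a + b, map_add _ _ _⟩
  · intro r a ha
    obtain ⟨a, rfl⟩ := ha
    obtain ⟨r, rfl⟩ := hf r
    exact ⟨r • a, bc_smul f T r a⟩

end basechange

section integers

variable {T : Type*}

/-- `ℤ → ℚ` -/
abbrev fQ : ℤ →+* ℚ := Int.castRingHom ℚ
/-- `ℤ → 𝔽₂` -/
abbrev f2 : ℤ →+* F2 := Int.castRingHom (ZMod 2)

theorem fQ_injective : Function.Injective fQ := Int.cast_injective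

theorem bcQ_injective : Function.Injective (bc fQ T) := bc_injective _ fQ_injective

/-- kernel of reduction mod 2 -/
theorem exists_two_of_bc_eq_zero {a : FreeAlgebra ℤ T} (h : bc f2 T a = 0) :
    ∃ b, a = (2 : ℤ) • b := by
  refine ⟨∑ l ∈ supp a, (cf l a / 2) • wd ℤ l, ?_⟩
  rw [Finset.smul_sum]
  conv_lhs => rw [eq_sum a]
  refine Finset.sum_congr rfl fun l _ => ?_
  rw [smul_smul]
  have h1 : f2 (cf l a) = 0 := by rw [← cf_bc, h, map_zero]
  have h2 : (2 : ℤ) ∣ cf l a := by
    have := (ZMod.intCast_zmod_eq_zero_iff_dvd (cf l a) 2).1 (by simpa using h1)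
    simpa using this
  rw [Int.mul_ediv_cancel' h2]
  rfl

theorem smul_cancel {c : ℤ} (hc : c ≠ 0) {a b : FreeAlgebra ℤ T} (h : c • a = c • b) : a = b := by
  apply ext_cf
  intro l
  have := congrArg (cf l) h
  rw [map_smul, map_smul, smul_eq_mul, smul_eq_mul] at this
  exact mul_left_cancel₀ hc this

end integers

end Crest.Agent.R010.G

end
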