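import Crest.Agent.R010.GlueA

/-! Row 10, module (cC) GLUE, part B (helper379): Lie elements, gradings, lifts, saturation. -/

set_option autoImplicit false

noncomputable section

namespace Crest.Agent.R010.G

open Crest.NumberTheoryR.GT Crest.Agent.R010 Crest.Agent.R010.C
open Crest.Agent.R010.Witt (asso asso_of WS BM WS_induction fla_induction exists_hom_sum witt_div
  witt_injective)

attribute [local instance 100] LieRing.ofAssociativeRing

section

variable {R : Type*} [CommRing R] {T : Type*}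

theorem wtA_mul {w : T → ℕ} {m n : ℕ} {a b : FreeAlgebra R T} (ha : a ∈ wtA R w m)
    (hb : b ∈ wtA R w n) : a * b ∈ wtA R w (m + n) := by
  rw [wtA_eq_sw] at ha
  refine sw_induction (C := fun a => a * b ∈ wtA R w (m + n)) ?_ ?_ ?_ ?_ ha
  · intro l hl
    rw [wtA_eq_sw] at hb
    refine sw_induction (C := fun b => wd R l * b ∈ wtA R w (m + n)) ?_ ?_ ?_ ?_ hb
    · intro l' hl'
      rw [← wd_append]
      exact wd_mem_sw (by rw [List.map_append, List.sum_append, hl, hl'])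
    · simp
    · intro a b ha hb; rw [mul_add]; exact Submodule.add_mem _ ha hb
    · intro r a ha; rw [mul_smul_comm]; exact Submodule.smul_mem _ _ ha
  · simp
  · intro a b ha hb; rw [add_mul]; exact Submodule.add_mem _ ha hb
  · intro r a ha; rw [smul_mul_assoc]; exact Submodule.smul_mem _ _ ha

theorem ι_eq_wd (i : T) : FreeAlgebra.ι R i = wd R [i] := by simp

theorem ι_mem_wtA (w : T → ℕ) (i : T) : FreeAlgebra.ι R i ∈ wtA R w (w i) := by
  rw [ι_eq_wd]
  exact wd_mem_sw (by simp)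

theorem mem_LieX_iff {a : FreeAlgebra R T} : a ∈ LieX R T ↔ ∃ u, asso R T u = a := by
  constructor
  · intro h
    have : LieX R T ≤ (asso R T).range := by
      rw [LieX, LieSubalgebra.lieSpan_le]
      rintro _ ⟨i, rfl⟩
      exact ⟨FreeLieAlgebra.of R i, asso_of i⟩
    exact this h
  · rintro ⟨u, rfl⟩
    refine fla_induction (p := fun u => asso R T u ∈ LieX R T) ?_ ?_ ?_ ?_ ?_ u
    · intro i
      rw [asso_of]
      exact LieSubalgebra.subset_lieSpan ⟨i, rfl⟩
    · rw [map_zero]; exact Submodule.zero_mem (LieX R T).toSubmodule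
    · intro a b ha hb; rw [map_add]; exact add_mem ha hb
    · intro r a ha; rw [map_smul]; exact Submodule.smul_mem (LieX R T).toSubmodule r ha
    · intro a b ha hb; rw [LieHom.map_lie]; exact LieSubalgebra.lie_mem _ ha hb

theorem asso_mem_LieX (u : FreeLieAlgebra R T) : asso R T u ∈ LieX R T :=
  mem_LieX_iff.2 ⟨u, rfl⟩

theorem asso_mem_wtA {w : T → ℕ} {n : ℕ} {u : FreeLieAlgebra R T} (h : u ∈ WS R w n) :
    asso R T u ∈ wtA R w n := by
  refine WS_induction (p := fun u => asso R T u ∈ wtA R w n) ?_ ?_ ?_ ?_ h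
  · clear h u
    intro a ha
    induction ha with
    | of i => rw [asso_of]; exact ι_mem_wtA w i
    | @lie m n a b _ _ h1 h2 =>
      rw [LieHom.map_lie, LieRing.of_associative_ring_bracket]
      refine Submodule.sub_mem _ (wtA_mul h1 h2) ?_
      rw [add_comm]; exact wtA_mul h2 h1
  · rw [map_zero]; exact Submodule.zero_mem _
  · intro a b ha hb; rw [map_add]; exact Submodule.add_mem _ ha hb
  · intro r a ha; rw [map_smul]; exact Submodule.smul_mem _ _ ha

theorem cf_eq_zero_of_mem {w : T → ℕ} {n : ℕ} {a : FreeAlgebra R T} (h : a ∈ wtA R w n)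
    {l : List T} (hl : (l.map w).sum ≠ n) : cf l a = 0 := by
  by_contra h0
  exact hl (mem_wtA_iff.1 h l h0)

theorem res_asso_sum {w : T → ℕ} (f : ℕ →₀ FreeLieAlgebra R T) (hf : ∀ n, f n ∈ WS R w n)
    (n : ℕ) : res (fun l => (l.map w).sum = n) (asso R T (∑ n ∈ f.support, f n)) =
      asso R T (f n) := by
  classical
  apply ext_cf
  intro l
  rw [cf_res, map_sum, map_sum]
  by_cases hl : (l.map w).sum = n
  · rw [if_pos hl]
    rw [Finset.sum_eq_single n]
    · intro m _ hm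
      exact cf_eq_zero_of_mem (asso_mem_wtA (hf m)) (by omega)
    · intro hn
      rw [Finsupp.notMem_support_iff.1 hn]; simp
  · rw [if_neg hl]
    exact (cf_eq_zero_of_mem (asso_mem_wtA (hf n)) hl).symm

theorem res_LieX (w : T → ℕ) (n : ℕ) {a : FreeAlgebra R T} (h : a ∈ LieX R T) :
    res (fun l => (l.map w).sum = n) a ∈ LieX R T := by
  obtain ⟨u, rfl⟩ := mem_LieX_iff.1 h
  obtain ⟨f, hf, rfl⟩ := exists_hom_sum w u
  rw [res_asso_sum f hf]
  exact asso_mem_LieX _

theorem mem_WS_of_asso {w : T → ℕ} {n : ℕ} {u : FreeLieAlgebra R T}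
    (h : asso R T u ∈ wtA R w n) : u ∈ WS R w n := by
  obtain ⟨f, hf, hu⟩ := exists_hom_sum w u
  have h1 := res_asso_sum f hf n
  rw [hu] at h1
  have h2 : res (fun l : List T => (l.map w).sum = n) (asso R T u) = asso R T u :=
    res_eq_self h
  rw [h2] at h1
  rw [witt_injective h1]
  exact hf n

theorem mem_WS_iff {w : T → ℕ} {n : ℕ} {u : FreeLieAlgebra R T} :
    u ∈ WS R w n ↔ asso R T u ∈ wtA R w n := ⟨asso_mem_wtA, mem_WS_of_asso⟩

end

section lifts

variable {R S : Type*} [CommRing R] [CommRing S] (f : R →+* S) {T : Type*}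

theorem bc_lie (a b : FreeAlgebra R T) : bc f T ⁅a, b⁆ = ⁅bc f T a, bc f T b⁆ := by
  rw [LieRing.of_associative_ring_bracket, LieRing.of_associative_ring_bracket]
  simp

theorem bc_mem_LieX {a : FreeAlgebra R T} (h : a ∈ LieX R T) : bc f T a ∈ LieX S T := by
  obtain ⟨u, rfl⟩ := mem_LieX_iff.1 h
  refine fla_induction (p := fun u => bc f T (asso R T u) ∈ LieX S T) ?_ ?_ ?_ ?_ ?_ u
  · intro i
    rw [asso_of, bc_ι]
    exact LieSubalgebra.subset_lieSpan ⟨i, rfl⟩
  · rw [map_zero, map_zero]; exact Submodule.zero_mem (LieX S T).toSubmodule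
  · intro a b ha hb; rw [map_add, map_add]; exact add_mem ha hb
  · intro r a ha; rw [map_smul, bc_smul]; exact Submodule.smul_mem (LieX S T).toSubmodule _ ha
  · intro a b ha hb; rw [LieHom.map_lie, bc_lie]; exact LieSubalgebra.lie_mem _ ha hb

theorem exists_lift_LieX (hf : Function.Surjective f) {a : FreeAlgebra S T} (h : a ∈ LieX S T) :
    ∃ b ∈ LieX R T, bc f T b = a := by
  obtain ⟨u, rfl⟩ := mem_LieX_iff.1 h
  refine fla_induction (p := fun u => ∃ b ∈ LieX R T, bc f T b = asso S T u) ?_ ?_ ?_ ?_ ?_ u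
  · intro i
    exact ⟨FreeAlgebra.ι R i, LieSubalgebra.subset_lieSpan ⟨i, rfl⟩, by rw [asso_of, bc_ι]⟩
  · exact ⟨0, Submodule.zero_mem (LieX R T).toSubmodule, by simp⟩
  · rintro a b ⟨a', ha, h1⟩ ⟨b', hb, h2⟩
    exact ⟨a' + b', add_mem ha hb, by rw [map_add, map_add, h1, h2]⟩
  · rintro r a ⟨a', ha, h1⟩
    obtain ⟨r, rfl⟩ := hf r
    exact ⟨r • a', Submodule.smul_mem (LieX R T).toSubmodule _ ha, by
      rw [bc_smul, h1]; exact (LinearMap.map_smul (asso S T).toLinearMap _ _).symm⟩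
  · rintro a b ⟨a', ha, h1⟩ ⟨b', hb, h2⟩
    exact ⟨⁅a', b'⁆, LieSubalgebra.lie_mem _ ha hb, by rw [LieHom.map_lie, bc_lie, h1, h2]⟩

/-- bihomogeneous lift of a Lie element -/
theorem exists_lift_LieX_hom (hf : Function.Surjective f) {w w' : T → ℕ} {n n' : ℕ}
    {a : FreeAlgebra S T} (h : a ∈ LieX S T) (h1 : a ∈ wtA S w n) (h2 : a ∈ wtA S w' n') :
    ∃ b ∈ LieX R T, b ∈ wtA R w n ∧ b ∈ wtA R w' n' ∧ bc f T b = a := by
  classical
  obtain ⟨b, hb, rfl⟩ := exists_lift_LieX f hf h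
  refine ⟨res (fun l => (l.map w').sum = n') (res (fun l => (l.map w).sum = n) b),
    res_LieX w' n' (res_LieX w n hb), ?_, res_mem _ _, ?_⟩
  · rw [mem_wtA_iff]
    intro l hl
    rw [cf_res, cf_res] at hl
    by_contra h0
    rw [if_neg h0] at hl
    simp at hl
  · rw [bc_res, bc_res, res_eq_self h1, res_eq_self h2]

end lifts

section rational

variable {T : Type*}

theorem bc_zsmul {S : Type*} [CommRing S] (f : ℤ →+* S) (c : ℤ) (a : FreeAlgebra ℤ T) :
    bc f T (c • a) = f c • bc f T a := bc_smul f T c a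

theorem f2_surjective : Function.Surjective f2 := ZMod.intCast_surjective

/-- clearing denominators in the free algebra -/
theorem exists_clear (a : FreeAlgebra ℚ T) : ∃ (c : ℤ) (b : FreeAlgebra ℤ T), c ≠ 0 ∧
    bc fQ T b = fQ c • a := by
  refine sw_induction (C := fun a => ∃ (c : ℤ) (b : FreeAlgebra ℤ T), c ≠ 0 ∧
    bc fQ T b = fQ c • a) ?_ ?_ ?_ ?_ (mem_sw_true a)
  · intro l _
    exact ⟨1, wd ℤ l, one_ne_zero, by rw [bc_wd]; simp⟩
  · exact ⟨1, 0, one_ne_zero, by simp⟩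
  · rintro a b ⟨c, a', hc, h1⟩ ⟨d, b', hd, h2⟩
    refine ⟨c * d, d • a' + c • b', mul_ne_zero hc hd, ?_⟩
    rw [map_add, bc_zsmul, bc_zsmul, h1, h2, smul_smul, smul_smul, map_mul, smul_add,
      mul_comm (fQ d) (fQ c)]
  · rintro r a ⟨c, a', hc, h1⟩
    refine ⟨r.den * c, r.num • a', mul_ne_zero (by exact_mod_cast r.den_nz) hc, ?_⟩
    rw [bc_zsmul, h1, smul_smul, smul_smul]
    congr 1
    have hr : (r.den : ℚ) * r = r.num := Rat.den_mul_eq_num r
    have : fQ (r.den * c) = (r.den : ℚ) * c := by simp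
    rw [this]
    have h3 : fQ r.num = (r.num : ℚ) := by simp
    have h4 : fQ c = (c : ℚ) := by simp
    rw [h3, h4, ← hr]
    ring

/-- clearing denominators for Lie elements -/
theorem exists_clear_LieX {a : FreeAlgebra ℚ T} (h : a ∈ LieX ℚ T) :
    ∃ (c : ℤ) (b : FreeAlgebra ℤ T), c ≠ 0 ∧ b ∈ LieX ℤ T ∧ bc fQ T b = fQ c • a := by
  obtain ⟨u, rfl⟩ := mem_LieX_iff.1 h
  refine fla_induction (p := fun u => ∃ (c : ℤ) (b : FreeAlgebra ℤ T), c ≠ 0 ∧ b ∈ LieX ℤ T ∧
    bc fQ T b = fQ c • asso ℚ T u) ?_ ?_ ?_ ?_ ?_ u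
  · intro i
    exact ⟨1, FreeAlgebra.ι ℤ i, one_ne_zero, LieSubalgebra.subset_lieSpan ⟨i, rfl⟩, by
      rw [asso_of, bc_ι]; simp⟩
  · exact ⟨1, 0, one_ne_zero, Submodule.zero_mem (LieX ℤ T).toSubmodule, by simp⟩
  · rintro a b ⟨c, a', hc, ha, h1⟩ ⟨d, b', hd, hb, h2⟩
    refine ⟨c * d, d • a' + c • b', mul_ne_zero hc hd, add_mem
      (Submodule.smul_mem (LieX ℤ T).toSubmodule _ ha)
      (Submodule.smul_mem (LieX ℤ T).toSubmodule _ hb), ?_⟩
    rw [map_add, bc_zsmul, bc_zsmul, h1, h2, smul_smul, smul_smul, map_mul, map_add, smul_add,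
      mul_comm (fQ d) (fQ c)]
  · rintro r a ⟨c, a', hc, ha, h1⟩
    refine ⟨r.den * c, r.num • a', mul_ne_zero (by exact_mod_cast r.den_nz) hc,
      Submodule.smul_mem (LieX ℤ T).toSubmodule _ ha, ?_⟩
    rw [bc_zsmul, h1, map_smul, smul_smul, smul_smul]
    congr 1
    have hr : (r.den : ℚ) * r = r.num := Rat.den_mul_eq_num r
    have : fQ (r.den * c) = (r.den : ℚ) * c := by simp
    rw [this]
    have h3 : fQ r.num = (r.num : ℚ) := by simp
    have h4 : fQ c = (c : ℚ) := by simp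
    rw [h3, h4, ← hr]
    ring
  · rintro a b ⟨c, a', hc, ha, h1⟩ ⟨d, b', hd, hb, h2⟩
    refine ⟨c * d, ⁅a', b'⁆, mul_ne_zero hc hd, LieSubalgebra.lie_mem _ ha hb, ?_⟩
    rw [bc_lie, h1, h2, LieHom.map_lie, map_mul]
    simp only [LieRing.of_associative_ring_bracket, smul_mul_smul_comm, smul_sub,
      mul_comm (fQ d) (fQ c)]

/-- SATURATION: an integral element of `Lie_ℚ` is in `Lie_ℤ`. -/
theorem mem_LieX_of_bc {a : FreeAlgebra ℤ T} (h : bc fQ T a ∈ LieX ℚ T) : a ∈ LieX ℤ T := by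
  obtain ⟨c, b, hc, hb, h1⟩ := exists_clear_LieX h
  rw [← bc_zsmul] at h1
  have h2 := bcQ_injective h1
  obtain ⟨v, hv⟩ := mem_LieX_iff.1 hb
  obtain ⟨v', rfl⟩ := witt_div v c a (by rw [hv, h2]; rfl)
  rw [map_smul] at hv
  have h3 : a = asso ℤ T v' := smul_cancel hc (by rw [← h2, ← hv])
  rw [h3]
  exact asso_mem_LieX v'

end rational

end Crest.Agent.R010.G

end
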