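import Crest.Agent.R010.EDefs
import Crest.Agent.R010.CDefs

/-!
Row 10, part (U), module m1: the frozen pentagon acts on the fibre `K⟨x0,x1,z⟩`
(`x0 = t01`, `z = t12`, `x1 = t13` by left multiplication), over every commutative ring, for
integral elements.  Main statements:

* `Five x0 x1 z e0 e1` : the relations of `t01, t13, t12, t02, t23` modulo centre;
* `pent_assoc` : in every `ℚ`-algebra with five such elements the frozen pentagon gives `PentOp`;
* `pent_transfer` : descent to every commutative ring for integral elements, for operators on free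
  algebras compatible with base change;
* `fibrePent_of` : `FibrePent S (bc _ f)` for integral `f` representing `p`, `pentagonDefect p = 0`;
* `pentOp_der` : the same in the pure derivation gauge (`t02`, `t23` act by derivations);
* `PentOp.quot` : quotients.
(helper442)
-/

set_option autoImplicit false
set_option linter.unusedSimpArgs false

noncomputable section

namespace Crest.Agent.R010.U

open FreeAlgebra Crest.NumberTheoryR.GT Crest.Agent.R010

attribute [local instance 100] LieRing.ofAssociativeRing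

/-- the pentagon for five elements of an associative algebra. -/
def PentOp {K : Type*} [CommRing K] {B : Type*} [Ring B] [Algebra K B] (x0 x1 z e0 e1 : B)
    (f : FreeAlgebra K (Fin 2)) : Prop :=
  ev x0 (x1 + z) f + ev (e0 + z) e1 f = ev z e1 f + ev (x0 + e0) (x1 + e1) f + ev x0 z f

section relations
variable {L : Type*} [LieRing L]

/-- the symmetric matrix of the six braid generators, in terms of five elements. -/
def Tmat (x0 x1 z e0 e1 : L) (i j : Fin 4) : L :=
  (![![0, x0, e0, -(x0 + e0 + z + x1 + e1)],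
    ![x0, 0, z, x1],
    ![e0, z, 0, e1],
    ![-(x0 + e0 + z + x1 + e1), x1, e1, 0]] : Fin 4 → Fin 4 → L) i j

theorem Tmat_symm (x0 x1 z e0 e1 : L) (i j : Fin 4) :
    Tmat x0 x1 z e0 e1 i j = Tmat x0 x1 z e0 e1 j i := by
  fin_cases i <;> fin_cases j <;> rfl

/-- the relations between the five elements. -/
structure Five (x0 x1 z e0 e1 : L) : Prop where
  e0x0 : ⁅e0, x0⁆ = ⁅x0, z⁆
  e0z : ⁅e0, z⁆ = -⁅x0, z⁆
  e0x1 : ⁅e0, x1⁆ = 0
  e1x1 : ⁅e1, x1⁆ = ⁅x1, z⁆
  e1z : ⁅e1, z⁆ = -⁅x1, z⁆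
  e1x0 : ⁅e1, x0⁆ = 0

theorem Five.rel2 {x0 x1 z e0 e1 : L} (h : Five x0 x1 z e0 e1) :
    ∀ i j k l : Fin 4, i ≠ j → i ≠ k → i ≠ l → j ≠ k → j ≠ l → k ≠ l →
      ⁅Tmat x0 x1 z e0 e1 i j, Tmat x0 x1 z e0 e1 k l⁆ = 0 := by
  have a1 := h.e0x0
  have a2 := h.e0z
  have a3 := h.e0x1
  have a4 := h.e1x1
  have a5 := h.e1z
  have a6 := h.e1x0
  have b1 : ⁅x0, e0⁆ = -⁅x0, z⁆ := by rw [← lie_skew, a1]
  have b2 : ⁅z, e0⁆ = ⁅x0, z⁆ := by rw [← lie_skew, a2, neg_neg]
  have b3 : ⁅x1, e0⁆ = 0 := by rw [← lie_skew, a3, neg_zero]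
  have b4 : ⁅x1, e1⁆ = -⁅x1, z⁆ := by rw [← lie_skew, a4]
  have b5 : ⁅z, e1⁆ = ⁅x1, z⁆ := by rw [← lie_skew, a5, neg_neg]
  have b6 : ⁅x0, e1⁆ = 0 := by rw [← lie_skew, a6, neg_zero]
  have c1 : ⁅z, x0⁆ = -⁅x0, z⁆ := by rw [← lie_skew]
  have c2 : ⁅z, x1⁆ = -⁅x1, z⁆ := by rw [← lie_skew]
  have c3 : ⁅x1, x0⁆ = -⁅x0, x1⁆ := by rw [← lie_skew]
  have c4 : ⁅e1, e0⁆ = -⁅e0, e1⁆ := by rw [← lie_skew]
  intro i j k l h1 h2 h3 h4 h5 h6
  fin_cases i <;> fin_cases j <;> fin_cases k <;> fin_cases l <;>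
    first
    | exact absurd rfl h1
    | exact absurd rfl h2
    | exact absurd rfl h3
    | exact absurd rfl h4
    | exact absurd rfl h5
    | exact absurd rfl h6
    | (simp only [Tmat, Fin.isValue, Fin.zero_eta, Fin.mk_one, Fin.reduceFinMk,
        Matrix.cons_val, lie_add, add_lie, lie_neg, neg_lie, lie_self, a1, a2, a3, a4, a5, a6,
        b1, b2, b3, b4, b5, b6, c1, c2, c3, c4]
       try abel)

theorem Five.rel3 {x0 x1 z e0 e1 : L} (h : Five x0 x1 z e0 e1) :
    ∀ i j k : Fin 4, i ≠ j → i ≠ k → j ≠ k →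
      ⁅Tmat x0 x1 z e0 e1 i j, Tmat x0 x1 z e0 e1 i k + Tmat x0 x1 z e0 e1 j k⁆ = 0 := by
  have a1 := h.e0x0
  have a2 := h.e0z
  have a3 := h.e0x1
  have a4 := h.e1x1
  have a5 := h.e1z
  have a6 := h.e1x0
  have b1 : ⁅x0, e0⁆ = -⁅x0, z⁆ := by rw [← lie_skew, a1]
  have b2 : ⁅z, e0⁆ = ⁅x0, z⁆ := by rw [← lie_skew, a2, neg_neg]
  have b3 : ⁅x1, e0⁆ = 0 := by rw [← lie_skew, a3, neg_zero]
  have b4 : ⁅x1, e1⁆ = -⁅x1, z⁆ := by rw [← lie_skew, a4]
  have b5 : ⁅z, e1⁆ = ⁅x1, z⁆ := by rw [← lie_skew, a5, neg_neg]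
  have b6 : ⁅x0, e1⁆ = 0 := by rw [← lie_skew, a6, neg_zero]
  have c1 : ⁅z, x0⁆ = -⁅x0, z⁆ := by rw [← lie_skew]
  have c2 : ⁅z, x1⁆ = -⁅x1, z⁆ := by rw [← lie_skew]
  have c3 : ⁅x1, x0⁆ = -⁅x0, x1⁆ := by rw [← lie_skew]
  have c4 : ⁅e1, e0⁆ = -⁅e0, e1⁆ := by rw [← lie_skew]
  intro i j k h1 h2 h3
  fin_cases i <;> fin_cases j <;> fin_cases k <;>
    first
    | exact absurd rfl h1
    | exact absurd rfl h2
    | exact absurd rfl h3
    | (simp only [Tmat, Fin.isValue, Fin.zero_eta, Fin.mk_one, Fin.reduceFinMk,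
        Matrix.cons_val, lie_add, add_lie, lie_neg, neg_lie, lie_self, a1, a2, a3, a4, a5, a6,
        b1, b2, b3, b4, b5, b6, c1, c2, c3, c4]
       try abel)

end relations

section frozen

/-- the quotient map as a Lie algebra hom -/
def mkB : FreeBraid4 →ₗ⁅ℚ⁆ braidLie4 :=
  { (LieSubmodule.Quotient.mk' braidIdeal4 : FreeBraid4 →ₗ[ℚ] braidLie4) with
    map_lie' := fun {x y} => LieSubmodule.Quotient.mk_bracket braidIdeal4 x y }

theorem mkB_apply (a : FreeBraid4) : mkB a = LieSubmodule.Quotient.mk a := rfl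

theorem gtSubst_comp {M N : Type*} [LieRing M] [LieAlgebra ℚ M] [LieRing N] [LieAlgebra ℚ N]
    (φ : M →ₗ⁅ℚ⁆ N) (a b : M) (p : GTLie) : φ (gtSubst a b p) = gtSubst (φ a) (φ b) p := by
  have : φ.comp (gtSubst a b) = gtSubst (φ a) (φ b) := by
    apply FreeLieAlgebra.hom_ext
    intro i
    simp only [gtSubst, LieHom.comp_apply, FreeLieAlgebra.lift_of_apply]
    split_ifs <;> rfl
  rw [← this]
  rfl

/-- the pentagon defect upstairs -/
def pentFree (p : GTLie) : FreeBraid4 :=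
  gtSubst (tFree 0 1) (tFree 1 2 + tFree 1 3) p + gtSubst (tFree 0 2 + tFree 1 2) (tFree 2 3) p
    - gtSubst (tFree 1 2) (tFree 2 3) p
    - gtSubst (tFree 0 1 + tFree 0 2) (tFree 1 3 + tFree 2 3) p
    - gtSubst (tFree 0 1) (tFree 1 2) p

theorem mkB_pentFree (p : GTLie) : mkB (pentFree p) = pentagonDefect p := by
  simp only [pentFree, map_add, map_sub, gtSubst_comp]
  rfl

theorem lift_zero_on_ideal {B : Type*} [LieRing B] [LieAlgebra ℚ B] (φ : FreeBraid4 →ₗ⁅ℚ⁆ B)
    (h : ∀ r ∈ braidRelations4, φ r = 0) (a : FreeBraid4) (ha : a ∈ braidIdeal4) : φ a = 0 := by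
  have h1 : braidIdeal4 ≤ φ.ker := by
    apply LieSubmodule.lieSpan_le.mpr
    intro r hr
    exact (LieHom.mem_ker (f := φ)).mpr (h r hr)
  exact (LieHom.mem_ker (f := φ)).mp (h1 ha)

variable {B : Type*} [LieRing B] [LieAlgebra ℚ B]

/-- the Lie hom from the free Lie algebra on the braid generators -/
def phiB (x0 x1 z e0 e1 : B) : FreeBraid4 →ₗ⁅ℚ⁆ B :=
  FreeLieAlgebra.lift ℚ (fun p : BraidGen4 => Tmat x0 x1 z e0 e1 p.1.1 p.1.2)

theorem phiB_tFree (x0 x1 z e0 e1 : B) (i j : Fin 4) (hij : i ≠ j) :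
    phiB x0 x1 z e0 e1 (tFree i j) = Tmat x0 x1 z e0 e1 i j := by
  unfold tFree phiB
  split_ifs with h h'
  · rw [FreeLieAlgebra.lift_of_apply]
  · rw [FreeLieAlgebra.lift_of_apply, Tmat_symm]
  · exact absurd (le_antisymm (not_lt.mp h') (not_lt.mp h)) hij

theorem phiB_ideal {x0 x1 z e0 e1 : B} (h : Five x0 x1 z e0 e1) (a : FreeBraid4)
    (ha : a ∈ braidIdeal4) : phiB x0 x1 z e0 e1 a = 0 := by
  refine lift_zero_on_ideal _ ?_ a ha
  rintro r (⟨i, j, k, l, h1, h2, h3, h4, h5, h6, rfl⟩ | ⟨i, j, k, h1, h2, h3, rfl⟩)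
  · rw [LieHom.map_lie, phiB_tFree _ _ _ _ _ _ _ h1, phiB_tFree _ _ _ _ _ _ _ h6]
    exact h.rel2 i j k l h1 h2 h3 h4 h5 h6
  · rw [LieHom.map_lie, map_add, phiB_tFree _ _ _ _ _ _ _ h1, phiB_tFree _ _ _ _ _ _ _ h2,
      phiB_tFree _ _ _ _ _ _ _ h3]
    exact h.rel3 i j k h1 h2 h3

theorem pent_lie {x0 x1 z e0 e1 : B} (h : Five x0 x1 z e0 e1) (p : GTLie)
    (hp : pentagonDefect p = 0) :
    gtSubst x0 (z + x1) p + gtSubst (e0 + z) e1 p - gtSubst z e1 p - gtSubst (x0 + e0) (x1 + e1) p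
      - gtSubst x0 z p = 0 := by
  have h1 : pentFree p ∈ braidIdeal4 := by
    have h2 := mkB_pentFree p
    rw [hp, mkB_apply] at h2
    exact (LieSubmodule.Quotient.mk_eq_zero').mp h2
  have h3 := phiB_ideal h _ h1
  simp only [pentFree, map_add, map_sub, gtSubst_comp] at h3
  rw [phiB_tFree _ _ _ _ _ 0 1 (by decide), phiB_tFree _ _ _ _ _ 1 2 (by decide),
    phiB_tFree _ _ _ _ _ 1 3 (by decide), phiB_tFree _ _ _ _ _ 0 2 (by decide),
    phiB_tFree _ _ _ _ _ 2 3 (by decide)] at h3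
  exact h3

end frozen

section assoc
variable {B : Type*} [Ring B] [Algebra ℚ B]

theorem gtSubst_eq_ev (a b : B) (p : GTLie) : gtSubst a b p = ev a b (iota p) := by
  have : (gtSubst a b : GTLie →ₗ⁅ℚ⁆ B) =
      ((ev a b : FreeAlgebra ℚ (Fin 2) →ₐ[ℚ] B).toLieHom).comp iota := by
    apply FreeLieAlgebra.hom_ext
    intro i
    simp only [gtSubst, iota, LieHom.comp_apply, FreeLieAlgebra.lift_of_apply,
      AlgHom.toLieHom_apply, ev, FreeAlgebra.lift_ι_apply]
  rw [this]
  rfl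

theorem pent_assoc {x0 x1 z e0 e1 : B} (h : Five x0 x1 z e0 e1) (p : GTLie)
    (hp : pentagonDefect p = 0) : PentOp x0 x1 z e0 e1 (iota p) := by
  have h1 := pent_lie h p hp
  simp only [gtSubst_eq_ev] at h1
  unfold PentOp
  rw [add_comm z x1] at h1
  rw [← sub_eq_zero, ← h1]
  abel

end assoc

section constant

/-- the augmentation -/
def eps (K : Type*) [CommRing K] (X : Type*) : FreeAlgebra K X →ₐ[K] K :=
  FreeAlgebra.lift K (fun _ => 0)

theorem ev_apply_kill {K : Type*} [CommRing K] {M : Type*} [AddCommGroup M] [Module K M]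
    (A B : Module.End K M) (u : M) (hA : A u = 0) (hB : B u = 0) (f : FreeAlgebra K (Fin 2)) :
    ev A B f u = eps K (Fin 2) f • u := by
  induction f with
  | grade0 r =>
    rw [AlgHom.commutes, AlgHom.commutes, Module.algebraMap_end_apply]
    rfl
  | grade1 i =>
    unfold ev eps
    rw [FreeAlgebra.lift_ι_apply, FreeAlgebra.lift_ι_apply, zero_smul]
    split_ifs
    · exact hA
    · exact hB
  | mul a b ha hb =>
    rw [map_mul, map_mul, Module.End.mul_apply, hb, map_smul, ha, smul_smul, mul_comm]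
  | add a b ha hb => rw [map_add, map_add, LinearMap.add_apply, ha, hb, add_smul]

theorem eps_iota (p : GTLie) : eps ℚ (Fin 2) (iota p) = 0 := by
  have h : ((eps ℚ (Fin 2)).toLieHom).comp iota = 0 := by
    apply FreeLieAlgebra.hom_ext
    intro i
    simp [iota, eps]
  have := LieHom.congr_fun h p
  simpa using this

end constant

section base
variable {R S : Type*} [CommRing R] [CommRing S]

theorem equiv_bc (σ : R →+* S) {X : Type*} (f : FreeAlgebra R X) :
    FreeAlgebra.equivMonoidAlgebraFreeMonoid (C.bc σ X f) =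
      MonoidAlgebra.mapRingHom (FreeMonoid X) σ
        (FreeAlgebra.equivMonoidAlgebraFreeMonoid f) := by
  induction f with
  | grade0 r =>
    rw [C.bc_algebraMap, AlgEquiv.commutes, AlgEquiv.commutes]
    exact (RingHom.congr_fun
      (MonoidAlgebra.mapRingHom_comp_algebraMap (M := FreeMonoid X) σ) r).symm
  | grade1 x =>
    rw [C.bc_ι]
    simp [FreeAlgebra.equivMonoidAlgebraFreeMonoid]
  | mul a b ha hb => rw [map_mul, map_mul, map_mul, map_mul, ha, hb]
  | add a b ha hb => rw [map_add, map_add, map_add, map_add, ha, hb]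

theorem cf_bc (σ : R →+* S) {X : Type*} (w : List X) (f : FreeAlgebra R X) :
    cf w (C.bc σ X f) = σ (cf w f) := by
  unfold cf
  simp only [LinearMap.coe_mk, AddHom.coe_mk]
  rw [equiv_bc, MonoidAlgebra.coeff_mapRingHom]

theorem ext_cf {K : Type*} [CommRing K] {X : Type*} {f g : FreeAlgebra K X}
    (h : ∀ w : List X, cf w f = cf w g) : f = g := by
  apply (FreeAlgebra.equivMonoidAlgebraFreeMonoid (R := K) (X := X)).injective
  apply MonoidAlgebra.ext
  ext w
  exact h (FreeMonoid.toList w)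

theorem bc_injective (σ : R →+* S) (hσ : Function.Injective σ) (X : Type*) :
    Function.Injective (C.bc σ X) := by
  intro f g h
  apply ext_cf
  intro w
  have := congrArg (cf w) h
  rw [cf_bc, cf_bc] at this
  exact hσ this

/-- the base change of `R`-elements spans over `S`. -/
theorem span_bc (σ : R →+* S) (X : Type*) :
    Submodule.span S (Set.range (C.bc σ X)) = ⊤ := by
  rw [eq_top_iff]
  rintro u -
  induction u with
  | grade0 r =>
    rw [Algebra.algebraMap_eq_smul_one]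
    exact Submodule.smul_mem _ _ (Submodule.subset_span ⟨1, map_one _⟩)
  | grade1 x => exact Submodule.subset_span ⟨ι R x, C.bc_ι σ X x⟩
  | mul a b ha hb =>
    have := Submodule.mul_mem_mul ha hb
    rw [Submodule.span_mul_span] at this
    refine Submodule.span_mono ?_ this
    rintro _ ⟨_, ⟨a, rfl⟩, _, ⟨b, rfl⟩, rfl⟩
    exact ⟨a * b, map_mul _ _ _⟩
  | add a b ha hb => exact Submodule.add_mem _ ha hb

/-- `A'` is the base change of `A`. -/
def BC (σ : R →+* S) {X : Type*} (A : Module.End R (FreeAlgebra R X))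
    (A' : Module.End S (FreeAlgebra S X)) : Prop :=
  ∀ u, C.bc σ X (A u) = A' (C.bc σ X u)

namespace BC
variable {σ : R →+* S} {X : Type*} {A B : Module.End R (FreeAlgebra R X)}
  {A' B' : Module.End S (FreeAlgebra S X)}

theorem add (hA : BC σ A A') (hB : BC σ B B') : BC σ (A + B) (A' + B') := by
  intro u
  rw [LinearMap.add_apply, LinearMap.add_apply, map_add, hA, hB]

theorem sub (hA : BC σ A A') (hB : BC σ B B') : BC σ (A - B) (A' - B') := by
  intro u
  rw [LinearMap.sub_apply, LinearMap.sub_apply, map_sub, hA, hB]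

theorem neg (hA : BC σ A A') : BC σ (-A) (-A') := by
  intro u
  rw [LinearMap.neg_apply, LinearMap.neg_apply, map_neg, hA]

theorem mul (hA : BC σ A A') (hB : BC σ B B') : BC σ (A * B) (A' * B') := by
  intro u
  rw [Module.End.mul_apply, Module.End.mul_apply, hA, hB]

theorem mulLeft {a : FreeAlgebra R X} {a' : FreeAlgebra S X} (h : C.bc σ X a = a') :
    BC σ (LinearMap.mulLeft R a) (LinearMap.mulLeft S a') := by
  intro u
  simp [h]

theorem mulRight {a : FreeAlgebra R X} {a' : FreeAlgebra S X} (h : C.bc σ X a = a') :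
    BC σ (LinearMap.mulRight R a) (LinearMap.mulRight S a') := by
  intro u
  simp [h]

theorem der {d : X → FreeAlgebra R X} {d' : X → FreeAlgebra S X}
    (h : ∀ x, C.bc σ X (d x) = d' x) : BC σ (C.der R d) (C.der S d') := by
  intro f
  induction f with
  | grade0 r => rw [C.der_algebraMap, C.bc_algebraMap, map_zero, C.der_algebraMap]
  | grade1 x => rw [C.bc_ι, C.der_ι, C.der_ι, h]
  | mul a b ha hb =>
    rw [C.der_mul, map_add, map_mul, map_mul, ha, hb, map_mul (C.bc σ X) a b, C.der_mul]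
  | add a b ha hb => rw [map_add, map_add, map_add, map_add, ha, hb]

theorem ev (hA : BC σ A A') (hB : BC σ B B') (f : FreeAlgebra R (Fin 2)) :
    BC σ (ev A B f) (R010.ev A' B' (C.bc σ (Fin 2) f)) := by
  induction f with
  | grade0 r =>
    intro u
    rw [AlgHom.commutes, C.bc_algebraMap, AlgHom.commutes, Module.algebraMap_end_apply,
      Module.algebraMap_end_apply, C.bc_smul]
  | grade1 i =>
    intro u
    rw [C.bc_ι]
    unfold R010.ev
    rw [FreeAlgebra.lift_ι_apply, FreeAlgebra.lift_ι_apply]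
    split_ifs
    · exact hA u
    · exact hB u
  | mul a b ha hb =>
    intro u
    rw [map_mul, map_mul, map_mul, Module.End.mul_apply, Module.End.mul_apply, ha, hb]
  | add a b ha hb =>
    intro u
    rw [map_add, map_add, map_add, LinearMap.add_apply, LinearMap.add_apply, map_add, ha, hb]

/-- equality of operators descends along injective maps -/
theorem eq_of_inj (hσ : Function.Injective σ) (hA : BC σ A A') (hB : BC σ B B')
    (h : A' = B') : A = B := by
  apply LinearMap.ext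
  intro u
  apply bc_injective σ hσ X
  rw [hA, hB, h]

/-- equality of operators is preserved by base change -/
theorem eq_of_eq (hA : BC σ A A') (hB : BC σ B B') (h : A = B) : A' = B' := by
  apply LinearMap.ext
  intro v
  have hv : v ∈ Submodule.span S (Set.range (C.bc σ X)) := by
    rw [span_bc]; trivial
  induction hv using Submodule.span_induction with
  | mem x hx =>
    obtain ⟨u, rfl⟩ := hx
    rw [← hA, ← hB, h]
  | zero => simp only [map_zero]
  | add x y _ _ hx hy => rw [map_add, map_add, hx, hy]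
  | smul a x _ hx => rw [map_smul, map_smul, hx]

end BC

theorem PentOp.bc_left {σ : R →+* S} {X : Type*} {x0 x1 z e0 e1 : Module.End R (FreeAlgebra R X)}
    {x0' x1' z' e0' e1' : Module.End S (FreeAlgebra S X)} (h0 : BC σ x0 x0') (h1 : BC σ x1 x1')
    (hz : BC σ z z') (g0 : BC σ e0 e0') (g1 : BC σ e1 e1') (f : FreeAlgebra R (Fin 2)) :
    BC σ (ev x0 (x1 + z) f + ev (e0 + z) e1 f)
      (ev x0' (x1' + z') (C.bc σ _ f) + ev (e0' + z') e1' (C.bc σ _ f)) :=
  (h0.ev (h1.add hz) f).add ((g0.add hz).ev g1 f)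

theorem PentOp.bc_right {σ : R →+* S} {X : Type*} {x0 x1 z e0 e1 : Module.End R (FreeAlgebra R X)}
    {x0' x1' z' e0' e1' : Module.End S (FreeAlgebra S X)} (h0 : BC σ x0 x0') (h1 : BC σ x1 x1')
    (hz : BC σ z z') (g0 : BC σ e0 e0') (g1 : BC σ e1 e1') (f : FreeAlgebra R (Fin 2)) :
    BC σ (ev z e1 f + ev (x0 + e0) (x1 + e1) f + ev x0 z f)
      (ev z' e1' (C.bc σ _ f) + ev (x0' + e0') (x1' + e1') (C.bc σ _ f) +
        ev x0' z' (C.bc σ _ f)) :=
  ((hz.ev g1 f).add ((h0.add g0).ev (h1.add g1) f)).add (h0.ev hz f)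

/-- the five operators over `ℚ` (satisfying `Five`) come from `ℤ` and go to `S`: the frozen
pentagon holds over `S` for integral elements. -/
theorem pent_transfer {X : Type*} {x0 x1 z e0 e1 : Module.End ℚ (FreeAlgebra ℚ X)}
    (h : Five x0 x1 z e0 e1) {x0' x1' z' e0' e1' : Module.End R (FreeAlgebra R X)}
    {x0'' x1'' z'' e0'' e1'' : Module.End S (FreeAlgebra S X)}
    (σ : R →+* ℚ) (hσ : Function.Injective σ) (τ : R →+* S)
    (h0 : BC σ x0' x0) (h1 : BC σ x1' x1) (hz : BC σ z' z) (g0 : BC σ e0' e0) (g1 : BC σ e1' e1)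
    (h0' : BC τ x0' x0'') (h1' : BC τ x1' x1'') (hz' : BC τ z' z'') (g0' : BC τ e0' e0'')
    (g1' : BC τ e1' e1'') (p : GTLie) (hp : pentagonDefect p = 0) (f : FreeAlgebra R (Fin 2))
    (hf : C.bc σ (Fin 2) f = iota p) : PentOp x0'' x1'' z'' e0'' e1'' (C.bc τ (Fin 2) f) := by
  have hQ := pent_assoc h p hp
  rw [← hf] at hQ
  exact BC.eq_of_eq (PentOp.bc_left h0' h1' hz' g0' g1' f) (PentOp.bc_right h0' h1' hz' g0' g1' f)
    (BC.eq_of_inj hσ (PentOp.bc_left h0 h1 hz g0 g1 f) (PentOp.bc_right h0 h1 hz g0 g1 f) hQ)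

end base

section gauges
variable (K : Type*) [CommRing K]

theorem lie_der_mulLeft {X : Type*} (d : X → FreeAlgebra K X) (a : FreeAlgebra K X) :
    ⁅C.der K d, (LinearMap.mulLeft K a : Module.End K (FreeAlgebra K X))⁆ =
      LinearMap.mulLeft K (C.der K d a) := by
  apply LinearMap.ext
  intro u
  simp [LieRing.of_associative_ring_bracket, Module.End.mul_apply, C.der_mul]

theorem lie_mulLeft_mulLeft {X : Type*} (a b : FreeAlgebra K X) :
    ⁅(LinearMap.mulLeft K a : Module.End K (FreeAlgebra K X)),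
      (LinearMap.mulLeft K b : Module.End K (FreeAlgebra K X))⁆ =
      LinearMap.mulLeft K (a * b - b * a) := by
  apply LinearMap.ext
  intro u
  simp [LieRing.of_associative_ring_bracket, Module.End.mul_apply, sub_mul, mul_assoc]

theorem mulLeft_neg' {X : Type*} (a : FreeAlgebra K X) :
    (LinearMap.mulLeft K (-a) : Module.End K (FreeAlgebra K X)) = -LinearMap.mulLeft K a := by
  apply LinearMap.ext
  intro u
  simp

theorem mulLeft_zero' {X : Type*} :
    (LinearMap.mulLeft K (0 : FreeAlgebra K X) : Module.End K (FreeAlgebra K X)) = 0 := by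
  apply LinearMap.ext
  intro u
  simp

/-- gauge 0 : `t02` acts by the derivation `x0 ↦ [x0,z]`, `x1 ↦ 0`, `z ↦ [z,x0]`. -/
def E0 : Module.End K (C.Alg3 K) :=
  C.der K ![C.x0 K * C.zz K - C.zz K * C.x0 K, 0, C.zz K * C.x0 K - C.x0 K * C.zz K]

/-- gauge 0 : `t23` acts by the derivation `x0 ↦ 0`, `x1 ↦ [x1,z]`, `z ↦ [z,x1]` (this is
`C.D1`). -/
def E1 : Module.End K (C.Alg3 K) :=
  C.der K ![0, C.x1 K * C.zz K - C.zz K * C.x1 K, C.zz K * C.x1 K - C.x1 K * C.zz K]

theorem E1_eq : E1 K = C.D1 K := rfl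

/-- values on letters -/
theorem E0_x0 : E0 K (C.x0 K) = C.x0 K * C.zz K - C.zz K * C.x0 K := C.der_ι _ _
theorem E0_x1 : E0 K (C.x1 K) = 0 := C.der_ι _ _
theorem E0_zz : E0 K (C.zz K) = C.zz K * C.x0 K - C.x0 K * C.zz K := C.der_ι _ _
theorem E1_x0 : E1 K (C.x0 K) = 0 := C.der_ι _ _
theorem E1_x1 : E1 K (C.x1 K) = C.x1 K * C.zz K - C.zz K * C.x1 K := C.der_ι _ _
theorem E1_zz : E1 K (C.zz K) = C.zz K * C.x1 K - C.x1 K * C.zz K := C.der_ι _ _

theorem five_der : Five (C.L3 K (C.x0 K)) (C.L3 K (C.x1 K)) (C.L3 K (C.zz K)) (E0 K) (E1 K) where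
  e0x0 := by
    unfold C.L3 E0
    rw [lie_der_mulLeft, lie_mulLeft_mulLeft]
    exact congrArg _ (E0_x0 K)
  e0z := by
    unfold C.L3 E0
    rw [lie_der_mulLeft, lie_mulLeft_mulLeft, ← mulLeft_neg', neg_sub]
    exact congrArg _ (E0_zz K)
  e0x1 := by
    unfold C.L3 E0
    rw [lie_der_mulLeft, ← mulLeft_zero' K]
    exact congrArg _ (E0_x1 K)
  e1x1 := by
    unfold C.L3 E1
    rw [lie_der_mulLeft, lie_mulLeft_mulLeft]
    exact congrArg _ (E1_x1 K)
  e1z := by
    unfold C.L3 E1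
    rw [lie_der_mulLeft, lie_mulLeft_mulLeft, ← mulLeft_neg', neg_sub]
    exact congrArg _ (E1_zz K)
  e1x0 := by
    unfold C.L3 E1
    rw [lie_der_mulLeft, ← mulLeft_zero' K]
    exact congrArg _ (E1_x0 K)

/-- values of the derivations `D0`, `D1` of `CDefs` -/
theorem D0_x0 : C.D0 K (C.x0 K) = 0 := C.der_ι _ _
theorem D0_x1 : C.D0 K (C.x1 K) = C.zz K * C.x1 K - C.x1 K * C.zz K := C.der_ι _ _
theorem D0_zz : C.D0 K (C.zz K) = C.zz K * C.x0 K - C.x0 K * C.zz K := C.der_ι _ _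
theorem D1_x0 : C.D1 K (C.x0 K) = 0 := C.der_ι _ _
theorem D1_x1 : C.D1 K (C.x1 K) = C.x1 K * C.zz K - C.zz K * C.x1 K := C.der_ι _ _
theorem D1_zz : C.D1 K (C.zz K) = C.zz K * C.x1 K - C.x1 K * C.zz K := C.der_ι _ _

theorem five_fib : Five (C.L3 K (C.x0 K)) (C.L3 K (C.x1 K)) (C.L3 K (C.zz K))
    (C.D0 K - C.L3 K (C.zz K)) (C.D1 K) where
  e0x0 := by
    unfold C.L3 C.D0
    rw [sub_lie, lie_der_mulLeft, lie_mulLeft_mulLeft, lie_mulLeft_mulLeft]
    have := D0_x0 K
    unfold C.D0 at this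
    rw [this, mulLeft_zero', zero_sub, ← mulLeft_neg', neg_sub]
  e0z := by
    unfold C.L3 C.D0
    rw [sub_lie, lie_der_mulLeft, lie_mulLeft_mulLeft, lie_mulLeft_mulLeft]
    have := D0_zz K
    unfold C.D0 at this
    rw [this, sub_self (C.zz K * C.zz K), mulLeft_zero', sub_zero, ← mulLeft_neg', neg_sub]
  e0x1 := by
    unfold C.L3 C.D0
    rw [sub_lie, lie_der_mulLeft, lie_mulLeft_mulLeft]
    have := D0_x1 K
    unfold C.D0 at this
    rw [this, sub_self]
  e1x1 := five_der K |>.e1x1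
  e1z := five_der K |>.e1z
  e1x0 := five_der K |>.e1x0

end gauges

section final

variable {K : Type*} [CommRing K]

theorem bc_L3 {R S : Type*} [CommRing R] [CommRing S] (σ : R →+* S) (i : Fin 3) :
    BC σ (C.L3 R (ι R i)) (C.L3 S (ι S i)) := BC.mulLeft (C.bc_ι σ _ i)

theorem bc_E0 {R S : Type*} [CommRing R] [CommRing S] (σ : R →+* S) : BC σ (E0 R) (E0 S) := by
  apply BC.der
  intro i
  fin_cases i <;> simp [C.x0, C.x1, C.zz]

theorem bc_E1 {R S : Type*} [CommRing R] [CommRing S] (σ : R →+* S) : BC σ (E1 R) (E1 S) := by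
  apply BC.der
  intro i
  fin_cases i <;> simp [C.x0, C.x1, C.zz]

theorem bc_D0 {R S : Type*} [CommRing R] [CommRing S] (σ : R →+* S) : BC σ (C.D0 R) (C.D0 S) := by
  apply BC.der
  intro i
  fin_cases i <;> simp [C.x0, C.x1, C.zz]

theorem bc_D1 {R S : Type*} [CommRing R] [CommRing S] (σ : R →+* S) : BC σ (C.D1 R) (C.D1 S) :=
  bc_E1 σ

/-- **(m1)**, gauge 0: the pentagon in the fibre module with `t02`, `t23` acting by derivations,
over every commutative ring, for (the reduction of) integral solutions. -/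
theorem pentOp_der (S : Type*) [CommRing S] (p : GTLie) (hp : pentagonDefect p = 0)
    (f : FreeAlgebra ℤ (Fin 2)) (hf : C.bc (Int.castRingHom ℚ) (Fin 2) f = iota p) :
    PentOp (C.L3 S (C.x0 S)) (C.L3 S (C.x1 S)) (C.L3 S (C.zz S)) (E0 S) (E1 S)
      (C.bc (Int.castRingHom S) (Fin 2) f) :=
  pent_transfer (five_der ℚ) (Int.castRingHom ℚ) (RingHom.injective_int _) (Int.castRingHom S)
    (bc_L3 _ 0) (bc_L3 _ 1) (bc_L3 _ 2) (bc_E0 _) (bc_E1 _)
    (bc_L3 _ 0) (bc_L3 _ 1) (bc_L3 _ 2) (bc_E0 _) (bc_E1 _) p hp f hf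

/-- gauge of `CDefs`: `t02 = D0 - L_z`, `t23 = D1`. -/
theorem pentOp_fib (S : Type*) [CommRing S] (p : GTLie) (hp : pentagonDefect p = 0)
    (f : FreeAlgebra ℤ (Fin 2)) (hf : C.bc (Int.castRingHom ℚ) (Fin 2) f = iota p) :
    PentOp (C.L3 S (C.x0 S)) (C.L3 S (C.x1 S)) (C.L3 S (C.zz S)) (C.D0 S - C.L3 S (C.zz S))
      (C.D1 S) (C.bc (Int.castRingHom S) (Fin 2) f) :=
  pent_transfer (five_fib ℚ) (Int.castRingHom ℚ) (RingHom.injective_int _) (Int.castRingHom S)
    (bc_L3 _ 0) (bc_L3 _ 1) (bc_L3 _ 2) ((bc_D0 _).sub (bc_L3 _ 2)) (bc_D1 _)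
    (bc_L3 _ 0) (bc_L3 _ 1) (bc_L3 _ 2) ((bc_D0 _).sub (bc_L3 _ 2)) (bc_D1 _) p hp f hf

theorem ev2_eq_ev {R B : Type*} [CommRing R] [Ring B] [Algebra R B] (a b : B) :
    C.ev2 R a b = ev a b := by
  apply FreeAlgebra.hom_ext
  funext i
  fin_cases i <;> simp [C.ev2, ev]

theorem ev_L3 (a b : C.Alg3 K) (f : FreeAlgebra K (Fin 2)) :
    ev (C.L3 K a) (C.L3 K b) f = C.L3 K (ev a b f) := by
  induction f with
  | grade0 r =>
    rw [AlgHom.commutes, AlgHom.commutes]
    apply LinearMap.ext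
    intro u
    simp [C.L3, Algebra.smul_def]
  | grade1 i =>
    unfold ev
    rw [FreeAlgebra.lift_ι_apply, FreeAlgebra.lift_ι_apply]
    split_ifs <;> rfl
  | mul a b ha hb =>
    rw [map_mul, map_mul, ha, hb]
    apply LinearMap.ext
    intro u
    simp [C.L3, mul_assoc]
  | add a b ha hb =>
    rw [map_add, map_add, ha, hb]
    apply LinearMap.ext
    intro u
    simp [C.L3, add_mul]

theorem L3_add (a b : C.Alg3 K) : C.L3 K (a + b) = C.L3 K a + C.L3 K b := by
  apply LinearMap.ext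
  intro u
  simp [C.L3, add_mul]

theorem eps_bc {R S : Type*} [CommRing R] [CommRing S] (σ : R →+* S) (X : Type*)
    (f : FreeAlgebra R X) : eps S X (C.bc σ X f) = σ (eps R X f) := by
  induction f with
  | grade0 r => rw [C.bc_algebraMap, AlgHom.commutes, AlgHom.commutes]; rfl
  | grade1 x => simp [eps]
  | mul a b ha hb => rw [map_mul, map_mul, map_mul, map_mul, ha, hb]
  | add a b ha hb => rw [map_add, map_add, map_add, map_add, ha, hb]

theorem eps_integral (S : Type*) [CommRing S] (p : GTLie) (f : FreeAlgebra ℤ (Fin 2))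
    (hf : C.bc (Int.castRingHom ℚ) (Fin 2) f = iota p) :
    eps S (Fin 2) (C.bc (Int.castRingHom S) (Fin 2) f) = 0 := by
  have h1 : eps ℤ (Fin 2) f = 0 := by
    have h2 := eps_iota p
    rw [← hf, eps_bc] at h2
    exact (RingHom.injective_int (Int.castRingHom ℚ)) (by rw [h2, map_zero])
  rw [eps_bc, h1, map_zero]

/-- **(PENT)** the interface of `CDefs`: the fibre pentagon for the reduction of an integral
element representing a solution of the frozen pentagon. -/
theorem fibrePent_of (S : Type*) [CommRing S] (p : GTLie) (hp : pentagonDefect p = 0)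
    (f : FreeAlgebra ℤ (Fin 2)) (hf : C.bc (Int.castRingHom ℚ) (Fin 2) f = iota p) :
    C.FibrePent S (C.bc (Int.castRingHom S) (Fin 2) f) := by
  have h := pentOp_fib S p hp f hf
  unfold PentOp at h
  unfold C.FibrePent
  rw [ev2_eq_ev, ev2_eq_ev, ev2_eq_ev, ev2_eq_ev]
  have h1 := DFunLike.congr_fun h (1 : C.Alg3 S)
  rw [sub_add_cancel, ← L3_add, ev_L3, ev_L3] at h1
  simp only [LinearMap.add_apply] at h1
  rw [ev_apply_kill (C.D0 S) (C.D1 S) (1 : C.Alg3 S) (C.der_one _) (C.der_one _),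
    eps_integral S p f hf, zero_smul, add_zero] at h1
  simp only [C.L3, LinearMap.mulLeft_apply, mul_one] at h1
  rw [h1]
  unfold C.L3
  have e : LinearMap.mulLeft S (C.x0 S) - LinearMap.mulLeft S (C.zz S) + C.D0 S =
      LinearMap.mulLeft S (C.x0 S) + (C.D0 S - LinearMap.mulLeft S (C.zz S)) := by abel
  rw [e]
  abel

theorem fibrePent_rat (p : GTLie) (hp : pentagonDefect p = 0) : C.FibrePent ℚ (iota p) := by
  have h := pent_assoc (five_fib ℚ) p hp
  unfold PentOp at h
  unfold C.FibrePent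
  rw [ev2_eq_ev, ev2_eq_ev, ev2_eq_ev, ev2_eq_ev]
  have h1 := DFunLike.congr_fun h (1 : C.Alg3 ℚ)
  rw [sub_add_cancel, ← L3_add, ev_L3, ev_L3] at h1
  simp only [LinearMap.add_apply] at h1
  rw [ev_apply_kill (C.D0 ℚ) (C.D1 ℚ) (1 : C.Alg3 ℚ) (C.der_one _) (C.der_one _),
    eps_iota, zero_smul, add_zero] at h1
  simp only [C.L3, LinearMap.mulLeft_apply, mul_one] at h1
  rw [h1]
  unfold C.L3
  have e : LinearMap.mulLeft ℚ (C.x0 ℚ) - LinearMap.mulLeft ℚ (C.zz ℚ) + C.D0 ℚ =
      LinearMap.mulLeft ℚ (C.x0 ℚ) + (C.D0 ℚ - LinearMap.mulLeft ℚ (C.zz ℚ)) := by abel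
  rw [e]
  abel

end final

section quotients
variable {K : Type*} [CommRing K]

/-- evaluation commutes with intertwining maps -/
theorem ev_intertwine {M N : Type*} [AddCommGroup M] [Module K M] [AddCommGroup N] [Module K N]
    (q : M →ₗ[K] N) {A B : Module.End K M} {A' B' : Module.End K N}
    (hA : ∀ u, q (A u) = A' (q u)) (hB : ∀ u, q (B u) = B' (q u)) (f : FreeAlgebra K (Fin 2)) :
    ∀ u, q (ev A B f u) = ev A' B' f (q u) := by
  induction f with
  | grade0 r =>
    intro u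
    rw [AlgHom.commutes, AlgHom.commutes]
    simp [Module.algebraMap_end_apply]
  | grade1 i =>
    intro u
    unfold ev
    rw [FreeAlgebra.lift_ι_apply, FreeAlgebra.lift_ι_apply]
    split_ifs
    · exact hA u
    · exact hB u
  | mul a b ha hb =>
    intro u
    rw [map_mul, map_mul, Module.End.mul_apply, Module.End.mul_apply, ha, hb]
  | add a b ha hb =>
    intro u
    rw [map_add, map_add, LinearMap.add_apply, LinearMap.add_apply, map_add, ha, hb]

/-- the pentagon passes to quotient modules. -/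
theorem PentOp.quot {M N : Type*} [AddCommGroup M] [Module K M] [AddCommGroup N] [Module K N]
    (q : M →ₗ[K] N) (hq : Function.Surjective q)
    {x0 x1 z e0 e1 : Module.End K M} {x0' x1' z' e0' e1' : Module.End K N}
    (h0 : ∀ u, q (x0 u) = x0' (q u)) (h1 : ∀ u, q (x1 u) = x1' (q u))
    (h2 : ∀ u, q (z u) = z' (q u)) (h3 : ∀ u, q (e0 u) = e0' (q u))
    (h4 : ∀ u, q (e1 u) = e1' (q u)) {f : FreeAlgebra K (Fin 2)}
    (h : PentOp x0 x1 z e0 e1 f) : PentOp x0' x1' z' e0' e1' f := by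
  unfold PentOp at h ⊢
  apply LinearMap.ext
  intro v
  obtain ⟨u, rfl⟩ := hq v
  have H := congrArg q (DFunLike.congr_fun h u)
  simp only [LinearMap.add_apply, map_add] at H ⊢
  rw [ev_intertwine q h0 (B' := x1' + z') (fun u => by
        rw [LinearMap.add_apply, LinearMap.add_apply, map_add, h1, h2]),
      ev_intertwine q (A' := e0' + z') (fun u => by
        rw [LinearMap.add_apply, LinearMap.add_apply, map_add, h3, h2]) h4,
      ev_intertwine q h2 h4,
      ev_intertwine q (A' := x0' + e0') (fun u => by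
        rw [LinearMap.add_apply, LinearMap.add_apply, map_add, h0, h3])
        (B' := x1' + e1') (fun u => by
        rw [LinearMap.add_apply, LinearMap.add_apply, map_add, h1, h4]),
      ev_intertwine q h0 h2] at H
  exact H

end quotients

end Crest.Agent.R010.U

end
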