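import Crest.Agent.R010.UBridge

/-!
Row 10, part (U): the fibre pentagon in gauge 2 (helper762's note 8505).
`x0 = L_a`, `x1 = L_b`, `z = L_z`, `e0 = D0 - L_{a+z}`, `e1 = D1 - L_{b+z}`,
`D0 : b ↦ [a+z,b], a,z ↦ 0`, `D1 : a ↦ [b+z,a], b,z ↦ 0`.
(helper442)
-/

set_option autoImplicit false

noncomputable section

namespace Crest.Agent.R010.U

open FreeAlgebra Crest.NumberTheoryR.GT Crest.Agent.R010 Polynomial

attribute [local instance 100] LieRing.ofAssociativeRing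

section
variable (K : Type*) [CommRing K]

/-- gauge 2: `b ↦ [a+z,b]`, `a, z ↦ 0`. -/
def G0 : Module.End K (C.Alg3 K) :=
  C.der K ![0, (C.x0 K + C.zz K) * C.x1 K - C.x1 K * (C.x0 K + C.zz K), 0]

/-- gauge 2: `a ↦ [b+z,a]`, `b, z ↦ 0`. -/
def G1 : Module.End K (C.Alg3 K) :=
  C.der K ![(C.x1 K + C.zz K) * C.x0 K - C.x0 K * (C.x1 K + C.zz K), 0, 0]

theorem G0_x0 : G0 K (C.x0 K) = 0 := C.der_ι _ _
theorem G0_x1 : G0 K (C.x1 K) =
    (C.x0 K + C.zz K) * C.x1 K - C.x1 K * (C.x0 K + C.zz K) := C.der_ι _ _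
theorem G0_zz : G0 K (C.zz K) = 0 := C.der_ι _ _
theorem G1_x0 : G1 K (C.x0 K) =
    (C.x1 K + C.zz K) * C.x0 K - C.x0 K * (C.x1 K + C.zz K) := C.der_ι _ _
theorem G1_x1 : G1 K (C.x1 K) = 0 := C.der_ι _ _
theorem G1_zz : G1 K (C.zz K) = 0 := C.der_ι _ _

theorem lie_G0 (a : C.Alg3 K) : ⁅G0 K, C.L3 K a⁆ = C.L3 K (G0 K a) := lie_der_mulLeft K _ a
theorem lie_G1 (a : C.Alg3 K) : ⁅G1 K, C.L3 K a⁆ = C.L3 K (G1 K a) := lie_der_mulLeft K _ a
theorem lie_L3 (a b : C.Alg3 K) : ⁅C.L3 K a, C.L3 K b⁆ = C.L3 K (a * b - b * a) :=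
  lie_mulLeft_mulLeft K a b
theorem L3_sub (a b : C.Alg3 K) : C.L3 K (a - b) = C.L3 K a - C.L3 K b := by
  apply LinearMap.ext
  intro u
  simp [C.L3, sub_mul]
theorem L3_neg (a : C.Alg3 K) : C.L3 K (-a) = - C.L3 K a := mulLeft_neg' K a
theorem L3_zero : C.L3 K 0 = 0 := mulLeft_zero' K

theorem five_g2 : Five (C.L3 K (C.x0 K)) (C.L3 K (C.x1 K)) (C.L3 K (C.zz K))
    (G0 K - C.L3 K (C.x0 K + C.zz K)) (G1 K - C.L3 K (C.x1 K + C.zz K)) where
  e0x0 := by
    rw [sub_lie, lie_G0, lie_L3, lie_L3, G0_x0, ← L3_sub]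
    congr 1
    noncomm_ring
  e0z := by
    rw [sub_lie, lie_G0, lie_L3, lie_L3, G0_zz, ← L3_sub, ← L3_neg]
    congr 1
    noncomm_ring
  e0x1 := by
    rw [sub_lie, lie_G0, lie_L3, G0_x1, ← L3_sub, ← L3_zero K]
    congr 1
    noncomm_ring
  e1x1 := by
    rw [sub_lie, lie_G1, lie_L3, lie_L3, G1_x1, ← L3_sub]
    congr 1
    noncomm_ring
  e1z := by
    rw [sub_lie, lie_G1, lie_L3, lie_L3, G1_zz, ← L3_sub, ← L3_neg]
    congr 1
    noncomm_ring
  e1x0 := by
    rw [sub_lie, lie_G1, lie_L3, G1_x0, ← L3_sub, ← L3_zero K]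
    congr 1
    noncomm_ring

end

theorem bc_G0 {R S : Type*} [CommRing R] [CommRing S] (σ : R →+* S) : BC σ (G0 R) (G0 S) := by
  apply BC.der
  intro i
  fin_cases i <;> simp [C.x0, C.x1, C.zz]

theorem bc_G1 {R S : Type*} [CommRing R] [CommRing S] (σ : R →+* S) : BC σ (G1 R) (G1 S) := by
  apply BC.der
  intro i
  fin_cases i <;> simp [C.x0, C.x1, C.zz]

/-- the pentagon in gauge 2 for integral elements. -/
theorem pentOp_g2 (S : Type*) [CommRing S] (p : GTLie) (hp : pentagonDefect p = 0)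
    (f : FreeAlgebra ℤ (Fin 2)) (hf : C.bc (Int.castRingHom ℚ) (Fin 2) f = iota p) :
    PentOp (C.L3 S (C.x0 S)) (C.L3 S (C.x1 S)) (C.L3 S (C.zz S))
      (G0 S - C.L3 S (C.x0 S + C.zz S)) (G1 S - C.L3 S (C.x1 S + C.zz S))
      (C.bc (Int.castRingHom S) (Fin 2) f) := by
  have a0 : ∀ {S : Type _} [CommRing S] (σ : ℤ →+* S), BC σ (C.L3 ℤ (C.x0 ℤ + C.zz ℤ))
      (C.L3 S (C.x0 S + C.zz S)) := by
    intro S _ σ
    exact BC.mulLeft (by simp [C.x0, C.zz])
  have a0' : ∀ {S : Type _} [CommRing S] (σ : ℤ →+* S), BC σ (C.L3 ℤ (C.x1 ℤ + C.zz ℤ))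
      (C.L3 S (C.x1 S + C.zz S)) := by
    intro S _ σ
    exact BC.mulLeft (by simp [C.x1, C.zz])
  have b0 : BC (Int.castRingHom ℚ) (C.L3 ℤ (C.x0 ℤ + C.zz ℤ)) (C.L3 ℚ (C.x0 ℚ + C.zz ℚ)) :=
    BC.mulLeft (by simp [C.x0, C.zz])
  have b1 : BC (Int.castRingHom ℚ) (C.L3 ℤ (C.x1 ℤ + C.zz ℤ)) (C.L3 ℚ (C.x1 ℚ + C.zz ℚ)) :=
    BC.mulLeft (by simp [C.x1, C.zz])
  exact pent_transfer (five_g2 ℚ) (Int.castRingHom ℚ) (RingHom.injective_int _) (Int.castRingHom S)
    (bc_L3 _ 0) (bc_L3 _ 1) (bc_L3 _ 2) ((bc_G0 _).sub b0) ((bc_G1 _).sub b1)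
    (bc_L3 _ 0) (bc_L3 _ 1) (bc_L3 _ 2) ((bc_G0 _).sub (a0 _)) ((bc_G1 _).sub (a0' _)) p hp f hf

/-- evaluation at equal commuting elements -/
theorem ev_diag_iota (p : GTLie) {n : ℕ} (hn : 2 ≤ n)
    (hp : p ∈ weightSubspace (fun _ : Fin 2 => 1) n) : ev (X : ℚ[X]) X (iota p) = 0 := by
  have key : ∀ a b : GTLie, ev (X : ℚ[X]) X (iota ⁅a, b⁆) = 0 := by
    intro a b
    rw [LieHom.map_lie, LieRing.of_associative_ring_bracket, map_sub, map_mul, map_mul, mul_comm,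
      sub_self]
  induction hp using Submodule.span_induction with
  | mem x hx =>
    cases hx with
    | of i => exact absurd hn (by decide)
    | lie ha hb => exact key _ _
  | zero => rw [map_zero, map_zero]
  | add x y _ _ hx hy => rw [map_add, map_add, hx, hy, add_zero]
  | smul a x _ hx => rw [map_smul, map_smul, hx, smul_zero]

theorem ev_diag_bc {R S : Type*} [CommRing R] [CommRing S] (σ : R →+* S)
    (f : FreeAlgebra R (Fin 2)) :
    ev (X : S[X]) X (C.bc σ (Fin 2) f) = Polynomial.mapRingHom σ (ev (X : R[X]) X f) := by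
  induction f with
  | grade0 r => rw [C.bc_algebraMap, AlgHom.commutes, AlgHom.commutes]; simp
  | grade1 i =>
    rw [C.bc_ι]
    unfold ev
    rw [FreeAlgebra.lift_ι_apply, FreeAlgebra.lift_ι_apply]
    simp
  | mul a b ha hb => rw [map_mul, map_mul, map_mul, map_mul, ha, hb]
  | add a b ha hb => rw [map_add, map_add, map_add, map_add, ha, hb]

theorem ev_diag_integral (S : Type*) [CommRing S] (p : GTLie) {n : ℕ} (hn : 2 ≤ n)
    (hp : p ∈ weightSubspace (fun _ : Fin 2 => 1) n)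
    (f : FreeAlgebra ℤ (Fin 2)) (hf : C.bc (Int.castRingHom ℚ) (Fin 2) f = iota p) :
    ev (X : S[X]) X (C.bc (Int.castRingHom S) (Fin 2) f) = 0 := by
  have h1 : ev (X : ℤ[X]) X f = 0 := by
    have h2 := ev_diag_iota p hn hp
    rw [← hf, ev_diag_bc] at h2
    exact (Polynomial.map_injective _ (RingHom.injective_int (Int.castRingHom ℚ)))
      (by rw [Polynomial.map_zero]; exact h2)
  rw [ev_diag_bc, h1, map_zero]

/-- evaluation commutes with algebra homs -/
theorem ev_algHom {K B B' : Type*} [CommRing K] [Ring B] [Algebra K B] [Ring B'] [Algebra K B']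
    (φ : B →ₐ[K] B') (a b : B) (f : FreeAlgebra K (Fin 2)) : φ (ev a b f) = ev (φ a) (φ b) f := by
  have : φ.comp (ev a b) = ev (φ a) (φ b) := by
    apply FreeAlgebra.hom_ext
    funext i
    fin_cases i <;> simp [ev]
  rw [← this]
  rfl

theorem ev_mulLeft {K B : Type*} [CommRing K] [Ring B] [Algebra K B] (a b : B)
    (f : FreeAlgebra K (Fin 2)) :
    ev (LinearMap.mulLeft K a : Module.End K B) (LinearMap.mulLeft K b) f =
      LinearMap.mulLeft K (ev a b f) :=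
  (ev_algHom (Algebra.lmul K B) a b f).symm

/-- two operators which act on the powers of `z` by left multiplication with `-z`. -/
theorem ev_kill_z {K : Type*} [CommRing K] (A B : Module.End K (C.Alg3 K))
    (hA : ∀ h : K[X], A (aeval (C.zz K) h) = -(C.zz K * aeval (C.zz K) h))
    (hB : ∀ h : K[X], B (aeval (C.zz K) h) = -(C.zz K * aeval (C.zz K) h))
    (f : FreeAlgebra K (Fin 2)) (hf : ev (X : K[X]) X f = 0) : ev A B f 1 = 0 := by
  have h1 := ev_intertwine (aeval (C.zz K) : K[X] →ₐ[K] C.Alg3 K).toLinearMap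
    (A := LinearMap.mulLeft K (-X)) (B := LinearMap.mulLeft K (-X)) (A' := A) (B' := B)
    (fun u => by simp [hA]) (fun u => by simp [hB]) f 1
  rw [ev_mulLeft] at h1
  have h2 : ev (-X : K[X]) (-X) f = 0 := by
    have := ev_algHom (aeval (-X : K[X])) (X : K[X]) X f
    rw [hf, map_zero, aeval_X] at this
    exact this.symm
  rw [h2] at h1
  simpa using h1.symm

theorem G0_aeval (K : Type*) [CommRing K] (h : K[X]) : G0 K (aeval (C.zz K) h) = 0 := by
  induction h using Polynomial.induction_on' with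
  | add p q hp hq => rw [map_add, map_add, hp, hq, add_zero]
  | monomial n a =>
    rw [aeval_monomial, G0, C.der_mul, C.der_algebraMap, zero_mul, zero_add]
    have : ∀ n : ℕ, C.der K ![0, (C.x0 K + C.zz K) * C.x1 K - C.x1 K * (C.x0 K + C.zz K), 0]
        (C.zz K ^ n) = 0 := by
      intro n
      induction n with
      | zero => rw [pow_zero, C.der_one]
      | succ n ih =>
        rw [pow_succ, C.der_mul, ih, zero_mul, zero_add]
        have := G0_zz K
        unfold G0 at this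
        rw [this, mul_zero]
    rw [this, mul_zero]

theorem G1_aeval (K : Type*) [CommRing K] (h : K[X]) : G1 K (aeval (C.zz K) h) = 0 := by
  induction h using Polynomial.induction_on' with
  | add p q hp hq => rw [map_add, map_add, hp, hq, add_zero]
  | monomial n a =>
    rw [aeval_monomial, G1, C.der_mul, C.der_algebraMap, zero_mul, zero_add]
    have : ∀ n : ℕ, C.der K ![(C.x1 K + C.zz K) * C.x0 K - C.x0 K * (C.x1 K + C.zz K), 0, 0]
        (C.zz K ^ n) = 0 := by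
      intro n
      induction n with
      | zero => rw [pow_zero, C.der_one]
      | succ n ih =>
        rw [pow_succ, C.der_mul, ih, zero_mul, zero_add]
        have := G1_zz K
        unfold G1 at this
        rw [this, mul_zero]
    rw [this, mul_zero]

/-- the fibre pentagon in gauge 2 (equation (E2) of note 8505). -/
def FibrePent2 (R : Type*) [CommRing R] (ψ : C.Alg R) : Prop :=
  ev (C.x0 R) (C.x1 R + C.zz R) ψ +
      ev (G0 R - C.L3 R (C.x0 R)) (G1 R - C.L3 R (C.x1 R + C.zz R)) ψ 1 =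
    ev (C.L3 R (C.zz R)) (G1 R - C.L3 R (C.x1 R + C.zz R)) ψ 1 + ev (C.x0 R) (C.zz R) ψ

theorem fibrePent2_of (S : Type*) [CommRing S] (p : GTLie) (hp : pentagonDefect p = 0)
    {n : ℕ} (hn : 2 ≤ n) (hw : p ∈ weightSubspace (fun _ : Fin 2 => 1) n)
    (f : FreeAlgebra ℤ (Fin 2)) (hf : C.bc (Int.castRingHom ℚ) (Fin 2) f = iota p) :
    FibrePent2 S (C.bc (Int.castRingHom S) (Fin 2) f) := by
  have h := pentOp_g2 S p hp f hf
  unfold PentOp at h
  unfold FibrePent2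
  have h1 := DFunLike.congr_fun h (1 : C.Alg3 S)
  have e1 : G0 S - C.L3 S (C.x0 S + C.zz S) + C.L3 S (C.zz S) = G0 S - C.L3 S (C.x0 S) := by
    rw [L3_add]; abel
  have e2 : C.L3 S (C.x0 S) + (G0 S - C.L3 S (C.x0 S + C.zz S)) = G0 S - C.L3 S (C.zz S) := by
    rw [L3_add]; abel
  have e3 : C.L3 S (C.x1 S) + (G1 S - C.L3 S (C.x1 S + C.zz S)) = G1 S - C.L3 S (C.zz S) := by
    rw [L3_add]; abel
  rw [e1, e2, e3, ← L3_add, ev_L3, ev_L3] at h1
  simp only [LinearMap.add_apply] at h1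
  have h2 := ev_kill_z (G0 S - C.L3 S (C.zz S)) (G1 S - C.L3 S (C.zz S))
    (fun h => by rw [LinearMap.sub_apply, G0_aeval, zero_sub]; rfl)
    (fun h => by rw [LinearMap.sub_apply, G1_aeval, zero_sub]; rfl)
    (C.bc (Int.castRingHom S) (Fin 2) f) (ev_diag_integral S p hn hw f hf)
  rw [h2, add_zero] at h1
  simpa [C.L3] using h1

end Crest.Agent.R010.U

end
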