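import Crest.Agent.R010.GlueB
import Crest.Agent.R010.CB2
import Crest.Agent.R010.CInj
import Crest.Agent.R010.ECmain
import Crest.Agent.R010.UBridge
import Crest.Agent.R010.UBridge2
import Crest.Agent.R010.CConv

/-! Row 10, module (cC) GLUE, part C (helper379): the operator calculus, the lattices `Λ N`. -/

set_option autoImplicit false

noncomputable section

namespace Crest.Agent.R010.G

open Crest.NumberTheoryR.GT Crest.Agent.R010
open Crest.Agent.R010.C (LieX wtA bc bc_ι bc_smul Alg X Y dA ih F2 cc adc FF Zc evalZ J0 J1 Fil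
  FibrePent UpperBound opS opS_apply opS_one opS_comm opS_add opS_smul bc_opS bc_ih bc_dA
  iota_ihara cf_dep1_ih ih_mem_wtA ih_mem_LieX op_symbol evalZ_ι evalZ_mem_Fil evalZ_inj
  Fil_antitone Fil_mul_mem Fil_zero Zc_mem_Fil)
open Crest.Agent.R010.Witt (asso asso_of WS BM WS_induction fla_induction exists_hom_sum witt_div
  witt_injective S1_holds weightSubspace_eq iota_eq)

attribute [local instance 100] LieRing.ofAssociativeRing

section operators

/-- the algebra homomorphism `e_k ↦ s_k` (as operators) -/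
def Eop (R : Type*) [CommRing R] (s : ℕ → Alg R) : FreeAlgebra R ℕ →ₐ[R] Module.End R (Alg R) :=
  FreeAlgebra.lift R (fun k => opS R (s k))

variable {R : Type*} [CommRing R] (s : ℕ → Alg R)

theorem Eop_ι (k : ℕ) : Eop R s (FreeAlgebra.ι R k) = opS R (s k) :=
  FreeAlgebra.lift_ι_apply _ _

/-- value at `1` -/
def Pv (R : Type*) [CommRing R] (s : ℕ → Alg R) : FreeAlgebra R ℕ →ₗ[R] Alg R where
  toFun q := Eop R s q 1
  map_add' a b := by simp
  map_smul' r a := by simp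

theorem Pv_apply (q : FreeAlgebra R ℕ) : Pv R s q = Eop R s q 1 := rfl

theorem Pv_one : Pv R s 1 = 1 := by simp [Pv_apply]

theorem Pv_ι_mul (k : ℕ) (q : FreeAlgebra R ℕ) :
    Pv R s (FreeAlgebra.ι R k * q) = s k * Pv R s q + dA R (s k) (Pv R s q) := by
  rw [Pv_apply, map_mul, Module.End.mul_apply, Eop_ι, opS_apply]; rfl

theorem Pv_ι (k : ℕ) : Pv R s (FreeAlgebra.ι R k) = s k := by
  rw [Pv_apply, Eop_ι, opS_one]

/-- the Lie version -/
def Ph (R : Type*) [CommRing R] (s : ℕ → Alg R) : FreeLieAlgebra R ℕ →ₗ[R] Alg R :=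
  (Pv R s).comp (asso R ℕ : FreeLieAlgebra R ℕ →ₗ[R] FreeAlgebra R ℕ)

theorem Ph_apply (u : FreeLieAlgebra R ℕ) : Ph R s u = Pv R s (asso R ℕ u) := rfl

theorem Ph_of (k : ℕ) : Ph R s (FreeLieAlgebra.of R k) = s k := by
  rw [Ph_apply, asso_of, Pv_ι]

theorem Eop_asso (u : FreeLieAlgebra R ℕ) : Eop R s (asso R ℕ u) = opS R (Ph R s u) := by
  have key : ∃ a, Eop R s (asso R ℕ u) = opS R a := by
    refine fla_induction (p := fun u => ∃ a, Eop R s (asso R ℕ u) = opS R a) ?_ ?_ ?_ ?_ ?_ u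
    · intro k; exact ⟨s k, by rw [asso_of, Eop_ι]⟩
    · refine ⟨0, ?_⟩
      rw [map_zero, map_zero]
      have := opS_smul (0 : R) (0 : Alg R)
      rw [zero_smul, zero_smul] at this
      exact this.symm
    · rintro a b ⟨a', h1⟩ ⟨b', h2⟩
      exact ⟨a' + b', by rw [map_add, map_add, h1, h2, opS_add]⟩
    · rintro r a ⟨a', h1⟩
      exact ⟨r • a', by rw [map_smul, map_smul, h1, opS_smul]⟩
    · rintro a b ⟨a', h1⟩ ⟨b', h2⟩
      refine ⟨ih R a' b', ?_⟩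
      rw [LieHom.map_lie, LieRing.of_associative_ring_bracket, map_sub, map_mul, map_mul, h1, h2,
        opS_comm]
  obtain ⟨a, ha⟩ := key
  rw [Ph_apply, Pv_apply, ha, opS_one]

theorem Ph_lie (u v : FreeLieAlgebra R ℕ) : Ph R s ⁅u, v⁆ = ih R (Ph R s u) (Ph R s v) := by
  have h : Eop R s (asso R ℕ ⁅u, v⁆) = opS R (ih R (Ph R s u) (Ph R s v)) := by
    rw [LieHom.map_lie, LieRing.of_associative_ring_bracket, map_sub, map_mul, map_mul, Eop_asso,
      Eop_asso, opS_comm]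
  rw [Ph_apply, Pv_apply, h, opS_one]

/-- base change -/
theorem bc_Pv {S : Type*} [CommRing S] (f : R →+* S) (q : FreeAlgebra R ℕ) :
    bc f (Fin 2) (Pv R s q) = Pv S (fun k => bc f (Fin 2) (s k)) (bc f ℕ q) := by
  refine sw_induction (C := fun q => bc f (Fin 2) (Pv R s q) =
    Pv S (fun k => bc f (Fin 2) (s k)) (bc f ℕ q)) ?_ ?_ ?_ ?_ (mem_sw_true q)
  · intro l _
    rw [bc_wd]
    induction l with
    | nil => rw [wd_nil, wd_nil, Pv_one, Pv_one, map_one]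
    | cons k l ih => rw [wd_cons, wd_cons, Pv_ι_mul, Pv_ι_mul, map_add, map_mul, bc_dA, ih]
  · simp
  · intro a b ha hb; rw [map_add, map_add, map_add, map_add, ha, hb]
  · intro r a ha; rw [map_smul, bc_smul, bc_smul, map_smul, ha]

end operators

section mod2

/-- word rule mod 2: for words with good letters -/
theorem Pv_wd_mod (s : ℕ → Alg F2) (l : List ℕ) (hl : ∀ k ∈ l, s k - Zc k ∈ Fil 2) :
    Pv F2 s (wd F2 l) - evalZ (wd F2 l) ∈ Fil (l.length + 1) := by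
  induction l with
  | nil => rw [wd_nil, Pv_one, map_one, sub_self]; exact Submodule.zero_mem _
  | cons k l ih =>
    have h1 := ih (fun j hj => hl j (List.mem_cons_of_mem k hj))
    have h2 : evalZ (wd F2 l) ∈ Fil l.length :=
      evalZ_mem_Fil (wd_mem_sw (by simp))
    have h3 : Pv F2 s (wd F2 l) ∈ Fil l.length := by
      have := Submodule.add_mem _ (Fil_antitone (Nat.le_succ _) h1) h2
      rwa [sub_add_cancel] at this
    have h4 := op_symbol (hl k List.mem_cons_self) h3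
    rw [wd_cons, Pv_ι_mul, map_mul, evalZ_ι]
    have h5 : Zc k * (Pv F2 s (wd F2 l) - evalZ (wd F2 l)) ∈ Fil (1 + (l.length + 1)) :=
      Fil_mul_mem (Zc_mem_Fil k) h1
    have e : s k * Pv F2 s (wd F2 l) + dA F2 (s k) (Pv F2 s (wd F2 l)) - Zc k * evalZ (wd F2 l) =
      (s k * Pv F2 s (wd F2 l) + dA F2 (s k) (Pv F2 s (wd F2 l)) - Zc k * Pv F2 s (wd F2 l)) +
      Zc k * (Pv F2 s (wd F2 l) - evalZ (wd F2 l)) := by noncomm_ring
    rw [e, List.length_cons]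
    rw [show 1 + (l.length + 1) = l.length + 2 by ring] at h5
    exact Submodule.add_mem _ h4 h5

theorem Pv_wd_mem (s : ℕ → Alg F2) (l : List ℕ) (hl : ∀ k ∈ l, s k - Zc k ∈ Fil 2) :
    Pv F2 s (wd F2 l) ∈ Fil l.length := by
  have h2 : evalZ (wd F2 l) ∈ Fil l.length := evalZ_mem_Fil (wd_mem_sw (by simp))
  have := Submodule.add_mem _ (Fil_antitone (Nat.le_succ _) (Pv_wd_mod s l hl)) h2
  rwa [sub_add_cancel] at this

/-- combination of words of length `n` -/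
theorem Pv_mod (s : ℕ → Alg F2) {n : ℕ} {P : FreeAlgebra F2 ℕ}
    (hP : P ∈ sw F2 (fun l => l.length = n ∧ ∀ k ∈ l, s k - Zc k ∈ Fil 2)) :
    Pv F2 s P - evalZ P ∈ Fil (n + 1) := by
  refine sw_induction (C := fun P => Pv F2 s P - evalZ P ∈ Fil (n + 1)) ?_ ?_ ?_ ?_ hP
  · rintro l ⟨rfl, hl⟩
    exact Pv_wd_mod s l hl
  · simp
  · intro a b ha hb
    have e : Pv F2 s (a + b) - evalZ (a + b) = (Pv F2 s a - evalZ a) + (Pv F2 s b - evalZ b) := by
      rw [map_add, map_add]; abel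
    rw [e]; exact Submodule.add_mem _ ha hb
  · intro r a ha
    have e : Pv F2 s (r • a) - evalZ (r • a) = r • (Pv F2 s a - evalZ a) := by
      rw [map_smul, map_smul, smul_sub]
    rw [e]; exact Submodule.smul_mem _ _ ha

theorem Pv_mem (s : ℕ → Alg F2) {n : ℕ} {P : FreeAlgebra F2 ℕ}
    (hP : P ∈ sw F2 (fun l => n ≤ l.length ∧ ∀ k ∈ l, s k - Zc k ∈ Fil 2)) :
    Pv F2 s P ∈ Fil n := by
  refine sw_induction (C := fun P => Pv F2 s P ∈ Fil n) ?_ ?_ ?_ ?_ hP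
  · rintro l ⟨hn, hl⟩
    exact Fil_antitone hn (Pv_wd_mem s l hl)
  · simp
  · intro a b ha hb
    rw [map_add]; exact Submodule.add_mem _ ha hb
  · intro r a ha
    rw [map_smul]; exact Submodule.smul_mem _ _ ha

end mod2

section lattice

attribute [-instance] AddCommGroup.toIntModule ZSMul.toSMul

/-- the lattice of integral elements of weight `N` of the Grothendieck–Teichmüller Lie algebra -/
def Lam (N : ℕ) : Submodule ℤ (Alg ℤ) where
  carrier := {a | ∃ p ∈ grtW N, iota p = bc fQ (Fin 2) a}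
  zero_mem' := ⟨0, Submodule.zero_mem _, by rw [map_zero, map_zero]⟩
  add_mem' := by
    rintro a b ⟨p, hp, h1⟩ ⟨q, hq, h2⟩
    exact ⟨p + q, Submodule.add_mem _ hp hq, by rw [map_add, map_add, h1, h2]⟩
  smul_mem' := by
    rintro c a ⟨p, hp, h1⟩
    refine ⟨(c : ℚ) • p, Submodule.smul_mem _ _ hp, ?_⟩
    refine Eq.trans ?_ (bc_smul fQ (Fin 2) c a).symm
    rw [map_smul, h1]; rfl

theorem mem_Lam {N : ℕ} {a : Alg ℤ} : a ∈ Lam N ↔ ∃ p ∈ grtW N, iota p = bc fQ (Fin 2) a :=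
  Iff.rfl

theorem Lam_wtA {N : ℕ} {a : Alg ℤ} (h : a ∈ Lam N) : a ∈ wtA ℤ (fun _ : Fin 2 => 1) N := by
  obtain ⟨p, hp, h1⟩ := h
  have h2 : p ∈ WS ℚ (fun _ : Fin 2 => 1) N := by
    rw [← weightSubspace_eq]; exact hp.2
  have h3 : bc fQ (Fin 2) a ∈ wtA ℚ (fun _ : Fin 2 => 1) N := by
    rw [← h1, iota_eq]; exact asso_mem_wtA h2
  exact mem_sw_of_bc fQ fQ_injective h3

theorem Lam_LieX {N : ℕ} {a : Alg ℤ} (h : a ∈ Lam N) : a ∈ LieX ℤ (Fin 2) := by
  obtain ⟨p, hp, h1⟩ := h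
  apply mem_LieX_of_bc
  rw [← h1, iota_eq]
  exact asso_mem_LieX p

theorem Lam_div {N : ℕ} {c : ℤ} (hc : c ≠ 0) {a : Alg ℤ} (h : c • a ∈ Lam N) : a ∈ Lam N := by
  obtain ⟨p, hp, h1⟩ := h
  refine ⟨((c : ℚ)⁻¹) • p, Submodule.smul_mem _ _ hp, ?_⟩
  rw [bc_smul] at h1
  rw [map_smul, h1, smul_smul]
  have : ((c : ℚ)⁻¹) * fQ c = 1 := by
    have h3 : (fQ c : ℚ) = (c : ℚ) := by simp
    rw [h3, inv_mul_cancel₀ (by exact_mod_cast hc)]
  rw [this, one_smul]

theorem exists_Lam {N : ℕ} {p : GTLie} (hp : p ∈ grtW N) :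
    ∃ (c : ℤ) (a : Alg ℤ), c ≠ 0 ∧ a ∈ Lam N ∧ bc fQ (Fin 2) a = fQ c • iota p := by
  obtain ⟨c, a, hc, h1⟩ := exists_clear (iota p)
  refine ⟨c, a, hc, ⟨fQ c • p, Submodule.smul_mem _ _ hp, ?_⟩, h1⟩
  rw [h1, map_smul]

theorem ih_mem_Lam (hEC : EC) {M N : ℕ} {a b : Alg ℤ} (ha : a ∈ Lam M) (hb : b ∈ Lam N) :
    ih ℤ a b ∈ Lam (M + N) := by
  obtain ⟨p, hp, h1⟩ := ha
  obtain ⟨q, hq, h2⟩ := hb
  refine ⟨iharaBracket p q, ⟨hEC p hp.1 q hq.1, iharaBracket_mem_weight hp.2 hq.2⟩, ?_⟩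
  rw [iota_ihara, bc_ih, h1, h2]

theorem Lam_fibre {N : ℕ} (hN : 3 ≤ N) {a : Alg ℤ} (h : a ∈ Lam N) :
    Crest.Agent.R010.U.FibrePent2 F2 (bc f2 (Fin 2) a) := by
  obtain ⟨p, hp, h1⟩ := h
  have h2 : pentagonDefect p = 0 := hp.1.2
  exact Crest.Agent.R010.U.fibrePent2_of F2 p h2 (n := N) (by omega) hp.2 a h1.symm

/-- The upper bound in gauge 2 (`XU.upperBound2`). -/
abbrev UB2 : Prop := Crest.Agent.R010.CConv.UpperBoundFor (Crest.Agent.R010.U.FibrePent2 F2)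

/-- the words of weight `N` -/
theorem Lam_fg (N : ℕ) : (Lam N).FG := by
  classical
  have h1 : Lam N ≤ wtA ℤ (fun _ : Fin 2 => 1) N := fun a ha => Lam_wtA ha
  have h2 : (wtA ℤ (fun _ : Fin 2 => 1) N : Submodule ℤ (Alg ℤ)).FG := by
    refine ⟨(Finset.univ : Finset (Fin N → Fin 2)).image (fun v => wd ℤ (List.ofFn v)), ?_⟩
    rw [wtA]
    congr 1
    ext a
    simp only [Finset.coe_image, Finset.coe_univ, Set.image_univ, Set.mem_range, Set.mem_ofPred_eq]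
    constructor
    · rintro ⟨v, rfl⟩
      exact ⟨List.ofFn v, by rw [List.map_const', List.sum_replicate, List.length_ofFn]; simp, rfl⟩
    · rintro ⟨l, hl, rfl⟩
      have hl' : l.length = N := by simpa using hl
      subst hl'
      exact ⟨l.get, by rw [List.ofFn_get]; rfl⟩
  have : IsNoetherian ℤ (wtA ℤ (fun _ : Fin 2 => 1) N : Submodule ℤ (Alg ℤ)) :=
    isNoetherian_of_fg_of_noetherian _ h2
  have h3 := IsNoetherian.noetherian (Submodule.comap (wtA ℤ (fun _ : Fin 2 => 1) N).subtype (Lam N))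
  have h4 := h3.map (wtA ℤ (fun _ : Fin 2 => 1) N).subtype
  have h5 : Submodule.map (wtA ℤ (fun _ : Fin 2 => 1) N).subtype
      (Submodule.comap (wtA ℤ (fun _ : Fin 2 => 1) N).subtype (Lam N)) = Lam N := by
    refine (Submodule.map_comap_subtype _ _).trans (inf_eq_right.2 h1)
  rwa [h5] at h4

theorem Ph_mem (hEC : EC) {s : ℕ → Alg ℤ} (hs : ∀ k, s k ∈ Lam (2 * k + 3)) {N : ℕ}
    {u : FreeLieAlgebra ℤ ℕ} (hu : u ∈ WS ℤ (fun k : ℕ => 2 * k + 3) N) : Ph ℤ s u ∈ Lam N := by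
  refine WS_induction (p := fun u => Ph ℤ s u ∈ Lam N) ?_ ?_ ?_ ?_ hu
  · clear hu u
    intro a ha
    induction ha with
    | of i => rw [Ph_of]; exact hs i
    | lie _ _ h1 h2 => rw [Ph_lie]; exact ih_mem_Lam hEC h1 h2
  · rw [map_zero]; exact Submodule.zero_mem _
  · intro a b ha hb; rw [map_add]; exact Submodule.add_mem _ ha hb
  · intro r a ha; rw [map_smul]; exact Submodule.smul_mem _ _ ha

end lattice

end Crest.Agent.R010.G

end
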