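import Crest.Agent.R010.GlueC

/-! Row 10, module (cC) GLUE, part D (helper379): generation, choice of generators, freeness. -/

set_option autoImplicit false

noncomputable section

namespace Crest.Agent.R010.G

open Crest.NumberTheoryR.GT Crest.Agent.R010
open Crest.Agent.R010.C (LieX wtA bc bc_ι bc_smul Alg X Y dA ih F2 cc adc FF Zc evalZ J0 J1 Fil
  FibrePent UpperBound opS opS_apply opS_one opS_comm opS_add opS_smul bc_opS bc_ih bc_dA
  iota_ihara cf_dep1_ih ih_mem_wtA ih_mem_LieX op_symbol evalZ_ι evalZ_mem_Fil evalZ_inj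
  Fil_antitone Fil_mul_mem Fil_zero Zc_mem_Fil)
open Crest.Agent.R010.Witt (asso asso_of WS BM WS_induction fla_induction exists_hom_sum witt_div
  witt_injective S1_holds weightSubspace_eq iota_eq)

attribute [local instance 100] LieRing.ofAssociativeRing

theorem sum_w3 (l : List ℕ) : (l.map (fun k : ℕ => 2 * k + 3)).sum = 2 * l.sum + 3 * l.length := by
  induction l with
  | nil => simp
  | cons k l ih => simp only [List.map_cons, List.sum_cons, List.length_cons, ih]; ring

theorem le_sum_of_mem {l : List ℕ} {k : ℕ} (hk : k ∈ l) : k ≤ l.sum := by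
  induction l with
  | nil => simp at hk
  | cons j l ih =>
    rcases List.mem_cons.1 hk with rfl | h
    · simp
    · rw [List.sum_cons]; exact (ih h).trans (Nat.le_add_left _ _)

theorem BM_ge {R : Type*} [CommRing R] {m : ℕ} {a : FreeLieAlgebra R ℕ}
    (h : BM R (fun k : ℕ => 2 * k + 3) m a) : 3 ≤ m := by
  induction h with
  | of i => omega
  | lie _ _ h1 h2 => omega

/-- words of `P`, bihomogeneous nonzero -/
theorem bihom_le {R : Type*} [CommRing R] {P : FreeAlgebra R ℕ} {n N : ℕ}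
    (h1 : P ∈ wtA R (fun _ : ℕ => 1) n) (h2 : P ∈ wtA R (fun k : ℕ => 2 * k + 3) N)
    (h3 : P ≠ 0) : 3 * n ≤ N := by
  by_contra h
  apply h3
  apply ext_cf
  intro l
  rw [map_zero]
  by_contra hl
  have e1 := mem_wtA_iff.1 h1 l hl
  have e2 := mem_wtA_iff.1 h2 l hl
  rw [sum_w3] at e2
  simp at e1
  omega

section generation

attribute [-instance] AddCommGroup.toIntModule ZSMul.toSMul

theorem gen (hU : UB2) (hEC : EC) {s : ℕ → Alg ℤ} (hs : ∀ k, s k ∈ Lam (2 * k + 3)) {K : ℕ → Prop}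
    (hgood : ∀ k, K k → bc f2 (Fin 2) (s k) - Zc k ∈ Fil 2) {N : ℕ} (hN : 3 ≤ N) :
    ∀ (m n : ℕ), N < n + m →
    (∀ l : List ℕ, n ≤ l.length → 1 ≤ l.length → (l.map (fun k : ℕ => 2 * k + 3)).sum = N →
      ∀ k ∈ l, K k) →
    ∀ a ∈ Lam N, bc f2 (Fin 2) a ∈ Fil n →
    ∃ u ∈ WS ℤ (fun k : ℕ => 2 * k + 3) N, bc f2 (Fin 2) (a - Ph ℤ s u) = 0 := by
  intro m
  induction m with
  | zero =>
    intro n hn _ a ha hfil
    refine ⟨0, Submodule.zero_mem _, ?_⟩
    rw [map_zero, sub_zero]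
    by_contra h0
    obtain ⟨n', P, h1, h2, h3, h4, h5, h6⟩ := hU N (bc f2 (Fin 2) a) hN
      (bc_mem_sw f2 (Lam_wtA ha)) (bc_mem_LieX f2 (Lam_LieX ha)) (Lam_fibre (by omega) ha) h0
    have h7 := bihom_le h3 h4 h5
    have h8 : bc f2 (Fin 2) a ∈ Fil (n' + 1) := Fil_antitone (by omega) hfil
    have h9 := Submodule.sub_mem _ h8 h6
    rw [sub_sub_cancel] at h9
    exact h5 (evalZ_inj h3 h9)
  | succ m IH =>
    intro n hn hl a ha hfil
    by_cases h0 : bc f2 (Fin 2) a = 0
    · refine ⟨0, Submodule.zero_mem _, ?_⟩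
      rw [map_zero, sub_zero]; exact h0
    obtain ⟨n', P, h1, h2, h3, h4, h5, h6⟩ := hU N (bc f2 (Fin 2) a) hN
      (bc_mem_sw f2 (Lam_wtA ha)) (bc_mem_LieX f2 (Lam_LieX ha)) (Lam_fibre (by omega) ha) h0
    have hnn : n ≤ n' := by
      by_contra hlt
      have h8 : bc f2 (Fin 2) a ∈ Fil (n' + 1) := Fil_antitone (by omega) hfil
      have h9 := Submodule.sub_mem _ h8 h6
      rw [sub_sub_cancel] at h9
      exact h5 (evalZ_inj h3 h9)
    obtain ⟨b, hb, hb1, hb2, hb3⟩ := exists_lift_LieX_hom f2 f2_surjective h2 h3 h4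
    obtain ⟨v, rfl⟩ := mem_LieX_iff.1 hb
    have hv : v ∈ WS ℤ (fun k : ℕ => 2 * k + 3) N := mem_WS_of_asso hb2
    have e1 : bc f2 (Fin 2) (Ph ℤ s v) = Pv F2 (fun k => bc f2 (Fin 2) (s k)) P := by
      rw [Ph_apply, bc_Pv, hb3]
    have e2 : Pv F2 (fun k => bc f2 (Fin 2) (s k)) P - evalZ P ∈ Fil (n' + 1) := by
      apply Pv_mod
      rw [mem_sw_iff]
      intro l hl'
      have e3 := mem_wtA_iff.1 h3 l hl'
      have e4 := mem_wtA_iff.1 h4 l hl'
      have e5 : l.length = n' := by simpa using e3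
      refine ⟨e5, fun k hk => hgood k (hl l ?_ ?_ e4 k hk)⟩ <;> omega
    have e6 : bc f2 (Fin 2) (a - Ph ℤ s v) ∈ Fil (n' + 1) := by
      rw [map_sub, e1]
      have := Submodule.sub_mem _ h6 e2
      rwa [sub_sub_sub_cancel_right] at this
    obtain ⟨u, hu, hu2⟩ := IH (n' + 1) (by omega)
      (fun l hl1 hl2 hl3 k hk => hl l (by omega) hl2 hl3 k hk) (a - Ph ℤ s v)
      (Submodule.sub_mem _ ha (Ph_mem hEC hs hv)) e6
    refine ⟨v + u, Submodule.add_mem _ hv hu, ?_⟩
    rw [map_add, ← sub_sub]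
    exact hu2

/-- the depth one coefficient of a bracket vanishes -/
theorem cf_Ph (hEC : EC) {s : ℕ → Alg ℤ} (hs : ∀ k, s k ∈ Lam (2 * k + 3)) {N : ℕ}
    (h0 : ∀ i, 2 * i + 3 = N → s i = 0) (D : ℕ) {u : FreeLieAlgebra ℤ ℕ}
    (hu : u ∈ WS ℤ (fun k : ℕ => 2 * k + 3) N) : cf (dep1 D) (Ph ℤ s u) = 0 := by
  refine WS_induction (p := fun u => cf (dep1 D) (Ph ℤ s u) = 0) ?_ ?_ ?_ ?_ hu
  · clear hu u
    intro a ha
    cases ha with
    | of i => rw [Ph_of, h0 i rfl, map_zero]
    | lie h1 h2 =>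
      rw [Ph_lie]
      have m1 := Ph_mem hEC hs (Submodule.subset_span h1 : _ ∈ WS ℤ (fun k : ℕ => 2 * k + 3) _)
      have m2 := Ph_mem hEC hs (Submodule.subset_span h2 : _ ∈ WS ℤ (fun k : ℕ => 2 * k + 3) _)
      exact cf_dep1_ih (Lam_LieX m1) (Lam_LieX m2) (by have := BM_ge h1; omega)
        (by have := BM_ge h2; omega) (Lam_wtA m1) (Lam_wtA m2) D
  · rw [map_zero, map_zero]
  · intro a b ha hb; rw [map_add, map_add, ha, hb, add_zero]
  · intro r a ha; rw [map_smul, map_smul, ha, smul_zero]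

theorem exists_two_Lam {N : ℕ} {a : Alg ℤ} (ha : a ∈ Lam N) (h : bc f2 (Fin 2) a = 0) :
    ∃ b ∈ Lam N, a = (2 : ℤ) • b := by
  obtain ⟨b, hb⟩ := exists_two_of_bc_eq_zero h
  have hb' : a = (2 : ℤ) • b := hb
  refine ⟨b, ?_, hb'⟩
  rw [hb'] at ha
  exact Lam_div two_ne_zero ha

theorem exists_good (hU : UB2) (hEC : EC) (hEE : EE) (k : ℕ) :
    ∃ a ∈ Lam (2 * k + 3), bc f2 (Fin 2) a - Zc k ∈ Fil 2 := by
  classical
  induction k using Nat.strong_induction_on with
  | _ k IH =>
    have hch : ∃ s : ℕ → Alg ℤ, (∀ j, s j ∈ Lam (2 * j + 3)) ∧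
        (∀ j, j < k → bc f2 (Fin 2) (s j) - Zc j ∈ Fil 2) ∧ (∀ j, k ≤ j → s j = 0) := by
      choose t ht1 ht2 using IH
      refine ⟨fun j => if h : j < k then t j h else 0, ?_, ?_, ?_⟩
      · intro j
        by_cases h : j < k
        · simp only [dif_pos h]; exact ht1 j h
        · simp only [dif_neg h]; exact Submodule.zero_mem _
      · intro j h
        simp only [dif_pos h]; exact ht2 j h
      · intro j h
        simp only [dif_neg (not_lt.2 h)]
    obtain ⟨s, hs1, hs2, hs3⟩ := hch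
    have key : ∀ (m : ℕ) (a : Alg ℤ), a ∈ Lam (2 * k + 3) → cf (dep1 (2 * k + 3)) a ≠ 0 →
        (cf (dep1 (2 * k + 3)) a).natAbs = m →
        ∃ a ∈ Lam (2 * k + 3), bc f2 (Fin 2) a - Zc k ∈ Fil 2 := by
      intro m
      induction m using Nat.strong_induction_on with
      | _ m IHm =>
        intro a ha hcf hm
        have half : ∀ b ∈ Lam (2 * k + 3), cf (dep1 (2 * k + 3)) a =
            2 * cf (dep1 (2 * k + 3)) b →
            ∃ a ∈ Lam (2 * k + 3), bc f2 (Fin 2) a - Zc k ∈ Fil 2 := by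
          intro b hb hab
          refine IHm (cf (dep1 (2 * k + 3)) b).natAbs ?_ b hb ?_ rfl
          · rw [← hm, hab, Int.natAbs_mul]
            have : cf (dep1 (2 * k + 3)) b ≠ 0 := by
              rintro h; rw [hab, h] at hcf; simp at hcf
            have h1 : 0 < (cf (dep1 (2 * k + 3)) b).natAbs := Int.natAbs_pos.2 this
            simp only [Int.reduceAbs]
            omega
          · rintro h; rw [hab, h] at hcf; simp at hcf
        by_cases h0 : bc f2 (Fin 2) a = 0
        · obtain ⟨b, hb, rfl⟩ := exists_two_Lam ha h0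
          exact half b hb (by rw [map_smul]; rfl)
        obtain ⟨n', P, h1, h2, h3, h4, h5, h6⟩ := hU (2 * k + 3) (bc f2 (Fin 2) a) (by omega)
          (bc_mem_sw f2 (Lam_wtA ha)) (bc_mem_LieX f2 (Lam_LieX ha)) (Lam_fibre (by omega) ha) h0
        rcases Nat.lt_or_ge 1 n' with hn' | hn'
        · -- word degree at least two
          have hfil : bc f2 (Fin 2) a ∈ Fil 2 := by
            have e := Submodule.add_mem _ (Fil_antitone (by omega : 2 ≤ n' + 1) h6)
              (Fil_antitone (by omega : 2 ≤ n') (evalZ_mem_Fil h3))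
            rwa [sub_add_cancel] at e
          obtain ⟨u, hu, hu2⟩ := gen hU hEC hs1 (K := fun j => j < k) hs2 (by omega)
            (2 * k + 3) 2 (by omega) (by
              intro l hl1 _ hl3 j hj
              rw [sum_w3] at hl3
              have := le_sum_of_mem hj
              show j < k
              omega) a ha hfil
          obtain ⟨b, hb, hb2⟩ := exists_two_Lam (Submodule.sub_mem _ ha (Ph_mem hEC hs1 hu)) hu2
          refine half b hb ?_
          have e1 : cf (dep1 (2 * k + 3)) (Ph ℤ s u) = 0 :=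
            cf_Ph hEC hs1 (fun i hi => hs3 i (by omega)) _ hu
          have e2 := congrArg (cf (dep1 (2 * k + 3))) hb2
          rw [map_sub, e1, sub_zero, map_smul] at e2
          exact e2
        · have hn1 : n' = 1 := by omega
          subst hn1
          refine ⟨a, ha, ?_⟩
          have hP : P = cf [k] P • FreeAlgebra.ι F2 k := by
            apply ext_cf
            intro l
            rw [map_smul, ι_eq_wd, cf_wd]
            by_cases hl : [k] = l
            · rw [if_pos hl, ← hl]; simp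
            · rw [if_neg hl, smul_zero]
              by_contra hl0
              apply hl
              have e1 := mem_wtA_iff.1 h3 l hl0
              have e2 := mem_wtA_iff.1 h4 l hl0
              have e3 : l.length = 1 := by simpa using e1
              obtain ⟨j, rfl⟩ := List.length_eq_one_iff.1 e3
              simp only [List.map_cons, List.map_nil, List.sum_cons, List.sum_nil] at e2
              congr 1
              omega
          have hc : cf [k] P = 1 := by
            have hne : cf [k] P ≠ 0 := by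
              intro h
              rw [h, zero_smul] at hP
              exact h5 hP
            exact (Fin.eq_one_of_ne_zero _ hne)
          rw [hc, one_smul] at hP
          rw [hP, evalZ_ι] at h6
          exact h6
    obtain ⟨p, hp, hcf⟩ := hEE k
    obtain ⟨c, a, hc, ha, hca⟩ := exists_Lam hp
    refine key _ a ha ?_ rfl
    intro h
    have := cf_bc fQ a (dep1 (2 * k + 3))
    rw [hca, h, map_zero, map_smul, smul_eq_mul] at this
    rcases mul_eq_zero.1 this with h1 | h1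
    · exact hc (fQ_injective (by rw [h1, map_zero]))
    · exact hcf h1

end generation

section nakayama

theorem nak {R M : Type*} [CommRing R] [AddCommGroup M] [Module R M] (c : R)
    (L Q : Submodule R M) (hfg : L.FG)
    (h : ∀ a ∈ L, ∃ q ∈ Q, ∃ b ∈ L, a = q + c • b) :
    ∃ r : R, r - 1 ∈ Ideal.span {c} ∧ ∀ a ∈ L, r • a ∈ Q := by
  have h1 : L.map Q.mkQ ≤ (Ideal.span {c}) • L.map Q.mkQ := by
    rintro _ ⟨a, ha, rfl⟩
    obtain ⟨q, hq, b, hb, rfl⟩ := h a ha
    have e : Q.mkQ q = 0 := (Submodule.Quotient.mk_eq_zero Q).2 hq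
    rw [map_add, e, zero_add, map_smul]
    exact Submodule.smul_mem_smul (Ideal.mem_span_singleton_self c) ⟨b, hb, rfl⟩
  obtain ⟨r, hr, hr2⟩ := Submodule.exists_sub_one_mem_and_smul_eq_zero_of_fg_of_le_smul
    (Ideal.span {c}) (L.map Q.mkQ) (hfg.map _) h1
  refine ⟨r, hr, ?_⟩
  intro a ha
  have := hr2 (Q.mkQ a) ⟨a, ha, rfl⟩
  rw [← map_smul] at this
  exact (Submodule.Quotient.mk_eq_zero Q).1 this

attribute [-instance] AddCommGroup.toIntModule ZSMul.toSMul

theorem exists_Ph (hU : UB2) (hEC : EC) {s : ℕ → Alg ℤ} (hs : ∀ k, s k ∈ Lam (2 * k + 3))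
    (hgood : ∀ k, bc f2 (Fin 2) (s k) - Zc k ∈ Fil 2) {N : ℕ} (hN : 3 ≤ N) {a : Alg ℤ}
    (ha : a ∈ Lam N) : ∃ (r : ℤ) (u : FreeLieAlgebra ℤ ℕ), r ≠ 0 ∧ Ph ℤ s u = r • a := by
  obtain ⟨r, hr, hr2⟩ := nak (2 : ℤ) (Lam N) ((WS ℤ (fun k : ℕ => 2 * k + 3) N).map (Ph ℤ s)) (Lam_fg N) (by
    intro b hb
    obtain ⟨u, hu, hu2⟩ := gen hU hEC hs (K := fun _ => True) (fun k _ => hgood k) hN
      (N + 1) 0 (by omega) (fun _ _ _ _ _ _ => trivial) b hb (Fil_zero _)
    obtain ⟨b', hb', h2⟩ := exists_two_Lam (Submodule.sub_mem _ hb (Ph_mem hEC hs hu)) hu2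
    refine ⟨Ph ℤ s u, ⟨u, hu, rfl⟩, b', hb', ?_⟩
    rw [← sub_eq_iff_eq_add']
    exact h2)
  obtain ⟨u, _, hu⟩ := hr2 a ha
  refine ⟨r, u, ?_, hu⟩
  rintro rfl
  rw [Ideal.mem_span_singleton] at hr
  norm_num at hr

end nakayama

end Crest.Agent.R010.G

end
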