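import Crest.Agent.R010.GlueD

/-! Row 10, module (cC) GLUE, part E (helper379): injectivity and the main theorem from
`UpperBound`, `S4`, `EC`, `EE`. -/

set_option autoImplicit false

noncomputable section

namespace Crest.Agent.R010.G

open Crest.NumberTheoryR.GT Crest.Agent.R010
open Crest.Agent.R010.C (LieX wtA bc bc_ι bc_smul Alg X Y dA ih F2 cc adc FF Zc evalZ J0 J1 Fil
  FibrePent UpperBound opS opS_apply opS_one opS_comm opS_add opS_smul bc_opS bc_ih bc_dA
  iota_ihara cf_dep1_ih ih_mem_wtA ih_mem_LieX op_symbol evalZ_ι evalZ_mem_Fil evalZ_inj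
  Fil_antitone Fil_mul_mem Fil_zero Zc_mem_Fil)
open Crest.Agent.R010.Witt (asso asso_of WS BM WS_induction fla_induction exists_hom_sum witt_div
  witt_injective S1_holds weightSubspace_eq iota_eq)

attribute [local instance 100] LieRing.ofAssociativeRing

section injectivity

/-- injectivity mod 2 -/
theorem Pv_injective_mod (s : ℕ → Alg F2) (hgood : ∀ k, s k - Zc k ∈ Fil 2)
    (q : FreeAlgebra F2 ℕ) (h : Pv F2 s q = 0) : q = 0 := by
  classical
  by_contra hq
  have hex : ∃ n : ℕ, ∃ l : List ℕ, cf l q ≠ 0 ∧ l.length = n := by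
    by_contra hno
    apply hq
    apply ext_cf
    intro l
    rw [map_zero]
    by_contra hl
    exact hno ⟨l.length, l, hl, rfl⟩
  obtain ⟨l0, hl0, hn0⟩ := Nat.find_spec hex
  have hmin : ∀ l : List ℕ, cf l q ≠ 0 → Nat.find hex ≤ l.length :=
    fun l hl => Nat.find_min' hex ⟨l, hl, rfl⟩
  generalize Nat.find hex = n at hn0 hmin
  have h1 : res (fun l : List ℕ => l.length = n) q ∈
      sw F2 (fun l : List ℕ => l.length = n) := res_mem _ _
  have h2 : q - res (fun l : List ℕ => l.length = n) q ∈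
      sw F2 (fun l : List ℕ => n + 1 ≤ l.length ∧ ∀ k ∈ l, s k - Zc k ∈ Fil 2) := by
    rw [mem_sw_iff]
    intro l hl
    rw [map_sub, cf_res] at hl
    by_cases hln : l.length = n
    · rw [if_pos hln, sub_self] at hl
      exact absurd rfl hl
    · rw [if_neg hln, sub_zero] at hl
      have := hmin l hl
      exact ⟨by omega, fun k _ => hgood k⟩
  have h3 := Pv_mem s h2
  have h4 : Pv F2 s (res (fun l : List ℕ => l.length = n) q) -
      evalZ (res (fun l : List ℕ => l.length = n) q) ∈ Fil (n + 1) := by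
    apply Pv_mod
    exact sw_mono (fun l hl => ⟨hl, fun k _ => hgood k⟩) h1
  have h5 : evalZ (res (fun l : List ℕ => l.length = n) q) ∈ Fil (n + 1) := by
    have h6 := Submodule.add_mem _ h4 h3
    have h7 := Submodule.neg_mem _ h6
    have e : -(Pv F2 s (res (fun l : List ℕ => l.length = n) q) -
      evalZ (res (fun l : List ℕ => l.length = n) q) +
      Pv F2 s (q - res (fun l : List ℕ => l.length = n) q)) =
      evalZ (res (fun l : List ℕ => l.length = n) q) := by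
      rw [map_sub, h]; abel
    rwa [e] at h7
  have h8 : res (fun l : List ℕ => l.length = n) q = 0 := by
    refine evalZ_inj (n := n) ?_ h5
    exact sw_mono (fun l hl => by simpa using hl) h1
  apply hl0
  have h9 := congrArg (cf l0) h8
  rw [cf_res, if_pos hn0, map_zero] at h9
  exact h9

theorem Pv_injective_int (s : ℕ → Alg ℤ) (hgood : ∀ k, bc f2 (Fin 2) (s k) - Zc k ∈ Fil 2)
    (q : FreeAlgebra ℤ ℕ) (h : Pv ℤ s q = 0) : q = 0 := by
  apply ext_cf
  intro l
  rw [map_zero]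
  by_contra hl
  have key : ∀ (m : ℕ) (q : FreeAlgebra ℤ ℕ), Pv ℤ s q = 0 → cf l q ≠ 0 →
      (cf l q).natAbs = m → False := by
    intro m
    induction m using Nat.strong_induction_on with
    | _ m IH =>
      intro q hq hcf hm
      have h0 : bc f2 ℕ q = 0 := by
        apply Pv_injective_mod (fun k => bc f2 (Fin 2) (s k)) hgood
        rw [← bc_Pv, hq, map_zero]
      obtain ⟨b, rfl⟩ := exists_two_of_bc_eq_zero h0
      have e1 : cf l ((2 : ℤ) • b) = 2 * cf l b := by rw [map_smul]; rfl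
      have e2 : Pv ℤ s b = 0 := by
        have e3 : Pv ℤ s ((2 : ℤ) • b) = (2 : ℤ) • Pv ℤ s b := map_smul (Pv ℤ s) (2 : ℤ) b
        rw [e3] at hq
        exact smul_cancel two_ne_zero (by rw [hq]; exact (smul_zero (2 : ℤ)).symm)
      have e4 : cf l b ≠ 0 := by
        intro h; rw [e1, h, mul_zero] at hcf; exact hcf rfl
      refine IH (cf l b).natAbs ?_ b e2 e4 rfl
      rw [← hm, e1, Int.natAbs_mul]
      have := Int.natAbs_pos.2 e4
      simp only [Int.reduceAbs]
      omega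
  exact key _ q h hl rfl

theorem Ph_injective_rat (s : ℕ → Alg ℤ) (hgood : ∀ k, bc f2 (Fin 2) (s k) - Zc k ∈ Fil 2) :
    Function.Injective (Ph ℚ (fun k => bc fQ (Fin 2) (s k))) := by
  rw [injective_iff_map_eq_zero]
  intro u hu
  obtain ⟨c, b, hc, h1⟩ := exists_clear (asso ℚ ℕ u)
  have h2 : Pv ℤ s b = 0 := by
    apply bcQ_injective
    rw [bc_Pv, h1, map_smul, map_zero]
    rw [Ph_apply] at hu
    rw [hu, smul_zero]
  have h3 := Pv_injective_int s hgood b h2
  rw [h3, map_zero] at h1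
  have h4 : asso ℚ ℕ u = 0 := by
    rcases smul_eq_zero.1 h1.symm with h | h
    · exact absurd (fQ_injective (by rw [h, map_zero])) hc
    · exact h
  exact witt_injective (by rw [h4, map_zero])

end injectivity

theorem bc_zsmul' {T : Type*} (c : ℤ) (a : FreeAlgebra ℤ T) :
    bc fQ T (@HSMul.hSMul ℤ (FreeAlgebra ℤ T) (FreeAlgebra ℤ T)
      (@instHSMul ℤ (FreeAlgebra ℤ T) Algebra.toSMul) c a) = fQ c • bc fQ T a :=
  bc_smul fQ T c a

/-- the main theorem from the inputs -/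
theorem main_of (hU : UB2) (hS4 : S4) (hEC : EC) (hEE : EE) :
    ∃ Φ : FreeLieAlgebra ℚ ℕ →ₗ[ℚ] GTLie,
      Function.Injective Φ ∧ LinearMap.range Φ = grtSpace ∧
      (∀ a b : FreeLieAlgebra ℚ ℕ, Φ ⁅a, b⁆ = iharaBracket (Φ a) (Φ b)) ∧
      (∀ k : ℕ, Φ (FreeLieAlgebra.of ℚ k) ∈ weightSubspace (fun _ : Fin 2 => 1) (2 * k + 3)) := by
  choose s hs hgood using exists_good hU hEC hEE
  choose p hp hps using hs
  have hs' : ∀ k, s k ∈ Lam (2 * k + 3) := fun k => ⟨p k, hp k, hps k⟩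
  set sQ : ℕ → Alg ℚ := fun k => bc fQ (Fin 2) (s k) with hsQ
  have him : ∀ u : FreeLieAlgebra ℚ ℕ, ∃ q ∈ grtSpace, iota q = Ph ℚ sQ u := by
    intro u
    refine fla_induction (p := fun u => ∃ q ∈ grtSpace, iota q = Ph ℚ sQ u) ?_ ?_ ?_ ?_ ?_ u
    · intro k
      exact ⟨p k, (hp k).1, by rw [Ph_of, hps k]⟩
    · exact ⟨0, Submodule.zero_mem _, by rw [map_zero, map_zero]⟩
    · rintro a b ⟨q, hq, h1⟩ ⟨r, hr, h2⟩
      exact ⟨q + r, Submodule.add_mem _ hq hr, by rw [map_add, map_add, h1, h2]⟩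
    · rintro c a ⟨q, hq, h1⟩
      exact ⟨c • q, Submodule.smul_mem _ _ hq, by rw [map_smul, map_smul, h1]⟩
    · rintro a b ⟨q, hq, h1⟩ ⟨r, hr, h2⟩
      exact ⟨iharaBracket q r, hEC q hq r hr, by rw [iota_ihara, Ph_lie, h1, h2]⟩
  have hinj : Function.Injective iota := S1_holds
  let ι' : GTLie →ₗ[ℚ] FreeAlgebra ℚ (Fin 2) := (iota : GTLie →ₗ[ℚ] FreeAlgebra ℚ (Fin 2))
  have hι' : ∀ q, ι' q = iota q := fun _ => rfl
  let e := LinearEquiv.ofInjective ι' hinj
  let Φ : FreeLieAlgebra ℚ ℕ →ₗ[ℚ] GTLie := (e.symm : _ →ₗ[ℚ] GTLie).comp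
    ((Ph ℚ sQ).codRestrict (LinearMap.range ι') (fun u => by
      obtain ⟨q, _, hq⟩ := him u
      exact ⟨q, hq⟩))
  have hΦ : ∀ u, iota (Φ u) = Ph ℚ sQ u := by
    intro u
    have h1 : (e (Φ u) : FreeAlgebra ℚ (Fin 2)) = Ph ℚ sQ u := by
      simp [Φ]
    rw [← h1]
    rfl
  have hΦg : ∀ u, Φ u ∈ grtSpace := by
    intro u
    obtain ⟨q, hq, h1⟩ := him u
    rw [← hΦ u] at h1
    rwa [← hinj h1]
  have hPh := Ph_injective_rat s hgood
  refine ⟨Φ, ?_, ?_, ?_, ?_⟩
  · intro u v huv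
    apply hPh
    show Ph ℚ sQ u = Ph ℚ sQ v
    rw [← hΦ u, ← hΦ v, huv]
  · apply le_antisymm
    · rintro _ ⟨u, rfl⟩
      exact hΦg u
    · intro q hq
      obtain ⟨S, g, hg, rfl⟩ := hS4 q hq
      refine Submodule.sum_mem _ fun n hn => ?_
      obtain ⟨hn3, hgn⟩ := hg n hn
      obtain ⟨c, a, hc, ha, hca⟩ := exists_Lam hgn
      obtain ⟨r, u, hr, hu⟩ := exists_Ph hU hEC hs' hgood hn3 ha
      obtain ⟨u', hu'⟩ := mem_LieX_iff.1 (bc_mem_LieX fQ (asso_mem_LieX u))
      have h1 : Ph ℚ sQ u' = (fQ r * fQ c) • iota (g n) := by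
        rw [Ph_apply, hu', hsQ, ← bc_Pv, ← Ph_apply, hu]
        refine (bc_zsmul' r a).trans ?_
        rw [hca, smul_smul]
      refine ⟨(fQ r * fQ c)⁻¹ • u', ?_⟩
      apply hinj
      rw [hΦ, map_smul, h1, smul_smul, inv_mul_cancel₀, one_smul]
      apply mul_ne_zero
      · intro h; exact hr (fQ_injective (by rw [h, map_zero]))
      · intro h; exact hc (fQ_injective (by rw [h, map_zero]))
  · intro a b
    apply hinj
    rw [hΦ, iota_ihara, hΦ, hΦ, Ph_lie]
  · intro k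
    have h1 : Φ (FreeLieAlgebra.of ℚ k) = p k := by
      apply hinj
      rw [hΦ, Ph_of, hps k]
    rw [h1]
    exact (hp k).2

end Crest.Agent.R010.G

end
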