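import Mathlib

/-! Row 10, module (E), analysis part 1 (helper819): the regular factor of a local solution of the
KZ-type equation `dW/dv = (q/v + t/(v-1) + y u/(u v - 1)) W` near `v = 0`. -/

set_option autoImplicit false

open Filter Topology NormedSpace

namespace Crest.Agent.R010.KZ

section Res
variable {A : Type*} [NormedRing A] [NormedAlgebra ℝ A]

local instance instIST : IsScalarTower ℝ (A →L[ℝ] A) (A →L[ℝ] A) :=
  ⟨fun a S T => by ext z; rfl⟩

local instance instSCC : SMulCommClass ℝ (A →L[ℝ] A) (A →L[ℝ] A) :=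
  ⟨fun a S T => by ext z; exact (map_smul S a (T z)).symm⟩

/-- `ad q` as a continuous linear map. -/
noncomputable def adL (q : A) : A →L[ℝ] A :=
  ContinuousLinearMap.mul ℝ A q - (ContinuousLinearMap.mul ℝ A).flip q

@[simp] theorem adL_apply (q z : A) : adL q z = q * z - z * q := by simp [adL]

theorem mulL_pow (q : A) (n : ℕ) (z : A) :
    ((ContinuousLinearMap.mul ℝ A q) ^ n) z = q ^ n * z := by
  induction n generalizing z with
  | zero => simp
  | succ n ih => rw [pow_succ, mul_apply_eq_comp, ih, pow_succ]; simp [mul_assoc]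

theorem mulR_pow (q : A) (n : ℕ) (z : A) :
    (((ContinuousLinearMap.mul ℝ A).flip q) ^ n) z = z * q ^ n := by
  induction n generalizing z with
  | zero => simp
  | succ n ih => rw [pow_succ, mul_apply_eq_comp, ih, pow_succ']; simp [mul_assoc]

theorem adL_nilpotent {q : A} (hq : IsNilpotent q) : IsNilpotent (adL q) := by
  obtain ⟨n, hn⟩ := hq
  refine Commute.isNilpotent_sub ?_ ⟨n, ?_⟩ ⟨n, ?_⟩
  · ext z; simp [mul_assoc]
  · ext z; rw [mulL_pow, hn]; simp
  · ext z; rw [mulR_pow, hn]; simp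

/-- the resolvent `(n - ad q)⁻¹`. -/
noncomputable def res (q : A) (n : ℕ) : A →L[ℝ] A := Ring.inverse ((n : ℝ) • 1 - adL q)

/-- the explicit Neumann sum -/
noncomputable def resK (q : A) (K n : ℕ) : A →L[ℝ] A :=
  ∑ k ∈ Finset.range K, ((n : ℝ)⁻¹ ^ (k + 1)) • (adL q) ^ k

theorem resK_spec {q : A} {K : ℕ} (hK : (adL q) ^ K = 0) {n : ℕ} (hn : n ≠ 0) :
    ((n : ℝ) • 1 - adL q) * resK q K n = 1 ∧ resK q K n * ((n : ℝ) • 1 - adL q) = 1 := by
  have hn' : (n : ℝ) ≠ 0 := by exact_mod_cast hn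
  set x : A →L[ℝ] A := (n : ℝ)⁻¹ • adL q with hx
  have hxK : x ^ K = 0 := by rw [hx, smul_pow, hK]; ext z; exact smul_zero _
  have h1 : (n : ℝ) • 1 - adL q = (n : ℝ) • (1 - x) := by
    rw [smul_sub, hx, smul_smul, mul_inv_cancel₀ hn', one_smul]
  have h2 : resK q K n = (n : ℝ)⁻¹ • ∑ k ∈ Finset.range K, x ^ k := by
    rw [resK, Finset.smul_sum]
    refine Finset.sum_congr rfl fun k _ => ?_
    rw [hx, smul_pow, smul_smul, pow_succ']
  constructor
  · rw [h1, h2, smul_mul_smul_comm, mul_inv_cancel₀ hn', one_smul, mul_neg_geom_sum, hxK, sub_zero]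
  · rw [h1, h2, smul_mul_smul_comm, inv_mul_cancel₀ hn', one_smul, geom_sum_mul_neg, hxK, sub_zero]

theorem res_eq_resK {q : A} {K : ℕ} (hK : (adL q) ^ K = 0) {n : ℕ} (hn : n ≠ 0) :
    res q n = resK q K n := by
  obtain ⟨h1, h2⟩ := resK_spec hK hn
  exact Ring.inverse_unit ⟨_, _, h1, h2⟩

theorem res_spec {q : A} (hq : IsNilpotent q) {n : ℕ} (hn : n ≠ 0) (z : A) :
    (n : ℝ) • res q n z - (q * res q n z - res q n z * q) = z := by
  obtain ⟨K, hK⟩ := adL_nilpotent hq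
  have h := (resK_spec hK hn).1
  rw [res_eq_resK hK hn]
  have := congrArg (fun T : A →L[ℝ] A => T z) h
  simpa using this

theorem res_spec' {q : A} (hq : IsNilpotent q) {n : ℕ} (hn : n ≠ 0) (z : A) :
    res q n ((n : ℝ) • z - (q * z - z * q)) = z := by
  obtain ⟨K, hK⟩ := adL_nilpotent hq
  have h := (resK_spec hK hn).2
  rw [res_eq_resK hK hn]
  have := congrArg (fun T : A →L[ℝ] A => T z) h
  simpa using this

theorem res_eq_of {q : A} (hq : IsNilpotent q) {n : ℕ} (hn : n ≠ 0) {z w : A}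
    (h : (n : ℝ) • w - (q * w - w * q) = z) : res q n z = w := by
  rw [← h, res_spec' hq hn]

theorem res_bound {q : A} (hq : IsNilpotent q) :
    ∃ C : ℝ, 0 ≤ C ∧ ∀ n : ℕ, n ≠ 0 → ∀ z : A, ‖res q n z‖ ≤ C / n * ‖z‖ := by
  obtain ⟨K, hK⟩ := adL_nilpotent hq
  refine ⟨∑ k ∈ Finset.range K, ‖(adL q) ^ k‖, Finset.sum_nonneg fun _ _ => norm_nonneg _, ?_⟩
  intro n hn z
  have hn1 : (1 : ℝ) ≤ n := by exact_mod_cast Nat.one_le_iff_ne_zero.2 hn
  rw [res_eq_resK hK hn]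
  refine (ContinuousLinearMap.le_opNorm _ _).trans (mul_le_mul_of_nonneg_right ?_ (norm_nonneg _))
  rw [resK, Finset.sum_div]
  refine (norm_sum_le _ _).trans (Finset.sum_le_sum fun k _ => ?_)
  rw [norm_smul, norm_pow, norm_inv, Real.norm_natCast, pow_succ, div_eq_mul_inv]
  have h1 : ((n : ℝ)⁻¹) ^ k ≤ 1 := pow_le_one₀ (by positivity) (inv_le_one_of_one_le₀ hn1)
  calc ((n : ℝ)⁻¹) ^ k * (n : ℝ)⁻¹ * ‖adL q ^ k‖ ≤ 1 * (n : ℝ)⁻¹ * ‖adL q ^ k‖ := by gcongr
    _ = ‖adL q ^ k‖ * (n : ℝ)⁻¹ := by ring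

end Res

section Coef
variable {A : Type*} [NormedRing A] [NormedAlgebra ℝ A]

/-- coefficients of the regular factor `H(u,v) = ∑ v^n h_n(u)`. -/
noncomputable def hc (q t y : A) (u : ℝ) : ℕ → A
  | 0 => 1
  | (n + 1) => - res q (n + 1) (∑ k : Fin (n + 1), (t + u ^ ((k : ℕ) + 1) • y) * hc q t y u (n - k))
termination_by n => n
decreasing_by omega

theorem hc_zero (q t y : A) (u : ℝ) : hc q t y u 0 = 1 := by rw [hc]

theorem hc_succ (q t y : A) (u : ℝ) (n : ℕ) : hc q t y u (n + 1) =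
    - res q (n + 1) (∑ k ∈ Finset.range (n + 1), (t + u ^ (k + 1) • y) * hc q t y u (n - k)) := by
  rw [hc, Finset.sum_range]

theorem hc_rec {q : A} (hq : IsNilpotent q) (t y : A) (u : ℝ) (n : ℕ) :
    ((n + 1 : ℕ) : ℝ) • hc q t y u (n + 1) -
      (q * hc q t y u (n + 1) - hc q t y u (n + 1) * q) =
    - ∑ k ∈ Finset.range (n + 1), (t + u ^ (k + 1) • y) * hc q t y u (n - k) := by
  have h := res_spec hq (n := n + 1) (by omega)
    (∑ k ∈ Finset.range (n + 1), (t + u ^ (k + 1) • y) * hc q t y u (n - k))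
  rw [hc_succ]
  generalize hS : (∑ k ∈ Finset.range (n + 1), (t + u ^ (k + 1) • y) * hc q t y u (n - k)) = S at h
  generalize hR : res q (n + 1) S = R at h
  rw [← h, smul_neg, mul_neg, neg_mul]
  abel

/-- the majorant sequence -/
noncomputable def bm (B κ : ℝ) : ℕ → ℝ
  | 0 => B
  | (n + 1) => bm B κ n * (n + κ) / (n + 1)

theorem bm_pos {B κ : ℝ} (hB : 0 < B) (hκ : 0 < κ) (n : ℕ) : 0 < bm B κ n := by
  induction n with
  | zero => simpa [bm] using hB
  | succ n ih => rw [bm]; positivity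

theorem bm_sum {B κ : ℝ} (n : ℕ) :
    κ * ∑ j ∈ Finset.range n, bm B κ j = n * bm B κ n := by
  induction n with
  | zero => simp
  | succ n ih =>
    rw [Finset.sum_range_succ, mul_add, ih, bm]
    push_cast
    have : (n : ℝ) + 1 ≠ 0 := by positivity
    field_simp

theorem bm_summable {B κ ρ : ℝ} (hB : 0 < B) (hκ : 0 < κ) (hρ0 : 0 < ρ) (hρ : ρ < 1) :
    Summable fun n : ℕ => ((n : ℝ) + 1) * bm B κ n * ρ ^ n := by
  refine summable_of_ratio_test_tendsto_lt_one hρ ?_ ?_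
  · refine Eventually.of_forall fun n => ?_
    have := bm_pos hB hκ n
    positivity
  · have h : ∀ n : ℕ, ‖((n + 1 : ℕ) + 1 : ℝ) * bm B κ (n + 1) * ρ ^ (n + 1)‖ /
        ‖((n : ℝ) + 1) * bm B κ n * ρ ^ n‖ =
        ρ * ((1 + (2 : ℝ) * (n : ℝ)⁻¹) * (1 + κ * (n : ℝ)⁻¹) / ((1 + (n : ℝ)⁻¹) * (1 + (n : ℝ)⁻¹))) ∨ n = 0 := by
      intro n
      rcases Nat.eq_zero_or_pos n with h0 | h0
      · exact Or.inr h0
      left
      have hb := bm_pos hB hκ n
      have hb1 := bm_pos hB hκ (n + 1)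
      have hn : (0 : ℝ) < n := by exact_mod_cast h0
      rw [Real.norm_of_nonneg (by positivity), Real.norm_of_nonneg (by positivity), bm]
      push_cast
      field_simp
      ring
    have hlim : Tendsto (fun n : ℕ => ρ * ((1 + (2 : ℝ) * (n : ℝ)⁻¹) * (1 + κ * (n : ℝ)⁻¹) /
        ((1 + (n : ℝ)⁻¹) * (1 + (n : ℝ)⁻¹)))) atTop (𝓝 ρ) := by
      have hi : Tendsto (fun n : ℕ => (n : ℝ)⁻¹) atTop (𝓝 0) := tendsto_inv_atTop_nhds_zero_nat
      have h2 : Tendsto (fun n : ℕ => ρ * ((1 + (2 : ℝ) * (n : ℝ)⁻¹) * (1 + κ * (n : ℝ)⁻¹) /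
        ((1 + (n : ℝ)⁻¹) * (1 + (n : ℝ)⁻¹)))) atTop
          (𝓝 (ρ * ((1 + 2 * 0) * (1 + κ * 0) / ((1 + 0) * (1 + 0))))) := by
        refine Tendsto.const_mul _ (Tendsto.div ?_ ?_ (by norm_num))
        · exact ((tendsto_const_nhds.add (hi.const_mul 2)).mul
            (tendsto_const_nhds.add (hi.const_mul κ)))
        · exact (tendsto_const_nhds.add hi).mul (tendsto_const_nhds.add hi)
      simpa using h2
    refine hlim.congr' ?_
    filter_upwards [eventually_gt_atTop 0] with n hn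
    rcases h n with h | h
    · rw [← h]
    · omega

/-- a uniform bound for all coefficients, `|u| ≤ 1`. -/
theorem hc_bound {q : A} (hq : IsNilpotent q) (t y : A) :
    ∃ B κ : ℝ, 0 < B ∧ 0 < κ ∧ ∀ u : ℝ, |u| ≤ 1 → ∀ n, ‖hc q t y u n‖ ≤ bm B κ n := by
  obtain ⟨C, hC0, hC⟩ := res_bound hq
  refine ⟨‖(1 : A)‖ + 1, C * (‖t‖ + ‖y‖) + 1, by positivity, by positivity, ?_⟩
  intro u hu n
  induction n using Nat.strong_induction_on with
  | _ n ih =>
    rcases n with _ | n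
    · rw [hc_zero, bm]; linarith
    · rw [hc_succ, norm_neg]
      refine (hC (n + 1) (by omega) _).trans ?_
      have h1 : ‖∑ k ∈ Finset.range (n + 1), (t + u ^ (k + 1) • y) * hc q t y u (n - k)‖ ≤
          (‖t‖ + ‖y‖) * ∑ k ∈ Finset.range (n + 1), bm (‖(1 : A)‖ + 1) (C * (‖t‖ + ‖y‖) + 1) k := by
        refine (norm_sum_le _ _).trans ?_
        rw [← Finset.sum_range_reflect (fun k => bm (‖(1 : A)‖ + 1) (C * (‖t‖ + ‖y‖) + 1) k),
          Finset.mul_sum]
        refine Finset.sum_le_sum fun k hk => ?_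
        rw [Finset.mem_range] at hk
        refine (norm_mul_le _ _).trans ?_
        refine mul_le_mul ?_ ?_ (norm_nonneg _) (by positivity)
        · refine (norm_add_le _ _).trans ?_
          have : ‖u ^ (k + 1) • y‖ ≤ ‖y‖ := by
            rw [norm_smul, norm_pow, Real.norm_eq_abs]
            calc |u| ^ (k + 1) * ‖y‖ ≤ 1 * ‖y‖ := by
                  gcongr; exact pow_le_one₀ (abs_nonneg _) hu
              _ = ‖y‖ := one_mul _
          linarith
        · have := ih (n - k) (by omega)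
          rwa [show n + 1 - 1 - k = n - k by omega]
      have hb : ∀ j, 0 < bm (‖(1 : A)‖ + 1) (C * (‖t‖ + ‖y‖) + 1) j :=
        fun j => bm_pos (by positivity) (by positivity) j
      have hs := bm_sum (B := ‖(1 : A)‖ + 1) (κ := C * (‖t‖ + ‖y‖) + 1) (n + 1)
      set Sg := ∑ k ∈ Finset.range (n + 1), bm (‖(1 : A)‖ + 1) (C * (‖t‖ + ‖y‖) + 1) k with hSg
      have hSg0 : 0 ≤ Sg := Finset.sum_nonneg fun j _ => (hb j).le
      have hn1 : (0 : ℝ) < ((n + 1 : ℕ) : ℝ) := by positivity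
      calc C / ((n + 1 : ℕ) : ℝ) * ‖∑ k ∈ Finset.range (n + 1),
            (t + u ^ (k + 1) • y) * hc q t y u (n - k)‖
          ≤ C / ((n + 1 : ℕ) : ℝ) * ((‖t‖ + ‖y‖) * Sg) := by gcongr
        _ ≤ (C * (‖t‖ + ‖y‖) + 1) * Sg / ((n + 1 : ℕ) : ℝ) := by
            rw [div_mul_eq_mul_div]
            refine div_le_div_of_nonneg_right ?_ hn1.le
            nlinarith
        _ = bm (‖(1 : A)‖ + 1) (C * (‖t‖ + ‖y‖) + 1) (n + 1) := by
            rw [hs]; field_simp

end Coef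

end Crest.Agent.R010.KZ
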