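import Crest.Agent.R010.KZa

/-! Row 10, module (E), analysis part 2 (helper819): derivative in the parameter `u` of the
coefficients `h_n(u)`, through an identity in `PowerSeries A`. -/

set_option autoImplicit false

open Filter Topology NormedSpace

namespace Crest.Agent.R010.KZ

section PS
variable {A : Type*} [Ring A] [Algebra ℝ A]

open PowerSeries

/-- the Euler operator on power series -/
noncomputable def th (F : A⟦X⟧) : A⟦X⟧ := PowerSeries.mk fun n => (n : ℝ) • coeff n F

theorem coeff_th (F : A⟦X⟧) (n : ℕ) : coeff n (th F) = (n : ℝ) • coeff n F := by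
  simp [th]

theorem th_mul (F G : A⟦X⟧) : th (F * G) = th F * G + F * th G := by
  ext n
  rw [coeff_th, coeff_mul, map_add, coeff_mul, coeff_mul, Finset.smul_sum,
    ← Finset.sum_add_distrib]
  refine Finset.sum_congr rfl fun p hp => ?_
  rw [Finset.HasAntidiagonal.mem_antidiagonal] at hp
  rw [coeff_th, coeff_th, smul_mul_assoc, mul_smul_comm, ← add_smul, ← hp]
  push_cast
  rfl

theorem th_sub (F G : A⟦X⟧) : th (F - G) = th F - th G := by
  ext n; simp [coeff_th, smul_sub]

theorem th_C (a : A) : th (C a) = 0 := by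
  ext n
  rw [coeff_th, coeff_C]
  split_ifs with h
  · simp [h]
  · simp

omit [Algebra ℝ A] in
theorem X_central (F : A⟦X⟧) : F * X = X * F := (commute_X F).eq

/-- the scalar series `∑ u^k X^k` -/
noncomputable def Us (A : Type*) [Ring A] [Algebra ℝ A] (u : ℝ) : A⟦X⟧ :=
  PowerSeries.mk fun k => (u ^ k) • (1 : A)

/-- the scalar series `∑ (k+1) u^k X^k` -/
noncomputable def U1s (A : Type*) [Ring A] [Algebra ℝ A] (u : ℝ) : A⟦X⟧ :=
  PowerSeries.mk fun k => (((k : ℝ) + 1) * u ^ k) • (1 : A)

theorem Us_central (u : ℝ) (F : A⟦X⟧) : F * Us A u = Us A u * F := by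
  ext n
  rw [coeff_mul, coeff_mul, ← Finset.Nat.sum_antidiagonal_swap]
  refine Finset.sum_congr rfl fun p _ => ?_
  simp [Us]

theorem th_XUs (u : ℝ) : th (X * Us A u) = X * U1s A u := by
  ext n
  rw [coeff_th]
  rcases n with _ | n
  · simp
  · rw [coeff_succ_X_mul, coeff_succ_X_mul]
    simp only [Us, U1s, coeff_mk, smul_smul]
    push_cast
    rfl

omit [Algebra ℝ A] in
/-- the algebraic heart -/
theorem ps_identity {a b c S U U1 H thH : A⟦X⟧} (hU : ∀ F, F * U = U * F)
    (hab : a * b = b * a)
    (E1 : thH = b * H - H * b - X * (S * H))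
    (R1 : a * S - S * a = X * (U * c * S - S * U * c) + U * (b * c - c * b)) :
    (a * thH - thH * a) - (X * U1 * (c * H) + X * U * (c * thH)) =
      (b * (a * H - H * a - X * U * (c * H)) - (a * H - H * a - X * U * (c * H)) * b)
       - X * (S * (a * H - H * a - X * U * (c * H)) + U1 * (c * H)) := by
  have hX : ∀ F : A⟦X⟧, F * X = X * F := X_central
  have hX' : ∀ F G : A⟦X⟧, F * (X * G) = X * (F * G) := fun F G => by
    rw [← mul_assoc, hX, mul_assoc]
  have hU' : ∀ F G : A⟦X⟧, F * (U * G) = U * (F * G) := fun F G => by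
    rw [← mul_assoc, hU, mul_assoc]
  subst E1
  have R2 : X * ((a * S - S * a) * H) =
      X * ((X * (U * c * S - S * U * c) + U * (b * c - c * b)) * H) := by rw [R1]
  have e1 : X * ((a * S - S * a) * H) = X * (a * (S * H)) - X * (S * (a * H)) := by
    noncomm_ring
  have e2 : X * ((X * (U * c * S - S * U * c) + U * (b * c - c * b)) * H) =
      X * (X * (U * (c * (S * H)))) - X * (X * (U * (S * (c * H)))) + X * (U * (b * (c * H)))
        - X * (U * (c * (b * H))) := by
    have : S * U = U * S := hU S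
    rw [this]
    noncomm_ring
  rw [e1, e2] at R2
  have g1 : a * (X * (S * H)) = X * (a * (S * H)) := hX' _ _
  have g2 : X * U * (c * (b * H - H * b - X * (S * H))) =
      X * (U * (c * (b * H))) - X * (U * (c * (H * b))) - X * (X * (U * (c * (S * H)))) := by
    rw [mul_sub, mul_sub, mul_sub, mul_sub, hX' c, hX' (X * U)]
    noncomm_ring
  have g3 : b * (X * U * (c * H)) = X * (U * (b * (c * H))) := by
    rw [mul_assoc X U, hX', hU']
  have g4 : X * (S * (X * U * (c * H))) = X * (X * (U * (S * (c * H)))) := by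
    rw [mul_assoc X U, hX', hU']
  have g5 : a * (b * H) = b * (a * H) := by rw [← mul_assoc, hab, mul_assoc]
  have g6 : H * b * a = H * a * b := by rw [mul_assoc, ← hab, mul_assoc]
  have L : (a * (b * H - H * b - X * (S * H)) - (b * H - H * b - X * (S * H)) * a) -
      (X * U1 * (c * H) + X * U * (c * (b * H - H * b - X * (S * H)))) =
      (b * (a * H) - a * (H * b) - X * (a * (S * H))) - (b * (H * a) - H * a * b - X * (S * (H * a)))
      - X * U1 * (c * H) - (X * (U * (c * (b * H))) - X * (U * (c * (H * b))) -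
        X * (X * (U * (c * (S * H))))) := by
    rw [g2, mul_sub a, mul_sub a, g1, g5, sub_mul _ _ a, sub_mul _ _ a, g6]
    noncomm_ring
  have Rr : (b * (a * H - H * a - X * U * (c * H)) - (a * H - H * a - X * U * (c * H)) * b)
       - X * (S * (a * H - H * a - X * U * (c * H)) + U1 * (c * H)) =
      b * (a * H) - b * (H * a) - X * (U * (b * (c * H))) - a * (H * b) + H * a * b
        + X * (U * (c * (H * b))) - X * (S * (a * H)) + X * (S * (H * a)) +
        X * (X * (U * (S * (c * H)))) - X * U1 * (c * H) := by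
    rw [mul_sub b, mul_sub b, g3, mul_add X, mul_sub S, mul_sub S, mul_sub X, mul_sub X, g4]
    noncomm_ring
  rw [L, Rr]
  have R3 : X * (a * (S * H)) = X * (S * (a * H)) + (X * (X * (U * (c * (S * H)))) -
      X * (X * (U * (S * (c * H)))) + X * (U * (b * (c * H))) - X * (U * (c * (b * H)))) := by
    rw [← R2]; abel
  rw [R3]
  abel

end PS

section Deriv
variable {A : Type*} [NormedRing A] [NormedAlgebra ℝ A]

open PowerSeries

/-- the coefficient series -/
noncomputable def Hser (q t y : A) (u : ℝ) : A⟦X⟧ := PowerSeries.mk (hc q t y u)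

/-- the series `∑ (t + u^(k+1) y) X^k` -/
noncomputable def Cser (t y : A) (u : ℝ) : A⟦X⟧ := PowerSeries.mk fun k => t + u ^ (k + 1) • y

theorem th_Hser {q : A} (hq : IsNilpotent q) (t y : A) (u : ℝ) :
    th (Hser q t y u) = C q * Hser q t y u - Hser q t y u * C q -
      X * (Cser t y u * Hser q t y u) := by
  ext n
  rw [coeff_th]
  rcases n with _ | n
  · simp [Hser, hc_zero]
  · have h := hc_rec hq t y u n
    rw [map_sub, map_sub, coeff_C_mul, coeff_mul_C, coeff_succ_X_mul, coeff_mul]
    rw [Finset.Nat.sum_antidiagonal_eq_sum_range_succ_mk]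
    simp only [Hser, Cser, coeff_mk, Nat.succ_eq_add_one]
    rw [sub_eq_iff_eq_add.1 h]
    abel

/-- the `u`-derivative of `hc`. -/
noncomputable def Dc (x q t y : A) (u : ℝ) (n : ℕ) : A :=
  x * hc q t y u n - hc q t y u n * x -
    ∑ k ∈ Finset.range n, u ^ k • (y * hc q t y u (n - 1 - k))

theorem coeff_D (x q t y : A) (u : ℝ) (n : ℕ) :
    coeff n (C x * Hser q t y u - Hser q t y u * C x - X * Us A u * (C y * Hser q t y u)) =
      Dc x q t y u n := by
  rw [map_sub, map_sub, coeff_C_mul, coeff_mul_C, mul_assoc, Dc]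
  have h1 : coeff n (Hser q t y u) = hc q t y u n := by simp [Hser]
  have h2 : coeff n (X * (Us A u * (C y * Hser q t y u))) =
      ∑ k ∈ Finset.range n, u ^ k • (y * hc q t y u (n - 1 - k)) := by
    rcases n with _ | n
    · simp
    · rw [coeff_succ_X_mul, coeff_mul, Finset.Nat.sum_antidiagonal_eq_sum_range_succ_mk]
      refine Finset.sum_congr rfl fun k _ => ?_
      simp [Us, Hser, coeff_C_mul]
  rw [h1, h2]

/-- the relations between the letters: `x = p/u + r/(u-1)`. -/
structure Rel (p q r t y : A) : Prop where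
  pq : p * q = q * p
  qr : q * r = r * q
  tp : t * p = p * t
  ty : t * y - y * t = r * t - t * r
  ry : r * y - y * r = t * r - r * t
  py : (p * y - y * p) - (r * t - t * r) = q * y - y * q

/-- the connection coefficient at height `0`. -/
noncomputable def Xf (p r : A) (u : ℝ) : A := u⁻¹ • p + (u - 1)⁻¹ • r

theorem R1_coeff {p q r t y : A} (h : Rel p q r t y) {u : ℝ} (hu0 : u ≠ 0) (hu1 : u ≠ 1) :
    C (Xf p r u) * Cser t y u - Cser t y u * C (Xf p r u) =
      X * (Us A u * C y * Cser t y u - Cser t y u * Us A u * C y) +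
        Us A u * (C q * C y - C y * C q) := by
  have hu1' : u - 1 ≠ 0 := sub_ne_zero.2 hu1
  ext n
  rw [map_sub, coeff_C_mul, coeff_mul_C, map_add]
  have e1 : coeff n (Us A u * (C q * C y - C y * C q)) = u ^ n • (q * y - y * q) := by
    rw [← map_mul, ← map_mul, ← map_sub, coeff_mul_C]
    simp [Us]
  have e2 : coeff n (X * (Us A u * C y * Cser t y u - Cser t y u * Us A u * C y)) =
      (∑ k ∈ Finset.range n, u ^ k) • (y * t - t * y) := by
    rcases n with _ | n
    · simp
    · rw [coeff_succ_X_mul, map_sub, mul_assoc (Us A u), coeff_mul, Us_central u (Cser t y u),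
        mul_assoc (Us A u), coeff_mul, ← Finset.sum_sub_distrib, Finset.Nat.sum_antidiagonal_eq_sum_range_succ_mk,
        Finset.sum_smul]
      refine Finset.sum_congr rfl fun k _ => ?_
      simp only [Us, Cser, coeff_mk, coeff_C_mul, coeff_mul_C, smul_mul_assoc, one_mul]
      rw [← smul_sub]
      congr 1
      rw [mul_add, add_mul, mul_smul_comm, smul_mul_assoc]
      abel
  rw [e1, e2]
  simp only [Cser, coeff_mk, Xf]
  have hg : (∑ k ∈ Finset.range n, u ^ k) = (u ^ n - 1) / (u - 1) := geom_sum_eq hu1 n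
  rw [hg]
  have hL : (u⁻¹ • p + (u - 1)⁻¹ • r) * (t + u ^ (n + 1) • y) -
      (t + u ^ (n + 1) • y) * (u⁻¹ • p + (u - 1)⁻¹ • r) =
      u⁻¹ • (p * t - t * p) + (u ^ (n + 1) * u⁻¹) • (p * y - y * p) +
        (u - 1)⁻¹ • (r * t - t * r) + (u ^ (n + 1) * (u - 1)⁻¹) • (r * y - y * r) := by
    simp only [mul_add, add_mul, smul_mul_assoc, mul_smul_comm, smul_sub]
    module
  rw [hL, h.tp, sub_self, smul_zero, zero_add, h.ry, ← h.py,
    show y * t - t * y = -(t * y - y * t) by abel, h.ty]
  generalize p * y - y * p = P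
  generalize r * t = R1
  generalize t * r = R2
  match_scalars <;> field_simp <;> ring

/-- `D` satisfies the differentiated recursion. -/
theorem Dc_rec {p q r t y : A} (h : Rel p q r t y) (hq : IsNilpotent q) {u : ℝ} (hu0 : u ≠ 0)
    (hu1 : u ≠ 1) (n : ℕ) :
    ((n + 1 : ℕ) : ℝ) • Dc (Xf p r u) q t y u (n + 1) -
      (q * Dc (Xf p r u) q t y u (n + 1) - Dc (Xf p r u) q t y u (n + 1) * q) =
    - ∑ k ∈ Finset.range (n + 1), ((t + u ^ (k + 1) • y) * Dc (Xf p r u) q t y u (n - k) +
        (((k : ℝ) + 1) * u ^ k) • (y * hc q t y u (n - k))) := by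
  have hab : C (Xf p r u) * C q = C q * C (Xf p r u) := by
    rw [← map_mul, ← map_mul]
    congr 1
    simp only [Xf, add_mul, mul_add, smul_mul_assoc, mul_smul_comm, h.pq, h.qr]
  have key := ps_identity (Us_central u) hab (th_Hser hq t y u) (R1_coeff h hu0 hu1)
    (U1 := U1s A u)
  set Dser := C (Xf p r u) * Hser q t y u - Hser q t y u * C (Xf p r u) -
    X * Us A u * (C y * Hser q t y u) with hD
  have hth : th Dser = (C (Xf p r u) * th (Hser q t y u) - th (Hser q t y u) * C (Xf p r u)) -
      (X * U1s A u * (C y * Hser q t y u) + X * Us A u * (C y * th (Hser q t y u))) := by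
    rw [hD, th_sub, th_sub, th_mul, th_mul, th_C, th_mul (X * Us A u), th_XUs, th_mul (C y), th_C]
    simp
  rw [← hth] at key
  have hcD : ∀ m, coeff m Dser = Dc (Xf p r u) q t y u m := fun m => coeff_D _ _ _ _ _ _
  clear_value Dser
  have hc := congrArg (coeff (n + 1)) key
  rw [coeff_th, map_sub, map_sub, coeff_C_mul, coeff_mul_C, coeff_succ_X_mul, map_add, coeff_mul,
    coeff_mul, ← Finset.sum_add_distrib, Finset.Nat.sum_antidiagonal_eq_sum_range_succ_mk] at hc
  simp only [hcD, Nat.succ_eq_add_one] at hc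
  rw [hc]
  have : ∀ k, coeff k (Cser t y u) = t + u ^ (k + 1) • y := fun k => by simp [Cser]
  simp only [this, U1s, Hser, coeff_mk, coeff_C_mul, smul_mul_assoc, one_mul]
  abel

/-- the derivative of `h_n` in `u`. -/
theorem hasDerivAt_hc {p q r t y : A} (h : Rel p q r t y) (hq : IsNilpotent q) {u : ℝ}
    (hu0 : u ≠ 0) (hu1 : u ≠ 1) (n : ℕ) :
    HasDerivAt (fun u => hc q t y u n) (Dc (Xf p r u) q t y u n) u := by
  induction n using Nat.strong_induction_on with
  | _ n ih =>
    rcases n with _ | n
    · simp only [hc_zero, Dc, Finset.range_zero, Finset.sum_empty, mul_one, one_mul, sub_self]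
      exact hasDerivAt_const _ _
    · have hS : HasDerivAt (fun u => ∑ k ∈ Finset.range (n + 1),
          (t + u ^ (k + 1) • y) * hc q t y u (n - k))
          (∑ k ∈ Finset.range (n + 1), ((t + u ^ (k + 1) • y) * Dc (Xf p r u) q t y u (n - k) +
            (((k : ℝ) + 1) * u ^ k) • (y * hc q t y u (n - k)))) u := by
        refine HasDerivAt.fun_sum fun k _ => ?_
        have h1 : HasDerivAt (fun u : ℝ => t + u ^ (k + 1) • y) ((((k : ℝ) + 1) * u ^ k) • y) u := by
          have := ((hasDerivAt_pow (k + 1) u).smul_const y).const_add t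
          simpa using this
        have h2 := h1.mul (ih (n - k) (by omega))
        rw [smul_mul_assoc] at h2
        exact h2.congr_deriv (add_comm _ _)
      have h3 := ((res q (n + 1)).hasFDerivAt.comp_hasDerivAt u hS).neg
      have h4 : -(res q (n + 1) (∑ k ∈ Finset.range (n + 1),
          ((t + u ^ (k + 1) • y) * Dc (Xf p r u) q t y u (n - k) +
            (((k : ℝ) + 1) * u ^ k) • (y * hc q t y u (n - k))))) =
          Dc (Xf p r u) q t y u (n + 1) := by
        rw [← map_neg, ← Dc_rec h hq hu0 hu1 n]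
        exact res_eq_of hq (by omega) rfl
      rw [← h4]
      refine h3.congr_of_eventuallyEq (Eventually.of_forall fun u => ?_)
      simp [hc_succ]

end Deriv

end Crest.Agent.R010.KZ
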