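import Crest.Agent.R010.KZb

/-! Row 10, module (E), analysis part 3 (helper819): the regular factor `H(u,v)`. -/

set_option autoImplicit false

open Filter Topology NormedSpace

namespace Crest.Agent.R010.KZ

variable {A : Type*} [NormedRing A] [NormedAlgebra ℝ A] [CompleteSpace A]

/-- the regular factor -/
noncomputable def Hf (q t y : A) (u v : ℝ) : A := ∑' n, v ^ n • hc q t y u n

theorem bm_summable0 {B κ ρ : ℝ} (hB : 0 < B) (hκ : 0 < κ) (hρ0 : 0 ≤ ρ) (hρ : ρ < 1) :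
    Summable fun n : ℕ => ρ ^ n * bm B κ n := by
  obtain ⟨ρ', h1, h2⟩ := exists_between hρ
  have hρ'0 : 0 < ρ' := lt_of_le_of_lt hρ0 h1
  refine Summable.of_nonneg_of_le (fun n => ?_) (fun n => ?_) (bm_summable hB hκ hρ'0 h2)
  · have := bm_pos hB hκ n; positivity
  · have hb := bm_pos hB hκ n
    have h3 : ρ ^ n ≤ ρ' ^ n := pow_le_pow_left₀ hρ0 h1.le n
    calc ρ ^ n * bm B κ n ≤ ρ' ^ n * bm B κ n := by gcongr
      _ ≤ ((n : ℝ) + 1) * bm B κ n * ρ' ^ n := by
        have : 0 ≤ (n : ℝ) * (bm B κ n * ρ' ^ n) := by positivity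
        nlinarith

theorem summable_H {q : A} (hq : IsNilpotent q) (t y : A) {u v : ℝ} (hu : |u| ≤ 1) (hv : |v| < 1) :
    Summable fun n => ‖v ^ n • hc q t y u n‖ := by
  obtain ⟨B, κ, hB, hκ, hb⟩ := hc_bound hq t y
  refine Summable.of_nonneg_of_le (fun n => norm_nonneg _) (fun n => ?_)
    (bm_summable0 hB hκ (abs_nonneg v) hv)
  rw [norm_smul, norm_pow, Real.norm_eq_abs]
  exact mul_le_mul_of_nonneg_left (hb u hu n) (by positivity)

omit [CompleteSpace A] in
theorem continuous_hc (q t y : A) (n : ℕ) : Continuous fun u => hc q t y u n := by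
  induction n using Nat.strong_induction_on with
  | _ n ih =>
    rcases n with _ | n
    · simp only [hc_zero]; exact continuous_const
    · simp only [hc_succ]
      refine ((res q (n + 1)).continuous.comp ?_).neg
      refine continuous_finset_sum _ fun k _ => ?_
      exact (continuous_const.add ((continuous_pow _).smul continuous_const)).mul
        (ih (n - k) (by omega))

omit [CompleteSpace A] in
theorem Hf_zero (q t y : A) (u : ℝ) : Hf q t y u 0 = 1 := by
  rw [Hf, tsum_eq_single 0]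
  · simp [hc_zero]
  · intro n hn; simp [hn]

/-- joint continuity -/
theorem continuousOn_Hf {q : A} (hq : IsNilpotent q) (t y : A) {ρ : ℝ} (hρ0 : 0 ≤ ρ) (hρ : ρ < 1) :
    ContinuousOn (fun p : ℝ × ℝ => Hf q t y p.1 p.2) {p | |p.1| ≤ 1 ∧ |p.2| ≤ ρ} := by
  obtain ⟨B, κ, hB, hκ, hb⟩ := hc_bound hq t y
  refine continuousOn_tsum (fun n => ?_) (bm_summable0 hB hκ hρ0 hρ) (fun n p hp => ?_)
  · exact ((continuous_snd.pow n).smul ((continuous_hc q t y n).comp continuous_fst)).continuousOn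
  · rw [norm_smul, norm_pow, Real.norm_eq_abs]
    exact mul_le_mul (pow_le_pow_left₀ (abs_nonneg _) hp.2 n) (hb _ hp.1 n) (norm_nonneg _)
      (by positivity)

theorem tendsto_Hf {q : A} (hq : IsNilpotent q) (t y : A) {α : Type*} {l : Filter α}
    {a b : α → ℝ} {u v : ℝ} (ha : Tendsto a l (𝓝 u)) (hb : Tendsto b l (𝓝 v))
    (ha1 : ∀ᶠ s in l, |a s| ≤ 1) (hu : |u| ≤ 1) (hv : |v| < 1) :
    Tendsto (fun s => Hf q t y (a s) (b s)) l (𝓝 (Hf q t y u v)) := by
  obtain ⟨ρ, h1, h2⟩ := exists_between hv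
  have hc := continuousOn_Hf hq t y ((abs_nonneg v).trans h1.le) h2
  have hmem : (u, v) ∈ {p : ℝ × ℝ | |p.1| ≤ 1 ∧ |p.2| ≤ ρ} := ⟨hu, h1.le⟩
  have h3 := (hc _ hmem).tendsto
  have h4 : Tendsto (fun s => (a s, b s)) l (𝓝[{p : ℝ × ℝ | |p.1| ≤ 1 ∧ |p.2| ≤ ρ}] (u, v)) := by
    rw [tendsto_nhdsWithin_iff]
    refine ⟨ha.prodMk_nhds hb, ?_⟩
    filter_upwards [ha1, (hb.abs).eventually_lt_const h1] with s hs1 hs2 using ⟨hs1, hs2.le⟩
  exact h3.comp h4

omit [CompleteSpace A] in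
theorem hc_euler {q : A} (hq : IsNilpotent q) (t y : A) (u : ℝ) (n : ℕ) :
    (n : ℝ) • hc q t y u n = q * hc q t y u n - hc q t y u n * q -
      ∑ k ∈ Finset.range n, (t + u ^ (k + 1) • y) * hc q t y u (n - 1 - k) := by
  rcases n with _ | n
  · simp [hc_zero]
  · have h := hc_rec hq t y u n
    rw [sub_eq_iff_eq_add.1 h]
    simp only [Nat.add_sub_cancel]
    abel

/-- Cauchy product with a shift -/
theorem tsum_shift_mul {c h : ℕ → A} {v : ℝ} (hc : Summable fun n => ‖v ^ n • c n‖)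
    (hh : Summable fun n => ‖v ^ n • h n‖) :
    Summable (fun n => v ^ n • ∑ k ∈ Finset.range n, c k * h (n - 1 - k)) ∧
    ∑' n, v ^ n • ∑ k ∈ Finset.range n, c k * h (n - 1 - k) =
      v • ((∑' n, v ^ n • c n) * ∑' n, v ^ n • h n) := by
  have e1 : ∀ n : ℕ, v ^ (n + 1) • ∑ k ∈ Finset.range (n + 1), c k * h (n + 1 - 1 - k) =
      v • ∑ k ∈ Finset.range (n + 1), (v ^ k • c k) * (v ^ (n - k) • h (n - k)) := by
    intro n
    rw [pow_succ', mul_smul, Finset.smul_sum]
    congr 1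
    refine Finset.sum_congr rfl fun k hk => ?_
    rw [Finset.mem_range] at hk
    rw [smul_mul_smul_comm, ← pow_add, show k + (n - k) = n by omega,
      show n + 1 - 1 - k = n - k by omega]
  have hs : Summable fun n => ∑ k ∈ Finset.range (n + 1), (v ^ k • c k) * (v ^ (n - k) • h (n - k)) :=
    (summable_norm_sum_mul_range_of_summable_norm hc hh).of_norm
  have hs1 : Summable (fun n => v ^ (n + 1) • ∑ k ∈ Finset.range (n + 1), c k * h (n + 1 - 1 - k)) := by
    simp only [e1]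
    exact hs.const_smul v
  have hs2 : Summable (fun n => v ^ n • ∑ k ∈ Finset.range n, c k * h (n - 1 - k)) :=
    (summable_nat_add_iff 1).1 hs1
  refine ⟨hs2, ?_⟩
  rw [hs2.tsum_eq_zero_add]
  simp only [e1]
  rw [hs.tsum_const_smul, ← tsum_mul_tsum_eq_tsum_sum_range_of_summable_norm hc hh]
  simp

omit [CompleteSpace A] in
theorem hasSum_geom (a : A) {w : ℝ} (hw : |w| < 1) :
    HasSum (fun n : ℕ => w ^ n • a) ((1 - w)⁻¹ • a) :=
  (hasSum_geometric_of_abs_lt_one hw).smul_const a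

omit [CompleteSpace A] in
theorem summable_norm_geom (a : A) {w : ℝ} (hw : |w| < 1) :
    Summable (fun n : ℕ => ‖w ^ n • a‖) := by
  simp only [norm_smul, norm_pow, Real.norm_eq_abs]
  exact (summable_geometric_of_lt_one (abs_nonneg _) hw).mul_right _

theorem abs_mul_lt {u v : ℝ} (hu : |u| ≤ 1) (hv : |v| < 1) : |u * v| < 1 := by
  rw [abs_mul]
  exact lt_of_le_of_lt (mul_le_of_le_one_left (abs_nonneg _) hu) hv

theorem cser_sum (t y : A) {u v : ℝ} (hu : |u| ≤ 1) (hv : |v| < 1) :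
    (Summable fun n : ℕ => ‖v ^ n • (t + u ^ (n + 1) • y)‖) ∧
    ∑' n : ℕ, v ^ n • (t + u ^ (n + 1) • y) = (1 - v)⁻¹ • t + (u * (1 - u * v)⁻¹) • y := by
  have e : ∀ n : ℕ, v ^ n • (t + u ^ (n + 1) • y) = v ^ n • t + u • ((u * v) ^ n • y) := by
    intro n
    rw [smul_add, smul_smul, smul_smul, mul_pow]
    congr 2
    ring
  have h1 := hasSum_geom t hv
  have h2 := (hasSum_geom y (abs_mul_lt hu hv)).const_smul u
  simp only [e]
  refine ⟨?_, ?_⟩
  · refine Summable.of_nonneg_of_le (fun n => norm_nonneg _) (fun n => norm_add_le _ _)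
      ((summable_norm_geom t hv).add ?_)
    simp only [norm_smul]
    simpa [norm_smul] using (summable_norm_geom y (abs_mul_lt hu hv)).mul_left ‖u‖
  · rw [(h1.add h2).tsum_eq, smul_smul]

/-- Euler equation in `v`. -/
theorem sum_v {q : A} (hq : IsNilpotent q) (t y : A) {u v : ℝ} (hu : |u| ≤ 1) (hv : |v| < 1) :
    ∑' n : ℕ, (n : ℝ) • (v ^ n • hc q t y u n) =
      q * Hf q t y u v - Hf q t y u v * q -
        v • (((1 - v)⁻¹ • t + (u * (1 - u * v)⁻¹) • y) * Hf q t y u v) := by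
  have hs := summable_H hq t y hu hv
  obtain ⟨hc1, hc2⟩ := cser_sum t y hu hv
  obtain ⟨hd1, hd2⟩ := tsum_shift_mul (c := fun k => t + u ^ (k + 1) • y) (h := hc q t y u) hc1 hs
  have e : ∀ n : ℕ, (n : ℝ) • (v ^ n • hc q t y u n) =
      q * (v ^ n • hc q t y u n) - (v ^ n • hc q t y u n) * q -
        v ^ n • ∑ k ∈ Finset.range n, (t + u ^ (k + 1) • y) * hc q t y u (n - 1 - k) := by
    intro n
    rw [smul_comm, hc_euler hq, smul_sub, smul_sub, mul_smul_comm, smul_mul_assoc]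
  simp only [e]
  have hs' := hs.of_norm
  rw [((hs'.mul_left q).sub (hs'.mul_right q)).tsum_sub hd1,
    (hs'.mul_left q).tsum_sub (hs'.mul_right q), hs'.tsum_mul_left, hs'.tsum_mul_right, hd2, hc2]
  rfl

/-- equation in `u`. -/
theorem sum_u {q : A} (hq : IsNilpotent q) (x t y : A) {u v : ℝ} (hu : |u| ≤ 1) (hv : |v| < 1) :
    ∑' n : ℕ, v ^ n • Dc x q t y u n =
      x * Hf q t y u v - Hf q t y u v * x - v • ((1 - u * v)⁻¹ • (y * Hf q t y u v)) := by
  have hs := summable_H hq t y hu hv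
  have hc1 : Summable fun n : ℕ => ‖v ^ n • (u ^ n • y)‖ := by
    have := summable_norm_geom y (abs_mul_lt hu hv)
    refine this.congr fun n => ?_
    rw [smul_smul, mul_pow, mul_comm]
  have hc2 : ∑' n : ℕ, v ^ n • (u ^ n • y) = (1 - u * v)⁻¹ • y := by
    rw [← (hasSum_geom y (abs_mul_lt hu hv)).tsum_eq]
    refine tsum_congr fun n => ?_
    rw [smul_smul, mul_pow, mul_comm]
  obtain ⟨hd1, hd2⟩ := tsum_shift_mul (c := fun k => u ^ k • y) (h := hc q t y u) hc1 hs
  have e : ∀ n : ℕ, v ^ n • Dc x q t y u n =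
      x * (v ^ n • hc q t y u n) - (v ^ n • hc q t y u n) * x -
        v ^ n • ∑ k ∈ Finset.range n, (u ^ k • y) * hc q t y u (n - 1 - k) := by
    intro n
    simp only [Dc, smul_sub, mul_smul_comm, smul_mul_assoc]
  simp only [e]
  have hs' := hs.of_norm
  rw [((hs'.mul_left x).sub (hs'.mul_right x)).tsum_sub hd1,
    (hs'.mul_left x).tsum_sub (hs'.mul_right x), hs'.tsum_mul_left, hs'.tsum_mul_right, hd2, hc2,
    smul_mul_assoc]
  rfl

end Crest.Agent.R010.KZ
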