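import Crest.Agent.R010.KZc

/-! Row 10, module (E), analysis part 4 (helper819): derivatives along curves. -/

set_option autoImplicit false

open Filter Topology NormedSpace

namespace Crest.Agent.R010.KZ

variable {A : Type*} [NormedRing A] [NormedAlgebra ℝ A] [CompleteSpace A]

theorem hasDerivAt_series {f f' : ℕ → ℝ → A} {β β' : ℝ → ℝ} {B κ ρ C s₀ : ℝ}
    (hB : 0 < B) (hκ : 0 < κ) (hρ0 : 0 < ρ) (hρ : ρ < 1)
    (hf : ∀ᶠ s in 𝓝 s₀, ∀ n, HasDerivAt (f n) (f' n s) s)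
    (hb : ∀ᶠ s in 𝓝 s₀, ∀ n, ‖f n s‖ ≤ bm B κ n)
    (hb' : ∀ᶠ s in 𝓝 s₀, ∀ n : ℕ, ‖f' n s‖ ≤ C * (((n : ℝ) + 1) * bm B κ n))
    (hβ : ∀ᶠ s in 𝓝 s₀, HasDerivAt β (β' s) s)
    (hβρ : ∀ᶠ s in 𝓝 s₀, |β s| ≤ ρ) (hβC : ∀ᶠ s in 𝓝 s₀, |β' s| ≤ C) :
    HasDerivAt (fun s => ∑' n, (β s) ^ n • f n s)
      (∑' n : ℕ, (((n : ℝ) * (β s₀) ^ (n - 1) * β' s₀) • f n s₀ + (β s₀) ^ n • f' n s₀)) s₀ := by
  have hall := (hf.and (hb.and (hb'.and (hβ.and (hβρ.and hβC)))))
  obtain ⟨ε, hε, hball⟩ := Metric.eventually_nhds_iff_ball.1 hall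
  have hC0 : 0 ≤ C := by
    have := (hball s₀ (Metric.mem_ball_self hε)).2.2.2.2.2
    exact (abs_nonneg _).trans this
  have hu : Summable fun n : ℕ => (C / ρ + C) * (((n : ℝ) + 1) * bm B κ n * ρ ^ n) :=
    (bm_summable hB hκ hρ0 hρ).mul_left _
  refine hasDerivAt_tsum_of_isPreconnected hu Metric.isOpen_ball
    (convex_ball s₀ ε).isPreconnected (g := fun n s => (β s) ^ n • f n s)
    (g' := fun n s => ((n : ℝ) * (β s) ^ (n - 1) * β' s) • f n s + (β s) ^ n • f' n s)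
    (fun n s hs => ?_) (fun n s hs => ?_) (Metric.mem_ball_self hε) ?_ (Metric.mem_ball_self hε)
  · obtain ⟨h1, _, _, h4, _, _⟩ := hball s hs
    have h5 := (h4.pow n).smul (h1 n)
    refine h5.congr_deriv ?_
    rw [add_comm]
    rfl
  · obtain ⟨_, h2, h3, _, h5, h6⟩ := hball s hs
    have hbn := bm_pos hB hκ n
    refine (norm_add_le _ _).trans ?_
    have e1 : ‖((n : ℝ) * (β s) ^ (n - 1) * β' s) • f n s‖ ≤ C / ρ * (((n : ℝ) + 1) * bm B κ n * ρ ^ n) := by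
      rw [norm_smul, Real.norm_eq_abs, abs_mul, abs_mul, abs_pow, Nat.abs_cast]
      rcases n with _ | n
      · simp only [Nat.cast_zero, zero_mul]
        have : 0 ≤ C / ρ := by positivity
        positivity
      · have h7 : |β s| ^ (n + 1 - 1) ≤ ρ ^ n := by
          simpa using pow_le_pow_left₀ (abs_nonneg _) h5 n
        calc ((n + 1 : ℕ) : ℝ) * |β s| ^ (n + 1 - 1) * |β' s| * ‖f (n + 1) s‖
            ≤ ((n + 1 : ℕ) : ℝ) * ρ ^ n * C * bm B κ (n + 1) := by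
              gcongr
              exact h2 _
          _ = C / ρ * (((n + 1 : ℕ) : ℝ) * bm B κ (n + 1) * ρ ^ (n + 1)) := by
              field_simp
              ring
          _ ≤ C / ρ * ((((n + 1 : ℕ) : ℝ) + 1) * bm B κ (n + 1) * ρ ^ (n + 1)) := by
              gcongr
              linarith
    have e2 : ‖(β s) ^ n • f' n s‖ ≤ C * (((n : ℝ) + 1) * bm B κ n * ρ ^ n) := by
      rw [norm_smul, norm_pow, Real.norm_eq_abs]
      calc |β s| ^ n * ‖f' n s‖ ≤ ρ ^ n * (C * (((n : ℝ) + 1) * bm B κ n)) := by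
            gcongr
            exact h3 n
        _ = C * (((n : ℝ) + 1) * bm B κ n * ρ ^ n) := by ring
    calc _ ≤ C / ρ * (((n : ℝ) + 1) * bm B κ n * ρ ^ n) + C * (((n : ℝ) + 1) * bm B κ n * ρ ^ n) :=
          add_le_add e1 e2
      _ = _ := by ring
  · obtain ⟨_, h2, _, _, h5, _⟩ := hball s₀ (Metric.mem_ball_self hε)
    refine Summable.of_norm ?_
    refine Summable.of_nonneg_of_le (fun n => norm_nonneg _) (fun n => ?_)
      (bm_summable0 hB hκ hρ0.le hρ)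
    rw [norm_smul, norm_pow, Real.norm_eq_abs]
    exact mul_le_mul (pow_le_pow_left₀ (abs_nonneg _) h5 n) (h2 n) (norm_nonneg _) (by positivity)

/-- summability of `n v^(n-1) h_n` -/
theorem summable_nH {q : A} (hq : IsNilpotent q) (t y : A) {u v : ℝ} (hu : |u| ≤ 1) (hv : |v| < 1) :
    Summable fun n : ℕ => (n : ℝ) • (v ^ n • hc q t y u n) := by
  obtain ⟨B, κ, hB, hκ, hb⟩ := hc_bound hq t y
  obtain ⟨ρ, h1, h2⟩ := exists_between hv
  have hρ0 : 0 < ρ := lt_of_le_of_lt (abs_nonneg _) h1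
  refine Summable.of_norm ?_
  refine Summable.of_nonneg_of_le (fun n => norm_nonneg _) (fun n => ?_)
      (bm_summable hB hκ hρ0 h2)
  have hbn := bm_pos hB hκ n
  rw [norm_smul, norm_smul, norm_pow, Real.norm_eq_abs, Real.norm_eq_abs, Nat.abs_cast]
  calc (n : ℝ) * (|v| ^ n * ‖hc q t y u n‖) ≤ (n : ℝ) * (ρ ^ n * bm B κ n) := by
        gcongr
        exact hb u hu n
    _ ≤ ((n : ℝ) + 1) * bm B κ n * ρ ^ n := by
        have : 0 ≤ bm B κ n * ρ ^ n := by positivity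
        nlinarith

omit [CompleteSpace A] in
theorem Dc_bound {q : A} (x t y : A) {B κ : ℝ} (hB : 0 < B) (hκ : 0 < κ) {u : ℝ} (hu : |u| ≤ 1)
    (hb : ∀ n, ‖hc q t y u n‖ ≤ bm B κ n) (n : ℕ) :
    ‖Dc x q t y u n‖ ≤ (2 * ‖x‖ + ‖y‖ / κ) * (((n : ℝ) + 1) * bm B κ n) := by
  have hbn := bm_pos hB hκ n
  have e1 : ‖x * hc q t y u n - hc q t y u n * x‖ ≤ 2 * ‖x‖ * bm B κ n := by
    refine (norm_sub_le _ _).trans ?_
    have h1 := norm_mul_le x (hc q t y u n)
    have h2 := norm_mul_le (hc q t y u n) x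
    have h3 := mul_le_mul_of_nonneg_left (hb n) (norm_nonneg x)
    nlinarith
  have e2 : ‖∑ k ∈ Finset.range n, u ^ k • (y * hc q t y u (n - 1 - k))‖ ≤
      ‖y‖ / κ * (n * bm B κ n) := by
    rw [← bm_sum, ← Finset.sum_range_reflect (fun k => bm B κ k)]
    refine (norm_sum_le _ _).trans ?_
    have e3 : ‖y‖ / κ * (κ * ∑ j ∈ Finset.range n, bm B κ (n - 1 - j)) =
        ‖y‖ * ∑ j ∈ Finset.range n, bm B κ (n - 1 - j) := by field_simp
    rw [e3, Finset.mul_sum]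
    refine Finset.sum_le_sum fun k _ => ?_
    rw [norm_smul, norm_pow, Real.norm_eq_abs]
    calc |u| ^ k * ‖y * hc q t y u (n - 1 - k)‖ ≤ 1 * (‖y‖ * ‖hc q t y u (n - 1 - k)‖) := by
          gcongr
          · exact pow_le_one₀ (abs_nonneg _) hu
          · exact norm_mul_le _ _
      _ ≤ ‖y‖ * bm B κ (n - 1 - k) := by
          rw [one_mul]; gcongr; exact hb _
  have hx := norm_nonneg x
  have hy : 0 ≤ ‖y‖ / κ := by positivity
  calc ‖Dc x q t y u n‖ ≤ 2 * ‖x‖ * bm B κ n + ‖y‖ / κ * (n * bm B κ n) :=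
        (norm_sub_le _ _).trans (add_le_add e1 e2)
    _ ≤ _ := by
        have h1 : 0 ≤ ‖x‖ * ((n : ℝ) * bm B κ n) := by positivity
        have h2 : 0 ≤ ‖y‖ / κ * bm B κ n := by positivity
        nlinarith

theorem summable_D {q : A} (hq : IsNilpotent q) (x t y : A) {u v : ℝ} (hu : |u| ≤ 1) (hv : |v| < 1) :
    Summable fun n : ℕ => v ^ n • Dc x q t y u n := by
  obtain ⟨B, κ, hB, hκ, hb⟩ := hc_bound hq t y
  obtain ⟨ρ, h1, h2⟩ := exists_between hv
  have hρ0 : 0 < ρ := lt_of_le_of_lt (abs_nonneg _) h1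
  refine Summable.of_norm ?_
  refine Summable.of_nonneg_of_le (fun n => norm_nonneg _) (fun n => ?_)
      ((bm_summable hB hκ hρ0 h2).mul_left (2 * ‖x‖ + ‖y‖ / κ))
  have hbn := bm_pos hB hκ n
  rw [norm_smul, norm_pow, Real.norm_eq_abs]
  have h3 := Dc_bound x t y hB hκ hu (hb u hu) n
  have h4 : |v| ^ n ≤ ρ ^ n := pow_le_pow_left₀ (abs_nonneg _) h1.le n
  calc |v| ^ n * ‖Dc x q t y u n‖ ≤ ρ ^ n * ((2 * ‖x‖ + ‖y‖ / κ) * (((n : ℝ) + 1) * bm B κ n)) := by
        gcongr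
    _ = _ := by ring

/-- `v`-derivative expression of `H`. -/
noncomputable def Hv (q t y : A) (u v : ℝ) : A :=
  v⁻¹ • (q * Hf q t y u v - Hf q t y u v * q) -
    ((1 - v)⁻¹ • t + (u * (1 - u * v)⁻¹) • y) * Hf q t y u v

/-- `u`-derivative expression of `H`. -/
noncomputable def Hu (x q t y : A) (u v : ℝ) : A :=
  x * Hf q t y u v - Hf q t y u v * x - v • ((1 - u * v)⁻¹ • (y * Hf q t y u v))

theorem hasDerivAt_Hf_curve {p q r t y : A} (h : Rel p q r t y) (hq : IsNilpotent q)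
    {α α' β β' : ℝ → ℝ} {s : ℝ}
    (hα : ∀ᶠ s in 𝓝 s, HasDerivAt α (α' s) s) (hα' : ContinuousAt α' s)
    (hβ : ∀ᶠ s in 𝓝 s, HasDerivAt β (β' s) s) (hβ' : ContinuousAt β' s)
    (hα0 : 0 < α s) (hα1 : α s < 1) (hβ0 : 0 < β s) (hβ1 : β s < 1) :
    HasDerivAt (fun s => Hf q t y (α s) (β s))
      (β' s • Hv q t y (α s) (β s) + α' s • Hu (Xf p r (α s)) q t y (α s) (β s)) s := by
  obtain ⟨B, κ, hB, hκ, hb⟩ := hc_bound hq t y
  obtain ⟨ρ, h1, h2⟩ := exists_between hβ1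
  have hρ0 : 0 < ρ := hβ0.trans h1
  have hαc : ContinuousAt α s := hα.self_of_nhds.continuousAt
  have hβc : ContinuousAt β s := hβ.self_of_nhds.continuousAt
  have hXc : ContinuousAt (fun s => Xf p r (α s)) s := by
    unfold Xf
    exact ((hαc.inv₀ hα0.ne').smul continuousAt_const).add
      (((hαc.sub continuousAt_const).inv₀ (sub_ne_zero.2 hα1.ne)).smul continuousAt_const)
  have e0 : ∀ᶠ s in 𝓝 s, 0 < α s := hαc.eventually_const_lt hα0
  have e1 : ∀ᶠ s in 𝓝 s, α s < 1 := hαc.eventually_lt_const hα1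
  have e2 : ∀ᶠ s in 𝓝 s, |α' s| * (2 * ‖Xf p r (α s)‖ + ‖y‖ / κ) <
      |α' s| * (2 * ‖Xf p r (α s)‖ + ‖y‖ / κ) + 1 := Eventually.of_forall fun s => lt_add_one _
  have e2' : ∀ᶠ z in 𝓝 s, |α' z| * (2 * ‖Xf p r (α z)‖ + ‖y‖ / κ) <
      |α' s| * (2 * ‖Xf p r (α s)‖ + ‖y‖ / κ) + 1 := by
    have hcont : ContinuousAt (fun z => |α' z| * (2 * ‖Xf p r (α z)‖ + ‖y‖ / κ)) s :=
      hα'.abs.mul ((continuousAt_const.mul hXc.norm).add continuousAt_const)
    exact hcont.eventually_lt_const (lt_add_one _)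
  have e3 : ∀ᶠ z in 𝓝 s, |β' z| < |β' s| + 1 := hβ'.abs.eventually_lt_const (lt_add_one _)
  set C := max (|α' s| * (2 * ‖Xf p r (α s)‖ + ‖y‖ / κ) + 1) (|β' s| + 1) with hC
  have key := hasDerivAt_series (f := fun n s => hc q t y (α s) n)
    (f' := fun n s => α' s • Dc (Xf p r (α s)) q t y (α s) n) (β := β) (β' := β') (s₀ := s)
    (C := C) hB hκ hρ0 h2 ?_ ?_ ?_ hβ ?_ ?_
  · have hu : |α s| ≤ 1 := by rw [abs_of_pos hα0]; exact hα1.le
    have hv : |β s| < 1 := by rw [abs_of_pos hβ0]; exact hβ1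
    refine key.congr_deriv ?_
    have f1 : ∀ n : ℕ, ((n : ℝ) * (β s) ^ (n - 1) * β' s) • hc q t y (α s) n +
        (β s) ^ n • (α' s • Dc (Xf p r (α s)) q t y (α s) n) =
        (β' s * (β s)⁻¹) • ((n : ℝ) • ((β s) ^ n • hc q t y (α s) n)) +
        α' s • ((β s) ^ n • Dc (Xf p r (α s)) q t y (α s) n) := by
      intro n
      rw [smul_comm (α' s)]
      congr 1
      rw [smul_smul, smul_smul]
      congr 1
      rcases n with _ | n
      · simp
      · rw [Nat.add_sub_cancel, pow_succ]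
        field_simp
    simp only [f1]
    have g1 := summable_nH hq t y hu hv
    have g2 := summable_D hq (Xf p r (α s)) t y hu hv
    rw [(g1.const_smul _).tsum_add (g2.const_smul _), g1.tsum_const_smul, g2.tsum_const_smul,
      sum_v hq t y hu hv, sum_u hq _ t y hu hv]
    rw [Hv, Hu, mul_smul]
    congr 2
    rw [smul_sub, smul_smul (β s)⁻¹ (β s), inv_mul_cancel₀ hβ0.ne', one_smul]
  · filter_upwards [hα, e0, e1] with z hz h0 h1' n
    have := (hasDerivAt_hc h hq h0.ne' h1'.ne n).scomp z hz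
    exact this
  · filter_upwards [e0, e1] with z h0 h1' n
    exact hb _ (by rw [abs_of_pos h0]; exact h1'.le) n
  · filter_upwards [e0, e1, e2'] with z h0 h1' h3 n
    have hu : |α z| ≤ 1 := by rw [abs_of_pos h0]; exact h1'.le
    have h4 := Dc_bound (Xf p r (α z)) t y hB hκ hu (hb _ hu) n
    have hbn := bm_pos hB hκ n
    rw [norm_smul, Real.norm_eq_abs]
    calc |α' z| * ‖Dc (Xf p r (α z)) q t y (α z) n‖
        ≤ |α' z| * ((2 * ‖Xf p r (α z)‖ + ‖y‖ / κ) * (((n : ℝ) + 1) * bm B κ n)) := by gcongr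
      _ = (|α' z| * (2 * ‖Xf p r (α z)‖ + ‖y‖ / κ)) * (((n : ℝ) + 1) * bm B κ n) := by ring
      _ ≤ C * (((n : ℝ) + 1) * bm B κ n) := by
          gcongr
          exact h3.le.trans (le_max_left _ _)
  · filter_upwards [hβc.eventually_const_lt hβ0, hβc.eventually_lt_const h1] with z h0 h1'
    rw [abs_of_pos h0]; exact h1'.le
  · filter_upwards [e3] with z hz using hz.le.trans (le_max_right _ _)

/-- derivative in `v` at a fixed `u`, `|u| ≤ 1`. -/
theorem hasDerivAt_Hf_const {q : A} (hq : IsNilpotent q) (t y : A)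
    {β β' : ℝ → ℝ} {s u : ℝ} (hu : |u| ≤ 1)
    (hβ : ∀ᶠ s in 𝓝 s, HasDerivAt β (β' s) s) (hβ' : ContinuousAt β' s)
    (hβ0 : 0 < β s) (hβ1 : β s < 1) :
    HasDerivAt (fun s => Hf q t y u (β s)) (β' s • Hv q t y u (β s)) s := by
  obtain ⟨B, κ, hB, hκ, hb⟩ := hc_bound hq t y
  obtain ⟨ρ, h1, h2⟩ := exists_between hβ1
  have hρ0 : 0 < ρ := hβ0.trans h1
  have hβc : ContinuousAt β s := hβ.self_of_nhds.continuousAt
  have e3 : ∀ᶠ z in 𝓝 s, |β' z| < |β' s| + 1 := hβ'.abs.eventually_lt_const (lt_add_one _)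
  have key := hasDerivAt_series (f := fun n _ => hc q t y u n)
    (f' := fun n _ => 0) (β := β) (β' := β') (s₀ := s)
    (C := |β' s| + 1) hB hκ hρ0 h2 ?_ ?_ ?_ hβ ?_ ?_
  · have hv : |β s| < 1 := by rw [abs_of_pos hβ0]; exact hβ1
    refine key.congr_deriv ?_
    have f1 : ∀ n : ℕ, ((n : ℝ) * (β s) ^ (n - 1) * β' s) • hc q t y u n +
        (β s) ^ n • (0 : A) =
        (β' s * (β s)⁻¹) • ((n : ℝ) • ((β s) ^ n • hc q t y u n)) := by
      intro n
      rw [smul_zero, add_zero, smul_smul, smul_smul]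
      congr 1
      rcases n with _ | n
      · simp
      · rw [Nat.add_sub_cancel, pow_succ]
        field_simp
    simp only [f1]
    have g1 := summable_nH hq t y hu hv
    rw [g1.tsum_const_smul, sum_v hq t y hu hv, Hv, mul_smul]
    congr 1
    rw [smul_sub, smul_smul (β s)⁻¹ (β s), inv_mul_cancel₀ hβ0.ne', one_smul]
  · exact Eventually.of_forall fun z n => hasDerivAt_const _ _
  · exact Eventually.of_forall fun z n => hb _ hu n
  · refine Eventually.of_forall fun z n => ?_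
    have hbn := bm_pos hB hκ n
    rw [norm_zero]; positivity
  · filter_upwards [hβc.eventually_const_lt hβ0, hβc.eventually_lt_const h1] with z h0 h1'
    rw [abs_of_pos h0]; exact h1'.le
  · filter_upwards [e3] with z hz using hz.le

end Crest.Agent.R010.KZ
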