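import Crest.Agent.R010.KZd

/-! Row 10, module (E), analysis part 5 (helper819): the solutions `G`, `W` of the KZ equations. -/

set_option autoImplicit false

open Filter Topology NormedSpace

namespace Crest.Agent.R010.KZ

variable {A : Type*} [NormedRing A] [NormedAlgebra ℝ A]

theorem adL_pow_commute {c q z : A} (hcq : Commute c q) (hcz : Commute c z) (k : ℕ) :
    Commute c (((adL q) ^ k) z) := by
  induction k generalizing z with
  | zero => simpa using hcz
  | succ k ih =>
    rw [pow_succ, mul_apply_eq_comp]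
    refine ih ?_
    rw [adL_apply]
    exact (hcq.mul_right hcz).sub_right (hcz.mul_right hcq)

theorem res_commute {c q z : A} (hq : IsNilpotent q) (hcq : Commute c q) (hcz : Commute c z)
    {n : ℕ} (hn : n ≠ 0) : Commute c (res q n z) := by
  obtain ⟨K, hK⟩ := adL_nilpotent hq
  rw [res_eq_resK hK hn, resK]
  simp only [sum_apply, smul_apply]
  exact Commute.sum_right _ _ _ fun k _ => (adL_pow_commute hcq hcz k).smul_right _

theorem hc_commute {c q t y : A} (hq : IsNilpotent q) (hcq : Commute c q) (hct : Commute c t)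
    (hcy : Commute c y) (u : ℝ) (n : ℕ) : Commute c (hc q t y u n) := by
  induction n using Nat.strong_induction_on with
  | _ n ih =>
    rcases n with _ | n
    · rw [hc_zero]; exact Commute.one_right c
    · rw [hc_succ]
      refine (res_commute hq hcq ?_ (by omega)).neg_right
      refine Commute.sum_right _ _ _ fun k _ => ?_
      exact (hct.add_right (hcy.smul_right _)).mul_right (ih _ (by omega))

theorem Hf_commute {c q t y : A} (hq : IsNilpotent q) (hcq : Commute c q) (hct : Commute c t)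
    (hcy : Commute c y) (u v : ℝ) : Commute c (Hf q t y u v) :=
  Commute.tsum_right _ fun n => (hc_commute hq hcq hct hcy u n).smul_right (v ^ n)

/-- at `u = 0` the letter `y` is invisible. -/
theorem hc_zero_u (q t y : A) (n : ℕ) : hc q t y 0 n = hc q t 0 0 n := by
  induction n using Nat.strong_induction_on with
  | _ n ih =>
    rcases n with _ | n
    · simp [hc_zero]
    · rw [hc_succ, hc_succ]
      congr 2
      refine Finset.sum_congr rfl fun k _ => ?_
      rw [ih _ (by omega)]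
      simp

theorem Hf_zero_u (q t y : A) (v : ℝ) : Hf q t y 0 v = Hf q t 0 0 v := by
  simp only [Hf, hc_zero_u q t y]

/-- the solution `~ z^a` at `0` of `G' = (a/z + b/(z-1)) G`. -/
noncomputable def Gf (a b : A) (z : ℝ) : A := Hf a b 0 0 z * exp (Real.log z • a)

/-- the solution near the vertex. -/
noncomputable def Wf (p q r t y : A) (u v : ℝ) : A :=
  Hf q t y u v * exp (Real.log v • q) * Gf p r u

/-- connection coefficient in `v` -/
noncomputable def Ov (q t y : A) (u v : ℝ) : A :=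
  v⁻¹ • q - (1 - v)⁻¹ • t - (u * (1 - u * v)⁻¹) • y

/-- connection coefficient in `u` -/
noncomputable def Ou (p r y : A) (u v : ℝ) : A := Xf p r u - (v * (1 - u * v)⁻¹) • y

variable [CompleteSpace A]

theorem hasDerivAt_E (q : A) {β β' : ℝ → ℝ} {s : ℝ} (hβ : HasDerivAt β (β' s) s) (h0 : β s ≠ 0) :
    HasDerivAt (fun s => exp (Real.log (β s) • q))
      ((β' s * (β s)⁻¹) • (q * exp (Real.log (β s) • q))) s := by
  have h1 := (hasDerivAt_exp_smul_const' (𝕂 := ℝ) q (Real.log (β s)))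
  have h2 : HasDerivAt (fun s => Real.log (β s)) (β' s * (β s)⁻¹) s := by
    have := hβ.log h0
    rwa [div_eq_mul_inv] at this
  exact h1.scomp s h2

theorem hasDerivAt_Gf_curve {a : A} (b : A) (ha : IsNilpotent a) {β β' : ℝ → ℝ} {s : ℝ}
    (hβ : ∀ᶠ s in 𝓝 s, HasDerivAt β (β' s) s) (hβ' : ContinuousAt β' s)
    (hβ0 : 0 < β s) (hβ1 : β s < 1) :
    HasDerivAt (fun s => Gf a b (β s)) (β' s • (Xf a b (β s) * Gf a b (β s))) s := by
  have h1 := hasDerivAt_Hf_const ha b 0 (u := 0) (by simp) hβ hβ' hβ0 hβ1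
  have h2 := hasDerivAt_E a (hβ.self_of_nhds) hβ0.ne'
  refine (h1.mul h2).congr_deriv ?_
  have hc : Commute a (exp (Real.log (β s) • a)) := ((Commute.refl a).smul_right _).exp_right
  have hb1 : β s - 1 ≠ 0 := by linarith
  have e1 : (β s - 1)⁻¹ = -(1 - β s)⁻¹ := by rw [← neg_sub, inv_neg]
  rw [Hv, Gf, Xf, e1]
  generalize exp (Real.log (β s) • a) = E at *
  generalize Hf a b 0 0 (β s) = H
  simp only [zero_mul, add_zero, smul_zero]
  rw [mul_smul_comm, ← mul_assoc H a E]
  simp only [smul_sub, sub_mul, add_mul, smul_mul_assoc, smul_add, smul_smul, neg_smul, mul_assoc,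
    smul_neg, neg_mul]
  abel

theorem hasDerivAt_Wf_curve {p q r t y : A} (h : Rel p q r t y) (hp : IsNilpotent p)
    (hq : IsNilpotent q)
    {α α' β β' : ℝ → ℝ} {s : ℝ}
    (hα : ∀ᶠ s in 𝓝 s, HasDerivAt α (α' s) s) (hα' : ContinuousAt α' s)
    (hβ : ∀ᶠ s in 𝓝 s, HasDerivAt β (β' s) s) (hβ' : ContinuousAt β' s)
    (hα0 : 0 < α s) (hα1 : α s < 1) (hβ0 : 0 < β s) (hβ1 : β s < 1) :
    HasDerivAt (fun s => Wf p q r t y (α s) (β s))
      ((β' s • Ov q t y (α s) (β s) + α' s • Ou p r y (α s) (β s)) * Wf p q r t y (α s) (β s)) s := by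
  have h1 := hasDerivAt_Hf_curve h hq hα hα' hβ hβ' hα0 hα1 hβ0 hβ1
  have h2 := hasDerivAt_E q (hβ.self_of_nhds) hβ0.ne'
  have h3 := hasDerivAt_Gf_curve r hp hα hα' hα0 hα1
  refine ((h1.fun_mul h2).fun_mul h3).congr_deriv ?_
  have hqX : Commute q (Xf p r (α s)) := by
    unfold Xf
    exact (Commute.smul_right (show Commute q p from h.pq.symm) _).add_right
      (Commute.smul_right (show Commute q r from h.qr) _)
  have hX : Xf p r (α s) * exp (Real.log (β s) • q) = exp (Real.log (β s) • q) * Xf p r (α s) :=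
    ((hqX.symm.smul_right _).exp_right).eq
  have hc : Commute q (exp (Real.log (β s) • q)) := ((Commute.refl q).smul_right _).exp_right
  have hE : exp (Real.log (β s) • q) * q = q * exp (Real.log (β s) • q) := hc.eq.symm
  rw [Hv, Hu, Wf, Ov, Ou]
  generalize exp (Real.log (β s) • q) = E at *
  generalize Hf q t y (α s) (β s) = H
  generalize Gf p r (α s) = G
  generalize Xf p r (α s) = X at *
  have hX' : ∀ Z, E * (X * Z) = X * (E * Z) := fun Z => by rw [← mul_assoc, ← hX, mul_assoc]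
  have hE' : ∀ Z, E * (q * Z) = q * (E * Z) := fun Z => by rw [← mul_assoc, hE, mul_assoc]
  simp only [mul_assoc, add_mul, sub_mul, smul_mul_assoc, mul_smul_comm, smul_add,
    smul_sub, hX', smul_smul]
  module

section Op
open MulOpposite

omit [NormedAlgebra ℝ A] [CompleteSpace A] in
theorem rel_op {p q r t y : A} (h : Rel p q r t y) :
    Rel (op (-p)) (op (-q)) (op (-r)) (op (-t)) (op (-y)) := by
  have key : ∀ a b : A, op (-a) * op (-b) - op (-b) * op (-a) = -op (a * b - b * a) := by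
    intro a b
    rw [← op_mul, ← op_mul, ← op_sub, ← op_neg]
    congr 1
    noncomm_ring
  have key0 : ∀ a b : A, a * b = b * a → op (-a) * op (-b) = op (-b) * op (-a) := by
    intro a b hab
    rw [← op_mul, ← op_mul, neg_mul_neg, neg_mul_neg, hab]
  refine ⟨key0 _ _ h.pq, key0 _ _ h.qr, key0 _ _ h.tp, ?_, ?_, ?_⟩
  · rw [key, key, h.ty]
  · rw [key, key, h.ry]
  · rw [key, key, key, ← h.py]
    simp only [op_sub]
    abel

/-- the inverse solutions -/
noncomputable def Gt (a b : A) (z : ℝ) : A := unop (Gf (op (-a)) (op (-b)) z)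

/-- the inverse solutions -/
noncomputable def Wt (p q r t y : A) (u v : ℝ) : A :=
  unop (Wf (op (-p)) (op (-q)) (op (-r)) (op (-t)) (op (-y)) u v)

/-- the inverse regular factor -/
noncomputable def Ht (q t y : A) (u v : ℝ) : A := unop (Hf (op (-q)) (op (-t)) (op (-y)) u v)

omit [NormedAlgebra ℝ A] [CompleteSpace A] in
theorem nilp_op {q : A} (hq : IsNilpotent q) : IsNilpotent (op (-q)) := by
  obtain ⟨n, hn⟩ := hq
  refine ⟨n, ?_⟩
  rw [← op_pow, neg_pow, hn, mul_zero, op_zero]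

omit [CompleteSpace A] in
theorem Gt_eq (a b : A) (z : ℝ) : Gt a b z = exp (-(Real.log z • a)) * Ht a b 0 0 z := by
  rw [Gt, Gf, unop_mul, Ht, ← exp_unop, unop_smul, unop_op, smul_neg]
  simp

omit [CompleteSpace A] in
theorem Wt_eq (p q r t y : A) (u v : ℝ) : Wt p q r t y u v =
    Gt p r u * (exp (-(Real.log v • q)) * Ht q t y u v) := by
  rw [Wt, Wf, unop_mul, unop_mul, Ht, Gt, ← exp_unop, unop_smul, unop_op, smul_neg]

omit [CompleteSpace A] in
theorem hasDerivAt_unop {f : ℝ → Aᵐᵒᵖ} {f' : Aᵐᵒᵖ} {s : ℝ} (h : HasDerivAt f f' s) :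
    HasDerivAt (fun s => unop (f s)) (unop f') s :=
  ((opContinuousLinearEquiv ℝ (M := A)).symm : Aᵐᵒᵖ →L[ℝ] A).hasFDerivAt.comp_hasDerivAt s h

theorem hasDerivAt_Gt_curve {a : A} (b : A) (ha : IsNilpotent a) {β β' : ℝ → ℝ} {s : ℝ}
    (hβ : ∀ᶠ s in 𝓝 s, HasDerivAt β (β' s) s) (hβ' : ContinuousAt β' s)
    (hβ0 : 0 < β s) (hβ1 : β s < 1) :
    HasDerivAt (fun s => Gt a b (β s)) (-(β' s • (Gt a b (β s) * Xf a b (β s)))) s := by
  have h1 := hasDerivAt_unop (hasDerivAt_Gf_curve (op (-b)) (nilp_op ha) hβ hβ' hβ0 hβ1)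
  refine h1.congr_deriv ?_
  rw [unop_smul, unop_mul, Gt]
  have : unop (Xf (op (-a)) (op (-b)) (β s)) = - Xf a b (β s) := by
    simp [Xf]; abel
  rw [this, mul_neg, smul_neg]

theorem hasDerivAt_Wt_curve {p q r t y : A} (h : Rel p q r t y) (hp : IsNilpotent p)
    (hq : IsNilpotent q)
    {α α' β β' : ℝ → ℝ} {s : ℝ}
    (hα : ∀ᶠ s in 𝓝 s, HasDerivAt α (α' s) s) (hα' : ContinuousAt α' s)
    (hβ : ∀ᶠ s in 𝓝 s, HasDerivAt β (β' s) s) (hβ' : ContinuousAt β' s)
    (hα0 : 0 < α s) (hα1 : α s < 1) (hβ0 : 0 < β s) (hβ1 : β s < 1) :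
    HasDerivAt (fun s => Wt p q r t y (α s) (β s))
      (-(Wt p q r t y (α s) (β s) * (β' s • Ov q t y (α s) (β s) + α' s • Ou p r y (α s) (β s)))) s := by
  have h1 := hasDerivAt_unop (hasDerivAt_Wf_curve (rel_op h) (nilp_op hp) (nilp_op hq) hα hα' hβ hβ'
    hα0 hα1 hβ0 hβ1)
  refine h1.congr_deriv ?_
  rw [unop_mul, Wt, ← mul_neg]
  congr 1
  simp only [Ov, Ou, Xf, unop_add, unop_smul, unop_sub, unop_op]
  simp only [smul_neg]
  module

end Op

end Crest.Agent.R010.KZ
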