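import Crest.Agent.R010.KZe

/-! Row 10, module (E), analysis part 6 (helper819): limits, inverses, the pentagon. -/

set_option autoImplicit false

open Filter Topology NormedSpace

namespace Crest.Agent.R010.KZ

variable {A : Type*} [NormedRing A] [NormedAlgebra ℝ A] [CompleteSpace A]

theorem exp_add_comm' {x y : A} (h : Commute x y) : exp (x + y) = exp x * exp y := by
  letI : NormedAlgebra ℚ A := NormedAlgebra.restrictScalars ℚ ℝ A
  exact exp_add_of_commute h

theorem exp_cont : Continuous (exp : A → A) := by
  letI : NormedAlgebra ℚ A := NormedAlgebra.restrictScalars ℚ ℝ A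
  exact exp_continuous

theorem exp_mul_exp_neg (x : A) : exp x * exp (-x) = 1 := by
  rw [← exp_add_comm' ((Commute.refl _).neg_right)]; simp

theorem exp_neg_mul_exp (x : A) : exp (-x) * exp x = 1 := by
  rw [← exp_add_comm' ((Commute.refl _).neg_left)]; simp

/-- conjugation by `exp(s q)` -/
noncomputable def cj (q : A) (s : ℝ) (Z : A) : A := exp (s • q) * Z * exp (-(s • q))

omit [CompleteSpace A] in
theorem cj_adL (q : A) (s : ℝ) (Z : A) : adL q (cj q s Z) = cj q s (adL q Z) := by
  have h1 : q * exp (s • q) = exp (s • q) * q := (((Commute.refl q).smul_right s).exp_right).eq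
  have h2 : exp (-(s • q)) * q = q * exp (-(s • q)) :=
    (((Commute.refl q).smul_right s).neg_right.exp_right).eq.symm
  simp only [adL_apply, cj]
  rw [← mul_assoc, ← mul_assoc, h1, mul_assoc _ _ q, h2]
  noncomm_ring

theorem cj_of_commute {q : A} {s : ℝ} {Z : A} (h : adL q Z = 0) : cj q s Z = Z := by
  rw [adL_apply, sub_eq_zero] at h
  have h1 : Commute Z (exp (s • q)) := ((show Commute Z q from h.symm).smul_right s).exp_right
  rw [cj, ← h1.eq, mul_assoc, exp_mul_exp_neg, mul_one]

theorem cj_cj (q : A) (s s' : ℝ) (Z : A) : cj q s (cj q s' Z) = cj q (s + s') Z := by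
  have e1 : exp (s • q) * exp (s' • q) = exp ((s + s') • q) := by
    rw [← exp_add_comm' (((Commute.refl q).smul_right s').smul_left s), add_smul]
  have e2 : exp (-(s' • q)) * exp (-(s • q)) = exp (-((s + s') • q)) := by
    rw [← exp_add_comm' ((((Commute.refl q).smul_right s).smul_left s').neg_left.neg_right),
      add_smul]
    congr 1
    abel
  rw [cj, cj, cj, ← e1, ← e2]
  noncomm_ring

omit [CompleteSpace A] in
theorem cj_continuous (q : A) (s : ℝ) : Continuous (cj q s) := by
  unfold cj
  fun_prop

theorem eq_zero_of_cj_tendsto_zero {q : A} (hq : IsNilpotent q) {D : A} {l : Filter ℝ} [l.NeBot]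
    (h : Tendsto (fun s => cj q s D) l (𝓝 0)) : D = 0 := by
  obtain ⟨K, hK⟩ := adL_nilpotent hq
  have key : ∀ k, ((adL q) ^ (K - k)) D = 0 := by
    intro k
    induction k with
    | zero => rw [Nat.sub_zero, hK]; rfl
    | succ k ih =>
      rcases Nat.lt_or_ge k K with hk | hk
      · have e : K - k = (K - (k + 1)) + 1 := by omega
        rw [e, pow_succ', mul_apply_eq_comp] at ih
        have h1 : ∀ m s, ((adL q) ^ m) (cj q s D) = cj q s (((adL q) ^ m) D) := by
          intro m s
          induction m with
          | zero => simp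
          | succ m ihm => rw [pow_succ', mul_apply_eq_comp, mul_apply_eq_comp, ihm, cj_adL]
        have h2 : ∀ s, ((adL q) ^ (K - (k + 1))) (cj q s D) = ((adL q) ^ (K - (k + 1))) D :=
          fun s => by rw [h1, cj_of_commute ih]
        have h3 : Tendsto (fun s => ((adL q) ^ (K - (k + 1))) (cj q s D)) l
            (𝓝 (((adL q) ^ (K - (k + 1))) 0)) :=
          ((ContinuousLinearMap.continuous _).tendsto _).comp h
        simp only [h2, map_zero] at h3
        exact tendsto_nhds_unique tendsto_const_nhds h3
      · rw [show K - (k + 1) = K - k by omega]; exact ih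
  have := key K
  simpa using this

/-- a conjugate by `exp(s q)` that converges as `s → -∞` has the obvious limit. -/
theorem eq_of_cj_tendsto {q : A} (hq : IsNilpotent q) {C L : A}
    (h : Tendsto (fun s => cj q s C) atBot (𝓝 L)) : C = L := by
  have hL : ∀ σ, cj q σ L = L := by
    intro σ
    have h1 : Tendsto (fun s => cj q σ (cj q s C)) atBot (𝓝 (cj q σ L)) :=
      ((cj_continuous q σ).tendsto _).comp h
    simp only [cj_cj] at h1
    have h2 : Tendsto (fun s => cj q (σ + s) C) atBot (𝓝 L) :=
      h.comp (tendsto_atBot_add_const_left _ σ tendsto_id)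
    exact tendsto_nhds_unique h1 h2
  have h0 : Tendsto (fun s => cj q s (C - L)) atBot (𝓝 0) := by
    have h1 : ∀ s, cj q s (C - L) = cj q s C - L := by
      intro s
      conv_rhs => rw [← hL s]
      rw [cj, cj, cj]
      noncomm_ring
    simp only [h1]
    have := h.sub_const L
    rwa [sub_self] at this
  exact sub_eq_zero.1 (eq_zero_of_cj_tendsto_zero hq h0)

theorem eq_of_cj_log_tendsto {q : A} (hq : IsNilpotent q) {C L : A} {M : ℝ → A}
    (hM : ∀ᶠ v in 𝓝[>] (0 : ℝ), cj q (Real.log v) C = M v)
    (h : Tendsto M (𝓝[>] 0) (𝓝 L)) : C = L := by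
  have h1 : Tendsto (fun v => cj q (Real.log v) C) (𝓝[>] 0) (𝓝 L) :=
    h.congr' (hM.mono fun v hv => hv.symm)
  refine eq_of_cj_tendsto hq ?_
  have h2 := h1.comp Real.tendsto_exp_atBot_nhdsGT
  simpa [Function.comp_def] using h2

end Crest.Agent.R010.KZ
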