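import Crest.Agent.R010.KZf

/-! Row 10, module (E), analysis part 7 (helper819): inverses and the pentagon equation. -/

set_option autoImplicit false

open Filter Topology NormedSpace

namespace Crest.Agent.R010.KZ

variable {A : Type*} [NormedRing A] [NormedAlgebra ℝ A]

theorem const_on_Ioo {f : ℝ → A} (hf : ∀ s, 0 < s → s < 1 → HasDerivAt f 0 s) {s s' : ℝ}
    (h0 : 0 < s) (h1 : s < 1) (h0' : 0 < s') (h1' : s' < 1) : f s = f s' := by
  refine isOpen_Ioo.is_const_of_deriv_eq_zero (s := Set.Ioo (0 : ℝ) 1) isPreconnected_Ioo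
    (fun x hx => (hf x hx.1 hx.2).differentiableAt.differentiableWithinAt)
    (fun x hx => (hf x hx.1 hx.2).deriv) ⟨h0, h1⟩ ⟨h0', h1'⟩

variable [CompleteSpace A]

omit [CompleteSpace A] in
theorem Ht_zero (q t y : A) (u : ℝ) : Ht q t y u 0 = 1 := by
  rw [Ht, Hf_zero]; rfl

omit [CompleteSpace A] in
theorem Ht_zero_u (q t y : A) (v : ℝ) : Ht q t y 0 v = Ht q t 0 0 v := by
  rw [Ht, Hf_zero_u, Ht, Hf_zero_u _ _ (MulOpposite.op (-0))]

theorem tendsto_Ht {q : A} (hq : IsNilpotent q) (t y : A) {α : Type*} {l : Filter α}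
    {a b : α → ℝ} {u v : ℝ} (ha : Tendsto a l (𝓝 u)) (hb : Tendsto b l (𝓝 v))
    (ha1 : ∀ᶠ s in l, |a s| ≤ 1) (hu : |u| ≤ 1) (hv : |v| < 1) :
    Tendsto (fun s => Ht q t y (a s) (b s)) l (𝓝 (Ht q t y u v)) :=
  (MulOpposite.continuous_unop.tendsto _).comp
    (tendsto_Hf (nilp_op hq) (MulOpposite.op (-t)) (MulOpposite.op (-y)) ha hb ha1 hu hv)

omit [CompleteSpace A] in
theorem Gt_commute {c a b : A} (ha : IsNilpotent a) (hca : Commute c a) (hcb : Commute c b)
    (z : ℝ) : Commute c (Gt a b z) := by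
  rw [Gt_eq]
  refine ((hca.smul_right _).neg_right.exp_right).mul_right ?_
  have h : Commute (MulOpposite.op c) (Hf (MulOpposite.op (-a)) (MulOpposite.op (-b))
      (MulOpposite.op (-0)) 0 z) := by
    refine Hf_commute (nilp_op ha) ?_ ?_ ?_ 0 z
    · exact (hca.neg_right).op
    · exact (hcb.neg_right).op
    · simp
  exact h.unop

omit [CompleteSpace A] in
theorem Gf_commute {c a b : A} (ha : IsNilpotent a) (hca : Commute c a) (hcb : Commute c b)
    (z : ℝ) : Commute c (Gf a b z) := by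
  rw [Gf]
  exact (Hf_commute ha hca hcb (Commute.zero_right _) 0 z).mul_right
    ((hca.smul_right _).exp_right)

theorem Gt_mul_Gf {a : A} (b : A) (ha : IsNilpotent a) {z : ℝ} (h0 : 0 < z) (h1 : z < 1) :
    Gt a b z * Gf a b z = 1 := by
  have hd : ∀ s, 0 < s → s < 1 → HasDerivAt (fun z => Gt a b z * Gf a b z) 0 s := by
    intro s h0 h1
    have hid : ∀ᶠ s in 𝓝 s, HasDerivAt (fun s : ℝ => s) 1 s :=
      Eventually.of_forall fun s => hasDerivAt_id s
    have e1 := hasDerivAt_Gt_curve (β := fun s => s) (β' := fun _ => 1) b ha hid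
      continuousAt_const h0 h1
    have e2 := hasDerivAt_Gf_curve (β := fun s => s) (β' := fun _ => 1) b ha hid
      continuousAt_const h0 h1
    refine (e1.fun_mul e2).congr_deriv ?_
    simp only [one_smul]
    noncomm_ring
  refine eq_of_cj_log_tendsto ha (M := fun v => Ht a b 0 0 v * Hf a b 0 0 v) ?_ ?_
  · filter_upwards [Ioo_mem_nhdsGT (show (0 : ℝ) < 1 by norm_num)] with v hv
    rw [const_on_Ioo hd h0 h1 hv.1 hv.2, Gt_eq, Gf, cj]
    calc exp (Real.log v • a) * (exp (-(Real.log v • a)) * Ht a b 0 0 v *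
          (Hf a b 0 0 v * exp (Real.log v • a))) * exp (-(Real.log v • a))
        = (exp (Real.log v • a) * exp (-(Real.log v • a))) * (Ht a b 0 0 v * Hf a b 0 0 v) *
          (exp (Real.log v • a) * exp (-(Real.log v • a))) := by noncomm_ring
      _ = _ := by rw [exp_mul_exp_neg, one_mul, mul_one]
  · have hv : Tendsto (fun v : ℝ => v) (𝓝[>] 0) (𝓝 0) := tendsto_id.mono_left nhdsWithin_le_nhds
    have hu : Tendsto (fun _ : ℝ => (0 : ℝ)) (𝓝[>] 0) (𝓝 0) := tendsto_const_nhds
    have e1 := tendsto_Ht ha b 0 hu hv (by simp) (by simp) (by simp)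
    have e2 := tendsto_Hf ha b 0 hu hv (by simp) (by simp) (by simp)
    have := e1.mul e2
    rwa [Ht_zero, Hf_zero, one_mul] at this

theorem Wt_mul_Wf {p q r t y : A} (h : Rel p q r t y) (hp : IsNilpotent p)
    (hq : IsNilpotent q) {u v : ℝ} (hu0 : 0 < u) (hu1 : u < 1) (hv0 : 0 < v) (hv1 : v < 1) :
    Wt p q r t y u v * Wf p q r t y u v = 1 := by
  have hd : ∀ s, 0 < s → s < 1 →
      HasDerivAt (fun v => Wt p q r t y u v * Wf p q r t y u v) 0 s := by
    intro s h0 h1
    have hid : ∀ᶠ s in 𝓝 s, HasDerivAt (fun s : ℝ => s) 1 s :=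
      Eventually.of_forall fun s => hasDerivAt_id s
    have hcu : ∀ᶠ s in 𝓝 s, HasDerivAt (fun _ : ℝ => u) 0 s :=
      Eventually.of_forall fun s => hasDerivAt_const s u
    have e1 := hasDerivAt_Wt_curve (α := fun _ => u) (α' := fun _ => 0) (β := fun s => s)
      (β' := fun _ => 1) h hp hq hcu continuousAt_const hid continuousAt_const hu0 hu1 h0 h1
    have e2 := hasDerivAt_Wf_curve (α := fun _ => u) (α' := fun _ => 0) (β := fun s => s)
      (β' := fun _ => 1) h hp hq hcu continuousAt_const hid continuousAt_const hu0 hu1 h0 h1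
    refine (e1.fun_mul e2).congr_deriv ?_
    noncomm_ring
  have hG := Gt_mul_Gf r hp hu0 hu1
  have hqG : Commute q (Gf p r u) := Gf_commute hp h.pq.symm h.qr u
  have hqGt : Commute q (Gt p r u) := Gt_commute hp h.pq.symm h.qr u
  refine eq_of_cj_log_tendsto hq (M := fun v => Gt p r u * (Ht q t y u v * Hf q t y u v) * Gf p r u)
    ?_ ?_
  · filter_upwards [Ioo_mem_nhdsGT (show (0 : ℝ) < 1 by norm_num)] with v hv
    rw [const_on_Ioo hd hv0 hv1 hv.1 hv.2, Wt_eq, Wf, cj]
    have c1 : exp (Real.log v • q) * Gt p r u = Gt p r u * exp (Real.log v • q) :=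
      ((hqGt.symm.smul_right _).exp_right).eq.symm
    have c2 : Gf p r u * exp (-(Real.log v • q)) = exp (-(Real.log v • q)) * Gf p r u :=
      ((hqG.symm.smul_right _).neg_right.exp_right).eq
    calc exp (Real.log v • q) * (Gt p r u * (exp (-(Real.log v • q)) * Ht q t y u v) *
          (Hf q t y u v * exp (Real.log v • q) * Gf p r u)) * exp (-(Real.log v • q))
        = (exp (Real.log v • q) * Gt p r u) * (exp (-(Real.log v • q)) * Ht q t y u v *
          Hf q t y u v * exp (Real.log v • q)) * (Gf p r u * exp (-(Real.log v • q))) := by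
          noncomm_ring
      _ = Gt p r u * (exp (Real.log v • q) * exp (-(Real.log v • q))) *
          (Ht q t y u v * Hf q t y u v) * (exp (Real.log v • q) * exp (-(Real.log v • q))) *
          Gf p r u := by
          rw [c1, c2]; noncomm_ring
      _ = _ := by rw [exp_mul_exp_neg, mul_one, mul_one]
  · have hv : Tendsto (fun v : ℝ => v) (𝓝[>] 0) (𝓝 0) := tendsto_id.mono_left nhdsWithin_le_nhds
    have hu : Tendsto (fun _ : ℝ => u) (𝓝[>] 0) (𝓝 u) := tendsto_const_nhds
    have hu' : |u| ≤ 1 := by rw [abs_of_pos hu0]; exact hu1.le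
    have e1 := tendsto_Ht hq t y hu hv (Eventually.of_forall fun _ => hu') hu' (by simp)
    have e2 := tendsto_Hf hq t y hu hv (Eventually.of_forall fun _ => hu') hu' (by simp)
    have := ((e1.mul e2).const_mul (Gt p r u)).mul_const (Gf p r u)
    rwa [Ht_zero, Hf_zero, one_mul, mul_one, hG] at this

/-- the regularised transport from `0` to `1`. -/
noncomputable def Phi (a b : A) : A := Gt b a (1 / 2) * Gf a b (1 / 2)

theorem Phi_eq {a b : A} (ha : IsNilpotent a) (hb : IsNilpotent b) {z : ℝ} (h0 : 0 < z)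
    (h1 : z < 1) : Gt b a (1 - z) * Gf a b z = Phi a b := by
  have hd : ∀ s, 0 < s → s < 1 → HasDerivAt (fun z => Gt b a (1 - z) * Gf a b z) 0 s := by
    intro s h0 h1
    have hid : ∀ᶠ s in 𝓝 s, HasDerivAt (fun s : ℝ => s) 1 s :=
      Eventually.of_forall fun s => hasDerivAt_id s
    have hid' : ∀ᶠ s in 𝓝 s, HasDerivAt (fun s : ℝ => 1 - s) (-1) s :=
      Eventually.of_forall fun s => by simpa using (hasDerivAt_id s).const_sub 1
    have e1 := hasDerivAt_Gt_curve (β := fun s => 1 - s) (β' := fun _ => -1) a hb hid'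
      continuousAt_const (by linarith) (by linarith)
    have e2 := hasDerivAt_Gf_curve (β := fun s => s) (β' := fun _ => 1) b ha hid
      continuousAt_const h0 h1
    refine (e1.fun_mul e2).congr_deriv ?_
    have e3 : (1 - s - 1)⁻¹ = -s⁻¹ := by rw [← inv_neg]; congr 1; ring
    have e4 : (s - 1)⁻¹ = -(1 - s)⁻¹ := by rw [← inv_neg]; congr 1; ring
    simp only [Xf, e3, e4, one_smul, neg_smul, neg_neg, mul_add, add_mul, smul_mul_assoc,
      mul_smul_comm, mul_assoc, mul_neg, neg_mul]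
    abel
  have := const_on_Ioo hd h0 h1 (show (0 : ℝ) < 1 / 2 by norm_num) (by norm_num)
  rw [this, Phi]
  norm_num

end Crest.Agent.R010.KZ
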