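import Crest.Agent.R010.KZg

/-! Row 10, module (E), analysis part 8 (helper819): the edge comparison and the pentagon. -/

set_option autoImplicit false

open Filter Topology NormedSpace

namespace Crest.Agent.R010.KZ

variable {A : Type*} [NormedRing A] [NormedAlgebra ℝ A] [CompleteSpace A]

/-- the relations of the five residues along the boundary of the cell. -/
structure Pent (p q r s t : A) : Prop where
  pq : p * q = q * p
  qr : q * r = r * q
  rs : r * s = s * r
  st : s * t = t * s
  tp : t * p = p * t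
  sum : (p * r - r * p) + (q * s - s * q) + (r * t - t * r) + (s * p - p * s) + (t * q - q * t) = 0

omit [NormedAlgebra ℝ A] [CompleteSpace A] in
theorem Pent.rot {p q r s t : A} (h : Pent p q r s t) : Pent q r s t p := by
  refine ⟨h.qr, h.rs, h.st, h.tp, h.pq, ?_⟩
  rw [← h.sum]; abel

omit [NormedAlgebra ℝ A] [CompleteSpace A] in
theorem Pent.rel {p q r s t : A} (h : Pent p q r s t) : Rel p q r t (s - r - t) := by
  have h1 := h.rs
  have h2 := h.st
  have h3 := h.tp
  have h4 := h.qr
  have h5 := h.sum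
  refine ⟨h.pq, h.qr, h.tp, ?_, ?_, ?_⟩
  · have : t * (s - r - t) - (s - r - t) * t = (r * t - t * r) - (s * t - t * s) := by noncomm_ring
    rw [this, h2, sub_self, sub_zero]
  · have : r * (s - r - t) - (s - r - t) * r = (t * r - r * t) + (r * s - s * r) := by noncomm_ring
    rw [this, h1, sub_self, add_zero]
  · have e : (p * (s - r - t) - (s - r - t) * p) - (r * t - t * r) =
        q * (s - r - t) - (s - r - t) * q + (q * r - r * q) + (t * p - p * t)
        - ((p * r - r * p) + (q * s - s * q) + (r * t - t * r) + (s * p - p * s) +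
          (t * q - q * t)) := by
      noncomm_ring
    rw [e, h5, h4, h3]; simp

/-- comparison of two neighbouring vertex solutions along their common edge. -/
theorem edge {p q r s t : A} (h : Pent p q r s t) (hp : IsNilpotent p) (hq : IsNilpotent q)
    (hr : IsNilpotent r) {u v : ℝ} (hu0 : 0 < u) (hu1 : u < 1) (hv0 : 0 < v) (hv1 : v < 1) :
    Wt q r s p (t - s - p) v ((1 - u) / (1 - u * v)) * Wf p q r t (s - r - t) u v = Phi p r := by
  set φ : ℝ → ℝ := fun v => (1 - u) / (1 - u * v) with hφ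
  set φ' : ℝ → ℝ := fun v => (1 - u) * u / (1 - u * v) ^ 2 with hφ'
  have hpos : ∀ w : ℝ, 0 < w → w < 1 → 0 < 1 - u * w := fun w h0 h1 => by nlinarith
  have hφd : ∀ w : ℝ, 0 < w → w < 1 → HasDerivAt φ (φ' w) w := by
    intro w h0 h1
    have h2 : HasDerivAt (fun v : ℝ => 1 - u * v) (-u) w := by
      simpa using ((hasDerivAt_id w).const_mul u).const_sub 1
    have h3 := (hasDerivAt_const w (1 - u)).div h2 (hpos w h0 h1).ne'
    refine h3.congr_deriv ?_
    simp only [hφ']
    ring
  have hd : ∀ w, 0 < w → w < 1 → HasDerivAt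
      (fun v => Wt q r s p (t - s - p) v (φ v) * Wf p q r t (s - r - t) u v) 0 w := by
    intro w h0 h1
    have hw := hpos w h0 h1
    have hid : ∀ᶠ s in 𝓝 w, HasDerivAt (fun s : ℝ => s) 1 s :=
      Eventually.of_forall fun s => hasDerivAt_id s
    have hcu : ∀ᶠ s in 𝓝 w, HasDerivAt (fun _ : ℝ => u) 0 s :=
      Eventually.of_forall fun s => hasDerivAt_const s u
    have hphi : ∀ᶠ s in 𝓝 w, HasDerivAt φ (φ' s) s := by
      filter_upwards [Ioo_mem_nhds h0 h1] with z hz using hφd z hz.1 hz.2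
    have hφ'c : ContinuousAt φ' w := by
      simp only [hφ']
      refine ContinuousAt.div (by fun_prop) (by fun_prop) (by positivity)
    have hφ0 : 0 < φ w := div_pos (by linarith) hw
    have hφ1 : φ w < 1 := by
      rw [hφ, div_lt_one hw]; nlinarith
    have e1 := hasDerivAt_Wt_curve (α := fun v => v) (α' := fun _ => 1) (β := φ)
      (β' := φ') h.rot.rel hq hr hid continuousAt_const hphi hφ'c h0 h1 hφ0 hφ1
    have e2 := hasDerivAt_Wf_curve (α := fun _ => u) (α' := fun _ => 0) (β := fun s => s)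
      (β' := fun _ => 1) h.rel hp hq hcu continuousAt_const hid continuousAt_const hu0 hu1 h0 h1
    refine (e1.fun_mul e2).congr_deriv ?_
    have key : φ' w • Ov r p (t - s - p) w (φ w) + (1 : ℝ) • Ou q s (t - s - p) w (φ w) =
        (1 : ℝ) • Ov q t (s - r - t) u w + (0 : ℝ) • Ou p r (s - r - t) u w := by
      have hu1' : (1 - u) ≠ 0 := by linarith
      have hw1' : (1 - w) ≠ 0 := by linarith
      have hw1'' : (w - 1) ≠ 0 := by linarith
      have hw' : 1 - u * w ≠ 0 := hw.ne'
      have f1 : 1 - φ w = u * (1 - w) / (1 - u * w) := by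
        simp only [hφ]; field_simp; ring
      have f2 : 1 - w * φ w = (1 - w) / (1 - u * w) := by
        simp only [hφ]
        rw [eq_div_iff hw', sub_mul, one_mul, mul_assoc, div_mul_cancel₀ _ hw']
        ring
      simp only [Ov, Ou, Xf, f1, f2]
      simp only [hφ, hφ']
      match_scalars <;> field_simp <;> ring
    rw [key]
    noncomm_ring
  have hqG : Commute q (Gf p r u) := Gf_commute hp h.pq.symm h.qr u
  refine eq_of_cj_log_tendsto hq
    (M := fun v => Ht q s 0 0 v * exp (-(Real.log (φ v) • r)) * Ht r p (t - s - p) v (φ v) *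
      (Hf q t (s - r - t) u v * Gf p r u)) ?_ ?_
  · filter_upwards [Ioo_mem_nhdsGT (show (0 : ℝ) < 1 by norm_num)] with w hw
    have e0 := const_on_Ioo hd hv0 hv1 hw.1 hw.2
    rw [e0, Wt_eq, Wf, Gt_eq, cj]
    have c1 : exp (Real.log w • q) * Gf p r u = Gf p r u * exp (Real.log w • q) :=
      ((hqG.symm.smul_right _).exp_right).eq.symm
    calc exp (Real.log w • q) * (exp (-(Real.log w • q)) * Ht q s 0 0 w *
          (exp (-(Real.log (φ w) • r)) * Ht r p (t - s - p) w (φ w)) *
          (Hf q t (s - r - t) u w * exp (Real.log w • q) * Gf p r u)) * exp (-(Real.log w • q))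
        = (exp (Real.log w • q) * exp (-(Real.log w • q))) * (Ht q s 0 0 w *
          exp (-(Real.log (φ w) • r)) * Ht r p (t - s - p) w (φ w)) *
          (Hf q t (s - r - t) u w * (exp (Real.log w • q) * Gf p r u)) *
            exp (-(Real.log w • q)) := by noncomm_ring
      _ = (Ht q s 0 0 w *
          exp (-(Real.log (φ w) • r)) * Ht r p (t - s - p) w (φ w)) *
          (Hf q t (s - r - t) u w * Gf p r u) *
            (exp (Real.log w • q) * exp (-(Real.log w • q))) := by
          rw [exp_mul_exp_neg, c1]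
          simp only [one_mul, mul_one, mul_assoc, exp_mul_exp_neg]
      _ = _ := by rw [exp_mul_exp_neg, mul_one]
  · have hv : Tendsto (fun v : ℝ => v) (𝓝[>] 0) (𝓝 0) := tendsto_id.mono_left nhdsWithin_le_nhds
    have hu : Tendsto (fun _ : ℝ => u) (𝓝[>] 0) (𝓝 u) := tendsto_const_nhds
    have h0 : Tendsto (fun _ : ℝ => (0 : ℝ)) (𝓝[>] 0) (𝓝 0) := tendsto_const_nhds
    have hφt : Tendsto φ (𝓝[>] 0) (𝓝 (1 - u)) := by
      have : ContinuousAt φ 0 := by
        simp only [hφ]
        exact ContinuousAt.div (by fun_prop) (by fun_prop) (by simp)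
      have h2 := this.tendsto.mono_left (nhdsWithin_le_nhds (s := Set.Ioi 0))
      simpa [hφ] using h2
    have hu' : |u| ≤ 1 := by rw [abs_of_pos hu0]; exact hu1.le
    have h1u : |1 - u| < 1 := by rw [abs_of_pos (by linarith)]; linarith
    have hv1 : ∀ᶠ v : ℝ in 𝓝[>] 0, |v| ≤ 1 := by
      filter_upwards [Ioo_mem_nhdsGT (show (0 : ℝ) < 1 by norm_num)] with w hw
      rw [abs_of_pos hw.1]; exact hw.2.le
    have e1 := tendsto_Ht hq s 0 h0 hv (by simp) (by simp) (by simp)
    have e2 : Tendsto (fun v => exp (-(Real.log (φ v) • r))) (𝓝[>] 0)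
        (𝓝 (exp (-(Real.log (1 - u) • r)))) :=
      (exp_cont.tendsto _).comp (((hφt.log (by linarith)).smul_const r).neg)
    have e3 := tendsto_Ht hr p (t - s - p) hv hφt hv1 (by simp) h1u
    have e4 := tendsto_Hf hq t (s - r - t) hu hv (Eventually.of_forall fun _ => hu') hu' (by simp)
    have := ((e1.mul e2).mul e3).mul (e4.mul_const (Gf p r u))
    rw [Ht_zero, Hf_zero, one_mul, one_mul, Ht_zero_u, ← Gt_eq, Phi_eq hp hr hu0 hu1] at this
    exact this

/-- the golden ratio point -/
theorem golden : ∃ w : ℝ, 0 < w ∧ w < 1 ∧ (1 - w) / (1 - w * w) = w := by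
  have h5 : (Real.sqrt 5) ^ 2 = 5 := Real.sq_sqrt (by norm_num)
  have h6 : (2 : ℝ) < Real.sqrt 5 := by
    rw [Real.lt_sqrt (by norm_num)]; norm_num
  have h7 : Real.sqrt 5 < 3 := by
    rw [Real.sqrt_lt' (by norm_num)]; norm_num
  refine ⟨(Real.sqrt 5 - 1) / 2, by linarith, by linarith, ?_⟩
  rw [div_eq_iff (by nlinarith)]
  nlinarith

/-- **The pentagon equation.** -/
theorem pentagon [IsDedekindFiniteMonoid A] {a b c d e : A} (h : Pent a b c d e)
    (ha : IsNilpotent a) (hb : IsNilpotent b) (hc : IsNilpotent c) (hd : IsNilpotent d)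
    (he : IsNilpotent e) :
    Phi e b * Phi d a * Phi c e * Phi b d * Phi a c = 1 := by
  obtain ⟨w, h0, h1, hw⟩ := golden
  have E1 := edge h ha hb hc h0 h1 h0 h1
  have E2 := edge h.rot hb hc hd h0 h1 h0 h1
  have E3 := edge h.rot.rot hc hd he h0 h1 h0 h1
  have E4 := edge h.rot.rot.rot hd he ha h0 h1 h0 h1
  have E5 := edge h.rot.rot.rot.rot he ha hb h0 h1 h0 h1
  rw [hw] at E1 E2 E3 E4 E5
  have I1 := mul_eq_one_comm.1 (Wt_mul_Wf h.rel ha hb h0 h1 h0 h1)
  have I2 := mul_eq_one_comm.1 (Wt_mul_Wf h.rot.rel hb hc h0 h1 h0 h1)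
  have I3 := mul_eq_one_comm.1 (Wt_mul_Wf h.rot.rot.rel hc hd h0 h1 h0 h1)
  have I4 := mul_eq_one_comm.1 (Wt_mul_Wf h.rot.rot.rot.rel hd he h0 h1 h0 h1)
  have I5 := mul_eq_one_comm.1 (Wt_mul_Wf h.rot.rot.rot.rot.rel he ha h0 h1 h0 h1)
  have J1 := Wt_mul_Wf h.rel ha hb h0 h1 h0 h1
  rw [← E1, ← E2, ← E3, ← E4, ← E5]
  generalize Wf a b c e (d - c - e) w w = W1 at *
  generalize Wt a b c e (d - c - e) w w = V1 at *
  generalize Wf b c d a (e - d - a) w w = W2 at *
  generalize Wt b c d a (e - d - a) w w = V2 at *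
  generalize Wf c d e b (a - e - b) w w = W3 at *
  generalize Wt c d e b (a - e - b) w w = V3 at *
  generalize Wf d e a c (b - a - c) w w = W4 at *
  generalize Wt d e a c (b - a - c) w w = V4 at *
  generalize Wf e a b d (c - b - d) w w = W5 at *
  generalize Wt e a b d (c - b - d) w w = V5 at *
  calc V1 * W5 * (V5 * W4) * (V4 * W3) * (V3 * W2) * (V2 * W1)
      = V1 * (W5 * V5) * (W4 * V4) * (W3 * V3) * (W2 * V2) * W1 := by noncomm_ring
    _ = 1 := by rw [I5, I4, I3, I2]; simp [J1]

end Crest.Agent.R010.KZ
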