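import Crest.Agent.R010.KZh

/-! Row 10, module (E), analysis part 10 (helper205): the depth one part of `Phi`:
if `b a = 0`, `b b = 0`, `e b = 0`, `a ^ K = 0` then
`e Φ(a,b) = e - ∑_{1 ≤ i < K} ζ(i+1) e a^i b`; in particular the coefficient of `a^(N-1) b`
in `Φ(a,b)` is `-ζ(N) ≠ 0`. -/

set_option autoImplicit false

open Filter Topology NormedSpace

namespace Crest.Agent.R010.KZ

section General
variable {A : Type*} [NormedRing A] [NormedAlgebra ℝ A]

omit [NormedAlgebra ℝ A] in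
theorem word_mul_eq_zero {a b : A} (hba : b * a = 0) (hbb : b * b = 0) (i : ℕ) :
    b * (a ^ i * b) = 0 := by
  rcases i with _ | i
  · rw [pow_zero, one_mul, hbb]
  · rw [pow_succ', ← mul_assoc, ← mul_assoc, hba, zero_mul, zero_mul]

/-- the coefficients of the regular factor in depth one -/
theorem hc_depth_one {a b : A} {K : ℕ} (haK : a ^ K = 0) (hba : b * a = 0) (hbb : b * b = 0)
    (n : ℕ) :
    hc a b 0 0 (n + 1) =
      -∑ i ∈ Finset.range K, (((n : ℝ) + 1)⁻¹ ^ (i + 1)) • (a ^ i * b) := by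
  induction n using Nat.strong_induction_on with
  | _ n ih =>
    have hb : ∀ m, m < n → b * hc a b 0 0 (m + 1) = 0 := by
      intro m hm
      rw [ih m hm, mul_neg, Finset.mul_sum, neg_eq_zero]
      refine Finset.sum_eq_zero fun i _ => ?_
      rw [mul_smul_comm, word_mul_eq_zero hba hbb, smul_zero]
    have hsum : ∑ k ∈ Finset.range (n + 1), (b + (0 : ℝ) ^ (k + 1) • (0 : A)) * hc a b 0 0 (n - k) =
        b := by
      rw [Finset.sum_range_succ, Finset.sum_eq_zero, Nat.sub_self, hc_zero, smul_zero, add_zero,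
        mul_one, zero_add]
      intro k hk
      rw [Finset.mem_range] at hk
      obtain ⟨m, hm⟩ : ∃ m, n - k = m + 1 := ⟨n - k - 1, by omega⟩
      rw [smul_zero, add_zero, hm]
      rcases k with _ | k
      · have h0 : m + 1 = n := by omega
        exact hb m (by omega)
      · exact hb m (by omega)
    rw [hc_succ, hsum]
    congr 1
    refine res_eq_of ⟨K, haK⟩ (by omega) ?_
    have hn : ((n : ℝ) + 1) ≠ 0 := by positivity
    set x : ℝ := ((n : ℝ) + 1)⁻¹ with hx
    have e1 : (∑ i ∈ Finset.range K, (x ^ (i + 1)) • (a ^ i * b)) * a = 0 := by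
      rw [Finset.sum_mul]
      refine Finset.sum_eq_zero fun i _ => ?_
      rw [smul_mul_assoc, mul_assoc, hba, mul_zero, smul_zero]
    have e2 : a * (∑ i ∈ Finset.range K, (x ^ (i + 1)) • (a ^ i * b)) =
        ∑ i ∈ Finset.range K, (x ^ (i + 1)) • (a ^ (i + 1) * b) := by
      rw [Finset.mul_sum]
      refine Finset.sum_congr rfl fun i _ => ?_
      rw [mul_smul_comm, ← mul_assoc, ← pow_succ']
    have e3 : ((n + 1 : ℕ) : ℝ) • (∑ i ∈ Finset.range K, (x ^ (i + 1)) • (a ^ i * b)) =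
        ∑ i ∈ Finset.range K, (x ^ i) • (a ^ i * b) := by
      rw [Finset.smul_sum]
      refine Finset.sum_congr rfl fun i _ => ?_
      rw [smul_smul, pow_succ', ← mul_assoc]
      congr 1
      push_cast
      rw [hx, mul_inv_cancel₀ hn, one_mul]
    rw [e1, e2, e3, sub_zero, ← Finset.sum_sub_distrib, Finset.sum_range_sub', haK]
    simp

/-- the polylogarithm `∑_{n ≥ 1} z^n / n^m`. -/
noncomputable def Li (m : ℕ) (z : ℝ) : ℝ := ∑' n : ℕ, z ^ (n + 1) * ((n : ℝ) + 1)⁻¹ ^ m

theorem Li_summable (m : ℕ) {z : ℝ} (h0 : 0 < z) (h1 : z < 1) :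
    Summable fun n : ℕ => z ^ (n + 1) * ((n : ℝ) + 1)⁻¹ ^ m := by
  refine Summable.of_nonneg_of_le (fun n => by positivity) (fun n => ?_)
    ((summable_geometric_of_lt_one h0.le h1).mul_left z)
  rw [pow_succ', mul_assoc]
  refine mul_le_mul_of_nonneg_left ?_ h0.le
  refine mul_le_of_le_one_right (by positivity) ?_
  refine pow_le_one₀ (by positivity) (inv_le_one_of_one_le₀ ?_)
  have : (0 : ℝ) ≤ n := by positivity
  linarith

theorem Li_one {z : ℝ} (h0 : 0 < z) (h1 : z < 1) : Li 1 z = -Real.log (1 - z) := by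
  have h := Real.hasSum_pow_div_log_of_abs_lt_one (x := z) (by rw [abs_of_pos h0]; exact h1)
  rw [← h.tsum_eq, Li]
  refine tsum_congr fun n => ?_
  rw [pow_one, div_eq_mul_inv]

/-- `ζ(m)` as a series starting at `0`. -/
noncomputable def ze (m : ℕ) : ℝ := ∑' n : ℕ, ((n : ℝ) + 1)⁻¹ ^ m

theorem ze_summable {m : ℕ} (hm : 2 ≤ m) : Summable fun n : ℕ => ((n : ℝ) + 1)⁻¹ ^ m := by
  have h := (summable_nat_add_iff 1).2 (Real.summable_nat_pow_inv.2 (show 1 < m by omega))
  refine h.congr fun n => ?_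
  push_cast
  rw [inv_pow]

theorem ze_pos {m : ℕ} (hm : 2 ≤ m) : 0 < ze m := by
  refine (ze_summable hm).tsum_pos (fun n => by positivity) 0 (by norm_num)

theorem tendsto_Li {m : ℕ} (hm : 2 ≤ m) :
    Tendsto (fun v => Li m (1 - v)) (𝓝[>] 0) (𝓝 (ze m)) := by
  unfold Li ze
  refine tendsto_tsum_of_dominated_convergence (bound := fun n : ℕ => ((n : ℝ) + 1)⁻¹ ^ m)
    (ze_summable hm) (fun n => ?_) ?_
  · have h : Tendsto (fun v : ℝ => (1 - v) ^ (n + 1) * ((n : ℝ) + 1)⁻¹ ^ m) (𝓝 0)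
        (𝓝 ((1 - 0) ^ (n + 1) * ((n : ℝ) + 1)⁻¹ ^ m)) := by
      refine Continuous.tendsto ?_ 0
      fun_prop
    rw [sub_zero, one_pow, one_mul] at h
    exact h.mono_left nhdsWithin_le_nhds
  · filter_upwards [Ioo_mem_nhdsGT (show (0 : ℝ) < 1 by norm_num)] with v hv n
    have h0 : 0 ≤ 1 - v := by linarith [hv.2]
    have h1 : 1 - v ≤ 1 := by linarith [hv.1]
    rw [Real.norm_of_nonneg (by positivity)]
    exact mul_le_of_le_one_left (by positivity) (pow_le_one₀ h0 h1)

theorem Hf_depth_one {a b : A} {K : ℕ} (haK : a ^ K = 0) (hba : b * a = 0) (hbb : b * b = 0)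
    {z : ℝ} (h0 : 0 < z) (h1 : z < 1) :
    Hf a b 0 0 z = 1 - ∑ i ∈ Finset.range K, Li (i + 1) z • (a ^ i * b) := by
  have hs : HasSum (fun n : ℕ => z ^ (n + 1) • hc a b 0 0 (n + 1))
      (-∑ i ∈ Finset.range K, Li (i + 1) z • (a ^ i * b)) := by
    have h2 : HasSum (fun n : ℕ => ∑ i ∈ Finset.range K,
        (z ^ (n + 1) * ((n : ℝ) + 1)⁻¹ ^ (i + 1)) • (a ^ i * b))
        (∑ i ∈ Finset.range K, Li (i + 1) z • (a ^ i * b)) :=
      hasSum_sum fun i _ => (Li_summable (i + 1) h0 h1).hasSum.smul_const _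
    refine h2.neg.congr_fun fun n => ?_
    rw [hc_depth_one haK hba hbb, smul_neg, Finset.smul_sum]
    congr 1
    refine Finset.sum_congr rfl fun i _ => ?_
    rw [smul_smul]
  have h3 : HasSum (fun n : ℕ => z ^ n • hc a b 0 0 n)
      (1 - ∑ i ∈ Finset.range K, Li (i + 1) z • (a ^ i * b)) := by
    rw [← hasSum_nat_add_iff' 1]
    simpa [hc_zero] using hs
  exact h3.tsum_eq

theorem mul_exp_of_mul_eq_zero {e x : A} (h : e * x = 0) [CompleteSpace A] : e * exp x = e := by
  let _ : NormedAlgebra ℚ A := NormedAlgebra.restrictScalars ℚ ℝ A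
  have hs : HasSum (fun n : ℕ => ((n.factorial : ℝ)⁻¹) • x ^ n) (exp x) :=
    exp_series_hasSum_exp' x
  have h2 := hs.mul_left e
  have h3 : HasSum (fun n : ℕ => e * (((n.factorial : ℝ)⁻¹) • x ^ n)) e := by
    have h4 := hasSum_ite_eq 0 e
    refine h4.congr_fun fun n => ?_
    rcases n with _ | n
    · simp
    · rw [mul_smul_comm, pow_succ', ← mul_assoc, h]
      simp
  exact h2.unique h3

variable [CompleteSpace A]

/-- the regular factor is `1 + O(v)`. -/
theorem Hf_sub_one_bound {q : A} (hq : IsNilpotent q) (t y : A) :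
    ∃ C : ℝ, 0 ≤ C ∧ ∀ u v : ℝ, |u| ≤ 1 → |v| ≤ 1 / 2 → ‖Hf q t y u v - 1‖ ≤ C * |v| := by
  obtain ⟨B, κ, hB, hκ, hb⟩ := hc_bound hq t y
  have hS := bm_summable0 hB hκ (show (0 : ℝ) ≤ 1 / 2 by norm_num) (by norm_num)
  have hS1 : Summable fun n : ℕ => ((1 / 2 : ℝ) ^ n) * bm B κ (n + 1) := by
    have h := ((summable_nat_add_iff 1).2 hS).mul_left 2
    refine h.congr fun n => ?_
    rw [pow_succ]; ring
  refine ⟨∑' n : ℕ, ((1 / 2 : ℝ) ^ n) * bm B κ (n + 1), tsum_nonneg fun n => ?_, ?_⟩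
  · have := bm_pos hB hκ (n + 1)
    positivity
  · intro u v hu hv
    have hv1 : |v| < 1 := lt_of_le_of_lt hv (by norm_num)
    have hs := (summable_H hq t y hu hv1)
    have h2 : HasSum (fun n : ℕ => |v| * (((1 / 2 : ℝ) ^ n) * bm B κ (n + 1)))
        ((∑' n : ℕ, ((1 / 2 : ℝ) ^ n) * bm B κ (n + 1)) * |v|) := by
      rw [mul_comm]
      exact hS1.hasSum.mul_left _
    have h3 : Hf q t y u v - 1 = ∑' n : ℕ, v ^ (n + 1) • hc q t y u (n + 1) := by
      rw [Hf, hs.of_norm.tsum_eq_zero_add, pow_zero, one_smul, hc_zero, add_sub_cancel_left]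
    rw [h3]
    refine tsum_of_norm_bounded h2 fun n => ?_
    rw [norm_smul, norm_pow, Real.norm_eq_abs, pow_succ', mul_assoc]
    have h4 := hb u hu (n + 1)
    have h5 : |v| ^ n ≤ (1 / 2 : ℝ) ^ n := pow_le_pow_left₀ (abs_nonneg _) hv n
    gcongr

theorem Ht_sub_one_bound {q : A} (hq : IsNilpotent q) (t y : A) :
    ∃ C : ℝ, 0 ≤ C ∧ ∀ u v : ℝ, |u| ≤ 1 → |v| ≤ 1 / 2 → ‖Ht q t y u v - 1‖ ≤ C * |v| := by
  obtain ⟨C, h0, h⟩ := Hf_sub_one_bound (nilp_op hq) (MulOpposite.op (-t)) (MulOpposite.op (-y))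
  refine ⟨C, h0, fun u v hu hv => ?_⟩
  have h1 := h u v hu hv
  rw [← MulOpposite.norm_unop] at h1
  exact h1

theorem Gf_depth_one {a b : A} {K : ℕ} (haK : a ^ K = 0) (hba : b * a = 0) (hbb : b * b = 0)
    {z : ℝ} (h0 : 0 < z) (h1 : z < 1) :
    Gf a b z = exp (Real.log z • a) - ∑ i ∈ Finset.range K, Li (i + 1) z • (a ^ i * b) := by
  rw [Gf, Hf_depth_one haK hba hbb h0 h1, sub_mul, one_mul, Finset.sum_mul]
  congr 1
  refine Finset.sum_congr rfl fun i _ => ?_
  rw [smul_mul_assoc, mul_assoc, mul_exp_of_mul_eq_zero]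
  rw [mul_smul_comm, hba, smul_zero]

/-- **depth one part of `Φ`.** -/
theorem Phi_depth_one {a b e : A} {K : ℕ} (haK : a ^ K = 0) (hba : b * a = 0) (hbb : b * b = 0)
    (heb : e * b = 0) :
    e * Phi a b = e - ∑ i ∈ Finset.range K, (if i = 0 then 0 else ze (i + 1)) • (e * (a ^ i * b)) := by
  have hb : IsNilpotent b := ⟨2, by rw [pow_two, hbb]⟩
  have ha : IsNilpotent a := ⟨K, haK⟩
  obtain ⟨C, hC0, hC⟩ := Ht_sub_one_bound hb a 0
  have hHt : Tendsto (fun v => Ht b a 0 0 v) (𝓝[>] 0) (𝓝 1) := by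
    have := tendsto_Ht hb a 0 (u := 0) (v := 0) (l := 𝓝[>] (0 : ℝ)) tendsto_const_nhds
      (tendsto_id.mono_left nhdsWithin_le_nhds) (by simp) (by simp) (by simp)
    rwa [Ht_zero] at this
  have heq : ∀ᶠ v in 𝓝[>] (0 : ℝ), e * Phi a b =
      e * Ht b a 0 0 v * exp (Real.log (1 - v) • a) -
        ∑ i ∈ Finset.range K, Li (i + 1) (1 - v) • (e * Ht b a 0 0 v * (a ^ i * b)) := by
    filter_upwards [Ioo_mem_nhdsGT (show (0 : ℝ) < 1 by norm_num)] with v hv
    have h0 : 0 < 1 - v := by linarith [hv.2]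
    have h1 : 1 - v < 1 := by linarith [hv.1]
    rw [← Phi_eq ha hb h0 h1, Gt_eq, Gf_depth_one haK hba hbb h0 h1, sub_sub_cancel, mul_assoc,
      ← mul_assoc e, mul_exp_of_mul_eq_zero, ← mul_assoc, mul_sub, Finset.mul_sum]
    · congr 1
      refine Finset.sum_congr rfl fun i _ => ?_
      rw [mul_smul_comm]
    · rw [mul_neg, mul_smul_comm, heb, smul_zero, neg_zero]
  have hlim : Tendsto (fun v : ℝ => e * Ht b a 0 0 v * exp (Real.log (1 - v) • a) -
        ∑ i ∈ Finset.range K, Li (i + 1) (1 - v) • (e * Ht b a 0 0 v * (a ^ i * b))) (𝓝[>] 0)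
      (𝓝 (e * 1 * 1 - ∑ i ∈ Finset.range K, (if i = 0 then 0 else ze (i + 1)) •
        (e * 1 * (a ^ i * b)))) := by
    refine ((hHt.const_mul e).mul ?_).sub (tendsto_finsetSum _ fun i _ => ?_)
    · have h1 : Tendsto (fun v : ℝ => exp (Real.log (1 - v) • a)) (𝓝[>] 0)
          (𝓝 (exp (Real.log (1 - 0) • a))) := by
        refine (exp_cont.tendsto _).comp (Tendsto.smul_const ?_ a)
        refine Tendsto.log ?_ (by norm_num)
        exact (tendsto_const_nhds.sub tendsto_id).mono_left nhdsWithin_le_nhds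
      rw [sub_zero, Real.log_one, zero_smul, exp_zero] at h1
      exact h1
    · rcases i with _ | i
      · rw [if_pos rfl, zero_smul, pow_zero, one_mul]
        have h2 : Tendsto (fun v : ℝ => (Real.log v * v) * (‖e‖ * C * ‖b‖)) (𝓝[>] 0)
            (𝓝 (0 * (‖e‖ * C * ‖b‖))) := by
          refine Tendsto.mul_const _ ?_
          have := tendsto_log_mul_rpow_nhdsGT_zero (show (0 : ℝ) < 1 by norm_num)
          simpa using this
        rw [zero_mul] at h2
        have h3 := h2.norm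
        rw [norm_zero] at h3
        refine squeeze_zero_norm' ?_ h3
        filter_upwards [Ioo_mem_nhdsGT (show (0 : ℝ) < 1 / 2 by norm_num)] with v hv
        have h0 : 0 < 1 - v := by linarith [hv.2]
        have h1 : 1 - v < 1 := by linarith [hv.1]
        have h4 := hC 0 v (by simp) (by rw [abs_of_pos hv.1]; exact hv.2.le)
        rw [zero_add, Li_one h0 h1, sub_sub_cancel]
        have h5 : e * Ht b a 0 0 v * b = e * (Ht b a 0 0 v - 1) * b := by
          rw [mul_sub, mul_one, sub_mul, heb, sub_zero]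
        rw [h5, norm_smul, norm_neg]
        calc ‖Real.log v‖ * ‖e * (Ht b a 0 0 v - 1) * b‖
            ≤ ‖Real.log v‖ * (‖e‖ * (C * |v|) * ‖b‖) := by
              gcongr
              refine (norm_mul_le _ _).trans ?_
              gcongr
              refine (norm_mul_le _ _).trans ?_
              gcongr
          _ = ‖Real.log v * v * (‖e‖ * C * ‖b‖)‖ := by
              rw [norm_mul, norm_mul, Real.norm_of_nonneg (show 0 ≤ ‖e‖ * C * ‖b‖ by positivity),
                Real.norm_eq_abs v]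
              ring
      · rw [if_neg (by omega)]
        exact (tendsto_Li (by omega)).smul ((hHt.const_mul e).mul_const _)
  have hfin := tendsto_nhds_unique (tendsto_const_nhds.congr' heq) hlim
  rw [hfin]
  simp only [mul_one]

end General

section Mat

open Matrix

attribute [local instance] Matrix.linftyOpNormedRing Matrix.linftyOpNormedAlgebra

/-- the nilpotent shift `E_{0,1} + ... + E_{N-2,N-1}`. -/
noncomputable def shA (N : ℕ) : Matrix (Fin (N + 1)) (Fin (N + 1)) ℝ :=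
  Matrix.of fun i j => if (j : ℕ) = i + 1 ∧ (j : ℕ) < N then 1 else 0

/-- the matrix unit `E_{N-1,N}`. -/
noncomputable def shB (N : ℕ) : Matrix (Fin (N + 1)) (Fin (N + 1)) ℝ :=
  Matrix.of fun i j => if (i : ℕ) + 1 = N ∧ (j : ℕ) = N then 1 else 0

theorem shA_pow (N k : ℕ) : shA N ^ k =
    Matrix.of (fun i j : Fin (N + 1) =>
      if (j : ℕ) = i + k ∧ ((j : ℕ) < N ∨ k = 0) then (1 : ℝ) else 0) := by
  induction k with
  | zero =>
    ext i j
    rw [pow_zero, Matrix.one_apply, Matrix.of_apply]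
    by_cases h : i = j
    · subst h; simp
    · have h' : ¬ (j : ℕ) = i := fun h' => h (Fin.ext h'.symm)
      simp [h, h']
  | succ k ih =>
    ext i j
    rw [pow_succ, ih, Matrix.mul_apply, Matrix.of_apply]
    by_cases h : (j : ℕ) = i + (k + 1) ∧ ((j : ℕ) < N ∨ k + 1 = 0)
    · rw [if_pos h]
      have hj := j.2
      rw [Finset.sum_eq_single (⟨i + k, by omega⟩ : Fin (N + 1))]
      · simp only [shA, Matrix.of_apply]
        rw [if_pos ⟨trivial, by omega⟩, if_pos (by omega), mul_one]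
      · intro l _ hl
        have hl' : ¬ (l : ℕ) = i + k := fun h' => hl (Fin.ext h')
        simp only [Matrix.of_apply]
        rw [if_neg (by omega), zero_mul]
      · intro hl; exact absurd (Finset.mem_univ _) hl
    · rw [if_neg h]
      refine Finset.sum_eq_zero fun l _ => ?_
      simp only [shA, Matrix.of_apply]
      by_cases h1 : (l : ℕ) = i + k ∧ ((l : ℕ) < N ∨ k = 0)
      · have h2 : ¬ ((j : ℕ) = l + 1 ∧ (j : ℕ) < N) := by omega
        rw [if_neg h2, mul_zero]
      · rw [if_neg h1, zero_mul]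

theorem shA_nilp (N : ℕ) : shA N ^ (N + 1) = 0 := by
  rw [shA_pow]
  ext i j
  have hj := j.2
  rw [Matrix.of_apply, if_neg (by omega)]
  rfl

theorem shB_mul_shA (N : ℕ) : shB N * shA N = 0 := by
  ext i j
  rw [Matrix.mul_apply]
  refine Finset.sum_eq_zero fun k _ => ?_
  simp only [shA, shB, Matrix.of_apply]
  split_ifs <;> first | (exfalso; omega) | simp

theorem shB_mul_shB (N : ℕ) : shB N * shB N = 0 := by
  ext i j
  rw [Matrix.mul_apply]
  refine Finset.sum_eq_zero fun k _ => ?_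
  simp only [shB, Matrix.of_apply]
  split_ifs <;> first | (exfalso; omega) | simp

/-- the matrix unit `E_{0,0}`. -/
noncomputable def shE (N : ℕ) : Matrix (Fin (N + 1)) (Fin (N + 1)) ℝ :=
  Matrix.of fun i j => if (i : ℕ) = 0 ∧ (j : ℕ) = 0 then 1 else 0

theorem shE_mul (N : ℕ) (M : Matrix (Fin (N + 1)) (Fin (N + 1)) ℝ) (j : Fin (N + 1)) :
    (shE N * M) 0 j = M 0 j := by
  rw [Matrix.mul_apply, Finset.sum_eq_single 0]
  · simp [shE]
  · intro k _ hk
    have hk' : ¬ (k : ℕ) = 0 := fun h => hk (Fin.ext h)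
    simp only [shE, Matrix.of_apply]
    rw [if_neg (fun h => hk' h.2), zero_mul]
  · intro h; exact absurd (Finset.mem_univ _) h

theorem shE_mul_shB {N : ℕ} (hN : 2 ≤ N) : shE N * shB N = 0 := by
  ext i j
  rw [Matrix.mul_apply]
  refine Finset.sum_eq_zero fun k _ => ?_
  simp only [shE, shB, Matrix.of_apply]
  split_ifs <;> first | (exfalso; omega) | simp

theorem shA_pow_mul_shB {N : ℕ} (i : ℕ) :
    (shA N ^ i * shB N) 0 (Fin.last N) = if i + 1 = N then 1 else 0 := by
  rw [shA_pow, Matrix.mul_apply]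
  split_ifs with h
  · rw [Finset.sum_eq_single (⟨i, by omega⟩ : Fin (N + 1))]
    · simp only [shB, Matrix.of_apply, Fin.val_last, Fin.val_zero, zero_add]
      rw [if_pos ⟨trivial, by omega⟩, if_pos ⟨h, trivial⟩, mul_one]
    · intro l _ hl
      have hl' : ¬ (l : ℕ) = i := fun h' => hl (Fin.ext h')
      simp only [Matrix.of_apply, Fin.val_zero, zero_add]
      rw [if_neg (by omega), zero_mul]
    · intro hl; exact absurd (Finset.mem_univ _) hl
  · refine Finset.sum_eq_zero fun l _ => ?_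
    simp only [shB, Matrix.of_apply, Fin.val_last, Fin.val_zero, zero_add]
    split_ifs <;> first | (exfalso; omega) | simp

instance complete_mat (N : ℕ) : CompleteSpace (Matrix (Fin (N + 1)) (Fin (N + 1)) ℝ) :=
  FiniteDimensional.complete ℝ _

/-- the coefficient of `a^(N-1) b` in `Φ(a,b)` is `-ζ(N)`. -/
theorem Phi_shift {N : ℕ} (hN : 2 ≤ N) : (Phi (shA N) (shB N)) 0 (Fin.last N) = -ze N := by
  have h := Phi_depth_one (shA_nilp N) (shB_mul_shA N) (shB_mul_shB N) (shE_mul_shB hN)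
  have h1 := shE_mul N (Phi (shA N) (shB N)) (Fin.last N)
  rw [h] at h1
  rw [← h1, Matrix.sub_apply, Matrix.sum_apply]
  have h0 : shE N 0 (Fin.last N) = 0 := by
    simp only [shE, Matrix.of_apply, Fin.val_last]
    rw [if_neg (by omega)]
  rw [h0, zero_sub, neg_inj, Finset.sum_eq_single (N - 1)]
  · rw [if_neg (by omega), Matrix.smul_apply, shE_mul, shA_pow_mul_shB,
      if_pos (by omega), show N - 1 + 1 = N by omega]
    simp
  · intro i _ hi
    have hi' : ¬ i + 1 = N := by omega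
    rw [Matrix.smul_apply, shE_mul, shA_pow_mul_shB, if_neg hi', smul_zero]
  · intro h
    exact absurd (Finset.mem_range.2 (by omega)) h

theorem depth_one {N : ℕ} (hN : 2 ≤ N) : (Phi (shA N) (shB N)) 0 (Fin.last N) ≠ 0 := by
  rw [Phi_shift hN, neg_ne_zero]
  exact (ze_pos hN).ne'

end Mat

end Crest.Agent.R010.KZ
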