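import Crest.Agent.R010.KZh

/-! Row 10, module (E), analysis part k (helper819): naturality of `Phi` under continuous algebra
homomorphisms, and the universal word coefficients `phi` of `Phi`. -/

set_option autoImplicit false

open Filter Topology NormedSpace MulOpposite

namespace Crest.Agent.R010.KZ

section Nat
variable {A : Type*} [NormedRing A] [NormedAlgebra ℝ A]
variable {B : Type*} [NormedRing B] [NormedAlgebra ℝ B]

theorem map_res (f : A →ₐ[ℝ] B) {q : A} (hq : IsNilpotent q) {n : ℕ} (hn : n ≠ 0) (z : A) :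
    f (res q n z) = res (f q) n (f z) := by
  refine (res_eq_of (hq.map f) hn ?_).symm
  rw [← map_smul, ← map_mul, ← map_mul, ← map_sub, ← map_sub, res_spec hq hn]

theorem map_hc (f : A →ₐ[ℝ] B) {q : A} (hq : IsNilpotent q) (t y : A) (u : ℝ) (n : ℕ) :
    f (hc q t y u n) = hc (f q) (f t) (f y) u n := by
  induction n using Nat.strong_induction_on with
  | _ n ih =>
    rcases n with _ | n
    · rw [hc_zero, hc_zero, map_one]
    · rw [hc_succ, hc_succ, map_neg, map_res f hq (by omega), map_sum]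
      congr 2
      refine Finset.sum_congr rfl fun k _ => ?_
      rw [map_mul, map_add, map_smul, ih _ (by omega)]

variable [CompleteSpace A]

theorem map_Hf (f : A →ₐ[ℝ] B) (hf : Continuous f) {q : A} (hq : IsNilpotent q) (t y : A)
    {u v : ℝ} (hu : |u| ≤ 1) (hv : |v| < 1) : f (Hf q t y u v) = Hf (f q) (f t) (f y) u v := by
  have hs : Summable fun n => v ^ n • hc q t y u n := (summable_H hq t y hu hv).of_norm
  rw [Hf, Hf, hs.map_tsum f hf]
  refine tsum_congr fun n => ?_
  rw [map_smul, map_hc f hq]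

theorem map_exp' [CompleteSpace B] (f : A →ₐ[ℝ] B) (hf : Continuous f) (x : A) :
    f (exp x) = exp (f x) := by
  let _ : NormedAlgebra ℚ A := NormedAlgebra.restrictScalars ℚ ℝ A
  let _ : NormedAlgebra ℚ B := NormedAlgebra.restrictScalars ℚ ℝ B
  exact map_exp f hf x

variable [CompleteSpace B]

theorem map_Gf (f : A →ₐ[ℝ] B) (hf : Continuous f) {a : A} (ha : IsNilpotent a) (b : A)
    {z : ℝ} (hz : |z| < 1) : f (Gf a b z) = Gf (f a) (f b) z := by
  rw [Gf, Gf, map_mul, map_Hf f hf ha b 0 (by simp) hz, map_exp' f hf, map_zero, map_smul]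

theorem map_Gt (f : A →ₐ[ℝ] B) (hf : Continuous f) {a : A} (ha : IsNilpotent a) (b : A)
    {z : ℝ} (hz : |z| < 1) : f (Gt a b z) = Gt (f a) (f b) z := by
  have h := map_Gf (AlgHom.op f) (by
    have : (AlgHom.op f : Aᵐᵒᵖ → Bᵐᵒᵖ) = fun x => op (f (unop x)) := rfl
    rw [this]
    exact continuous_op.comp (hf.comp continuous_unop)) (nilp_op ha) (op (-b)) hz
  have h' := congrArg unop h
  rw [Gt, Gt]
  have e1 : unop ((AlgHom.op f) (Gf (op (-a)) (op (-b)) z)) = f (unop (Gf (op (-a)) (op (-b)) z)) :=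
    rfl
  rw [e1] at h'
  rw [h']
  have e2 : ∀ x : A, (AlgHom.op f) (op (-x)) = op (-(f x)) := by
    intro x
    change op (f (-x)) = op (-(f x))
    rw [map_neg]
  rw [e2, e2]

theorem map_Phi (f : A →ₐ[ℝ] B) (hf : Continuous f) {a b : A} (ha : IsNilpotent a)
    (hb : IsNilpotent b) : f (Phi a b) = Phi (f a) (f b) := by
  have h : |(1 / 2 : ℝ)| < 1 := by rw [abs_of_pos] <;> norm_num
  rw [Phi, Phi, map_mul, map_Gf f hf ha b h, map_Gt f hf hb a h]

end Nat

section Closed
variable {A : Type*} [NormedRing A] [NormedAlgebra ℝ A] [CompleteSpace A]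

theorem Phi_mem (S : Subalgebra ℝ A) (hS : IsClosed (S : Set A)) {a b : A} (ha : IsNilpotent a)
    (hb : IsNilpotent b) (haS : a ∈ S) (hbS : b ∈ S) : Phi a b ∈ S := by
  have : CompleteSpace S := hS.completeSpace_coe
  have h := map_Phi S.val (by exact continuous_subtype_val) (a := ⟨a, haS⟩) (b := ⟨b, hbS⟩)
    (by obtain ⟨n, hn⟩ := ha; exact ⟨n, Subtype.ext (by simpa using hn)⟩)
    (by obtain ⟨n, hn⟩ := hb; exact ⟨n, Subtype.ext (by simpa using hn)⟩)
  have h2 : Phi a b = S.val (Phi (⟨a, haS⟩ : S) ⟨b, hbS⟩) := h.symm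
  rw [h2]
  exact (Phi (⟨a, haS⟩ : S) ⟨b, hbS⟩).2

end Closed

section Words

/-- the product of the letters of a word. -/
def wp {A : Type*} [Monoid A] {ι : Type*} (R : ι → A) (w : List ι) : A := (w.map R).prod

@[simp] theorem wp_nil {A : Type*} [Monoid A] {ι : Type*} (R : ι → A) : wp R [] = 1 := by simp [wp]

@[simp] theorem wp_cons {A : Type*} [Monoid A] {ι : Type*} (R : ι → A) (i : ι) (w : List ι) :
    wp R (i :: w) = R i * wp R w := by simp [wp]

theorem wp_append {A : Type*} [Monoid A] {ι : Type*} (R : ι → A) (v w : List ι) :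
    wp R (v ++ w) = wp R v * wp R w := by simp [wp]

theorem map_wp {A B : Type*} [Monoid A] [Monoid B] {F : Type*} [FunLike F A B]
    [MonoidHomClass F A B] (f : F) {ι : Type*} (R : ι → A) (w : List ι) :
    f (wp R w) = wp (fun i => f (R i)) w := by
  induction w with
  | nil => simp
  | cons i w ih => simp [ih]

/-- the finite set of words of length at most `M` -/
noncomputable def wordsLE (ι : Type*) [Finite ι] (M : ℕ) : Finset (List ι) :=
  (List.finite_length_le ι M).toFinset

theorem mem_wordsLE {ι : Type*} [Finite ι] {M : ℕ} {w : List ι} :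
    w ∈ wordsLE ι M ↔ w.length ≤ M := by simp [wordsLE]

theorem adjoin_le_span {A : Type*} [Ring A] [Algebra ℝ A] {ι : Type*} [Finite ι] (R : ι → A)
    {M : ℕ} (hM : ∀ w : List ι, M < w.length → wp R w = 0) :
    Subalgebra.toSubmodule (Algebra.adjoin ℝ (Set.range R)) =
      Submodule.span ℝ ((fun w => wp R w) '' (wordsLE ι M : Set (List ι))) := by
  rw [Algebra.adjoin_eq_span]
  apply le_antisymm
  · rw [Submodule.span_le]
    intro x hx
    obtain ⟨l, hl, rfl⟩ := Submonoid.exists_list_of_mem_closure hx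
    have : ∃ w : List ι, l = w.map R := by
      clear hx
      induction l with
      | nil => exact ⟨[], rfl⟩
      | cons y l ih =>
        obtain ⟨w, hw⟩ := ih (fun z hz => hl z (List.mem_cons_of_mem _ hz))
        obtain ⟨i, hi⟩ := hl y (List.mem_cons_self)
        exact ⟨i :: w, by simp [hw, hi]⟩
    obtain ⟨w, rfl⟩ := this
    by_cases hw : w.length ≤ M
    · exact Submodule.subset_span ⟨w, by simpa [mem_wordsLE] using hw, rfl⟩
    · have : (w.map R).prod = 0 := hM w (by omega)
      rw [this]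
      exact Submodule.zero_mem _
  · rw [Submodule.span_le]
    rintro x ⟨w, _, rfl⟩
    refine Submodule.subset_span ?_
    refine Submonoid.list_prod_mem _ ?_
    intro x hx
    obtain ⟨i, _, rfl⟩ := List.mem_map.1 hx
    exact Submonoid.subset_closure ⟨i, rfl⟩

theorem finiteDimensional_adjoin {A : Type*} [Ring A] [Algebra ℝ A] {ι : Type*} [Finite ι]
    (R : ι → A) {M : ℕ} (hM : ∀ w : List ι, M < w.length → wp R w = 0) :
    FiniteDimensional ℝ (Algebra.adjoin ℝ (Set.range R)) := by
  change FiniteDimensional ℝ (Subalgebra.toSubmodule (Algebra.adjoin ℝ (Set.range R)))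
  rw [adjoin_le_span R hM]
  exact FiniteDimensional.span_of_finite ℝ ((Finset.finite_toSet _).image _)

theorem exists_coeff {A : Type*} [Ring A] [Algebra ℝ A] {ι : Type*} [Finite ι]
    (R : ι → A) {M : ℕ} (hM : ∀ w : List ι, M < w.length → wp R w = 0) {x : A}
    (hx : x ∈ Algebra.adjoin ℝ (Set.range R)) :
    ∃ c : List ι → ℝ, x = ∑ w ∈ wordsLE ι M, c w • wp R w := by
  have h : x ∈ Subalgebra.toSubmodule (Algebra.adjoin ℝ (Set.range R)) := hx
  rw [adjoin_le_span R hM] at h
  obtain ⟨c, hc⟩ := (Submodule.mem_span_image_finset_iff_exists_fun ℝ).1 h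
  classical
  refine ⟨fun w => if h : w ∈ wordsLE ι M then c ⟨w, h⟩ else 0, ?_⟩
  rw [← hc, ← Finset.sum_coe_sort (wordsLE ι M)]
  refine Finset.sum_congr rfl fun w _ => ?_
  simp

end Words

end Crest.Agent.R010.KZ
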