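import Mathlib

/-! Row 10, module (E), analysis part: TRANSFER of identities from real matrix algebras to arbitrary
real algebras with a nilpotent configuration (helper10). -/

set_option autoImplicit false

namespace Crest.Agent.R010.KZ

section Transfer

variable {B : Type*} [Ring B] [Algebra ℝ B] {m : ℕ}

/-- all words of length `> M` in the letters `R` vanish. -/
def WNil (M : ℕ) (R : Fin m → B) : Prop :=
  ∀ w : List (Fin m), M < w.length → (w.map R).prod = 0

theorem WNil.map {C : Type*} [Ring C] [Algebra ℝ C] {M : ℕ} {R : Fin m → B} (h : WNil M R)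
    (f : B →ₐ[ℝ] C) : WNil M (fun i => f (R i)) := by
  intro w hw
  have := congrArg f (h w hw)
  rw [map_list_prod, List.map_map, map_zero] at this
  exact this

omit [Algebra ℝ B] in
theorem WNil.isNilpotent {M : ℕ} {R : Fin m → B} (h : WNil M R) (i : Fin m) :
    IsNilpotent (R i) := by
  refine ⟨M + 1, ?_⟩
  have := h (List.replicate (M + 1) i) (by simp)
  simpa using this

/-- the subalgebra generated by a nilpotent configuration is finite dimensional. -/
theorem adjoin_finite {M : ℕ} {R : Fin m → B} (hM : WNil M R) :
    Module.Finite ℝ (Algebra.adjoin ℝ (Set.range R)) := by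
  have h1 : Subalgebra.toSubmodule (Algebra.adjoin ℝ (Set.range R)) =
      Submodule.span ℝ (Set.range fun w : {w : List (Fin m) // w.length ≤ M} =>
        ((w : List (Fin m)).map R).prod) := by
    rw [Algebra.adjoin_eq_span]
    apply le_antisymm
    · rw [Submodule.span_le]
      intro x hx
      obtain ⟨l, hl, rfl⟩ := Submonoid.exists_list_of_mem_closure hx
      have h2 : ∃ w : List (Fin m), w.map R = l := by
        clear hx
        induction l with
        | nil => exact ⟨[], rfl⟩
        | cons a l ih =>
          obtain ⟨w, hw⟩ := ih (fun y hy => hl y (List.mem_cons_of_mem _ hy))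
          obtain ⟨i, hi⟩ := hl a List.mem_cons_self
          exact ⟨i :: w, by simp [hw, hi]⟩
      obtain ⟨w, rfl⟩ := h2
      by_cases hw : w.length ≤ M
      · exact Submodule.subset_span ⟨⟨w, hw⟩, rfl⟩
      · rw [hM w (not_le.1 hw)]
        exact Submodule.zero_mem _
    · rw [Submodule.span_le]
      rintro _ ⟨w, rfl⟩
      refine Submodule.subset_span (Submonoid.list_prod_mem _ ?_)
      intro y hy
      obtain ⟨i, -, rfl⟩ := List.mem_map.1 hy
      exact Submonoid.subset_closure ⟨i, rfl⟩
  have hfin : Finite {w : List (Fin m) // w.length ≤ M} :=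
    (List.finite_length_le (Fin m) M).to_subtype
  have h3 : (Subalgebra.toSubmodule (Algebra.adjoin ℝ (Set.range R))).FG := by
    rw [h1]
    exact Submodule.fg_span (Set.finite_range _)
  exact Module.Finite.iff_fg.2 h3

/-- an injective matrix representation of the subalgebra generated by a nilpotent configuration. -/
theorem exists_matrix_rep {M : ℕ} {R : Fin m → B} (hM : WNil M R) :
    ∃ (n : ℕ) (f : Algebra.adjoin ℝ (Set.range R) →ₐ[ℝ] Matrix (Fin n) (Fin n) ℝ),
      Function.Injective f := by
  have := adjoin_finite hM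
  have : Module.Free ℝ (Algebra.adjoin ℝ (Set.range R)) := Module.Free.of_divisionRing _ _
  exact ⟨_, Algebra.leftMulMatrix (Module.finBasis ℝ (Algebra.adjoin ℝ (Set.range R))),
    Algebra.leftMulMatrix_injective _⟩

/-- TRANSFER: an identity `P = Q` between noncommutative polynomials which holds for all nilpotent
configurations of real matrices satisfying the relations in `rel` holds for all nilpotent
configurations in all real algebras satisfying the relations in `rel`. -/
theorem transfer {M : ℕ} (rel : Set (FreeAlgebra ℝ (Fin m))) (P Q : FreeAlgebra ℝ (Fin m))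
    (h : ∀ (n : ℕ) (r : Fin m → Matrix (Fin n) (Fin n) ℝ), WNil M r →
      (∀ p ∈ rel, FreeAlgebra.lift ℝ r p = 0) → FreeAlgebra.lift ℝ r P = FreeAlgebra.lift ℝ r Q)
    {R : Fin m → B} (hM : WNil M R) (hR : ∀ p ∈ rel, FreeAlgebra.lift ℝ R p = 0) :
    FreeAlgebra.lift ℝ R P = FreeAlgebra.lift ℝ R Q := by
  obtain ⟨n, f, hf⟩ := exists_matrix_rep hM
  let S := Algebra.adjoin ℝ (Set.range R)
  let R' : Fin m → S := fun i => ⟨R i, Algebra.subset_adjoin ⟨i, rfl⟩⟩
  have hval : ∀ p : FreeAlgebra ℝ (Fin m), ((FreeAlgebra.lift ℝ R' p : S) : B) =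
      FreeAlgebra.lift ℝ R p := by
    intro p
    have : (S.val.comp (FreeAlgebra.lift ℝ R')) = FreeAlgebra.lift ℝ R := by
      ext i
      simp [R']
    exact DFunLike.congr_fun this p
  have hf' : ∀ p : FreeAlgebra ℝ (Fin m), f (FreeAlgebra.lift ℝ R' p) =
      FreeAlgebra.lift ℝ (fun i => f (R' i)) p := by
    intro p
    have : (f.comp (FreeAlgebra.lift ℝ R')) = FreeAlgebra.lift ℝ (fun i => f (R' i)) := by
      ext i
      simp
    exact DFunLike.congr_fun this p
  have hM' : WNil M R' := by
    intro w hw
    have h0 : S.val ((w.map R').prod) = (w.map R).prod := by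
      rw [map_list_prod, List.map_map]
      rfl
    exact Subtype.ext (h0.trans (hM w hw))
  have key := h n (fun i => f (R' i)) (hM'.map f) (by
    intro p hp
    have h0 : FreeAlgebra.lift ℝ R' p = 0 := Subtype.ext ((hval p).trans (hR p hp))
    have h1 := hf' p
    rw [h0, map_zero] at h1
    exact h1.symm)
  rw [← hf' P, ← hf' Q] at key
  rw [← hval P, ← hval Q, hf key]

end Transfer


end Crest.Agent.R010.KZ
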