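import Crest.Agent.R010.EDefs
import Crest.Agent.R010.KZt
import Crest.Agent.R010.KZh

/-! Row 10, module (E), analysis part: words, `Nilp`, transfer to `IsAssoc` (helper10). -/

set_option autoImplicit false

noncomputable section

namespace Crest.Agent.R010.KZ

open Crest.Agent.R010

attribute [local instance 100] LieRing.ofAssociativeRing

section Words

variable {K : Type*} [CommRing K] {X : Type*}

/-- the word `w` as an element of the free algebra. -/
def wd (w : List X) : FreeAlgebra K X := (w.map (FreeAlgebra.ι K)).prod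

theorem equiv_wd (w : List X) :
    FreeAlgebra.equivMonoidAlgebraFreeMonoid (R := K) (wd w) =
      MonoidAlgebra.single (FreeMonoid.ofList w) 1 := by
  induction w with
  | nil => simp [wd]; rfl
  | cons a w ih =>
    have : (wd (a :: w) : FreeAlgebra K X) = FreeAlgebra.ι K a * wd w := by simp [wd]
    rw [this, map_mul, ih]
    simp [FreeAlgebra.equivMonoidAlgebraFreeMonoid]

theorem cf_wd [DecidableEq X] (v w : List X) :
    cf v (wd w : FreeAlgebra K X) = if w = v then 1 else 0 := by
  classical
  simp only [cf, LinearMap.coe_mk, AddHom.coe_mk, equiv_wd]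
  rw [MonoidAlgebra.coeff_single, Finsupp.single_apply]
  simp only [EmbeddingLike.apply_eq_iff_eq]

theorem span_wd : Submodule.span K (Set.range (wd : List X → FreeAlgebra K X)) = ⊤ := by
  rw [eq_top_iff]
  intro p _
  have h : p = FreeAlgebra.equivMonoidAlgebraFreeMonoid.symm
      (FreeAlgebra.equivMonoidAlgebraFreeMonoid p) := by simp
  rw [h]
  generalize FreeAlgebra.equivMonoidAlgebraFreeMonoid p = q
  induction q using MonoidAlgebra.induction_linear with
  | zero => simp
  | add f g hf hg => rw [map_add]; exact Submodule.add_mem _ hf hg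
  | single a b =>
    have : (MonoidAlgebra.single a b : MonoidAlgebra K (FreeMonoid X)) =
        b • FreeAlgebra.equivMonoidAlgebraFreeMonoid (R := K) (wd (FreeMonoid.toList a)) := by
      rw [equiv_wd]; simp
    rw [this, map_smul, AlgEquiv.symm_apply_apply]
    exact Submodule.smul_mem _ _ (Submodule.subset_span ⟨_, rfl⟩)

theorem lin_ext {M : Type*} [AddCommGroup M] [Module K M] {f g : FreeAlgebra K X →ₗ[K] M}
    (h : ∀ w, f (wd w) = g (wd w)) : f = g := by
  apply LinearMap.ext_on span_wd
  rintro _ ⟨w, rfl⟩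
  exact h w

theorem lift_wd {B : Type*} [Ring B] [Algebra K B] (R : X → B) (w : List X) :
    FreeAlgebra.lift K R (wd w) = (w.map R).prod := by
  simp [wd, map_list_prod, List.map_map, Function.comp_def]

end Words

section NilpLemmas

variable {B : Type*} [Ring B]

theorem nilp_iff {N : ℕ} {m : ℕ} {R : Fin m → B} : Nilp N R ↔ WNil N R := by
  constructor
  · intro h w hw
    have h1 : w = w.take (N + 1) ++ w.drop (N + 1) := (List.take_append_drop _ _).symm
    have h2 := h (w.take (N + 1)) (by rw [List.length_take]; omega)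
    rw [h1, List.map_append, List.prod_append, h2, zero_mul]
  · intro h w hw
    exact h w (by omega)

theorem nilp_isNilpotent {N : ℕ} {ι : Type*} {x : ι → B} (h : Nilp N x) (i : ι) :
    IsNilpotent (x i) := by
  refine ⟨N + 1, ?_⟩
  have := h (List.replicate (N + 1) i) (by simp)
  simpa using this

/-- elements of the additive span of a nilpotent family form a nilpotent family. -/
theorem nilp_of_mem_span {K : Type*} [CommRing K] [Algebra K B] {N : ℕ} {ι κ : Type*} {x : ι → B}
    (h : Nilp N x) {y : κ → B} (hy : ∀ k, y k ∈ Submodule.span K (Set.range x)) : Nilp N y := by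
  have key : ∀ (l : List κ) (w : List ι), w.length + l.length = N + 1 →
      (w.map x).prod * (l.map y).prod = 0 := by
    intro l
    induction l with
    | nil =>
      intro w hw
      rw [h w (by simpa using hw), zero_mul]
    | cons k l ih =>
      intro w hw
      rw [List.map_cons, List.prod_cons, ← mul_assoc]
      have hk := hy k
      generalize y k = z at hk
      induction hk using Submodule.span_induction with
      | mem z hz =>
        obtain ⟨i, rfl⟩ := hz
        have := ih (w ++ [i]) (by simp at hw ⊢; omega)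
        simpa using this
      | zero => simp
      | add a b _ _ ha hb => rw [mul_add, add_mul, ha, hb, add_zero]
      | smul c a _ ha => rw [mul_smul_comm, smul_mul_assoc, ha, smul_zero]
  intro l hl
  have := key l [] (by simpa using hl)
  simpa using this

theorem nilp_mono {N M : ℕ} {ι : Type*} {x : ι → B} (h : Nilp N x) (hNM : N ≤ M) : Nilp M x := by
  intro w hw
  have h1 : w = w.take (N + 1) ++ w.drop (N + 1) := (List.take_append_drop _ _).symm
  have h2 := h (w.take (N + 1)) (by rw [List.length_take]; omega)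
  rw [h1, List.map_append, List.prod_append, h2, zero_mul]

end NilpLemmas

section Ev

theorem map_ev {K : Type*} [CommRing K] {B C : Type*} [Ring B] [Algebra K B] [Ring C] [Algebra K C]
    (f : B →ₐ[K] C) (a b : B) (P : FreeAlgebra K (Fin 2)) : f (ev a b P) = ev (f a) (f b) P := by
  have : f.comp (ev a b) = ev (f a) (f b) := by
    ext i
    fin_cases i <;> simp [ev]
  exact DFunLike.congr_fun this P

end Ev

section MatrixForm

attribute [local instance] Matrix.linftyOpNormedRing Matrix.linftyOpNormedAlgebra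

theorem mat_complete (n : ℕ) : CompleteSpace (Matrix (Fin n) (Fin n) ℝ) :=
  FiniteDimensional.complete ℝ _

theorem mat_dedekind (n : ℕ) : IsDedekindFiniteMonoid (Matrix (Fin n) (Fin n) ℝ) := inferInstance

attribute [local instance] mat_complete

/-- matrix form of the analytic input at level `N`. -/
def IsPhiPoly (N : ℕ) (P : FreeAlgebra ℝ (Fin 2)) : Prop :=
  ∀ (n : ℕ) (X Y : Matrix (Fin n) (Fin n) ℝ), Nilp N ![X, Y] → Phi X Y = ev X Y P

/-- the pentagon for matrices. -/
theorem pent_matrix {N : ℕ} {P : FreeAlgebra ℝ (Fin 2)} (hP : IsPhiPoly N P) {n : ℕ}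
    (R : Fin 5 → Matrix (Fin n) (Fin n) ℝ) (hR : Conf5 R) (hN : Nilp N R) :
    ev (R 4) (R 1) P * ev (R 3) (R 0) P * ev (R 2) (R 4) P * ev (R 1) (R 3) P *
      ev (R 0) (R 2) P = 1 := by
  have hp : ∀ i j, Nilp N ![R i, R j] := by
    intro i j
    refine nilp_of_mem_span (K := ℝ) hN ?_
    intro k
    fin_cases k
    · exact Submodule.subset_span ⟨i, rfl⟩
    · exact Submodule.subset_span ⟨j, rfl⟩
  have hPent : Pent (R 0) (R 1) (R 2) (R 3) (R 4) := by
    obtain ⟨h1, h2⟩ := hR
    have c : ∀ i, R i * R (i + 1) = R (i + 1) * R i := by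
      intro i
      have := h1 i
      rwa [LieRing.of_associative_ring_bracket, sub_eq_zero] at this
    refine ⟨c 0, c 1, c 2, c 3, c 4, ?_⟩
    rw [Fin.sum_univ_five] at h2
    simp only [LieRing.of_associative_ring_bracket] at h2
    exact h2
  have key := pentagon hPent (nilp_isNilpotent hN 0) (nilp_isNilpotent hN 1)
    (nilp_isNilpotent hN 2) (nilp_isNilpotent hN 3) (nilp_isNilpotent hN 4)
  rw [hP n _ _ (hp _ _), hP n _ _ (hp _ _), hP n _ _ (hp _ _), hP n _ _ (hp _ _),
    hP n _ _ (hp _ _)] at key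
  exact key

/-- multiplicativity on commuting pairs, matrices. -/
theorem mult_matrix {N : ℕ} {P : FreeAlgebra ℝ (Fin 2)} (hP : IsPhiPoly N P)
    (hmul : ∀ (n : ℕ) (a b a' b' : Matrix (Fin n) (Fin n) ℝ), IsNilpotent a → IsNilpotent b →
      IsNilpotent a' → IsNilpotent b' → IsNilpotent (a + a') → IsNilpotent (b + b') →
      Commute a a' → Commute a b' → Commute b a' → Commute b b' →
      Phi (a + a') (b + b') = Phi a b * Phi a' b') {n : ℕ}
    (a b a' b' : Matrix (Fin n) (Fin n) ℝ) (hN : Nilp N ![a, b, a', b'])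
    (h1 : Commute a a') (h2 : Commute a b') (h3 : Commute b a') (h4 : Commute b b') :
    ev (a + a') (b + b') P = ev a b P * ev a' b' P := by
  have hs : ∀ i : Fin 4, (![a, b, a', b'] : Fin 4 → Matrix (Fin n) (Fin n) ℝ) i ∈
      Submodule.span ℝ (Set.range ![a, b, a', b']) := fun i => Submodule.subset_span ⟨i, rfl⟩
  have s0 := hs 0
  have s1 := hs 1
  have s2 := hs 2
  have s3 := hs 3
  simp only [Matrix.cons_val] at s0 s1 s2 s3
  have k1 : Nilp N ![a + a', b + b'] := by
    refine nilp_of_mem_span (K := ℝ) hN ?_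
    intro k
    fin_cases k
    · exact Submodule.add_mem _ s0 s2
    · exact Submodule.add_mem _ s1 s3
  have k2 : Nilp N ![a, b] := by
    refine nilp_of_mem_span (K := ℝ) hN ?_
    intro k
    fin_cases k
    · exact s0
    · exact s1
  have k3 : Nilp N ![a', b'] := by
    refine nilp_of_mem_span (K := ℝ) hN ?_
    intro k
    fin_cases k
    · exact s2
    · exact s3
  rw [← hP n _ _ k1, ← hP n _ _ k2, ← hP n _ _ k3]
  exact hmul n a b a' b' (nilp_isNilpotent k2 0) (nilp_isNilpotent k2 1) (nilp_isNilpotent k3 0)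
    (nilp_isNilpotent k3 1) (nilp_isNilpotent k1 0) (nilp_isNilpotent k1 1) h1 h2 h3 h4

/-- assembly of the clauses of `IsAssoc` from the matrix statements. -/
theorem isAssoc_of {N : ℕ} {P : FreeAlgebra ℝ (Fin 2)} (hP : IsPhiPoly N P)
    (hmul : ∀ (n : ℕ) (a b a' b' : Matrix (Fin n) (Fin n) ℝ), IsNilpotent a → IsNilpotent b →
      IsNilpotent a' → IsNilpotent b' → IsNilpotent (a + a') → IsNilpotent (b + b') →
      Commute a a' → Commute a b' → Commute b a' → Commute b b' →
      Phi (a + a') (b + b') = Phi a b * Phi a' b')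
    (hleft : ∀ (n : ℕ) (a : Matrix (Fin n) (Fin n) ℝ), IsNilpotent a → Phi a 0 = 1)
    (hright : ∀ (n : ℕ) (b : Matrix (Fin n) (Fin n) ℝ), IsNilpotent b → Phi 0 b = 1) :
    IsAssoc N P where
  pent := by
    intro B _ _ R hR hN
    have key := transfer (B := B) (m := 5) (M := N)
      (rel := (Set.range fun i : Fin 5 => FreeAlgebra.ι ℝ i * FreeAlgebra.ι ℝ (i + 1) -
          FreeAlgebra.ι ℝ (i + 1) * FreeAlgebra.ι ℝ i) ∪
        {∑ i : Fin 5, (FreeAlgebra.ι ℝ i * FreeAlgebra.ι ℝ (i + 2) -
          FreeAlgebra.ι ℝ (i + 2) * FreeAlgebra.ι ℝ i)})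
      (P := ev (FreeAlgebra.ι ℝ (4 : Fin 5)) (FreeAlgebra.ι ℝ (1 : Fin 5)) P *
        ev (FreeAlgebra.ι ℝ (3 : Fin 5)) (FreeAlgebra.ι ℝ (0 : Fin 5)) P *
        ev (FreeAlgebra.ι ℝ (2 : Fin 5)) (FreeAlgebra.ι ℝ (4 : Fin 5)) P *
        ev (FreeAlgebra.ι ℝ (1 : Fin 5)) (FreeAlgebra.ι ℝ (3 : Fin 5)) P *
        ev (FreeAlgebra.ι ℝ (0 : Fin 5)) (FreeAlgebra.ι ℝ (2 : Fin 5)) P) (Q := 1)
      (R := R) ?_ (nilp_iff.1 hN) ?_
    · simpa only [map_mul, map_ev, FreeAlgebra.lift_ι_apply, map_one] using key
    · intro n r hr hrel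
      have hN' : Nilp N r := nilp_iff.2 hr
      have hR' : Conf5 r := by
        constructor
        · intro i
          have := hrel _ (Or.inl ⟨i, rfl⟩)
          rw [LieRing.of_associative_ring_bracket]
          simpa only [map_mul, map_sub, FreeAlgebra.lift_ι_apply] using this
        · have := hrel _ (Or.inr rfl)
          simp only [LieRing.of_associative_ring_bracket]
          simpa only [map_sum, map_mul, map_sub, FreeAlgebra.lift_ι_apply] using this
      have := pent_matrix hP r hR' hN'
      simpa only [map_mul, map_ev, FreeAlgebra.lift_ι_apply, map_one] using this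
    · rintro p (⟨i, rfl⟩ | hp)
      · have := hR.1 i
        rw [LieRing.of_associative_ring_bracket] at this
        simpa only [map_mul, map_sub, FreeAlgebra.lift_ι_apply] using this
      · rw [Set.mem_singleton_iff] at hp
        subst hp
        have := hR.2
        simp only [LieRing.of_associative_ring_bracket] at this
        simpa only [map_sum, map_mul, map_sub, FreeAlgebra.lift_ι_apply] using this
  mult := by
    intro B _ _ a b a' b' hN h1 h2 h3 h4
    have key := transfer (B := B) (m := 4) (M := N)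
      (rel := {FreeAlgebra.ι ℝ (0 : Fin 4) * FreeAlgebra.ι ℝ 2 -
          FreeAlgebra.ι ℝ 2 * FreeAlgebra.ι ℝ (0 : Fin 4),
        FreeAlgebra.ι ℝ (0 : Fin 4) * FreeAlgebra.ι ℝ 3 -
          FreeAlgebra.ι ℝ 3 * FreeAlgebra.ι ℝ (0 : Fin 4),
        FreeAlgebra.ι ℝ (1 : Fin 4) * FreeAlgebra.ι ℝ 2 -
          FreeAlgebra.ι ℝ 2 * FreeAlgebra.ι ℝ (1 : Fin 4),
        FreeAlgebra.ι ℝ (1 : Fin 4) * FreeAlgebra.ι ℝ 3 -
          FreeAlgebra.ι ℝ 3 * FreeAlgebra.ι ℝ (1 : Fin 4)})
      (P := ev (FreeAlgebra.ι ℝ (0 : Fin 4) + FreeAlgebra.ι ℝ (2 : Fin 4))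
        (FreeAlgebra.ι ℝ (1 : Fin 4) + FreeAlgebra.ι ℝ (3 : Fin 4)) P)
      (Q := ev (FreeAlgebra.ι ℝ (0 : Fin 4)) (FreeAlgebra.ι ℝ (1 : Fin 4)) P *
        ev (FreeAlgebra.ι ℝ (2 : Fin 4)) (FreeAlgebra.ι ℝ (3 : Fin 4)) P)
      (R := ![a, b, a', b']) ?_ (nilp_iff.1 hN) ?_
    · simpa only [map_mul, map_ev, map_add, FreeAlgebra.lift_ι_apply, Matrix.cons_val] using key
    · intro n r hr hrel
      have hN' : Nilp N r := nilp_iff.2 hr
      have hr4 : ![r 0, r 1, r 2, r 3] = r := by
        funext i; fin_cases i <;> rfl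
      have c1 := hrel _ (Or.inl rfl)
      have c2 := hrel _ (Or.inr (Or.inl rfl))
      have c3 := hrel _ (Or.inr (Or.inr (Or.inl rfl)))
      have c4 := hrel _ (Or.inr (Or.inr (Or.inr rfl)))
      simp only [map_mul, map_sub, FreeAlgebra.lift_ι_apply, sub_eq_zero] at c1 c2 c3 c4
      have := mult_matrix hP hmul (r 0) (r 1) (r 2) (r 3) (by rw [hr4]; exact hN') c1 c2 c3 c4
      simpa only [map_mul, map_ev, map_add, FreeAlgebra.lift_ι_apply] using this
    · have e1 := sub_eq_zero.2 h1.eq
      have e2 := sub_eq_zero.2 h2.eq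
      have e3 := sub_eq_zero.2 h3.eq
      have e4 := sub_eq_zero.2 h4.eq
      rintro p (rfl | rfl | rfl | rfl)
      · simpa only [map_mul, map_sub, FreeAlgebra.lift_ι_apply, Matrix.cons_val] using e1
      · simpa only [map_mul, map_sub, FreeAlgebra.lift_ι_apply, Matrix.cons_val] using e2
      · simpa only [map_mul, map_sub, FreeAlgebra.lift_ι_apply, Matrix.cons_val] using e3
      · simpa only [map_mul, map_sub, FreeAlgebra.lift_ι_apply, Matrix.cons_val] using e4
  left := by
    intro B _ _ a hN
    have key := transfer (B := B) (m := 1) (M := N) (rel := ∅)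
      (P := ev (FreeAlgebra.ι ℝ (0 : Fin 1)) 0 P) (Q := 1)
      (R := ![a]) ?_ (nilp_iff.1 hN) ?_
    · simpa only [map_ev, map_zero, map_one, FreeAlgebra.lift_ι_apply, Matrix.cons_val] using key
    · intro n r hr _
      have hN' : Nilp N r := nilp_iff.2 hr
      have k2 : Nilp N ![r 0, 0] := by
        refine nilp_of_mem_span (K := ℝ) hN' ?_
        intro k
        fin_cases k
        · exact Submodule.subset_span ⟨0, rfl⟩
        · exact Submodule.zero_mem _
      have := hleft n (r 0) (nilp_isNilpotent hN' 0)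
      rw [hP n _ _ k2] at this
      simpa only [map_ev, map_zero, map_one, FreeAlgebra.lift_ι_apply] using this
    · rintro p ⟨⟩
  right := by
    intro B _ _ a hN
    have key := transfer (B := B) (m := 1) (M := N) (rel := ∅)
      (P := ev 0 (FreeAlgebra.ι ℝ (0 : Fin 1)) P) (Q := 1)
      (R := ![a]) ?_ (nilp_iff.1 hN) ?_
    · simpa only [map_ev, map_zero, map_one, FreeAlgebra.lift_ι_apply, Matrix.cons_val] using key
    · intro n r hr _
      have hN' : Nilp N r := nilp_iff.2 hr
      have k2 : Nilp N ![0, r 0] := by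
        refine nilp_of_mem_span (K := ℝ) hN' ?_
        intro k
        fin_cases k
        · exact Submodule.zero_mem _
        · exact Submodule.subset_span ⟨0, rfl⟩
      have := hright n (r 0) (nilp_isNilpotent hN' 0)
      rw [hP n _ _ k2] at this
      simpa only [map_ev, map_zero, map_one, FreeAlgebra.lift_ι_apply] using this
    · rintro p ⟨⟩

end MatrixForm

end Crest.Agent.R010.KZ
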