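import Crest.Agent.R010.VOps

/-!
Row 10 (S0011), upper bound (U), route 8387 (helper336): the two test algebras
`EW false` (squares of `x₁, z` vanish) and `EW true` (squares of `x₀, x₁, z` vanish), the
elements `x c`, `z`, `e i`, their relations, and the filtration `RF r` ("raises #z by ≥ r").
-/

set_option autoImplicit false

noncomputable section

namespace Crest.Agent.R010.V

open MulOpposite

/-- the letters whose squares vanish. -/
def Qs (b : Bool) : Set (Fin 3) := {c | c ≠ 0 ∨ b = true}

theorem two_mem_Qs (b : Bool) : (2 : Fin 3) ∈ Qs b := Or.inl (by decide)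
theorem one_mem_Qs (b : Bool) : (1 : Fin 3) ∈ Qs b := Or.inl (by decide)
theorem mem_Qs_true (c : Fin 3) : c ∈ Qs true := Or.inr rfl

/-- the test module. -/
abbrev W (b : Bool) := VQ (R := F2) (Qs b)

/-- its operator ring, products in the natural order. -/
abbrev EW (b : Bool) := (Module.End F2 (W b))ᵐᵒᵖ

/-- the element `x_c` (`c = 2` is `z`). -/
def xl (b : Bool) (c : Fin 3) : EW b :=
  op ((dl F2 c).restrict (p := W b) (q := W b) (fun _ hf => dl_mem c hf))

/-- `x_0, x_1`. -/
def x (b : Bool) (i : Fin 2) : EW b := xl b i.castSucc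

/-- `z`. -/
def z (b : Bool) : EW b := xl b 2

theorem cs_ne (i : Fin 2) : i.castSucc ≠ (2 : Fin 3) := by
  fin_cases i <;> decide

/-- the element `e_i`, acting on the fibre as the derivation `D_i`. -/
def e (b : Bool) (i : Fin 2) : EW b :=
  op ((dt F2 i.castSucc).restrict (p := W b) (q := W b)
    (fun _ hf => dt_mem i.castSucc (two_mem_Qs b) (cs_ne i) hf))

variable {b : Bool}

/-- action on functions. -/
def act (A : EW b) (f : W b) : W b := unop A f

theorem act_mul (A B : EW b) (f : W b) : act (A * B) f = act B (act A f) := rfl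
theorem act_add (A B : EW b) (f : W b) : act (A + B) f = act A f + act B f := rfl
theorem act_sub (A B : EW b) (f : W b) : act (A - B) f = act A f - act B f := rfl
theorem act_one (f : W b) : act 1 f = f := rfl
theorem act_zero (f : W b) : act 0 f = 0 := rfl
theorem act_smul (r : F2) (A : EW b) (f : W b) : act (r • A) f = r • act A f := rfl
theorem act_add' (A : EW b) (f g : W b) : act A (f + g) = act A f + act A g := map_add _ _ _
theorem act_zero' (A : EW b) : act A (0 : W b) = 0 := map_zero (unop A)

theorem EW_ext {A B : EW b} (h : ∀ (f : W b) (v : List (Fin 3)), (act A f).1 v = (act B f).1 v) :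
    A = B := by
  apply unop_injective
  apply LinearMap.ext
  intro f
  apply Subtype.ext
  funext v
  exact h f v

@[simp] theorem act_xl (c : Fin 3) (f : W b) (v : List (Fin 3)) :
    (act (xl b c) f).1 v = f.1 (c :: v) := rfl

theorem act_e (i : Fin 2) (f : W b) (v : List (Fin 3)) :
    (act (e b i) f).1 v = dt F2 i.castSucc f.1 v := rfl

theorem act_e_nil (i : Fin 2) (f : W b) : (act (e b i) f).1 [] = 0 := rfl

theorem act_e_cons (i : Fin 2) (f : W b) (c : Fin 3) (v : List (Fin 3)) :
    (act (e b i) f).1 (c :: v) = dApp i.castSucc c f.1 v + (act (e b i) (act (xl b c) f)).1 v := rfl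

/-- squares. -/
theorem xl_sq (c : Fin 3) (hc : c ∈ Qs b) : xl b c * xl b c = 0 := by
  apply EW_ext
  intro f v
  exact f.2 [] v c hc

theorem z_sq : z b * z b = 0 := xl_sq _ (two_mem_Qs b)
theorem x1_sq : x b 1 * x b 1 = 0 := xl_sq _ (one_mem_Qs b)
theorem x_sq (i : Fin 2) : x true i * x true i = 0 := xl_sq _ (mem_Qs_true _)

/-- commutation of `e_i` with a letter. -/
theorem e_xl (i : Fin 2) (c : Fin 3) (f : W b) (v : List (Fin 3)) :
    (act (e b i * xl b c) f).1 v = dApp i.castSucc c f.1 v + (act (xl b c * e b i) f).1 v := by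
  rw [act_mul, act_xl, act_e_cons, act_mul]

theorem e_x_same (i : Fin 2) : e b i * x b i + x b i * e b i = x b i * z b + z b * x b i := by
  apply EW_ext
  intro f v
  rw [act_add, act_add]
  change (act (e b i * xl b i.castSucc) f).1 v + (act (xl b i.castSucc * e b i) f).1 v
    = f.1 (i.castSucc :: 2 :: v) + f.1 (2 :: i.castSucc :: v)
  rw [e_xl, add_assoc, F2_add_self, add_zero]
  simp [dApp, CharTwo.sub_eq_add]

theorem e_z (i : Fin 2) : e b i * z b + z b * e b i = x b i * z b + z b * x b i := by
  apply EW_ext
  intro f v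
  rw [act_add, act_add]
  change (act (e b i * xl b 2) f).1 v + (act (xl b 2 * e b i) f).1 v
    = f.1 (i.castSucc :: 2 :: v) + f.1 (2 :: i.castSucc :: v)
  rw [e_xl, add_assoc, F2_add_self, add_zero]
  have h : (2 : Fin 3) ≠ i.castSucc := fun h => cs_ne i h.symm
  simp only [dApp, h, if_false, if_true, CharTwo.sub_eq_add]
  rw [add_comm]

theorem e_x_diff {i j : Fin 2} (h : i ≠ j) : e b i * x b j = x b j * e b i := by
  apply EW_ext
  intro f v
  change (act (e b i * xl b j.castSucc) f).1 v = (act (xl b j.castSucc * e b i) f).1 v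
  rw [e_xl]
  have h1 : j.castSucc ≠ i.castSucc := fun h' => h (Fin.castSucc_injective _ h').symm
  simp [dApp, h1, cs_ne j]

/-- `e_i² = 0` when `x_i² = 0`. -/
theorem e_sq_of (i : Fin 2) (hx : x b i * x b i = 0) : e b i * e b i = 0 := by
  have hz : z b * z b = 0 := z_sq
  set X := x b i with hX
  set Z := z b with hZ
  set E := e b i with hE
  have r1 : E * X = X * E + (X * Z + Z * X) := by
    have := e_x_same (b := b) i
    rw [← hX, ← hZ, ← hE] at this
    rw [← this]
    have h2 : X * E + X * E = 0 := by rw [← two_smul F2]; simp [show (2 : F2) = 0 from rfl]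
    rw [add_comm (E * X), ← add_assoc, h2, zero_add]
  have r2 : E * Z = Z * E + (X * Z + Z * X) := by
    have := e_z (b := b) i
    rw [← hX, ← hZ, ← hE] at this
    rw [← this]
    have h2 : Z * E + Z * E = 0 := by rw [← two_smul F2]; simp [show (2 : F2) = 0 from rfl]
    rw [add_comm (E * Z), ← add_assoc, h2, zero_add]
  have dbl : ∀ A : EW b, A + A = 0 := fun A => by
    rw [← two_smul F2]; simp [show (2 : F2) = 0 from rfl]
  -- commutation of E² with letters
  have kX : E * E * X = X * (E * E) := by
    have s1 : E * (X * Z + Z * X) = (X * Z + Z * X) * E := by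
      calc E * (X * Z + Z * X) = (E * X) * Z + (E * Z) * X := by noncomm_ring
        _ = (X * E + (X * Z + Z * X)) * Z + (Z * E + (X * Z + Z * X)) * X := by rw [r1, r2]
        _ = X * (E * Z) + Z * (E * X) + (X * (Z * Z) + Z * (X * X)) + (Z * X * Z + X * Z * X) := by
            noncomm_ring
        _ = X * (Z * E + (X * Z + Z * X)) + Z * (X * E + (X * Z + Z * X))
            + (Z * X * Z + X * Z * X) := by rw [r1, r2, hz, hx]; simp
        _ = (X * Z + Z * X) * E + (X * X * Z + Z * Z * X) + ((X * Z * X + X * Z * X)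
            + (Z * X * Z + Z * X * Z)) := by noncomm_ring
        _ = (X * Z + Z * X) * E := by rw [dbl, dbl, hz, hx]; simp
    calc E * E * X = E * (E * X) := by rw [mul_assoc]
      _ = E * (X * E + (X * Z + Z * X)) := by rw [← r1]
      _ = (E * X) * E + E * (X * Z + Z * X) := by rw [mul_add, mul_assoc]
      _ = (X * E + (X * Z + Z * X)) * E + (X * Z + Z * X) * E := by rw [s1, ← r1]
      _ = X * (E * E) + ((X * Z + Z * X) * E + (X * Z + Z * X) * E) := by
          rw [add_mul (X * E), mul_assoc X E E, add_assoc]
      _ = X * (E * E) := by rw [dbl, add_zero]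
  have kZ : E * E * Z = Z * (E * E) := by
    have s1 : E * (X * Z + Z * X) = (X * Z + Z * X) * E := by
      calc E * (X * Z + Z * X) = (E * X) * Z + (E * Z) * X := by noncomm_ring
        _ = (X * E + (X * Z + Z * X)) * Z + (Z * E + (X * Z + Z * X)) * X := by rw [r1, r2]
        _ = X * (E * Z) + Z * (E * X) + (X * (Z * Z) + Z * (X * X)) + (Z * X * Z + X * Z * X) := by
            noncomm_ring
        _ = X * (Z * E + (X * Z + Z * X)) + Z * (X * E + (X * Z + Z * X))
            + (Z * X * Z + X * Z * X) := by rw [r1, r2, hz, hx]; simp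
        _ = (X * Z + Z * X) * E + (X * X * Z + Z * Z * X) + ((X * Z * X + X * Z * X)
            + (Z * X * Z + Z * X * Z)) := by noncomm_ring
        _ = (X * Z + Z * X) * E := by rw [dbl, dbl, hz, hx]; simp
    calc E * E * Z = E * (E * Z) := by rw [mul_assoc]
      _ = E * (Z * E + (X * Z + Z * X)) := by rw [← r2]
      _ = (E * Z) * E + E * (X * Z + Z * X) := by rw [mul_add, mul_assoc]
      _ = (Z * E + (X * Z + Z * X)) * E + (X * Z + Z * X) * E := by rw [s1, ← r2]
      _ = Z * (E * E) + ((X * Z + Z * X) * E + (X * Z + Z * X) * E) := by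
          rw [add_mul (Z * E), mul_assoc Z E E, add_assoc]
      _ = Z * (E * E) := by rw [dbl, add_zero]
  have kall : ∀ c : Fin 3, E * E * xl b c = xl b c * (E * E) := by
    intro c
    by_cases h1 : c = i.castSucc
    · subst h1; exact kX
    · by_cases h2 : c = 2
      · subst h2; exact kZ
      · have : ∃ j : Fin 2, i ≠ j ∧ c = j.castSucc := by
          revert h1 h2
          revert c
          fin_cases i <;> decide
        obtain ⟨j, hij, rfl⟩ := this
        have h3 := e_x_diff (b := b) hij
        rw [← hE] at h3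
        change E * E * x b j = x b j * (E * E)
        rw [mul_assoc, h3, ← mul_assoc, h3, mul_assoc]
  apply EW_ext
  intro f v
  rw [act_zero]
  change (act (E * E) f).1 v = 0
  induction v generalizing f with
  | nil => rfl
  | cons c v ih =>
    have h1 : (act (E * E) f).1 (c :: v) = (act (E * E * xl b c) f).1 v := rfl
    rw [h1, kall c, act_mul]
    exact ih _

theorem e1_sq : e b 1 * e b 1 = 0 := e_sq_of 1 x1_sq
theorem e_sq (i : Fin 2) : e true i * e true i = 0 := e_sq_of i (x_sq i)

/-! ### the filtration by the number of `z` -/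

/-- number of letters `z`. -/
def zc (v : List (Fin 3)) : ℕ := v.count 2

@[simp] theorem zc_nil : zc [] = 0 := rfl
theorem zc_cons (c : Fin 3) (v : List (Fin 3)) : zc (c :: v) = zc v + if c = 2 then 1 else 0 := by
  unfold zc
  rw [List.count_cons]
  simp

/-- `f` vanishes on lists with more than `s` letters `z`. -/
def van (s : ℤ) (f : Fn F2) : Prop := ∀ v, s < (zc v : ℤ) → f v = 0

variable (b) in
/-- operators raising the number of `z` by at least `r`. -/
def RF (r : ℕ) : Submodule F2 (EW b) where
  carrier := {A | ∀ (s : ℤ) (f : W b), van s f.1 → van (s - r) (act A f).1}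
  add_mem' {A B} hA hB s f hf v hv := by
    rw [act_add]
    change (act A f).1 v + (act B f).1 v = 0
    rw [hA s f hf v hv, hB s f hf v hv, add_zero]
  zero_mem' s f hf v hv := rfl
  smul_mem' r A hA s f hf v hv := by
    rw [act_smul]
    change r • (act A f).1 v = 0
    rw [hA s f hf v hv, smul_zero]

theorem mem_RF {r : ℕ} {A : EW b} :
    A ∈ RF b r ↔ ∀ (s : ℤ) (f : W b), van s f.1 → van (s - r) (act A f).1 := Iff.rfl

theorem RF_mul {r r' : ℕ} {A B : EW b} (hA : A ∈ RF b r) (hB : B ∈ RF b r') :
    A * B ∈ RF b (r + r') := by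
  intro s f hf
  rw [act_mul]
  have := hB _ _ (hA s f hf)
  have e : s - ((r + r' : ℕ) : ℤ) = s - r - r' := by push_cast; ring
  rw [e]
  exact this

theorem RF_mono {r r' : ℕ} (h : r ≤ r') : RF b r' ≤ RF b r := by
  intro A hA s f hf v hv
  apply hA s f hf v
  have : (r : ℤ) ≤ r' := by exact_mod_cast h
  linarith

theorem one_mem_RF : (1 : EW b) ∈ RF b 0 := by
  intro s f hf v hv
  rw [act_one]
  exact hf v (by simpa using hv)

theorem x_mem_RF (i : Fin 2) : x b i ∈ RF b 0 := by
  intro s f hf v hv
  change f.1 (i.castSucc :: v) = 0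
  apply hf
  rw [zc_cons]
  simp only [cs_ne i, if_false, add_zero]
  simpa using hv

theorem z_mem_RF : z b ∈ RF b 1 := by
  intro s f hf v hv
  change f.1 (2 :: v) = 0
  apply hf
  rw [zc_cons]
  simp only [if_true]
  push_cast at hv ⊢
  linarith

theorem dt_van (i : Fin 2) (v : List (Fin 3)) : ∀ (s : ℤ) (f : Fn F2), van s f → s < zc v →
    dt F2 i.castSucc f v = 0 := by
  induction v with
  | nil => intro s f hf hs; rfl
  | cons c v ih =>
    intro s f hf hs
    rw [dt_cons]
    have hz := zc_cons c v
    have h1 : dt F2 i.castSucc (dl F2 c f) v = 0 := by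
      apply ih (s - if c = 2 then 1 else 0)
      · intro u hu
        apply hf
        rw [zc_cons]
        push_cast
        split_ifs at hu ⊢ <;> push_cast <;> linarith
      · rw [hz] at hs
        push_cast at hs
        split_ifs at hs ⊢ <;> push_cast at hs ⊢ <;> linarith
    rw [h1, add_zero]
    unfold dApp
    have k1 : s < zc v + 1 → f (i.castSucc :: 2 :: v) = 0 := by
      intro h
      apply hf
      rw [zc_cons, zc_cons]
      simp only [cs_ne i, if_false, if_true, add_zero]
      push_cast
      exact h
    have k2 : s < zc v + 1 → f (2 :: i.castSucc :: v) = 0 := by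
      intro h
      apply hf
      rw [zc_cons, zc_cons]
      simp only [cs_ne i, if_false, if_true, add_zero]
      push_cast
      exact h
    have k3 : s < (zc v : ℤ) + 1 := by
      rw [hz] at hs
      push_cast at hs
      split_ifs at hs <;> push_cast at hs <;> linarith
    rw [k1 k3, k2 k3]
    simp

theorem e_mem_RF (i : Fin 2) : e b i ∈ RF b 0 := by
  intro s f hf v hv
  rw [act_e]
  exact dt_van i v s f.1 hf (by simpa using hv)

end Crest.Agent.R010.V

end
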