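import Mathlib

/-!
Row 10 (S0011), second proof of the upper bound (helper336, note 8387), module (m6a) (helper603):
pure algebra.  Letters of the target: `(0, k)` / `(1, k)` = the alternating word of length `k + 1`
starting with `x` / `y`.  If `p(a_k) + p'(b_k) + g(x, y, xy + yx) = 0` then `p, p'` involve odd
letters only, `p = p'` and `g = 0`.
-/

set_option autoImplicit false

noncomputable section

namespace Crest.Agent.R010.V

open FreeAlgebra

/-- `F₂`. -/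
local notation "𝔽" => ZMod 2

/-- Nonempty alternating words: `(i, k)` starts with the letter `i` and has length `k + 1`. -/
abbrev AW : Type := Fin 2 × ℕ

/-- `a_k`: alternating of length `k + 1` starting with `x`. -/
def aW (k : ℕ) : AW := (0, k)

/-- `b_k`: alternating of length `k + 1` ending with `y`. -/
def bW (k : ℕ) : AW := if Even k then (1, k) else (0, k)

/-- `p ↦ p(a_k)` -/
def evA : FreeAlgebra 𝔽 ℕ →ₐ[𝔽] FreeAlgebra 𝔽 AW := lift 𝔽 (fun k => ι 𝔽 (aW k))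

/-- `p ↦ p(b_k)` -/
def evB : FreeAlgebra 𝔽 ℕ →ₐ[𝔽] FreeAlgebra 𝔽 AW := lift 𝔽 (fun k => ι 𝔽 (bW k))

/-- `g ↦ g(x, y, xy + yx)` -/
def evG : FreeAlgebra 𝔽 (Fin 3) →ₐ[𝔽] FreeAlgebra 𝔽 AW :=
  lift 𝔽 ![ι 𝔽 (0, 0), ι 𝔽 (1, 0), ι 𝔽 (0, 1) + ι 𝔽 (1, 1)]

/-- kill the letters outside `s`. -/
def keep {X : Type*} (s : X → Prop) [DecidablePred s] : FreeAlgebra 𝔽 X →ₐ[𝔽] FreeAlgebra 𝔽 X :=
  lift 𝔽 (fun i => if s i then ι 𝔽 i else 0)

/-- the part in the odd letters -/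
def oddP : FreeAlgebra 𝔽 ℕ →ₐ[𝔽] FreeAlgebra 𝔽 ℕ := keep (fun k => ¬ Even k)

/-- the polynomial in the letter `0` (all other letters killed), made commutative. -/
def comm0 : FreeAlgebra 𝔽 ℕ →ₐ[𝔽] Polynomial 𝔽 :=
  lift 𝔽 (fun k => if k = 0 then Polynomial.X else 0)

/-- constant term -/
def cst {X : Type*} : FreeAlgebra 𝔽 X →ₐ[𝔽] 𝔽 := lift 𝔽 (fun _ => 0)

/-- retraction of `evA` -/
def retA : FreeAlgebra 𝔽 AW →ₐ[𝔽] FreeAlgebra 𝔽 ℕ :=
  lift 𝔽 (fun w => if w.1 = 0 then ι 𝔽 w.2 else 0)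

/-- retraction of `evB` -/
def retB : FreeAlgebra 𝔽 AW →ₐ[𝔽] FreeAlgebra 𝔽 ℕ :=
  lift 𝔽 (fun w => if bW w.2 = w then ι 𝔽 w.2 else 0)

theorem hom_eq {X B : Type*} [Ring B] [Algebra 𝔽 B] (f g : FreeAlgebra 𝔽 X →ₐ[𝔽] B)
    (h : ∀ i, f (ι 𝔽 i) = g (ι 𝔽 i)) (q : FreeAlgebra 𝔽 X) : f q = g q := by
  have : f = g := FreeAlgebra.hom_ext (funext h)
  rw [this]

theorem retA_evA (p : FreeAlgebra 𝔽 ℕ) : retA (evA p) = p :=
  hom_eq (retA.comp evA) (AlgHom.id 𝔽 _) (fun k => by simp [retA, evA, aW]) p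

theorem bW_snd (k : ℕ) : (bW k).2 = k := by unfold bW; split_ifs <;> rfl

theorem retB_evB (p : FreeAlgebra 𝔽 ℕ) : retB (evB p) = p :=
  hom_eq (retB.comp evB) (AlgHom.id 𝔽 _) (fun k => by simp [retB, evB, bW_snd]) p

/-- substitution of letters of `Fin 3` -/
def ev3 (a b c : FreeAlgebra 𝔽 AW) : FreeAlgebra 𝔽 (Fin 3) →ₐ[𝔽] FreeAlgebra 𝔽 AW :=
  lift 𝔽 ![a, b, c]

/-- three letters retraction -/
def ret3 : FreeAlgebra 𝔽 AW →ₐ[𝔽] FreeAlgebra 𝔽 (Fin 3) :=
  lift 𝔽 (fun w => if w = (0, 0) then ι 𝔽 0 else if w = (1, 0) then ι 𝔽 1 else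
    if w = (1, 1) then ι 𝔽 2 else 0)

theorem char2 {R : Type*} [Ring R] [Algebra 𝔽 R] (a : R) : a + a = 0 := by
  have : ((1 : 𝔽) + 1) • a = 0 := by
    have h : (1 : 𝔽) + 1 = 0 := by decide
    rw [h, zero_smul]
  rwa [add_smul, one_smul] at this

theorem eq_of_add_eq_zero2 {R : Type*} [Ring R] [Algebra 𝔽 R] {a b : R} (h : a + b = 0) :
    a = b := by
  have := congrArg (· + b) h
  simp only [add_assoc, char2, add_zero, zero_add] at this
  exact this

@[simp] theorem keep_ι {X : Type*} (s : X → Prop) [DecidablePred s] (i : X) :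
    keep s (ι 𝔽 i) = if s i then ι 𝔽 i else 0 := by simp [keep]

@[simp] theorem evA_ι (k : ℕ) : evA (ι 𝔽 k) = ι 𝔽 (aW k) := by simp [evA]
@[simp] theorem evB_ι (k : ℕ) : evB (ι 𝔽 k) = ι 𝔽 (bW k) := by simp [evB]

theorem evB_oddP (q : FreeAlgebra 𝔽 ℕ) : evB (oddP q) = evA (oddP q) :=
  hom_eq (evB.comp oddP) (evA.comp oddP) (fun k => by
    simp only [AlgHom.comp_apply, oddP, keep_ι]
    by_cases hk : Even k
    · simp [hk]
    · simp [hk, aW, bW]) q

theorem oddP_oddP (q : FreeAlgebra 𝔽 ℕ) : oddP (oddP q) = oddP q :=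
  hom_eq (oddP.comp oddP) oddP (fun k => by
    simp only [AlgHom.comp_apply, oddP, keep_ι]
    by_cases hk : Even k
    · simp [hk]
    · simp [hk]) q

theorem comm0_oddP {q : FreeAlgebra 𝔽 ℕ} (hq : comm0 q = 0) : comm0 (oddP q) = 0 := by
  have h1 := hom_eq (comm0.comp oddP) ((Algebra.ofId 𝔽 (Polynomial 𝔽)).comp
      ((Polynomial.aeval (0 : 𝔽)).comp comm0)) (fun k => by
    simp only [AlgHom.comp_apply, oddP, keep_ι]
    by_cases hk : k = 0
    · subst hk; simp [comm0]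
    · by_cases hk' : Even k
      · simp [hk', comm0, hk]
      · simp [hk', comm0, hk]) q
  simp only [AlgHom.comp_apply, hq, map_zero] at h1
  exact h1

/-- a polynomial in the letter `0` whose commutative image vanishes is zero -/
theorem poly0_eq_zero (v : Fin 3 → FreeAlgebra 𝔽 ℕ) (hv : ∀ i, v i = 0 ∨ v i = ι 𝔽 0)
    (g : FreeAlgebra 𝔽 (Fin 3)) (h3 : comm0 (lift 𝔽 v g) = 0) : lift 𝔽 v g = 0 := by
  have := hom_eq (((Polynomial.aeval (ι 𝔽 (0 : ℕ))).comp comm0).comp (lift 𝔽 v)) (lift 𝔽 v)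
    (fun i => by
      simp only [AlgHom.comp_apply, lift_ι_apply]
      rcases hv i with h | h <;> simp [h, comm0]) g
  rw [← this]
  simp only [AlgHom.comp_apply, h3, map_zero]

/-- **(m6a)** pure algebra of (U-C). -/
theorem key {p p' : FreeAlgebra 𝔽 ℕ} {g : FreeAlgebra 𝔽 (Fin 3)}
    (h : evA p + evB p' + evG g = 0) (hp : comm0 p = 0) (hp' : comm0 p' = 0)
    (hg : cst g = 0) : oddP p = p ∧ p' = p ∧ g = 0 := by
  -- step 1: `g` does not contain the letter `2`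
  have e1 : ∀ (s : AW → Prop) [DecidablePred s], keep s (evA p) + keep s (evB p') +
      keep s (evG g) = 0 := by
    intro s _
    rw [← map_add, ← map_add, h, map_zero]
  have hg2 : evG g = ev3 (ι 𝔽 (0, 0)) (ι 𝔽 (1, 0)) (ι 𝔽 (0, 1)) g := by
    have h1 := e1 (fun w => w ≠ (1, 1))
    have hA : keep (fun w : AW => w ≠ (1, 1)) (evA p) = evA p :=
      hom_eq ((keep _).comp evA) evA (fun k => by simp [aW]) p
    have hB : keep (fun w : AW => w ≠ (1, 1)) (evB p') = evB p' :=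
      hom_eq ((keep _).comp evB) evB (fun k => by
        have : bW k ≠ (1, 1) := by
          intro hk
          have h2 : k = 1 := by rw [← bW_snd k, hk]
          subst h2
          simp [bW] at hk
        simp [this]) p'
    have hG : keep (fun w : AW => w ≠ (1, 1)) (evG g) =
        ev3 (ι 𝔽 (0, 0)) (ι 𝔽 (1, 0)) (ι 𝔽 (0, 1)) g :=
      hom_eq ((keep _).comp evG) (ev3 _ _ _) (fun i => by
        fin_cases i <;> simp [evG, ev3]) g
    rw [hA, hB, hG] at h1
    rw [← eq_of_add_eq_zero2 h, ← eq_of_add_eq_zero2 h1]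
  -- hence `g = g(0,1,0)`
  have hg3 : g = lift 𝔽 ![ι 𝔽 0, ι 𝔽 1, 0] g := by
    have h5 := congrArg ret3 hg2
    have a1 : ret3 (evG g) = g :=
      hom_eq (ret3.comp evG) (AlgHom.id 𝔽 _) (fun i => by
        fin_cases i <;> simp [ret3, evG]) g
    have a2 : ret3 (ev3 (ι 𝔽 (0, 0)) (ι 𝔽 (1, 0)) (ι 𝔽 (0, 1)) g) =
        lift 𝔽 ![ι 𝔽 0, ι 𝔽 1, 0] g :=
      hom_eq (ret3.comp (ev3 _ _ _)) (lift 𝔽 ![ι 𝔽 0, ι 𝔽 1, 0]) (fun i => by
        fin_cases i <;> simp [ret3, ev3]) g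
    rw [a1, a2] at h5
    exact h5
  have hGxy : evG g = ev3 (ι 𝔽 (0, 0)) (ι 𝔽 (1, 0)) 0 g := by
    conv_lhs => rw [hg3]
    exact hom_eq (evG.comp (lift 𝔽 ![ι 𝔽 0, ι 𝔽 1, 0])) (ev3 (ι 𝔽 (0, 0)) (ι 𝔽 (1, 0)) 0)
      (fun i => by fin_cases i <;> simp [evG, ev3]) g
  have hg' : evG g = 0 → g = 0 := by
    intro h0
    have h5 := congrArg ret3 h0
    rw [map_zero] at h5
    rw [← h5]
    exact (hom_eq (ret3.comp evG) (AlgHom.id 𝔽 _) (fun i => by
        fin_cases i <;> simp [ret3, evG]) g).symm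
  have h' := h
  rw [hGxy] at h'
  have e2 : ∀ (s : AW → Prop) [DecidablePred s], keep s (evA p) + keep s (evB p') +
      keep s (ev3 (ι 𝔽 (0, 0)) (ι 𝔽 (1, 0)) 0 g) = 0 := by
    intro s _
    rw [← map_add, ← map_add, h', map_zero]
  -- kill all letters `(i, k)` with `k` even
  have hcst : ev3 0 0 0 g = 0 := by
    have := hom_eq (ev3 0 0 0) ((Algebra.ofId 𝔽 (FreeAlgebra 𝔽 AW)).comp (cst (X := Fin 3)))
      (fun i => by fin_cases i <;> simp [ev3, cst]) g
    rw [this]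
    simp [hg]
  have hodd : oddP p = oddP p' := by
    have h1 := e2 (fun w => ¬ Even w.2)
    have hA : keep (fun w : AW => ¬ Even w.2) (evA p) = evA (oddP p) :=
      hom_eq ((keep _).comp evA) (evA.comp oddP) (fun k => by
        simp only [AlgHom.comp_apply, oddP, keep_ι, evA_ι, aW]
        split_ifs <;> simp [aW]) p
    have hB : keep (fun w : AW => ¬ Even w.2) (evB p') = evB (oddP p') :=
      hom_eq ((keep _).comp evB) (evB.comp oddP) (fun k => by
        simp only [AlgHom.comp_apply, oddP, keep_ι, evB_ι, bW_snd]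
        split_ifs <;> simp) p'
    have hG : keep (fun w : AW => ¬ Even w.2) (ev3 (ι 𝔽 (0, 0)) (ι 𝔽 (1, 0)) 0 g) =
        ev3 0 0 0 g :=
      hom_eq ((keep _).comp (ev3 _ _ _)) (ev3 0 0 0) (fun i => by
        fin_cases i <;> simp [ev3]) g
    rw [hA, hB, evB_oddP, hG, hcst, add_zero, ← map_add] at h1
    have h3 := congrArg retA h1
    rw [retA_evA, map_zero] at h3
    exact eq_of_add_eq_zero2 h3
  -- kill the letters `(0, k)` with `k` even
  have hp'odd : p' = oddP p' := by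
    have h1 := e2 (fun w => ¬ (w.1 = 0 ∧ Even w.2))
    have hA : keep (fun w : AW => ¬ (w.1 = 0 ∧ Even w.2)) (evA p) = evB (oddP p) := by
      rw [evB_oddP]
      exact hom_eq ((keep _).comp evA) (evA.comp oddP) (fun k => by
        simp only [AlgHom.comp_apply, oddP, keep_ι, evA_ι, aW, true_and]
        split_ifs <;> simp [aW]) p
    have hB : keep (fun w : AW => ¬ (w.1 = 0 ∧ Even w.2)) (evB p') = evB p' :=
      hom_eq ((keep _).comp evB) evB (fun k => by
        have : ¬ ((bW k).1 = 0 ∧ Even (bW k).2) := by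
          rintro ⟨h3, h4⟩
          rw [bW_snd] at h4
          simp [bW, h4] at h3
        simp [this]) p'
    have hG : keep (fun w : AW => ¬ (w.1 = 0 ∧ Even w.2))
        (ev3 (ι 𝔽 (0, 0)) (ι 𝔽 (1, 0)) 0 g) = evB (lift 𝔽 ![0, ι 𝔽 0, 0] g) :=
      hom_eq ((keep _).comp (ev3 _ _ _)) (evB.comp (lift 𝔽 ![0, ι 𝔽 0, 0])) (fun i => by
        fin_cases i <;> simp [ev3, bW]) g
    rw [hA, hB, hG, ← map_add, ← map_add] at h1
    have h2 := congrArg retB h1
    rw [retB_evB, map_zero, hodd] at h2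
    have h3 : comm0 (lift 𝔽 ![0, ι 𝔽 0, 0] g) = 0 := by
      have := congrArg comm0 h2
      rw [map_add, map_add, comm0_oddP hp', hp', map_zero, zero_add, zero_add] at this
      exact this
    rw [poly0_eq_zero _ (fun i => by fin_cases i <;> simp) g h3, add_zero] at h2
    exact (eq_of_add_eq_zero2 h2).symm
  -- kill the letters `(1, k)` with `k` even
  have hpodd : p = oddP p := by
    have h1 := e2 (fun w => ¬ (w.1 = 1 ∧ Even w.2))
    have hA : keep (fun w : AW => ¬ (w.1 = 1 ∧ Even w.2)) (evA p) = evA p :=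
      hom_eq ((keep _).comp evA) evA (fun k => by simp [aW]) p
    have hB : keep (fun w : AW => ¬ (w.1 = 1 ∧ Even w.2)) (evB p') = evA (oddP p') := by
      rw [← evB_oddP]
      exact hom_eq ((keep _).comp evB) (evB.comp oddP) (fun k => by
        simp only [AlgHom.comp_apply, oddP, keep_ι, evB_ι, bW_snd]
        by_cases hk : Even k
        · simp [bW, hk]
        · simp [bW, hk]) p'
    have hG : keep (fun w : AW => ¬ (w.1 = 1 ∧ Even w.2))
        (ev3 (ι 𝔽 (0, 0)) (ι 𝔽 (1, 0)) 0 g) = evA (lift 𝔽 ![ι 𝔽 0, 0, 0] g) :=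
      hom_eq ((keep _).comp (ev3 _ _ _)) (evA.comp (lift 𝔽 ![ι 𝔽 0, 0, 0])) (fun i => by
        fin_cases i <;> simp [ev3, aW]) g
    rw [hA, hB, hG, ← map_add, ← map_add] at h1
    have h2 := congrArg retA h1
    rw [retA_evA, map_zero, ← hodd] at h2
    have h3 : comm0 (lift 𝔽 ![ι 𝔽 0, 0, 0] g) = 0 := by
      have := congrArg comm0 h2
      rw [map_add, map_add, comm0_oddP hp, hp, map_zero, zero_add, zero_add] at this
      exact this
    rw [poly0_eq_zero _ (fun i => by fin_cases i <;> simp) g h3, add_zero] at h2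
    exact eq_of_add_eq_zero2 h2
  have hp'p : p' = p := by rw [hp'odd, ← hodd, ← hpodd]
  refine ⟨hpodd.symm, hp'p, ?_⟩
  apply hg'
  rw [hp'odd, evB_oddP, ← hodd, ← hpodd, char2, zero_add] at h
  exact h

end Crest.Agent.R010.V
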