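import Crest.Agent.R010.VAlg

/-!
Row 10 (S0011), upper bound (U), route 8387 (helper336): the elements `Zl a = ad(a) z` for words
`a` in `x₀, x₁`, alternating words, asymptotics of `Ξ_k`, and the independence lemma (IND).
-/

set_option autoImplicit false

noncomputable section

namespace Crest.Agent.R010.V

open MulOpposite

variable {b : Bool}

/-- in characteristic two. -/
theorem dblA {B : Type*} [Ring B] [Algebra F2 B] (A : B) : A + A = 0 := by
  rw [← two_smul F2]; simp [show (2 : F2) = 0 from rfl]

/-- bracket in characteristic two. -/
def br {B : Type*} [Ring B] (u v : B) : B := u * v + v * u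

variable (b) in
/-- `Zl a = ad(a₁) … ad(a_l) z`. -/
def Zl : List (Fin 2) → EW b
  | [] => z b
  | c :: a => br (x b c) (Zl a)

theorem br_mem_RF {r r' : ℕ} {A B : EW b} (hA : A ∈ RF b r) (hB : B ∈ RF b r') :
    br A B ∈ RF b (r + r') := by
  unfold br
  refine Submodule.add_mem _ (RF_mul hA hB) ?_
  rw [add_comm r r']
  exact RF_mul hB hA

theorem br_RF {r r' s : ℕ} (h : r + r' = s) {A B : EW b} (hA : A ∈ RF b r) (hB : B ∈ RF b r') :
    br A B ∈ RF b s := h ▸ br_mem_RF hA hB

theorem br_add_right {B : Type*} [Ring B] (u v w : B) : br u (v + w) = br u v + br u w := by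
  unfold br; noncomm_ring

theorem br_add_left {B : Type*} [Ring B] (u v w : B) : br (u + v) w = br u w + br v w := by
  unfold br; noncomm_ring

theorem Zl_mem_RF (a : List (Fin 2)) : Zl b a ∈ RF b 1 := by
  induction a with
  | nil => exact z_mem_RF
  | cons c a ih =>
    have := br_mem_RF (x_mem_RF (b := b) c) ih
    simpa [Zl] using this

/-- `[e_i, Z_a] ≡ Z_{a i}` modulo operators raising #z by two. -/
theorem br_e_Zl (i : Fin 2) (a : List (Fin 2)) :
    br (e b i) (Zl b a) - Zl b (a ++ [i]) ∈ RF b 2 := by
  induction a with
  | nil =>
    have h : br (e b i) (Zl b []) - Zl b ([] ++ [i]) = 0 := by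
      simp only [Zl, List.nil_append, br]
      rw [e_z, sub_self]
    rw [h]; exact Submodule.zero_mem _
  | cons c a ih =>
    -- [e,[x,Z]] = [[e,x],Z] + [x,[e,Z]]
    have jac : br (e b i) (br (x b c) (Zl b a))
        = br (br (e b i) (x b c)) (Zl b a) + br (x b c) (br (e b i) (Zl b a)) := by
      unfold br
      have h1 := dblA (e b i * Zl b a * x b c)
      have h2 := dblA (x b c * Zl b a * e b i)
      have h3 := dblA (Zl b a * e b i * x b c)
      have h4 := dblA (x b c * e b i * Zl b a)
      calc e b i * (x b c * Zl b a + Zl b a * x b c) + (x b c * Zl b a + Zl b a * x b c) * e b i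
          = e b i * x b c * Zl b a + e b i * Zl b a * x b c + x b c * Zl b a * e b i
            + Zl b a * x b c * e b i := by noncomm_ring
        _ = e b i * x b c * Zl b a + e b i * Zl b a * x b c + x b c * Zl b a * e b i
            + Zl b a * x b c * e b i + (Zl b a * e b i * x b c + Zl b a * e b i * x b c)
            + (x b c * e b i * Zl b a + x b c * e b i * Zl b a) := by rw [h3, h4]; simp
        _ = _ := by noncomm_ring
    have hx : br (e b i) (x b c) ∈ RF b 1 := by
      by_cases hic : i = c
      · subst hic
        unfold br
        rw [e_x_same]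
        have h0 := br_mem_RF (x_mem_RF (b := b) i) z_mem_RF
        simpa [br] using h0
      · unfold br
        rw [e_x_diff hic, dblA]
        exact Submodule.zero_mem _
    have h1 : br (br (e b i) (x b c)) (Zl b a) ∈ RF b 2 := br_RF (r := 1) (r' := 1) rfl hx (Zl_mem_RF a)
    have h2 : br (x b c) (br (e b i) (Zl b a) - Zl b (a ++ [i])) ∈ RF b 2 := by
      have := br_mem_RF (x_mem_RF (b := b) c) ih
      simpa using this
    have h3 : br (e b i) (Zl b (c :: a)) - Zl b (c :: a ++ [i])
        = br (br (e b i) (x b c)) (Zl b a) + br (x b c) (br (e b i) (Zl b a) - Zl b (a ++ [i])) := by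
      change br (e b i) (br (x b c) (Zl b a)) - br (x b c) (Zl b (a ++ [i])) = _
      rw [jac]
      unfold br
      noncomm_ring
    rw [h3]
    exact Submodule.add_mem _ h1 h2

/-- alternating word of length `k + 1` starting with `s`. -/
def altw : Fin 2 → ℕ → List (Fin 2)
  | s, 0 => [s]
  | s, k + 1 => s :: altw (s + 1) k

theorem altw_length (s : Fin 2) (k : ℕ) : (altw s k).length = k + 1 := by
  induction k generalizing s with
  | zero => rfl
  | succ k ih => simp [altw, ih]

theorem altw_snoc (s : Fin 2) (k : ℕ) :
    altw s (k + 1) = altw s k ++ [if Even k then s + 1 else s] := by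
  induction k generalizing s with
  | zero => simp [altw]
  | succ k ih =>
    rw [altw, ih]
    simp only [altw, List.cons_append]
    congr 3
    have h2 : s + 1 + 1 = s := by
      fin_cases s <;> rfl
    rw [h2]
    by_cases h : Even k
    · have : ¬ Even (k + 1) := by
        intro h'
        exact (Nat.even_add_one.mp h') h
      simp [h, this]
    · have : Even (k + 1) := Nat.even_add_one.mpr h
      simp [h, this]

theorem altw_inj {s s' : Fin 2} {k k' : ℕ} (h : altw s k = altw s' k') : s = s' ∧ k = k' := by
  have h1 : k = k' := by
    have := congrArg List.length h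
    simpa [altw_length] using this
  subst h1
  refine ⟨?_, rfl⟩
  cases k with
  | zero => simpa [altw] using h
  | succ k => simp only [altw, List.cons.injEq] at h; exact h.1

/-- `Ξ_0 = a²`, `Ξ_{k+1} = [b, Ξ_k]` for `k` even, `[a, Ξ_k]` for `k` odd. -/
def Xi {B : Type*} [Ring B] (u v : B) : ℕ → B
  | 0 => u * u
  | k + 1 => if Even k then br v (Xi u v k) else br u (Xi u v k)

/-- asymptotics of `Ξ_k(e₀+z, e₁)`. -/
theorem Xi_A (k : ℕ) :
    Xi (e true 0 + z true) (e true 1) k - Zl true (altw 0 k) ∈ RF true 2 := by
  induction k with
  | zero =>
    have h : Xi (e true 0 + z true) (e true 1) 0 - Zl true (altw 0 0) = 0 := by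
      simp only [Xi, altw, Zl, br]
      have h1 := e_z (b := true) 0
      have h2 := e_sq 0
      have h3 := z_sq (b := true)
      calc (e true 0 + z true) * (e true 0 + z true) - (x true 0 * z true + z true * x true 0)
          = e true 0 * e true 0 + z true * z true
            + ((e true 0 * z true + z true * e true 0)
              - (x true 0 * z true + z true * x true 0)) := by noncomm_ring
        _ = 0 := by rw [h1, h2, h3]; simp
    rw [h]; exact Submodule.zero_mem _
  | succ k ih =>
    rw [altw_snoc]
    by_cases hk : Even k
    · simp only [Xi, hk, if_true]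
      have h1 := br_e_Zl (b := true) 1 (altw 0 k)
      have h2 : br (e true 1) (Xi (e true 0 + z true) (e true 1) k - Zl true (altw 0 k))
          ∈ RF true 2 := by
        have := br_mem_RF (e_mem_RF (b := true) 1) ih
        simpa using this
      have h3 := Submodule.add_mem _ h1 h2
      convert h3 using 1
      unfold br
      simp only [zero_add]
      noncomm_ring
    · simp only [Xi, hk, if_false]
      have h1 := br_e_Zl (b := true) 0 (altw 0 k)
      have h2 : br (e true 0) (Xi (e true 0 + z true) (e true 1) k - Zl true (altw 0 k))
          ∈ RF true 2 := by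
        have := br_mem_RF (e_mem_RF (b := true) 0) ih
        simpa using this
      have hXi : Xi (e true 0 + z true) (e true 1) k ∈ RF true 1 := by
        have h4 := Submodule.add_mem _ (RF_mono (by norm_num : 1 ≤ 2) ih)
          (Zl_mem_RF (b := true) (altw 0 k))
        simpa using h4
      have h5 : br (z true) (Xi (e true 0 + z true) (e true 1) k) ∈ RF true 2 :=
        br_RF (r := 1) (r' := 1) rfl (z_mem_RF (b := true)) hXi
      have h3 := Submodule.add_mem _ (Submodule.add_mem _ h1 h2) h5
      convert h3 using 1
      unfold br
      noncomm_ring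

/-- asymptotics of `Ξ_k(x₁+z, x₀)`: alternating words of length `k+1` ending with `1`. -/
theorem Xi_B (k : ℕ) :
    Xi (x true 1 + z true) (x true 0) k
      - Zl true (altw (if Even k then 1 else 0) k) ∈ RF true 2 := by
  induction k with
  | zero =>
    have h : Xi (x true 1 + z true) (x true 0) 0
        - Zl true (altw (if Even 0 then 1 else 0) 0) = 0 := by
      simp only [Xi, altw, Zl, br, Even.zero, if_true]
      have h2 := x_sq 1
      have h3 := z_sq (b := true)
      calc (x true 1 + z true) * (x true 1 + z true) - (x true 1 * z true + z true * x true 1)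
          = x true 1 * x true 1 + z true * z true := by noncomm_ring
        _ = 0 := by rw [h2, h3]; simp
    rw [h]; exact Submodule.zero_mem _
  | succ k ih =>
    by_cases hk : Even k
    · have hk' : ¬ Even (k + 1) := by
        intro h'
        exact (Nat.even_add_one.mp h') hk
      simp only [hk, if_true] at ih
      simp only [Xi, hk, hk', if_true, if_false, altw]
      have h2 : br (x true 0) (Xi (x true 1 + z true) (x true 0) k - Zl true (altw 1 k))
          ∈ RF true 2 := by
        have := br_mem_RF (x_mem_RF (b := true) 0) ih
        simpa using this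
      convert h2 using 1
      simp only [Zl, zero_add]
      unfold br
      noncomm_ring
    · have hk' : Even (k + 1) := Nat.even_add_one.mpr hk
      simp only [hk, if_false] at ih
      simp only [Xi, hk, hk', if_true, if_false, altw]
      have h2 : br (x true 1) (Xi (x true 1 + z true) (x true 0) k - Zl true (altw 0 k))
          ∈ RF true 2 := by
        have := br_mem_RF (x_mem_RF (b := true) 1) ih
        simpa using this
      have hXi : Xi (x true 1 + z true) (x true 0) k ∈ RF true 1 := by
        have h4 := Submodule.add_mem _ (RF_mono (by norm_num : 1 ≤ 2) ih)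
          (Zl_mem_RF (b := true) (altw 0 k))
        simpa using h4
      have h5 : br (z true) (Xi (x true 1 + z true) (x true 0) k) ∈ RF true 2 :=
        br_RF (r := 1) (r' := 1) rfl (z_mem_RF (b := true)) hXi
      have h3 := Submodule.add_mem _ h2 h5
      convert h3 using 1
      have : (1 : Fin 2) + 1 = 0 := rfl
      simp only [Zl, this]
      unfold br
      noncomm_ring

end Crest.Agent.R010.V

end
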