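import Crest.Agent.R010.VInd
import Crest.Agent.R010.EECf
import Crest.Agent.R010.CDefs

/-!
Row 10 (S0011), upper bound (U), route 8387 (helper336): the independence lemma (IND).
-/

set_option autoImplicit false

noncomputable section

namespace Crest.Agent.R010.V

open MulOpposite

variable {b : Bool}

theorem cons_le_cons_cases {a b : ℕ} {l m : List ℕ} (h : a :: l ≤ b :: m) :
    a < b ∨ a = b ∧ l ≤ m := by
  rcases eq_or_lt_of_le h with h | h
  · right
    rw [List.cons.injEq] at h
    exact ⟨h.1, le_of_eq h.2⟩
  · have h' : List.Lex (· < ·) (a :: l) (b :: m) := h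
    cases h' with
    | cons h => exact Or.inr ⟨rfl, le_of_lt h⟩
    | rel h => exact Or.inl h

/-- indicator function of a list. -/
def dlt (l : List (Fin 3)) : Fn F2 := fun v => if v = l then 1 else 0

/-- the list attached to `a z rest`. -/
def azr (a : List (Fin 2)) (rest : List (Fin 3)) : List (Fin 3) :=
  a.map Fin.castSucc ++ 2 :: rest

theorem dlt_cons (c d : Fin 3) (v l : List (Fin 3)) :
    dlt (d :: l) (c :: v) = if c = d then dlt l v else 0 := by
  unfold dlt
  by_cases h : c = d <;> simp [h]

theorem act_Zl (a' : List (Fin 2)) : ∀ (a : List (Fin 2)) (rest : List (Fin 3)) (f : W b),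
    f.1 = dlt (azr a rest) → a'.length ≤ a.length →
    (act (Zl b a') f).1 = if a' = a then dlt rest else 0 := by
  induction a' with
  | nil =>
    intro a rest f hf _
    funext v
    change f.1 (2 :: v) = _
    rw [hf]
    cases a with
    | nil => simp [azr, dlt_cons]
    | cons d a =>
      have h : (2 : Fin 3) ≠ d.castSucc := fun h => cs_ne d h.symm
      have h2 : dlt (azr (d :: a) rest) (2 :: v) = 0 := by
        change dlt (d.castSucc :: azr a rest) (2 :: v) = 0
        rw [dlt_cons, if_neg h]
      rw [h2, if_neg (by simp)]
      rfl
  | cons c a' ih =>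
    intro a rest f hf hlen
    cases a with
    | nil => simp at hlen
    | cons d a =>
      have hlen' : a'.length ≤ a.length := by simpa using hlen
      -- second term
      have h2 : (act (Zl b a') f).1 = 0 := by
        have := ih (d :: a) rest f hf (by simp; omega)
        rw [this, if_neg]
        intro h
        rw [h] at hlen'
        simp at hlen'
      have h2' : act (Zl b a') f = 0 := Subtype.ext h2
      have hsum : act (Zl b (c :: a')) f = act (Zl b a') (act (x b c) f) + act (x b c) (act (Zl b a') f) := rfl
      rw [hsum, h2', act_zero', add_zero]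
      by_cases hcd : c = d
      · subst hcd
        have h3 : (act (x b c) f).1 = dlt (azr a rest) := by
          funext v
          change f.1 (c.castSucc :: v) = _
          rw [hf]
          simp [azr, dlt_cons]
        rw [ih a rest _ h3 hlen']
        simp
      · have h3 : act (x b c) f = 0 := by
          apply Subtype.ext
          funext v
          change f.1 (c.castSucc :: v) = _
          rw [hf]
          have : c.castSucc ≠ d.castSucc := fun h => hcd (Fin.castSucc_injective _ h)
          simp [azr, dlt_cons, this]
        rw [h3, act_zero']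
        simp [hcd]

/-- letters: `(s, k)` is the alternating word of length `k+1` starting with `s` -/
abbrev Lt := Fin 2 × ℕ

/-- list attached to a word in the letters. -/
def lst : List Lt → List (Fin 3)
  | [] => []
  | p :: w => azr (altw p.1 p.2) (lst w)

/-- no two equal adjacent letters. -/
def Nrm (l : List (Fin 3)) : Prop := l.IsChain (· ≠ ·)

theorem dlt_mem {l : List (Fin 3)} (h : Nrm l) (Q : Set (Fin 3)) : dlt l ∈ VQ (R := F2) Q := by
  intro p s c _
  unfold dlt
  rw [if_neg]
  rintro rfl
  unfold Nrm at h
  rw [List.isChain_append_cons_cons] at h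
  exact h.2.1 rfl

theorem altw_map_chain (s : Fin 2) (k : ℕ) (rest : List (Fin 3)) (h : Nrm (2 :: rest)) :
    Nrm (azr (altw s k) rest) ∧ (azr (altw s k) rest).head? = some s.castSucc := by
  induction k generalizing s with
  | zero =>
    refine ⟨?_, rfl⟩
    simp only [azr, altw, List.map_cons, List.map_nil, List.cons_append, List.nil_append]
    unfold Nrm at h ⊢
    rw [List.isChain_cons_cons]
    exact ⟨cs_ne s, h⟩
  | succ k ih =>
    refine ⟨?_, rfl⟩
    have h1 := ih (s + 1)
    simp only [azr, altw, List.map_cons, List.cons_append]
    unfold Nrm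
    rw [List.isChain_cons]
    refine ⟨?_, h1.1⟩
    intro y hy
    have h2 := h1.2
    rw [azr] at h2
    rw [h2] at hy
    simp only [Option.mem_def, Option.some.injEq] at hy
    subst hy
    fin_cases s <;> decide

theorem lst_nrm (w : List Lt) : Nrm (lst w) ∧ (lst w).head? ≠ some 2 := by
  induction w with
  | nil => exact ⟨List.isChain_nil, by simp [lst]⟩
  | cons p w ih =>
    have h2 : Nrm (2 :: lst w) := by
      unfold Nrm
      rw [List.isChain_cons]
      refine ⟨?_, ih.1⟩
      intro y hy h
      subst h
      exact ih.2 hy
    have := altw_map_chain p.1 p.2 (lst w) h2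
    refine ⟨this.1, ?_⟩
    rw [lst, this.2]
    intro h
    have := Option.some.inj h
    exact cs_ne _ this

/-- `δ` of the list of a word, in the module `W b`. -/
def dw (b : Bool) (w : List Lt) : W b := ⟨dlt (lst w), dlt_mem (lst_nrm w).1 _⟩

variable (b) in
/-- the elements attached to the letters. -/
def ZL (p : Lt) : EW b := Zl b (altw p.1 p.2)

variable (b) in
/-- evaluation of polynomials in the letters -/
def evL : FreeAlgebra F2 Lt →ₐ[F2] EW b := FreeAlgebra.lift F2 (ZL b)

/-- encoding of the letters, monotone in the length. -/
def enc (p : Lt) : ℕ := 2 * p.2 + p.1.val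

theorem enc_inj {p q : Lt} (h : enc p = enc q) : p = q := by
  unfold enc at h
  have h1 := p.1.isLt
  have h2 := q.1.isLt
  ext
  · omega
  · omega

theorem act_word (w' : List Lt) : ∀ w : List Lt, w'.length = w.length →
    w'.map enc ≤ w.map enc →
    (act (evL b (wd F2 w')) (dw b w)).1 [] = if w' = w then 1 else 0 := by
  induction w' with
  | nil =>
    intro w hl _
    cases w with
    | nil =>
      rw [wd_nil, map_one, act_one]
      simp [dw, dlt, lst]
    | cons p w => simp at hl
  | cons q w' ih =>
    intro w hl hle
    cases w with
    | nil => simp at hl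
    | cons p w =>
      have hl' : w'.length = w.length := by simpa using hl
      rw [wd_cons, map_mul, act_mul]
      have hq : evL b (FreeAlgebra.ι F2 q) = Zl b (altw q.1 q.2) := by
        simp [evL, ZL]
      rw [hq]
      simp only [List.map_cons] at hle
      replace hle := cons_le_cons_cases hle
      have hlen : (altw q.1 q.2).length ≤ (altw p.1 p.2).length := by
        rw [altw_length, altw_length]
        have : enc q ≤ enc p := by
          rcases hle with h | h
          · exact le_of_lt h
          · exact le_of_eq h.1
        unfold enc at this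
        have h1 := p.1.isLt
        omega
      have key := act_Zl (b := b) (altw q.1 q.2) (altw p.1 p.2) (lst w) (dw b (p :: w)) rfl hlen
      by_cases hqp : q = p
      · subst hqp
        have h3 : act (Zl b (altw q.1 q.2)) (dw b (q :: w)) = dw b w := by
          apply Subtype.ext
          rw [key]
          simp [dw]
        rw [h3]
        have hle' : w'.map enc ≤ w.map enc := by
          rcases hle with h | h
          · exact absurd h (lt_irrefl _)
          · exact h.2
        rw [ih w hl' hle']
        simp
      · have h3 : act (Zl b (altw q.1 q.2)) (dw b (p :: w)) = 0 := by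
          apply Subtype.ext
          rw [key, if_neg]
          · rfl
          · intro h
            obtain ⟨h1, h2⟩ := altw_inj h
            exact hqp (Prod.ext h1 h2)
        rw [h3, act_zero']
        have : ¬ (q :: w' = p :: w) := by
          intro h
          exact hqp (List.cons.inj h).1
        simp [this]

theorem zc_lst (w : List Lt) : zc (lst w) = w.length := by
  induction w with
  | nil => rfl
  | cons p w ih =>
    have h1 : ∀ (a : List (Fin 2)) (rest : List (Fin 3)), zc (azr a rest) = zc rest + 1 := by
      intro a rest
      induction a with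
      | nil => simp [azr, zc_cons]
      | cons c a iha =>
        have : azr (c :: a) rest = c.castSucc :: azr a rest := rfl
        rw [this, zc_cons, iha]
        simp [cs_ne c]
    rw [lst, h1, ih]
    rfl

/-- finite expansion in words. -/
theorem eq_sum_wd {K : Type*} [CommRing K] {X : Type*} (f : FreeAlgebra K X) :
    f = ∑ m ∈ (FreeAlgebra.equivMonoidAlgebraFreeMonoid f).coeff.support,
      cf (FreeMonoid.toList m) f • wd K (FreeMonoid.toList m) := by
  apply (FreeAlgebra.equivMonoidAlgebraFreeMonoid (R := K) (X := X)).injective
  rw [map_sum]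
  conv_lhs => rw [← MonoidAlgebra.sum_coeff_single (FreeAlgebra.equivMonoidAlgebraFreeMonoid f)]
  refine Finset.sum_congr rfl fun m _ => ?_
  rw [map_smul, equiv_wd, MonoidAlgebra.smul_single, smul_eq_mul, mul_one]
  rfl

theorem cf_zero_of_wt {K : Type*} [CommRing K] {X : Type*} {n : ℕ} {f : FreeAlgebra K X}
    (hf : f ∈ C.wtA K (fun _ : X => 1) n) {l : List X} (hl : l.length ≠ n) : cf l f = 0 := by
  classical
  refine Submodule.span_induction (p := fun f _ => cf l f = 0) ?_ (map_zero _) ?_ ?_ hf
  · rintro _ ⟨l', hl', rfl⟩
    have : cf l (wd K l') = 0 := by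
      rw [cf_wd, if_neg]
      rintro rfl
      apply hl
      simpa using hl'
    exact this
  · intro a b _ _ ha hb; rw [map_add, ha, hb, add_zero]
  · intro r a _ ha; rw [map_smul, ha, smul_zero]

/-- functional `t ↦ (δ_w · t)([])`. -/
def phi (b : Bool) (w : List Lt) : FreeAlgebra F2 Lt →ₗ[F2] F2 where
  toFun t := (act (evL b t) (dw b w)).1 []
  map_add' s t := by rw [map_add, act_add]; rfl
  map_smul' r t := by rw [map_smul, act_smul]; rfl

/-- **(IND)** -/
theorem IND (n : ℕ) (t : FreeAlgebra F2 Lt) (ht : t ∈ C.wtA F2 (fun _ : Lt => 1) n)
    (h : evL b t ∈ RF b (n + 1)) : t = 0 := by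
  classical
  by_contra hne
  set S := (FreeAlgebra.equivMonoidAlgebraFreeMonoid t).coeff.support with hS
  have hSne : S.Nonempty := by
    by_contra hemp
    rw [Finset.not_nonempty_iff_eq_empty] at hemp
    apply hne
    rw [eq_sum_wd t, ← hS, hemp]
    simp
  obtain ⟨m, hm, hmax⟩ := Finset.exists_max_image S (fun m => (FreeMonoid.toList m).map enc) hSne
  have hcf : ∀ m ∈ S, cf (FreeMonoid.toList m) t ≠ 0 := by
    intro m hm
    have := Finsupp.mem_support_iff.mp hm
    exact this
  have hlen : ∀ m ∈ S, (FreeMonoid.toList m).length = n := by
    intro m hm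
    by_contra hl
    exact hcf m hm (cf_zero_of_wt ht hl)
  set w := FreeMonoid.toList m with hw
  have h1 : phi b w t = cf w t := by
    conv_lhs => rw [eq_sum_wd t]
    rw [map_sum, ← hS]
    rw [Finset.sum_eq_single_of_mem m hm]
    · rw [map_smul]
      have : phi b w (wd F2 (FreeMonoid.toList m)) = 1 := by
        have := act_word (b := b) w w rfl le_rfl
        simpa [phi] using this
      rw [this, smul_eq_mul, mul_one]
    · intro m' hm' hmm'
      rw [map_smul]
      have : phi b w (wd F2 (FreeMonoid.toList m')) = 0 := by
        have h2 := act_word (b := b) (FreeMonoid.toList m') w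
          ((hlen m' hm').trans (hlen m hm).symm) (hmax m' hm')
        rw [if_neg] at h2
        · exact h2
        · intro h3
          exact hmm' (FreeMonoid.toList.injective h3)
      rw [this, smul_zero]
  have h2 : phi b w t = 0 := by
    have hv : van (n : ℤ) (dw b w).1 := by
      intro v hv
      change dlt (lst w) v = 0
      unfold dlt
      rw [if_neg]
      rintro rfl
      rw [zc_lst, hlen m hm] at hv
      exact lt_irrefl _ hv
    have := h (n : ℤ) (dw b w) hv [] (by push_cast; simp)
    exact this
  exact hcf m hm (by rw [← hw, ← h1, h2])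

end Crest.Agent.R010.V

end
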