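import Mathlib

/-!
Row 10 (S0011), upper bound (U), route 8387 (helper336).

TRANSPOSED model of the test modules: functions on lists in three letters
`0 = x₀`, `1 = x₁`, `2 = z`.  Right action `f · a`; the operator ring is
`(Module.End R V)ᵐᵒᵖ`, so that products are in the natural order:
`unop (a * b) f = unop b (unop a f)`.

* `dl c`     : `(f · x_c)(v) = f (c :: v)`;
* `dt i`     : transposed derivation `D_i`: `x_i ↦ [x_i, z]`, `z ↦ [z, x_i]`, other letter `↦ 0`;
* `VQ Q`     : functions vanishing on all lists containing a square `cc`, `c ∈ Q`.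
-/

set_option autoImplicit false

noncomputable section

namespace Crest.Agent.R010.V

open MulOpposite

/-- functions on lists in the three letters `0 = x₀`, `1 = x₁`, `2 = z`. -/
abbrev Fn (R : Type*) := List (Fin 3) → R

section general

variable (R : Type*) [CommRing R]

/-- transposed left multiplication by the letter `c`. -/
def dl (c : Fin 3) : Module.End R (Fn R) where
  toFun f v := f (c :: v)
  map_add' _ _ := rfl
  map_smul' _ _ := rfl

variable {R}

@[simp] theorem dl_apply (c : Fin 3) (f : Fn R) (v : List (Fin 3)) : dl R c f v = f (c :: v) := rfl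

/-- value of the derivation on the first letter. -/
def dApp (i : Fin 3) (c : Fin 3) (f : Fn R) (v : List (Fin 3)) : R :=
  if c = i then f (i :: 2 :: v) - f (2 :: i :: v)
  else if c = 2 then f (2 :: i :: v) - f (i :: 2 :: v) else 0

/-- transposed derivation, by recursion on the list. -/
def dtAux (i : Fin 3) : List (Fin 3) → Fn R → R
  | [], _ => 0
  | c :: v, f => dApp i c f v + dtAux i v (fun u => f (c :: u))

theorem dApp_add (i c : Fin 3) (f g : Fn R) (v : List (Fin 3)) :
    dApp i c (f + g) v = dApp i c f v + dApp i c g v := by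
  unfold dApp
  split_ifs <;> simp <;> ring

theorem dApp_smul (i c : Fin 3) (r : R) (f : Fn R) (v : List (Fin 3)) :
    dApp i c (r • f) v = r * dApp i c f v := by
  unfold dApp
  split_ifs <;> simp <;> ring

theorem dtAux_add (i : Fin 3) (v : List (Fin 3)) : ∀ f g : Fn R,
    dtAux i v (f + g) = dtAux i v f + dtAux i v g := by
  induction v with
  | nil => intro f g; simp [dtAux]
  | cons c v ih =>
    intro f g
    have := ih (fun u => f (c :: u)) (fun u => g (c :: u))
    simp only [dtAux, dApp_add]
    have e : (fun u => (f + g) (c :: u)) = (fun u => f (c :: u)) + (fun u => g (c :: u)) := rfl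
    rw [e, this]
    ring

theorem dtAux_smul (i : Fin 3) (r : R) (v : List (Fin 3)) : ∀ f : Fn R,
    dtAux i v (r • f) = r * dtAux i v f := by
  induction v with
  | nil => intro f; simp [dtAux]
  | cons c v ih =>
    intro f
    have := ih (fun u => f (c :: u))
    simp only [dtAux, dApp_smul]
    have e : (fun u => (r • f) (c :: u)) = r • (fun u => f (c :: u)) := rfl
    rw [e, this]
    ring

variable (R) in
/-- transposed derivation `D_i`. -/
def dt (i : Fin 3) : Module.End R (Fn R) where
  toFun f v := dtAux i v f
  map_add' f g := by funext v; exact dtAux_add i v f g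
  map_smul' r f := by funext v; exact dtAux_smul i r v f

@[simp] theorem dt_nil (i : Fin 3) (f : Fn R) : dt R i f [] = 0 := rfl

theorem dt_cons (i c : Fin 3) (f : Fn R) (v : List (Fin 3)) :
    dt R i f (c :: v) = dApp i c f v + dt R i (dl R c f) v := rfl

/-- functions vanishing on lists that contain a square of a letter in `Q`. -/
def VQ (Q : Set (Fin 3)) : Submodule R (Fn R) where
  carrier := {f | ∀ (p s : List (Fin 3)) (c : Fin 3), c ∈ Q → f (p ++ c :: c :: s) = 0}
  add_mem' {f g} hf hg p s c hc := by simp [hf p s c hc, hg p s c hc]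
  zero_mem' p s c hc := rfl
  smul_mem' r f hf p s c hc := by simp [hf p s c hc]

theorem mem_VQ {Q : Set (Fin 3)} {f : Fn R} :
    f ∈ VQ Q ↔ ∀ (p s : List (Fin 3)) (c : Fin 3), c ∈ Q → f (p ++ c :: c :: s) = 0 := Iff.rfl

theorem dl_mem {Q : Set (Fin 3)} (c : Fin 3) {f : Fn R} (hf : f ∈ VQ Q) : dl R c f ∈ VQ Q := by
  intro p s d hd
  exact hf (c :: p) s d hd

end general

section two

/-- `F₂`. -/
abbrev F2 := ZMod 2

theorem F2_add_self (a : F2) : a + a = 0 := CharTwo.add_self_eq_zero a

theorem dt_mem {Q : Set (Fin 3)} (i : Fin 3) (h2 : (2 : Fin 3) ∈ Q) (hi : i ≠ 2)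
    {f : Fn F2} (hf : f ∈ VQ Q) : dt F2 i f ∈ VQ Q := by
  intro p
  induction p generalizing f with
  | nil =>
    intro s c hc
    have h1 : dt F2 i (dl F2 c (dl F2 c f)) s = 0 := by
      have : dl F2 c (dl F2 c f) = 0 := by
        funext v
        exact hf [] v c hc
      rw [this]; simp
    simp only [List.nil_append, dt_cons, h1, add_zero]
    unfold dApp
    have e1 := fun v => hf [2] v i
    have e2 := fun v => hf [] (2 :: v) i
    have e3 := fun v => hf [i] v 2 h2
    have e4 := fun v => hf [] (i :: v) 2 h2
    simp only [List.nil_append, List.singleton_append] at e1 e2 e3 e4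
    by_cases hci : c = i
    · subst hci
      simp [e1 _ hc, e2 _ hc, F2_add_self]
    · by_cases hc2 : c = 2
      · subst hc2
        have : (2 : Fin 3) ≠ i := fun h => hi h.symm
        simp [this, e3, e4, F2_add_self]
      · simp [hci, hc2]
  | cons a p ih =>
    intro s c hc
    have h1 := ih (dl_mem a hf) s c hc
    rw [List.cons_append, dt_cons, h1, add_zero]
    unfold dApp
    have e1 := hf (i :: 2 :: p) s c hc
    have e2 := hf (2 :: i :: p) s c hc
    simp only [List.cons_append] at e1 e2
    simp [e1, e2]

end two

end Crest.Agent.R010.V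

end
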