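import Crest.Agent.R010.VUB

/-!
Row 10 (S0011), upper bound (U), route 8387 (helper336): transposition of the pentagon from the
fibre module `Alg3 F2` (helper442, UBridge) to the test algebras `EW b`.
-/

set_option autoImplicit false

noncomputable section

namespace Crest.Agent.R010.V

open MulOpposite

/-- transposed action of the free algebra on functions on lists. -/
def tact : C.Alg3 F2 →ₐ[F2] (Module.End F2 (Fn F2))ᵐᵒᵖ :=
  FreeAlgebra.lift F2 (fun c => op (dl F2 c))

/-- pairing of functions on lists with noncommutative polynomials. -/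
def pair (f : Fn F2) : C.Alg3 F2 →ₗ[F2] F2 where
  toFun m := unop (tact m) f []
  map_add' m n := by rw [map_add]; rfl
  map_smul' r m := by rw [map_smul]; rfl

theorem pair_add (f g : Fn F2) (m : C.Alg3 F2) : pair (f + g) m = pair f m + pair g m := by
  change unop (tact m) (f + g) [] = unop (tact m) f [] + unop (tact m) g []
  rw [map_add]; rfl

theorem pair_mul (f : Fn F2) (m n : C.Alg3 F2) :
    pair f (m * n) = pair (unop (tact m) f) n := by
  change unop (tact (m * n)) f [] = unop (tact n) (unop (tact m) f) []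
  rw [map_mul]; rfl

theorem tact_ι (c : Fin 3) : tact (FreeAlgebra.ι F2 c) = op (dl F2 c) := by
  simp [tact]

theorem pair_letter (f : Fn F2) (c : Fin 3) (n : C.Alg3 F2) :
    pair f (FreeAlgebra.ι F2 c * n) = pair (dl F2 c f) n := by
  rw [pair_mul, tact_ι]; rfl

theorem pair_one (f : Fn F2) : pair f 1 = f [] := by
  change unop (tact 1) f [] = _
  rw [map_one]; rfl

theorem pair_wd (v : List (Fin 3)) : ∀ f : Fn F2, pair f (wd F2 v) = f v := by
  induction v with
  | nil => intro f; rw [wd_nil, pair_one]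
  | cons c v ih => intro f; rw [wd_cons, pair_letter, ih]; rfl

/-- the derivation `D_i` of the fibre algebra. -/
def DD (i : Fin 2) : Module.End F2 (C.Alg3 F2) := if i = 0 then U.E0 F2 else U.E1 F2

theorem DD_mul (i : Fin 2) (m n : C.Alg3 F2) : DD i (m * n) = DD i m * n + m * DD i n := by
  unfold DD
  split_ifs
  · exact C.der_mul _ _ _
  · exact C.der_mul _ _ _

theorem DD_one (i : Fin 2) : DD i 1 = 0 := by
  unfold DD
  split_ifs
  · exact C.der_one _
  · exact C.der_one _

theorem neg_eq2 {B : Type*} [Ring B] [Algebra F2 B] (u v : B) : u - v = u + v := by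
  rw [sub_eq_iff_eq_add, add_assoc, dblA, add_zero]

theorem DD_ι (i : Fin 2) (c : Fin 3) : DD i (FreeAlgebra.ι F2 c) =
    if c = i.castSucc ∨ c = 2 then FreeAlgebra.ι F2 i.castSucc * FreeAlgebra.ι F2 2
      + FreeAlgebra.ι F2 2 * FreeAlgebra.ι F2 i.castSucc else 0 := by
  fin_cases i
  · change U.E0 F2 _ = _
    fin_cases c
    · have := U.E0_x0 F2
      unfold C.x0 C.zz at this
      change U.E0 F2 (FreeAlgebra.ι F2 0) = _
      rw [this, neg_eq2]
      simp
    · have := U.E0_x1 F2
      unfold C.x1 at this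
      change U.E0 F2 (FreeAlgebra.ι F2 1) = _
      rw [this]
      simp
    · have := U.E0_zz F2
      unfold C.x0 C.zz at this
      change U.E0 F2 (FreeAlgebra.ι F2 2) = _
      rw [this, neg_eq2, add_comm]
      simp
  · change U.E1 F2 _ = _
    fin_cases c
    · have := U.E1_x0 F2
      unfold C.x0 at this
      change U.E1 F2 (FreeAlgebra.ι F2 0) = _
      rw [this]
      simp
    · have := U.E1_x1 F2
      unfold C.x1 C.zz at this
      change U.E1 F2 (FreeAlgebra.ι F2 1) = _
      rw [this, neg_eq2]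
      simp
    · have := U.E1_zz F2
      unfold C.x1 C.zz at this
      change U.E1 F2 (FreeAlgebra.ι F2 2) = _
      rw [this, neg_eq2, add_comm]
      simp

theorem pair_DD (i : Fin 2) (m : C.Alg3 F2) : ∀ f : Fn F2,
    pair f (DD i m) = pair (dt F2 i.castSucc f) m := by
  refine fa_induction (C := fun m => ∀ f : Fn F2,
    pair f (DD i m) = pair (dt F2 i.castSucc f) m) ?_ ?_ m
  · intro p q hp hq f
    rw [map_add, map_add, hp, hq, map_add]
  · intro r w f
    rw [map_smul, map_smul, map_smul]
    congr 1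
    induction w generalizing f with
    | nil => rw [wd_nil, DD_one, map_zero, pair_one, dt_nil]
    | cons c w ih =>
      rw [wd_cons, DD_mul, map_add, pair_letter, ih, pair_letter]
      have h1 : dl F2 c (dt F2 i.castSucc f)
          = (fun v => dApp i.castSucc c f v) + dt F2 i.castSucc (dl F2 c f) := rfl
      rw [h1, pair_add]
      congr 1
      have h2 : pair f ((FreeAlgebra.ι F2 i.castSucc * FreeAlgebra.ι F2 2
          + FreeAlgebra.ι F2 2 * FreeAlgebra.ι F2 i.castSucc) * wd F2 w)
          = pair (fun v => f (i.castSucc :: 2 :: v) + f (2 :: i.castSucc :: v)) (wd F2 w) := by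
        rw [add_mul, map_add, mul_assoc, mul_assoc, pair_letter, pair_letter, pair_letter,
          pair_letter, ← pair_add]
        rfl
      rw [DD_ι]
      by_cases hc : c = i.castSucc
      · rw [if_pos (Or.inl hc), h2]
        congr 1
        congr 1
        funext v
        simp [dApp, hc, CharTwo.sub_eq_add]
      · by_cases hc2 : c = 2
        · rw [if_pos (Or.inr hc2), h2]
          congr 1
          congr 1
          funext v
          have : (2 : Fin 3) ≠ i.castSucc := fun h => cs_ne i h.symm
          simp [dApp, hc2, CharTwo.sub_eq_add, this, add_comm]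
        · rw [if_neg (by tauto), zero_mul, map_zero]
          have : (fun v => dApp i.castSucc c f v) = 0 := by
            funext v
            simp [dApp, hc, hc2]
          rw [this]
          symm
          rw [pair_wd]
          rfl

/-- `A'` is the transpose of `A`. -/
def Tr {b : Bool} (A : Module.End F2 (C.Alg3 F2)) (A' : EW b) : Prop :=
  ∀ (f : W b) (m : C.Alg3 F2), pair (act A' f).1 m = pair f.1 (A m)

variable {b : Bool}

theorem Tr.add {A B : Module.End F2 (C.Alg3 F2)} {A' B' : EW b} (h : Tr A A') (k : Tr B B') :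
    Tr (A + B) (A' + B') := by
  intro f m
  rw [act_add]
  change pair ((act A' f).1 + (act B' f).1) m = _
  rw [pair_add, h, k, LinearMap.add_apply, map_add]

theorem Tr.mul {A B : Module.End F2 (C.Alg3 F2)} {A' B' : EW b} (h : Tr A A') (k : Tr B B') :
    Tr (A * B) (A' * B') := by
  intro f m
  rw [act_mul, k, h, Module.End.mul_apply]

theorem Tr.scal (r : F2) : Tr (algebraMap F2 (Module.End F2 (C.Alg3 F2)) r)
    (algebraMap F2 (EW b) r) := by
  intro f m
  have h1 : act (algebraMap F2 (EW b) r) f = r • f := rfl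
  have h2 : algebraMap F2 (Module.End F2 (C.Alg3 F2)) r m = r • m := rfl
  rw [h1, h2, map_smul]
  change unop (tact m) (r • f.1) [] = r • unop (tact m) f.1 []
  rw [map_smul]; rfl

theorem Tr.ev {A B : Module.End F2 (C.Alg3 F2)} {A' B' : EW b} (h : Tr A A') (k : Tr B B')
    (p : FreeAlgebra F2 (Fin 2)) : Tr (ev A B p) (ev A' B' p) := by
  refine FreeAlgebra.induction (R := F2) (X := Fin 2)
    (motive := fun p => Tr (Crest.Agent.R010.ev A B p) (Crest.Agent.R010.ev A' B' p))
    ?_ ?_ ?_ ?_ p
  · intro r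
    rw [AlgHom.commutes, AlgHom.commutes]
    exact Tr.scal r
  · intro i
    unfold Crest.Agent.R010.ev
    rw [FreeAlgebra.lift_ι_apply, FreeAlgebra.lift_ι_apply]
    split_ifs
    · exact h
    · exact k
  · intro p q hp hq
    rw [map_mul, map_mul]
    exact hp.mul hq
  · intro p q hp hq
    rw [map_add, map_add]
    exact hp.add hq

theorem Tr.eq {A : Module.End F2 (C.Alg3 F2)} {A' B' : EW b} (h : Tr A A') (k : Tr A B') :
    A' = B' := by
  apply EW_ext
  intro f v
  have := (h f (wd F2 v)).trans (k f (wd F2 v)).symm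
  rwa [pair_wd, pair_wd] at this

theorem Tr_L (c : Fin 3) : Tr (C.L3 F2 (FreeAlgebra.ι F2 c)) (xl b c) := by
  intro f m
  change _ = pair f.1 (FreeAlgebra.ι F2 c * m)
  rw [pair_letter]
  rfl

theorem Tr_D (i : Fin 2) : Tr (DD i) (e b i) := by
  intro f m
  rw [pair_DD]
  rfl

/-- the pentagon in the test algebras. -/
theorem pentEW {p : FreeAlgebra F2 (Fin 2)}
    (h : U.PentOp (C.L3 F2 (C.x0 F2)) (C.L3 F2 (C.x1 F2)) (C.L3 F2 (C.zz F2)) (U.E0 F2) (U.E1 F2)
      p) (b : Bool) : U.PentOp (x b 0) (x b 1) (z b) (e b 0) (e b 1) p := by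
  have t0 : Tr (C.L3 F2 (C.x0 F2)) (x b 0) := Tr_L 0
  have t1 : Tr (C.L3 F2 (C.x1 F2)) (x b 1) := Tr_L 1
  have tz : Tr (C.L3 F2 (C.zz F2)) (z b) := Tr_L 2
  have d0 : Tr (U.E0 F2) (e b 0) := Tr_D 0
  have d1 : Tr (U.E1 F2) (e b 1) := Tr_D 1
  unfold U.PentOp at h ⊢
  have l := (t0.ev (t1.add tz) p).add ((d0.add tz).ev d1 p)
  have r := ((tz.ev d1 p).add ((t0.add d0).ev (t1.add d1) p)).add (t0.ev tz p)
  rw [← h] at r
  exact l.eq r

end Crest.Agent.R010.V

end
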