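import Crest.Agent.R010.VInd2
import Crest.Agent.R010.UBridge

/-!
Row 10 (S0011), upper bound (U), route 8387 (helper336): (U-B).  A Lie element of weight `≥ 2`
in the ideal `(y²)` satisfying the pentagon in the test algebra `EW false` vanishes; and the
transposition of the pentagon to the test algebras.
-/

set_option autoImplicit false

noncomputable section

namespace Crest.Agent.R010.V

open MulOpposite

attribute [local instance 100] LieRing.ofAssociativeRing

/-- collapse of letters `x₁, z ↦ y`. -/
def colc (c : Fin 3) : Fin 2 := if c = 0 then 0 else 1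

/-- collapse of lists -/
def col (l : List (Fin 3)) : List (Fin 2) := l.map colc

/-- the letter operators `x₀`, `x₁ + z`. -/
def lop (b : Bool) (i : Fin 2) : EW b := if i = 0 then x b 0 else x b 1 + z b

theorem lop_cons {b : Bool} (i : Fin 2) (f : W b) (c : Fin 3) (l : List (Fin 3))
    (hf : f.1 = dlt (c :: l)) : (act (lop b i) f).1 = if colc c = i then dlt l else 0 := by
  funext v
  unfold lop
  fin_cases i
  · change f.1 (0 :: v) = _
    rw [hf, dlt_cons]
    fin_cases c <;> simp [colc]
  · change f.1 (1 :: v) + f.1 (2 :: v) = _
    rw [hf, dlt_cons, dlt_cons]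
    fin_cases c <;> simp [colc]

theorem lop_nil {b : Bool} (i : Fin 2) (f : W b) (hf : f.1 = dlt []) : act (lop b i) f = 0 := by
  apply Subtype.ext
  funext v
  unfold lop
  fin_cases i
  · change f.1 (0 :: v) = _
    rw [hf]; simp [dlt]
  · change f.1 (1 :: v) + f.1 (2 :: v) = _
    rw [hf]; simp [dlt]

theorem act_zero_fun {b : Bool} (A : EW b) (f : W b) (hf : f.1 = 0) : (act A f).1 = 0 := by
  have : f = 0 := Subtype.ext hf
  rw [this, act_zero']
  rfl

/-- evaluation at `x₀`, `x₁ + z`. -/
abbrev evT1 (b : Bool) : FreeAlgebra F2 (Fin 2) →ₐ[F2] EW b := ev (x b 0) (x b 1 + z b)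

theorem evT1_ι (b : Bool) (i : Fin 2) : evT1 b (FreeAlgebra.ι F2 i) = lop b i := by
  simp [evT1, ev, lop]

theorem T1_word_nil {b : Bool} (w : List (Fin 2)) : ∀ (l : List (Fin 3)) (f : W b),
    f.1 = dlt l → (act (evT1 b (wd F2 w)) f).1 [] = if col l = w then 1 else 0 := by
  induction w with
  | nil =>
    intro l f hf
    rw [wd_nil, map_one, act_one, hf]
    cases l <;> simp [dlt, col]
  | cons i w ih =>
    intro l f hf
    rw [wd_cons, map_mul, act_mul, evT1_ι]
    cases l with
    | nil =>
      rw [lop_nil i f hf, act_zero']
      simp [col]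
    | cons c l =>
      have h := lop_cons i f c l hf
      by_cases hc : colc c = i
      · rw [if_pos hc] at h
        rw [ih l _ h]
        by_cases h2 : col l = w
        · rw [if_pos h2, if_pos (by rw [← h2, ← hc]; rfl)]
        · rw [if_neg h2, if_neg]
          intro h3
          apply h2
          exact (List.cons.inj h3).2
      · rw [if_neg hc] at h
        rw [act_zero_fun _ _ h]
        simp [col, hc]

theorem T1_word_z {b : Bool} (w : List (Fin 2)) : ∀ (l : List (Fin 3)) (f : W b),
    f.1 = dlt l → l.getLast? ≠ some 2 → (act (evT1 b (wd F2 w)) f).1 [2] = 0 := by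
  induction w with
  | nil =>
    intro l f hf hl
    rw [wd_nil, map_one, act_one, hf]
    unfold dlt
    rw [if_neg]
    rintro rfl
    exact hl rfl
  | cons i w ih =>
    intro l f hf hl
    rw [wd_cons, map_mul, act_mul, evT1_ι]
    cases l with
    | nil =>
      rw [lop_nil i f hf, act_zero']
      rfl
    | cons c l =>
      have h := lop_cons i f c l hf
      by_cases hc : colc c = i
      · rw [if_pos hc] at h
        refine ih l _ h ?_
        cases l with
        | nil => simp
        | cons d l => rwa [List.getLast?_cons_cons] at hl
      · rw [if_neg hc] at h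
        rw [act_zero_fun _ _ h]
        rfl

theorem T1_nil {b : Bool} (p : FreeAlgebra F2 (Fin 2)) (l : List (Fin 3)) (f : W b)
    (hf : f.1 = dlt l) : (act (evT1 b p) f).1 [] = cf (col l) p := by
  classical
  refine fa_induction (C := fun p => (act (evT1 b p) f).1 [] = cf (col l) p) ?_ ?_ p
  · intro p q hp hq
    rw [map_add, act_add, map_add, ← hp, ← hq]
    rfl
  · intro r w
    rw [map_smul, act_smul, map_smul, cf_wd]
    change r • (act (evT1 b (wd F2 w)) f).1 [] = _
    rw [T1_word_nil w l f hf]
    by_cases h : col l = w
    · rw [if_pos h, if_pos h.symm]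
    · rw [if_neg h, if_neg (fun h' => h h'.symm)]

theorem T1_z {b : Bool} (p : FreeAlgebra F2 (Fin 2)) (l : List (Fin 3)) (f : W b)
    (hf : f.1 = dlt l) (hl : l.getLast? ≠ some 2) : (act (evT1 b p) f).1 [2] = 0 := by
  refine fa_induction (C := fun p => (act (evT1 b p) f).1 [2] = 0) ?_ ?_ p
  · intro p q hp hq
    rw [map_add, act_add]
    change (act (evT1 b p) f).1 [2] + (act (evT1 b q) f).1 [2] = 0
    rw [hp, hq, add_zero]
  · intro r w
    rw [map_smul, act_smul]
    change r • (act (evT1 b (wd F2 w)) f).1 [2] = _
    rw [T1_word_z w l f hf hl, smul_zero]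

/-- no square of a letter `≠ 0`. -/
def Nr (l : List (Fin 3)) : Prop := l.IsChain (fun a b => a ≠ b ∨ a = 0)

theorem dlt_mem' {l : List (Fin 3)} (h : Nr l) : dlt l ∈ VQ (R := F2) (Qs false) := by
  intro p s c hc
  unfold dlt
  rw [if_neg]
  rintro rfl
  unfold Nr at h
  rw [List.isChain_append_cons_cons] at h
  rcases h.2.1 with h1 | h1
  · exact h1 rfl
  · subst h1
    rcases hc with hc | hc
    · exact hc rfl
    · exact Bool.false_ne_true hc

/-- lift of words: alternate `x₁, z` in the runs of `y`. -/
def up : Fin 3 → List (Fin 2) → List (Fin 3)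
  | _, [] => []
  | p, i :: w =>
    let c : Fin 3 := if i = 0 then 0 else if p = 1 then 2 else 1
    c :: up c w

theorem col_up (w : List (Fin 2)) : ∀ p, col (up p w) = w := by
  induction w with
  | nil => intro p; rfl
  | cons i w ih =>
    intro p
    have hi : colc (if i = 0 then 0 else if p = 1 then 2 else 1) = i := by
      by_cases h : i = 0
      · subst h; rfl
      · have h1 : i = 1 := by
          revert h; revert i; decide
        subst h1
        by_cases hp : p = 1
        · subst hp; rfl
        · simp [hp, colc]
    change colc _ :: col (up _ w) = _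
    rw [hi, ih]

theorem up_chain (w : List (Fin 2)) : ∀ p : Fin 3, Nr (p :: up p w) := by
  induction w with
  | nil => intro p; exact List.isChain_singleton _
  | cons i w ih =>
    intro p
    unfold Nr
    change List.IsChain _ (p :: (_ :: up _ w))
    rw [List.isChain_cons_cons]
    refine ⟨?_, ih _⟩
    by_cases h : i = 0
    · subst h
      simp only [if_true]
      by_cases hp : p = 0
      · exact Or.inr hp
      · exact Or.inl hp
    · simp only [h, if_false]
      by_cases hp : p = 1
      · subst hp; simp
      · simp [hp]

theorem up_head (w : List (Fin 2)) (p : Fin 3) (hp : p ≠ 1) : (up p w).head? ≠ some 2 := by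
  cases w with
  | nil => simp [up]
  | cons i w =>
    by_cases h : i = 0
    · subst h
      simp [up]
    · simp [up, h, hp]

/-- `(y²)` is killed by `b` with `b² = 0`. -/
theorem ev_J0 {B : Type*} [Ring B] [Algebra F2 B] (u v : B) (hv : v * v = 0)
    {f : C.Alg F2} (hf : f ∈ C.J0) : ev u v f = 0 := by
  refine Submodule.span_induction (p := fun f _ => ev u v f = 0) ?_ (map_zero _) ?_ ?_ hf
  · rintro _ ⟨a, c, rfl⟩
    have : ev u v (C.Y F2) = v := by simp [ev, C.Y]
    rw [map_mul, map_mul, map_pow, this, pow_two, hv, mul_zero, zero_mul]
  · intro a b _ _ ha hb; rw [map_add, ha, hb, add_zero]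
  · intro r a _ ha; rw [map_smul, ha, smul_zero]

/-- coefficient of `y^N` of a Lie element. -/
theorem cf_ones {N : ℕ} (hN : 2 ≤ N) {f : C.Alg F2} (hw : f ∈ C.wtA F2 (fun _ : Fin 2 => 1) N)
    (hL : f ∈ C.LieX F2 (Fin 2)) : cf (List.replicate N 1) f = 0 := by
  classical
  -- commutative evaluation `x ↦ 0`, `y ↦ t`
  let g : C.Alg F2 →ₐ[F2] Polynomial F2 :=
    FreeAlgebra.lift F2 (fun i : Fin 2 => if i = 0 then 0 else Polynomial.X)
  have h1 : ∀ a ∈ C.LieX F2 (Fin 2), ∃ r : F2, g a = r • Polynomial.X := by
    intro a ha
    refine LieSubalgebra.lieSpan_induction (R := F2)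
      (p := fun a _ => ∃ r : F2, g a = r • Polynomial.X) ?_ ?_ ?_ ?_ ?_ ha
    · rintro _ ⟨i, rfl⟩
      by_cases hi : i = 0
      · exact ⟨0, by simp [g, hi]⟩
      · exact ⟨1, by simp [g, hi]⟩
    · exact ⟨0, by simp⟩
    · rintro a b _ _ ⟨r, hr⟩ ⟨s, hs⟩
      exact ⟨r + s, by rw [map_add, hr, hs, add_smul]⟩
    · rintro c a _ ⟨r, hr⟩
      exact ⟨c * r, by rw [map_smul, hr, smul_smul]⟩
    · rintro a b _ _ _ _
      refine ⟨0, ?_⟩
      rw [LieRing.of_associative_ring_bracket, map_sub, map_mul, map_mul, mul_comm, sub_self,
        zero_smul]
  -- `g f = cf (y^N) f • X^N`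
  have h2 : g f = cf (List.replicate N 1) f • Polynomial.X ^ N := by
    refine Submodule.span_induction
      (p := fun f _ => g f = cf (List.replicate N 1) f • Polynomial.X ^ N) ?_ ?_ ?_ ?_ hw
    · rintro _ ⟨l, hl, rfl⟩
      have hl' : l.length = N := by simpa using hl
      change g (wd F2 l) = cf _ (wd F2 l) • _
      rw [cf_wd]
      have h3 : ∀ l : List (Fin 2), g (wd F2 l) =
          if l = List.replicate l.length 1 then Polynomial.X ^ l.length else 0 := by
        intro l
        induction l with
        | nil => simp
        | cons i l ih =>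
          rw [wd_cons, map_mul, ih]
          by_cases hi : i = 0
          · subst hi
            have h5 : ¬ ((0 : Fin 2) :: l = List.replicate (0 :: l).length 1) := by
              simp [List.replicate_succ]
            rw [if_neg h5]
            simp [g]
          · have hi1 : i = 1 := by
              revert hi; revert i; decide
            subst hi1
            simp only [List.length_cons, List.replicate_succ, List.cons.injEq, true_and]
            by_cases hl : l = List.replicate l.length 1
            · rw [if_pos hl, if_pos hl]
              simp only [g, FreeAlgebra.lift_ι_apply]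
              rw [if_neg (by decide), pow_succ']
            · rw [if_neg hl, if_neg hl, mul_zero]
      rw [h3, hl']
      by_cases h : l = List.replicate N 1
      · rw [if_pos h, if_pos h, one_smul]
      · rw [if_neg h, if_neg h, zero_smul]
    · simp
    · intro a b _ _ ha hb
      rw [map_add, ha, hb, map_add, add_smul]
    · intro r a _ ha
      rw [map_smul, ha, map_smul, smul_smul, smul_eq_mul]
  obtain ⟨r, hr⟩ := h1 f hL
  rw [h2] at hr
  have h3 := congrArg (fun q => Polynomial.coeff q N) hr
  simp only [Polynomial.coeff_smul, Polynomial.coeff_X_pow, if_true] at h3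
  rw [Polynomial.coeff_X_of_ne_one (by omega)] at h3
  simpa using h3

/-- **(U-B)** -/
theorem UB {N : ℕ} (hN : 2 ≤ N) {f : C.Alg F2} (hw : f ∈ C.wtA F2 (fun _ : Fin 2 => 1) N)
    (hL : f ∈ C.LieX F2 (Fin 2))
    (hP : U.PentOp (x false 0) (x false 1) (z false) (e false 0) (e false 1) f)
    (hJ : f ∈ C.J0) : f = 0 := by
  unfold U.PentOp at hP
  rw [ev_J0 _ _ e1_sq hJ, ev_J0 _ _ e1_sq hJ, ev_J0 _ _ z_sq hJ, add_zero, add_zero,
    zero_add] at hP
  -- T1 commutes with z
  have hz : ∀ i, Commute (z false) (x false i + e false i) := by
    intro i
    have h := e_z (b := false) i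
    have h2 : z false * (x false i + e false i) + (x false i + e false i) * z false = 0 := by
      calc z false * (x false i + e false i) + (x false i + e false i) * z false
          = (e false i * z false + z false * e false i)
            + (x false i * z false + z false * x false i) := by noncomm_ring
        _ = 0 := by rw [h, dblA]
    have h3 := congrArg (· + (x false i + e false i) * z false) h2
    simp only [add_assoc, dblA, add_zero, zero_add] at h3
    exact h3
  have hcomm : Commute (z false) (evT1 false f) := by
    rw [hP]
    refine FreeAlgebra.induction (R := F2) (X := Fin 2)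
      (motive := fun f => Commute (z false) (ev (x false 0 + e false 0) (x false 1 + e false 1) f))
      ?_ ?_ ?_ ?_ f
    · intro r
      rw [AlgHom.commutes]
      exact (Algebra.commutes r (z false)).symm
    · intro i
      unfold ev
      rw [FreeAlgebra.lift_ι_apply]
      split_ifs
      · exact hz 0
      · exact hz 1
    · intro a b ha hb
      rw [map_mul]
      exact ha.mul_right hb
    · intro a b ha hb
      rw [map_add]
      exact ha.add_right hb
  -- coefficients
  have hv : ∀ v : List (Fin 3), Nr (2 :: v) → v ≠ [] → v.getLast? ≠ some 2 → cf (col v) f = 0 := by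
    intro v h1 h2 h3
    let d : W false := ⟨dlt (2 :: v), dlt_mem' h1⟩
    have e1 : (act (z false * evT1 false f) d).1 [] = cf (col v) f := by
      rw [act_mul]
      refine T1_nil f v _ ?_
      funext u
      change dlt (2 :: v) (2 :: u) = _
      rw [dlt_cons, if_pos rfl]
    have e2 : (act (evT1 false f * z false) d).1 [] = 0 := by
      rw [act_mul]
      change (act (evT1 false f) d).1 [2] = 0
      refine T1_z f (2 :: v) d rfl ?_
      cases v with
      | nil => exact absurd rfl h2
      | cons c v => rwa [List.getLast?_cons_cons]
    rw [← e1, hcomm.eq, e2]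
  apply ext_cf
  intro w
  rw [map_zero]
  by_cases hlen : w.length = N
  · by_cases h0 : (0 : Fin 2) ∈ w
    · obtain ⟨u, s, rfl⟩ := List.append_of_mem h0
      have hc : col (up 2 u ++ 0 :: (up 2 s.reverse).reverse) = u ++ 0 :: s := by
        unfold col
        rw [List.map_append, List.map_cons, List.map_reverse]
        change col (up 2 u) ++ colc 0 :: (col (up 2 s.reverse)).reverse = _
        rw [col_up, col_up, List.reverse_reverse]
        rfl
      rw [← hc]
      apply hv
      · -- chain
        have k1 : Nr (2 :: up 2 u) := up_chain u 2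
        have k2 : List.IsChain (fun a b : Fin 3 => a ≠ b ∨ a = 0) (up 2 s.reverse).reverse := by
          rw [List.isChain_reverse]
          have k4 := up_chain s.reverse 2
          unfold Nr at k4
          refine List.IsChain.imp ?_ (List.isChain_cons.mp k4).2
          rintro a b (h | h)
          · exact Or.inl (Ne.symm h)
          · by_cases hb : b = 0
            · exact Or.inr hb
            · left
              rw [h]
              exact hb
        unfold Nr at k1 ⊢
        change List.IsChain _ ((2 :: up 2 u) ++ 0 :: _)
        rw [List.isChain_append]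
        refine ⟨k1, ?_, ?_⟩
        · rw [List.isChain_cons]
          exact ⟨fun y _ => Or.inr rfl, k2⟩
        · intro a _ y hy
          simp only [List.head?_cons, Option.mem_def, Option.some.injEq] at hy
          subst hy
          by_cases ha : a = 0
          · exact Or.inr ha
          · exact Or.inl ha
      · simp
      · intro h
        rw [List.getLast?_append] at h
        cases hR : (up 2 s.reverse) with
        | nil =>
          rw [hR] at h
          simp at h
        | cons c R =>
          have h1 := up_head s.reverse 2 (by decide)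
          rw [hR] at h h1
          apply h1
          rw [List.reverse_cons] at h
          have h6 : (0 :: (R.reverse ++ [c])).getLast? = some c := by
            rw [← List.cons_append, List.getLast?_append]
            simp
          rw [h6] at h
          simpa using h
    · have : w = List.replicate N 1 := by
        rw [List.eq_replicate_iff]
        refine ⟨hlen, ?_⟩
        intro i hi
        by_contra hne
        apply h0
        have : i = 0 := by
          clear hi
          revert hne; revert i; decide
        rwa [this] at hi
      rw [this]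
      exact cf_ones hN hw hL
  · exact cf_zero_of_wt hw hlen

end Crest.Agent.R010.V

end
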