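import Crest.Agent.R010.XMod

/-!
Row 10 (S0011), upper bound (U), Step B (module `N_B`, note 8505 section 4).
-/

set_option autoImplicit false

noncomputable section

namespace Crest.Agent.R010.XU.SB

open Crest.Agent.R010.C Crest.Agent.R010.XU

attribute [local instance 100] LieRing.ofAssociativeRing

abbrev c : B5 := io L5.c
abbrev e0 : B5 := io L5.e0
abbrev e1 : B5 := io L5.e1
abbrev f0 : B5 := io L5.f0
abbrev f1 : B5 := io L5.f1

/-- `D₀` -/
def d0 : L5 → B5
  | .c => f0 + f1
  | .e0 => 0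
  | .e1 => 0
  | .f0 => (c + e1) * e0 + e0 * (c + e1)
  | .f1 => 0

/-- `D₁` -/
def d1 : L5 → B5
  | .c => f1
  | .e0 => f0
  | .e1 => 0
  | .f0 => e0 * e1 + e1 * e0
  | .f1 => c * e1 + e1 * c

def La : Module.End F2 (N4 L5) := mk4 (lm e0 pr1 + lm f0 pr3) pr0 (lm e0 pr3) pr2
def Lb : Module.End F2 (N4 L5) := mk4 (lm c pr1) 0 (pr0 + lm c pr3) pr1
def Lz : Module.End F2 (N4 L5) := mk4 (lm e1 pr2 + lm f1 pr3) (lm e1 pr3) 0 0
def E0 : Module.End F2 (N4 L5) :=
  mk4 (dm d0 pr0 + lm (c + e1) pr2) (dm d0 pr1 + lm (c + e1) pr3) (dm d0 pr2) (dm d0 pr3)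
def E1 : Module.End F2 (N4 L5) :=
  mk4 (dm d1 pr0 + lm c pr1 + lm f1 pr3) (dm d1 pr1) (dm d1 pr2 + lm c pr3) (dm d1 pr3)

theorem d0c : der F2 d0 c = f0 + f1 := by simp [c, io, d0]
theorem d0e0 : der F2 d0 e0 = 0 := by simp [e0, io, d0]
theorem d0e1 : der F2 d0 e1 = 0 := by simp [e1, io, d0]
theorem d0f0 : der F2 d0 f0 = (c + e1) * e0 + e0 * (c + e1) := by simp [f0, io, d0]
theorem d0f1 : der F2 d0 f1 = 0 := by simp [f1, io, d0]
theorem d1c : der F2 d1 c = f1 := by simp [c, io, d1]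
theorem d1e0 : der F2 d1 e0 = f0 := by simp [e0, io, d1]
theorem d1e1 : der F2 d1 e1 = 0 := by simp [e1, io, d1]
theorem d1f0 : der F2 d1 f0 = e0 * e1 + e1 * e0 := by simp [f0, io, d1]
theorem d1f1 : der F2 d1 f1 = c * e1 + e1 * c := by simp [f1, io, d1]

/-- evaluation of operator identities on `N4`. -/
macro "opext" : tactic => `(tactic| (
  apply LinearMap.ext
  rintro ⟨w0, w1, w2, w3⟩
  simp only [E0, E1, La, Lb, Lz, Module.End.mul_apply, LinearMap.sub_apply, LinearMap.add_apply,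
    LinearMap.zero_apply, mk4_apply, pr0_apply, pr1_apply, pr2_apply, pr3_apply, lm_apply,
    dm_apply, der_mul, map_add, map_zero, d0c, d0e0, d0e1, d0f0, d0f1, d1c, d1e0, d1e1, d1f0,
    d1f1, Prod.mk_add_mk, Prod.mk_sub_mk]
  refine Prod.ext ?_ (Prod.ext ?_ (Prod.ext ?_ ?_))
  all_goals simp only [Prod.fst_zero, Prod.snd_zero]
  all_goals grind))

theorem h0a : E0 * La - La * E0 = 0 := by opext
theorem h0z : E0 * Lz - Lz * E0 = 0 := by opext
theorem h0b : E0 * Lb - Lb * E0 = (La + Lz) * Lb - Lb * (La + Lz) := by opext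
theorem h1b : E1 * Lb - Lb * E1 = 0 := by opext
theorem h1z : E1 * Lz - Lz * E1 = 0 := by opext
theorem h1a : E1 * La - La * E1 = (Lb + Lz) * La - La * (Lb + Lz) := by opext

theorem h0v : E0 (inc 1) = 0 := by
  simp [E0, inc]
theorem h1v : E1 (inc 1) = 0 := by
  simp [E1, inc]

/-- `X = D₀ - L_a`, `Y = D₁ - L_{b+z}`. -/
def Xo : Module.End F2 (N4 L5) := E0 - La
def Yo : Module.End F2 (N4 L5) := E1 - (Lb + Lz)

theorem Xo_apply (w0 w1 w2 w3 : B5) : Xo (w0, w1, w2, w3) =
    (e0 * w1 + f0 * w3 + der F2 d0 w0 + (c + e1) * w2, w0 + der F2 d0 w1 + (c + e1) * w3,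
      e0 * w3 + der F2 d0 w2, w2 + der F2 d0 w3) := by
  simp only [Xo, E0, La, LinearMap.sub_apply, LinearMap.add_apply,
    mk4_apply, pr0_apply, pr1_apply, pr2_apply, pr3_apply, lm_apply,
    dm_apply, Prod.mk_sub_mk]
  refine Prod.ext ?_ (Prod.ext ?_ (Prod.ext ?_ ?_)) <;> simp only [] <;> grind

theorem Yo_apply (w0 w1 w2 w3 : B5) : Yo (w0, w1, w2, w3) =
    (der F2 d1 w0 + e1 * w2, der F2 d1 w1 + e1 * w3, w0 + der F2 d1 w2, w1 + der F2 d1 w3) := by
  simp only [Yo, E1, Lb, Lz, LinearMap.sub_apply, LinearMap.add_apply,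
    LinearMap.zero_apply, mk4_apply, pr0_apply, pr1_apply, pr2_apply, pr3_apply, lm_apply,
    dm_apply, Prod.mk_sub_mk, Prod.mk_add_mk]
  refine Prod.ext ?_ (Prod.ext ?_ (Prod.ext ?_ ?_)) <;> simp only [] <;> grind

/-- `D₁² = ad e1` -/
theorem d11 (w : B5) : der F2 d1 (der F2 d1 w) = e1 * w + w * e1 := by
  rw [der_sq d1 (fun l => e1 * io l + io l * e1), der_inner]
  intro l
  cases l
  · change der F2 d1 f1 = _
    rw [d1f1]; grind
  · change der F2 d1 f0 = _
    rw [d1f0]; grind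
  · change der F2 d1 0 = _
    rw [map_zero]; grind
  · change der F2 d1 (e0 * e1 + e1 * e0) = _
    simp only [map_add, der_mul, d1e0, d1e1]; grind
  · change der F2 d1 (c * e1 + e1 * c) = _
    simp only [map_add, der_mul, d1c, d1e1]; grind

/-- the operators of the five letters on the first component, pair `(X, Y)`. -/
def τXY : L5 → Module.End F2 B5
  | .c => LinearMap.mulLeft F2 (c + e1) + (der F2 d0 * der F2 d1 + der F2 d1 * der F2 d0)
  | .e0 => LinearMap.mulLeft F2 e0 + der F2 d0 * der F2 d0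
  | .e1 => LinearMap.mulRight F2 e1
  | .f0 => LinearMap.mulLeft F2 (f0 + f1)
      + (der F2 d1 * (der F2 d0 * der F2 d0) + (der F2 d0 * der F2 d0) * der F2 d1)
  | .f1 => 0

theorem hXY (l : L5) (w : B5) : five Xo Yo l (inc w) = inc (τXY l w) := by
  cases l
  all_goals
    simp only [five, τXY, inc, Module.End.mul_apply, LinearMap.add_apply, Xo_apply, Yo_apply,
      LinearMap.mulLeft_apply, LinearMap.mulRight_apply, LinearMap.zero_apply, map_add, map_zero,
      der_mul, d0c, d0e1, d1e0, Prod.mk_add_mk, mul_zero, add_zero, zero_add, d11]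
    refine Prod.ext ?_ (Prod.ext ?_ (Prod.ext ?_ ?_)) <;> simp only [] <;> grind

/-- pair `(L_a, L_{b+z})`: the identity -/
def τab : L5 → Module.End F2 B5 := fun l => LinearMap.mulLeft F2 (io l)

theorem hab (l : L5) (w : B5) : five La (Lb + Lz) l (inc w) = inc (τab l w) := by
  cases l
  all_goals
    simp only [five, τab, inc, La, Lb, Lz, Module.End.mul_apply, LinearMap.add_apply,
      LinearMap.mulLeft_apply, LinearMap.zero_apply, mk4_apply, pr0_apply, pr1_apply,
      pr2_apply, pr3_apply, lm_apply, Prod.mk_add_mk, mul_zero, add_zero, zero_add]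
    try (refine Prod.ext ?_ (Prod.ext ?_ (Prod.ext ?_ ?_)) <;> simp only [] <;> grind)

/-- pair `(L_a, L_z)` -/
def τaz : L5 → Module.End F2 B5
  | .e0 => LinearMap.mulLeft F2 e0
  | _ => 0

theorem haz (l : L5) (w : B5) : five La Lz l (inc w) = inc (τaz l w) := by
  cases l
  all_goals
    simp only [five, τaz, inc, La, Lz, Module.End.mul_apply, LinearMap.add_apply,
      LinearMap.mulLeft_apply, LinearMap.zero_apply, mk4_apply, pr0_apply, pr1_apply,
      pr2_apply, pr3_apply, lm_apply, Prod.mk_add_mk, mul_zero, add_zero, zero_add]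
    try (refine Prod.ext ?_ (Prod.ext ?_ (Prod.ext ?_ ?_)) <;> simp only [] <;> grind)

/-- pair `(L_z, Y)` -/
def τzy : L5 → Module.End F2 B5
  | .c => LinearMap.mulLeft F2 e1
  | .e1 => LinearMap.mulRight F2 e1
  | _ => 0

theorem hzy (l : L5) (w : B5) : five Lz Yo l (inc w) = inc (τzy l w) := by
  cases l
  all_goals
    simp only [five, τzy, inc, Lz, Yo_apply, Module.End.mul_apply, LinearMap.add_apply,
      LinearMap.mulLeft_apply, LinearMap.mulRight_apply,
      LinearMap.zero_apply, map_zero, mk4_apply, pr1_apply, pr2_apply,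
      pr3_apply, lm_apply, Prod.mk_add_mk, mul_zero, add_zero, zero_add, d11]
    try (refine Prod.ext ?_ (Prod.ext ?_ (Prod.ext ?_ ?_)) <;> simp only [] <;> grind)

/-- `κ` as an endomorphism of `B5`: kill `e1`, `f1`. -/
def aκB : L5 → B5
  | .c => c
  | .e0 => e0
  | .e1 => 0
  | .f0 => f0
  | .f1 => 0

/-- `τXY` without the letter `e1`. -/
def τ' : L5 → Module.End F2 B5
  | .e1 => 0
  | l => τXY l

theorem lift_τ' (P : B5) :
    FreeAlgebra.lift F2 τ' P = FreeAlgebra.lift F2 τXY (FreeAlgebra.lift F2 aκB P) := by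
  have h : FreeAlgebra.lift F2 τ'
      = (FreeAlgebra.lift F2 τXY).comp (FreeAlgebra.lift F2 aκB) := by
    apply FreeAlgebra.hom_ext
    funext l
    cases l <;> simp [τ', aκB, c, e0, f0, io, τXY]
  rw [h, AlgHom.comp_apply]

theorem τXY_W (P : B5) (hP : P ∈ W) :
    FreeAlgebra.lift F2 τXY P = FreeAlgebra.lift F2 τ' P := by
  apply central_W _ _ _ _ _ _ P hP
  · intro l m
    simp only [io, FreeAlgebra.lift_ι_apply]
    cases l <;> cases m <;>
      (apply LinearMap.ext
       intro w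
       simp only [τXY, τ', Module.End.mul_apply, LinearMap.sub_apply, LinearMap.add_apply,
        LinearMap.mulLeft_apply, LinearMap.mulRight_apply, LinearMap.zero_apply, der_mul, map_add,
        map_zero, d0e1, d1e1, mul_zero, add_zero, sub_zero, sub_self]
       try grind)
  · intro l m
    simp only [io, FreeAlgebra.lift_ι_apply]
    cases l <;> cases m <;>
      (apply LinearMap.ext
       intro w
       simp only [τXY, τ', Module.End.mul_apply, LinearMap.sub_apply, LinearMap.add_apply,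
        LinearMap.mulLeft_apply, LinearMap.mulRight_apply, LinearMap.zero_apply, der_mul, map_add,
        map_zero, d0e1, d1e1, mul_zero, add_zero, sub_zero, sub_self]
       try grind)
  · simp [io, τXY, τ']
  · simp [io, τXY, τ']

theorem lift_mulLeft' {T S : Type*} (a : T → FreeAlgebra F2 S) (P : FreeAlgebra F2 T)
    (w : FreeAlgebra F2 S) :
    FreeAlgebra.lift F2 (fun l => LinearMap.mulLeft F2 (a l)) P w = FreeAlgebra.lift F2 a P * w := by
  induction P using FreeAlgebra.induction generalizing w with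
  | grade0 r =>
    rw [AlgHom.commutes, AlgHom.commutes, Module.algebraMap_end_apply, Algebra.smul_def]
  | grade1 l => simp
  | mul p q hp hq => rw [map_mul, map_mul, Module.End.mul_apply, hq, hp, mul_assoc]
  | add p q hp hq => rw [map_add, map_add, LinearMap.add_apply, hp, hq, add_mul]

theorem τab_eval (P : B5) : FreeAlgebra.lift F2 τab P 1 = P := by
  have h : FreeAlgebra.lift F2 (io : L5 → B5) = AlgHom.id F2 B5 := by
    apply FreeAlgebra.hom_ext
    funext l
    simp [io]
  change FreeAlgebra.lift F2 (fun l => LinearMap.mulLeft F2 (io l : B5)) P 1 = P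
  rw [lift_mulLeft', mul_one, h, AlgHom.id_apply]

theorem τaz_W (P : B5) (hP : P ∈ W) : FreeAlgebra.lift F2 τaz P 1 = 0 := by
  have h : FreeAlgebra.lift F2 τaz P = 0 := by
    apply W_of_commute _ _ _ _ P hP
    · intro l m
      simp only [io, FreeAlgebra.lift_ι_apply]
      cases l <;> cases m <;> simp [τaz]
    · simp [io, τaz]
    · simp [io, τaz]
  rw [h, LinearMap.zero_apply]

theorem τzy_W (P : B5) (hP : P ∈ W) : FreeAlgebra.lift F2 τzy P 1 = 0 := by
  have h : FreeAlgebra.lift F2 τzy P = 0 := by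
    apply W_of_commute _ _ _ _ P hP
    · intro l m
      simp only [io, FreeAlgebra.lift_ι_apply]
      cases l <;> cases m <;>
        (apply LinearMap.ext
         intro w
         simp only [τzy, Module.End.mul_apply, LinearMap.mulLeft_apply,
          LinearMap.mulRight_apply, LinearMap.zero_apply, mul_zero, zero_mul]
         try grind)
    · simp [io, τzy]
    · simp [io, τzy]
  rw [h, LinearMap.zero_apply]

/-- **Step B**: `P` is determined by `κ P`. -/
theorem stepB0 (P : B5) (hP : P ∈ W) (h : FibrePent2 F2 (jmap P)) :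
    P = FreeAlgebra.lift F2 τXY (FreeAlgebra.lift F2 aκB P) 1 := by
  have t := transfer La Lb Lz E0 E1 (inc 1) h0a h0z h0b h1b h1z h1a h0v h1v (jmap P) h
  rw [ev2_jmap, ev2_jmap, ev2_jmap, ev2_jmap] at t
  change ev5 La (Lb + Lz) P (inc 1) + ev5 Xo Yo P (inc 1)
    = ev5 Lz Yo P (inc 1) + ev5 La Lz P (inc 1) at t
  rw [ev5_inc _ _ τab hab, ev5_inc _ _ τXY hXY, ev5_inc _ _ τzy hzy, ev5_inc _ _ τaz haz,
    τXY_W P hP, lift_τ', τab_eval, τaz_W P hP, τzy_W P hP, inc_zero, add_zero, ← inc_add] at t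
  exact CharTwo.add_eq_zero.mp (inc_inj (t.trans inc_zero.symm))

/-- **Step B**: if `κ P = 0` then `P = 0`. -/
theorem stepB (P : B5) (hP : P ∈ W) (h : FibrePent2 F2 (jmap P))
    (hκ : FreeAlgebra.lift F2 aκB P = 0) : P = 0 := by
  rw [stepB0 P hP h, hκ, map_zero, LinearMap.zero_apply]

end Crest.Agent.R010.XU.SB
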