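import Crest.Agent.R010.XMod

/-!
Row 10 (S0011), upper bound (U), Step C (module `N_C`, note 8505 section 3).
-/

set_option autoImplicit false

noncomputable section

namespace Crest.Agent.R010.XU.SC

open Crest.Agent.R010.C Crest.Agent.R010.XU

attribute [local instance 100] LieRing.ofAssociativeRing

/-- letters of `C = F2<c,u,v>` -/
inductive LC | c | u | v
  deriving DecidableEq

abbrev CC : Type := FreeAlgebra F2 LC

abbrev c : CC := io LC.c
abbrev u : CC := io LC.u
abbrev v : CC := io LC.v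

/-- `D₀ : c ↦ v, u ↦ 0, v ↦ [c,u]` -/
def d0 : LC → CC
  | .c => v
  | .u => 0
  | .v => c * u + u * c

/-- `D₁ : c ↦ v, u ↦ 0, v ↦ 0` -/
def d1 : LC → CC
  | .c => v
  | .u => 0
  | .v => 0

def La : Module.End F2 (N4 LC) := mk4 0 pr0 0 pr2
def Lb : Module.End F2 (N4 LC) := mk4 (lm c pr1) 0 (pr0 + lm c pr3) pr1
def Lz : Module.End F2 (N4 LC) := mk4 (lm u pr1 + lm v pr3) 0 (lm u pr3) 0
def E0 : Module.End F2 (N4 LC) := mk4 (dm d0 pr0 + lm c pr2) (dm d0 pr1 + lm c pr3) (dm d0 pr2) (dm d0 pr3)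
def E1 : Module.End F2 (N4 LC) :=
  mk4 (dm d1 pr0 + lm (c + u) pr1 + lm v pr3) (dm d1 pr1) (dm d1 pr2 + lm (c + u) pr3) (dm d1 pr3)

theorem d0c : der F2 d0 c = v := by simp [c, io, d0]
theorem d0u : der F2 d0 u = 0 := by simp [u, io, d0]
theorem d0v : der F2 d0 v = c * u + u * c := by simp [v, io, d0]
theorem d1c : der F2 d1 c = v := by simp [c, io, d1]
theorem d1u : der F2 d1 u = 0 := by simp [u, io, d1]
theorem d1v : der F2 d1 v = 0 := by simp [v, io, d1]

/-- evaluation of operator identities on `N4`. -/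
macro "opext" : tactic => `(tactic| (
  apply LinearMap.ext
  rintro ⟨w0, w1, w2, w3⟩
  simp only [E0, E1, La, Lb, Lz, Module.End.mul_apply, LinearMap.sub_apply, LinearMap.add_apply,
    LinearMap.zero_apply, mk4_apply, pr0_apply, pr1_apply, pr2_apply, pr3_apply, lm_apply,
    dm_apply, der_mul, map_add, map_zero, d0c, d0u, d0v, d1c, d1u, d1v, Prod.mk_add_mk, Prod.mk_sub_mk]
  refine Prod.ext ?_ (Prod.ext ?_ (Prod.ext ?_ ?_))
  all_goals simp only [Prod.fst_zero, Prod.snd_zero]
  all_goals grind))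

theorem h0a : E0 * La - La * E0 = 0 := by opext
theorem h0z : E0 * Lz - Lz * E0 = 0 := by opext
theorem h0b : E0 * Lb - Lb * E0 = (La + Lz) * Lb - Lb * (La + Lz) := by opext
theorem h1b : E1 * Lb - Lb * E1 = 0 := by opext
theorem h1z : E1 * Lz - Lz * E1 = 0 := by opext
theorem h1a : E1 * La - La * E1 = (Lb + Lz) * La - La * (Lb + Lz) := by opext

theorem h0v : E0 (inc 1) = 0 := by
  simp [E0, inc]
theorem h1v : E1 (inc 1) = 0 := by
  simp [E1, inc]

/-- `X = D₀ - L_a`, `Y = D₁ - L_{b+z}`. -/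
def Xo : Module.End F2 (N4 LC) := E0 - La
def Yo : Module.End F2 (N4 LC) := E1 - (Lb + Lz)

theorem Xo_apply (w0 w1 w2 w3 : CC) : Xo (w0, w1, w2, w3) =
    (der F2 d0 w0 + c * w2, w0 + der F2 d0 w1 + c * w3, der F2 d0 w2, w2 + der F2 d0 w3) := by
  simp only [Xo, E0, La, LinearMap.sub_apply, LinearMap.add_apply,
    LinearMap.zero_apply, mk4_apply, pr0_apply, pr1_apply, pr2_apply, pr3_apply, lm_apply,
    dm_apply, Prod.mk_sub_mk]
  refine Prod.ext ?_ (Prod.ext ?_ (Prod.ext ?_ ?_)) <;> simp only [] <;> grind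

theorem Yo_apply (w0 w1 w2 w3 : CC) : Yo (w0, w1, w2, w3) =
    (der F2 d1 w0, der F2 d1 w1, w0 + der F2 d1 w2, w1 + der F2 d1 w3) := by
  simp only [Yo, E1, Lb, Lz, LinearMap.sub_apply, LinearMap.add_apply,
    LinearMap.zero_apply, mk4_apply, pr0_apply, pr1_apply, pr2_apply, pr3_apply, lm_apply,
    dm_apply, Prod.mk_sub_mk, Prod.mk_add_mk]
  refine Prod.ext ?_ (Prod.ext ?_ (Prod.ext ?_ ?_)) <;> simp only [] <;> grind

theorem d00 (w : CC) : der F2 d0 (der F2 d0 w) = u * w + w * u := by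
  rw [der_sq d0 (fun l => u * io l + io l * u), der_inner]
  intro l
  cases l
  · change der F2 d0 v = _
    rw [d0v]; grind
  · change der F2 d0 0 = _
    rw [map_zero]; grind
  · change der F2 d0 (c * u + u * c) = _
    simp only [map_add, der_mul, d0c, d0u]; grind

theorem d11 (w : CC) : der F2 d1 (der F2 d1 w) = 0 := by
  rw [der_sq d1 (fun l => 0), der_zero]
  intro l
  cases l
  · exact d1v
  · exact map_zero _
  · exact map_zero _

theorem d01 (w : CC) : der F2 d0 (der F2 d1 w) + der F2 d1 (der F2 d0 w) = u * w + w * u := by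
  rw [der_comm d0 d1 (fun l => u * io l + io l * u), der_inner]
  intro l
  cases l
  · change der F2 d0 v + der F2 d1 v = _
    rw [d0v, d1v]; grind
  · change der F2 d0 0 + der F2 d1 0 = _
    rw [map_zero, map_zero]; grind
  · change der F2 d0 0 + der F2 d1 (c * u + u * c) = _
    simp only [map_add, map_zero, der_mul, d1c, d1u]; grind

/-- the operators of the five letters on the first component, pair `(X, Y)`. -/
def τXY : L5 → Module.End F2 CC
  | .c => LinearMap.mulLeft F2 (c + u) + LinearMap.mulRight F2 u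
  | .e0 => LinearMap.mulLeft F2 u + LinearMap.mulRight F2 u
  | .e1 => 0
  | .f0 => LinearMap.mulLeft F2 v
  | .f1 => 0

theorem hXY (l : L5) (w : CC) : five Xo Yo l (inc w) = inc (τXY l w) := by
  cases l
  case c =>
    have h01 := d01 w
    simp only [five, τXY, inc, Module.End.mul_apply, LinearMap.add_apply, Xo_apply, Yo_apply,
      LinearMap.mulLeft_apply, LinearMap.mulRight_apply, map_zero, Prod.mk_add_mk, mul_zero,
      add_zero]
    refine Prod.ext ?_ (Prod.ext ?_ (Prod.ext ?_ ?_)) <;> simp only []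
    · linear_combination (norm := grind) h01
    all_goals grind
  all_goals
    simp only [five, τXY, inc, Module.End.mul_apply, LinearMap.add_apply, Xo_apply, Yo_apply,
      LinearMap.mulLeft_apply, LinearMap.mulRight_apply, LinearMap.zero_apply, map_add, map_zero,
      der_mul, d0c, d1u, Prod.mk_add_mk, mul_zero, add_zero,
      zero_add, d00, d11]
    refine Prod.ext ?_ (Prod.ext ?_ (Prod.ext ?_ ?_)) <;> simp only [] <;> grind

/-- pair `(L_a, L_{b+z})` -/
def τab : L5 → Module.End F2 CC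
  | .c => LinearMap.mulLeft F2 (c + u)
  | .e0 => 0
  | .e1 => 0
  | .f0 => 0
  | .f1 => LinearMap.mulLeft F2 v

theorem hab (l : L5) (w : CC) : five La (Lb + Lz) l (inc w) = inc (τab l w) := by
  cases l
  all_goals
    simp only [five, τab, inc, La, Lb, Lz, Module.End.mul_apply, LinearMap.add_apply,
      LinearMap.mulLeft_apply, LinearMap.zero_apply, mk4_apply, pr0_apply, pr1_apply,
      pr2_apply, pr3_apply, lm_apply, Prod.mk_add_mk, mul_zero, add_zero, zero_add]
    try (refine Prod.ext ?_ (Prod.ext ?_ (Prod.ext ?_ ?_)) <;> simp only [] <;> grind)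

/-- pair `(L_a, L_z)` -/
def τaz : L5 → Module.End F2 CC
  | .c => LinearMap.mulLeft F2 u
  | _ => 0

theorem haz (l : L5) (w : CC) : five La Lz l (inc w) = inc (τaz l w) := by
  cases l
  all_goals
    simp only [five, τaz, inc, La, Lz, Module.End.mul_apply, LinearMap.add_apply,
      LinearMap.mulLeft_apply, LinearMap.zero_apply, mk4_apply, pr0_apply, pr1_apply,
      pr2_apply, pr3_apply, lm_apply, Prod.mk_add_mk, mul_zero, add_zero, zero_add]

/-- pair `(L_z, Y)` -/
def τzy : L5 → Module.End F2 CC := fun _ => 0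

theorem hzy (l : L5) (w : CC) : five Lz Yo l (inc w) = inc (τzy l w) := by
  cases l
  all_goals
    simp only [five, τzy, inc, Lz, Yo_apply, Module.End.mul_apply, LinearMap.add_apply,
      LinearMap.zero_apply, map_zero, mk4_apply, pr1_apply,
      pr3_apply, lm_apply, Prod.mk_add_mk, mul_zero, add_zero, d11]
    try (refine Prod.ext ?_ (Prod.ext ?_ (Prod.ext ?_ ?_)) <;> simp only [] <;> grind)

/-- values of the letters, left hand side -/
def aXY : L5 → CC
  | .c => c + u
  | .e0 => u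
  | .e1 => 0
  | .f0 => v
  | .f1 => 0

/-- values of the letters, right hand side -/
def aab : L5 → CC
  | .c => c + u
  | .e0 => 0
  | .e1 => 0
  | .f0 => 0
  | .f1 => v

theorem lift_mulLeft {T S : Type*} (a : T → FreeAlgebra F2 S) (P : FreeAlgebra F2 T)
    (w : FreeAlgebra F2 S) :
    FreeAlgebra.lift F2 (fun l => LinearMap.mulLeft F2 (a l)) P w = FreeAlgebra.lift F2 a P * w := by
  induction P using FreeAlgebra.induction generalizing w with
  | grade0 r =>
    rw [AlgHom.commutes, AlgHom.commutes, Module.algebraMap_end_apply, Algebra.smul_def]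
  | grade1 l => simp
  | mul p q hp hq => rw [map_mul, map_mul, Module.End.mul_apply, hq, hp, mul_assoc]
  | add p q hp hq => rw [map_add, map_add, LinearMap.add_apply, hp, hq, add_mul]

theorem τXY_W (P : B5) (hP : P ∈ W) :
    FreeAlgebra.lift F2 τXY P 1 = FreeAlgebra.lift F2 aXY P := by
  have h : FreeAlgebra.lift F2 τXY P
      = FreeAlgebra.lift F2 (fun l => LinearMap.mulLeft F2 (aXY l)) P := by
    apply central_W _ _ _ _ _ _ P hP
    · intro l m
      simp only [io, FreeAlgebra.lift_ι_apply]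
      cases l <;> cases m <;> (apply LinearMap.ext; intro w; simp only [τXY, aXY, Module.End.mul_apply, LinearMap.sub_apply, LinearMap.add_apply, LinearMap.mulLeft_apply, LinearMap.mulRight_apply, LinearMap.zero_apply]; grind)
    · intro l m
      simp only [io, FreeAlgebra.lift_ι_apply]
      cases l <;> cases m <;> (apply LinearMap.ext; intro w; simp only [τXY, aXY, Module.End.mul_apply, LinearMap.sub_apply, LinearMap.add_apply, LinearMap.mulLeft_apply, LinearMap.mulRight_apply, LinearMap.zero_apply]; grind)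
    · simp [io, τXY, aXY]
    · simp [io, τXY, aXY]
  rw [h, lift_mulLeft, mul_one]

theorem τab_eval (P : B5) :
    FreeAlgebra.lift F2 τab P 1 = FreeAlgebra.lift F2 aab P := by
  have h : τab = (fun l => LinearMap.mulLeft F2 (aab l)) := by
    funext l
    cases l <;> simp [τab, aab]
  rw [h, lift_mulLeft, mul_one]

theorem τaz_W (P : B5) (hP : P ∈ W) : FreeAlgebra.lift F2 τaz P 1 = 0 := by
  have h : FreeAlgebra.lift F2 τaz P = 0 := by
    apply W_of_commute _ _ _ _ P hP
    · intro l m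
      simp only [io, FreeAlgebra.lift_ι_apply]
      cases l <;> cases m <;> simp [τaz]
    · simp [io, τaz]
    · simp [io, τaz]
  rw [h, LinearMap.zero_apply]

theorem τzy_W (P : B5) (hP : P ∈ W) : FreeAlgebra.lift F2 τzy P 1 = 0 := by
  have h : FreeAlgebra.lift F2 τzy P = 0 := lift_zero_W P hP
  rw [h, LinearMap.zero_apply]

/-- Step C, first form. -/
theorem stepC0 (P : B5) (hP : P ∈ W) (h : FibrePent2 F2 (jmap P)) :
    FreeAlgebra.lift F2 aXY P = FreeAlgebra.lift F2 aab P := by
  have t := transfer La Lb Lz E0 E1 (inc 1) h0a h0z h0b h1b h1z h1a h0v h1v (jmap P) h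
  rw [ev2_jmap, ev2_jmap, ev2_jmap, ev2_jmap] at t
  change ev5 La (Lb + Lz) P (inc 1) + ev5 Xo Yo P (inc 1)
    = ev5 Lz Yo P (inc 1) + ev5 La Lz P (inc 1) at t
  rw [ev5_inc _ _ τab hab, ev5_inc _ _ τXY hXY, ev5_inc _ _ τzy hzy, ev5_inc _ _ τaz haz,
    τXY_W P hP, τab_eval, τaz_W P hP, τzy_W P hP, inc_zero, add_zero, ← inc_add] at t
  have t' := inc_inj (t.trans inc_zero.symm)
  exact (CharTwo.add_eq_zero.mp t').symm

/-- the values for `κ` -/
def aκ : L5 → CC
  | .c => c
  | .e0 => u
  | .e1 => 0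
  | .f0 => v
  | .f1 => 0

/-- the values for `κ'` -/
def aκ' : L5 → CC
  | .c => c
  | .e0 => 0
  | .e1 => 0
  | .f0 => 0
  | .f1 => v

/-- **Step C**: `P(c, e0, 0, f0, 0) = P(c, 0, 0, 0, f0)`. -/
theorem stepC (P : B5) (hP : P ∈ W) (h : FibrePent2 F2 (jmap P)) :
    FreeAlgebra.lift F2 aκ P = FreeAlgebra.lift F2 aκ' P := by
  set θ : CC →ₐ[F2] CC := FreeAlgebra.lift F2 (fun l => match l with
    | .c => c + u
    | .u => u
    | .v => v) with hθ
  have h1 : θ.comp (FreeAlgebra.lift F2 aXY) = FreeAlgebra.lift F2 aκ := by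
    apply FreeAlgebra.hom_ext
    funext l
    cases l <;> simp [hθ, aXY, aκ, c, u, v, io] <;> grind
  have h2 : θ.comp (FreeAlgebra.lift F2 aab) = FreeAlgebra.lift F2 aκ' := by
    apply FreeAlgebra.hom_ext
    funext l
    cases l <;> simp [hθ, aab, aκ', c, u, v, io] <;> grind
  rw [← h1, ← h2, AlgHom.comp_apply, AlgHom.comp_apply, stepC0 P hP h]

end Crest.Agent.R010.XU.SC
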