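import Crest.Agent.R010.XGrade
import Crest.Agent.R010.CInj
import Crest.Agent.R010.CConv

/-!
Row 10 (S0011): from the exact form of the upper bound (steps B and C) to the interface
`UpperBound`, and the exact injectivity statements.
-/

set_option autoImplicit false

noncomputable section

namespace Crest.Agent.R010.El

attribute [local instance 100] LieRing.ofAssociativeRing

open Crest.Agent.R010.C

/-- free algebra on `c = ι 0`, `f = ι 1`. -/
abbrev C2 : Type := FreeAlgebra F2 (Fin 2)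

/-- the letter `c` -/
def lc : C2 := FreeAlgebra.ι F2 0
/-- the letter `f` -/
def lf : C2 := FreeAlgebra.ι F2 1

/-- `ad(c)^k f`. -/
def adf : ℕ → C2
  | 0 => lf
  | k + 1 => lc * adf k - adf k * lc

/-- `e_k ↦ ad(c)^k f`. -/
def el : FreeAlgebra F2 ℕ →ₐ[F2] C2 := FreeAlgebra.lift F2 adf

@[simp] theorem el_ι (k : ℕ) : el (FreeAlgebra.ι F2 k) = adf k := by simp [el]

/-- `c ↦ c, f ↦ f₀` -/
def inc : C2 →ₐ[F2] B5 := FreeAlgebra.lift F2 ![l5 0, l5 3]

@[simp] theorem inc_lc : inc lc = l5 0 := by simp [inc, lc]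
@[simp] theorem inc_lf : inc lf = l5 3 := by simp [inc, lf]

/-- `κ : c, e₀, f₀ ↦ c, e₀, f₀`, `e₁, f₁ ↦ 0`. -/
def kap : B5 →ₐ[F2] B5 := FreeAlgebra.lift F2 ![l5 0, l5 1, 0, l5 3, 0]

/-- `κ' : c ↦ c`, `f₁ ↦ f₀`, the others `↦ 0`. -/
def kap' : B5 →ₐ[F2] B5 := FreeAlgebra.lift F2 ![l5 0, 0, 0, 0, l5 3]

/-- `κ'` with values in `C2`. -/
def kap2 : B5 →ₐ[F2] C2 := FreeAlgebra.lift F2 ![lc, 0, 0, 0, lf]

theorem inc_kap2 (P : B5) : inc (kap2 P) = kap' P := by
  have : inc.comp kap2 = kap' := by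
    apply FreeAlgebra.hom_ext
    funext i
    fin_cases i <;> simp [kap2, kap']
  exact DFunLike.congr_fun this P

/-! ### The shift and the retraction of `el` -/

/-- the derivation `e_k ↦ e_{k+1}`. -/
def shN : FreeAlgebra F2 ℕ →ₗ[F2] FreeAlgebra F2 ℕ := der F2 (fun k => FreeAlgebra.ι F2 (k + 1))

/-- action of `C2` on `F₂⟨e_0, e_1, …⟩`. -/
def actN : C2 →ₐ[F2] Module.End F2 (FreeAlgebra F2 ℕ) :=
  FreeAlgebra.lift F2 ![shN, LinearMap.mulLeft F2 (FreeAlgebra.ι F2 0)]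

theorem actN_lc : actN lc = shN := by simp [actN, lc]
theorem actN_lf : actN lf = LinearMap.mulLeft F2 (FreeAlgebra.ι F2 0) := by simp [actN, lf]

theorem actN_adf (k : ℕ) : actN (adf k) = LinearMap.mulLeft F2 (FreeAlgebra.ι F2 k) := by
  induction k with
  | zero => exact actN_lf
  | succ k ih =>
    rw [adf, map_sub, map_mul, map_mul, ih, actN_lc]
    ext p
    simp only [LinearMap.sub_apply, Module.End.mul_apply, LinearMap.mulLeft_apply, shN, der_mul,
      der_ι]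
    abel

theorem actN_el (P : FreeAlgebra F2 ℕ) : actN (el P) = LinearMap.mulLeft F2 P := by
  induction P using FreeAlgebra.induction with
  | grade0 r =>
    rw [AlgHom.commutes, AlgHom.commutes]
    ext n
    simp [Algebra.smul_def, Module.algebraMap_end_apply]
  | grade1 i => rw [el_ι]; exact actN_adf i
  | mul a b ha hb =>
    rw [map_mul, map_mul, ha, hb, LinearMap.mulLeft_mul]; rfl
  | add a b ha hb =>
    rw [map_add, map_add, ha, hb]
    ext n
    simp [add_mul]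

theorem el_injective : Function.Injective el := by
  intro P Q h
  have h1 := congrArg (fun z => actN z (1 : FreeAlgebra F2 ℕ)) h
  simpa [actN_el] using h1

theorem el_shN (P : FreeAlgebra F2 ℕ) : el (shN P) = lc * el P - el P * lc := by
  induction P using FreeAlgebra.induction with
  | grade0 r =>
    have : shN (algebraMap F2 _ r) = 0 := der_algebraMap _ r
    rw [this, map_zero, AlgHom.commutes, Algebra.commutes, sub_self]
  | grade1 i => rw [shN, der_ι, el_ι, el_ι, adf]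
  | mul a b ha hb =>
    have : shN (a * b) = shN a * b + a * shN b := der_mul _ a b
    rw [this, map_add, map_mul, map_mul, ha, hb, map_mul]
    noncomm_ring
  | add a b ha hb =>
    rw [map_add, map_add, ha, hb, map_add]
    noncomm_ring

/-- Lie elements of `F₂⟨c, f⟩`: `t c + el P`. -/
theorem LieX_cf {q : C2} (hq : q ∈ LieX F2 (Fin 2)) :
    ∃ (t : F2) (P : FreeAlgebra F2 ℕ), P ∈ LieX F2 ℕ ∧ q = t • lc + el P := by
  refine LieX_induction (p := fun q => ∃ (t : F2) (P : FreeAlgebra F2 ℕ), P ∈ LieX F2 ℕ ∧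
    q = t • lc + el P) ?_ ?_ ?_ ?_ ?_ hq
  · intro i
    fin_cases i
    · exact ⟨1, 0, zero_mem _, by simp [lc]⟩
    · exact ⟨0, FreeAlgebra.ι F2 0, LieSubalgebra.subset_lieSpan ⟨0, rfl⟩, by simp [adf, lf]⟩
  · exact ⟨0, 0, zero_mem _, by simp⟩
  · rintro a b _ _ ⟨t, P, hP, rfl⟩ ⟨t', P', hP', rfl⟩
    refine ⟨t + t', P + P', add_mem hP hP', ?_⟩
    rw [map_add]; module
  · rintro r a _ ⟨t, P, hP, rfl⟩
    refine ⟨r * t, r • P, (LieX F2 ℕ).smul_mem r hP, ?_⟩
    rw [map_smul]; module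
  · rintro a b _ _ ⟨t, P, hP, rfl⟩ ⟨t', P', hP', rfl⟩
    have hs : ∀ Q ∈ LieX F2 ℕ, shN Q ∈ LieX F2 ℕ := fun Q hQ =>
      der_LieX (fun k => LieSubalgebra.subset_lieSpan ⟨k + 1, rfl⟩) hQ
    refine ⟨0, t • shN P' - t' • shN P + (P * P' - P' * P), ?_, ?_⟩
    · exact add_mem (sub_mem ((LieX F2 ℕ).smul_mem t (hs _ hP'))
        ((LieX F2 ℕ).smul_mem t' (hs _ hP))) (comm_mem hP hP')
    · simp only [map_add, map_sub, map_smul, map_mul, el_shN]
      simp only [add_mul, mul_add, smul_mul_assoc, mul_smul_comm, smul_sub]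
      module

/-- detection of the coefficient of `c`. -/
def cc' : C2 →ₐ[F2] DualNumber F2 := FreeAlgebra.lift F2 ![DualNumber.eps, 0]

theorem cc'_lc : cc' lc = DualNumber.eps := by simp [cc', lc]
theorem cc'_adf (k : ℕ) : cc' (adf k) = 0 := by
  induction k with
  | zero => simp [cc', adf, lf]
  | succ k ih => rw [adf, map_sub, map_mul, map_mul, ih]; simp

theorem cc'_el {P : FreeAlgebra F2 ℕ} (hP : P ∈ LieX F2 ℕ) : cc' (el P) = 0 := by
  refine LieX_induction (p := fun P => cc' (el P) = 0) ?_ ?_ ?_ ?_ ?_ hP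
  · intro i; rw [el_ι, cc'_adf]
  · simp
  · intro a b _ _ h1 h2; rw [map_add, map_add, h1, h2, add_zero]
  · intro r a _ h1; rw [map_smul, map_smul, h1, smul_zero]
  · intro a b _ _ h1 h2
    simp only [map_sub, map_mul, h1, h2, mul_zero, sub_zero]

theorem kap2_L5 {P : B5} (hP : P ∈ L5) : kap2 P ∈ LieX F2 (Fin 2) := by
  refine LieX_induction (p := fun P => kap2 P ∈ LieX F2 (Fin 2)) ?_ ?_ ?_ ?_ ?_ hP
  · intro i
    rw [kap2, FreeAlgebra.lift_ι_apply]
    fin_cases i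
    · exact LieSubalgebra.subset_lieSpan ⟨0, rfl⟩
    · exact zero_mem _
    · exact zero_mem _
    · exact zero_mem _
    · exact LieSubalgebra.subset_lieSpan ⟨1, rfl⟩
  · rw [map_zero]; exact zero_mem _
  · intro a b _ _ h1 h2; rw [map_add]; exact add_mem h1 h2
  · intro r a _ h1; rw [map_smul]; exact (LieX F2 (Fin 2)).smul_mem r h1
  · intro a b _ _ h1 h2; rw [map_sub, map_mul, map_mul]; exact comm_mem h1 h2

/-- `κ'(W)` consists of Lie polynomials in `ad(c)^k f`. -/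
theorem kap2_W {P : B5} (hP : P ∈ W) : ∃ Q ∈ LieX F2 ℕ, kap2 P = el Q := by
  obtain ⟨t, Q, hQ, h⟩ := LieX_cf (kap2_L5 (W_le_L5 hP))
  have h0 : cc' (kap2 P) = 0 := by
    have : cc' (kap2 P) = FreeAlgebra.lift F2
        ((![DualNumber.eps, 0, 0, 0, 0] : Fin 5 → DualNumber F2)) P := by
      have e : cc'.comp kap2 = FreeAlgebra.lift F2
        ((![DualNumber.eps, 0, 0, 0, 0] : Fin 5 → DualNumber F2)) := by
        apply FreeAlgebra.hom_ext
        funext i
        fin_cases i <;> simp [kap2, cc', lc, lf]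
      exact DFunLike.congr_fun e P
    rw [this]
    exact lift_W_of_comm (fun i k => Commute.all _ _) rfl rfl hP
  rw [h, map_add, cc'_el hQ, map_smul, cc'_lc, add_zero] at h0
  have ht : t = 0 := by
    have := congrArg TrivSqZeroExt.snd h0
    simpa using this
  exact ⟨Q, hQ, by rw [h, ht, zero_smul, zero_add]⟩

/-! ### `evalZ` factors -/

theorem evalZ_eq (P : FreeAlgebra F2 ℕ) : evalZ P = j (inc (el P)) := by
  have : evalZ = (j.comp inc).comp el := by
    apply FreeAlgebra.hom_ext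
    funext k
    have h : ∀ k, Zc k = j (inc (adf k)) := by
      intro k
      induction k with
      | zero => simp [Zc, adf, FF]
      | succ k ih =>
        have h1 : Zc (k + 1) = adc (Zc k) := by simp [Zc, Function.iterate_succ_apply']
        rw [h1, adf, map_sub, map_sub, map_mul, map_mul, map_mul, map_mul, ← ih]
        simp [adc, cc]
    simp [evalZ, h]
  exact DFunLike.congr_fun this P

theorem J0_mul_left {a : Alg F2} (b : Alg F2) (h : a ∈ J0) : b * a ∈ J0 := by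
  refine Submodule.span_induction (p := fun a _ => b * a ∈ J0) ?_ ?_ ?_ ?_ h
  · rintro _ ⟨u, v, rfl⟩
    exact Submodule.subset_span ⟨b * u, v, by simp only [mul_assoc]⟩
  · rw [mul_zero]; exact zero_mem _
  · intro x y _ _ h1 h2; rw [mul_add]; exact add_mem h1 h2
  · intro r x _ h1; rw [mul_smul_comm]; exact J0.smul_mem r h1

theorem J0_mul_right {a : Alg F2} (b : Alg F2) (h : a ∈ J0) : a * b ∈ J0 := by
  refine Submodule.span_induction (p := fun a _ => a * b ∈ J0) ?_ ?_ ?_ ?_ h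
  · rintro _ ⟨u, v, rfl⟩
    exact Submodule.subset_span ⟨u, v * b, by simp only [mul_assoc]⟩
  · rw [zero_mul]; exact zero_mem _
  · intro x y _ _ h1 h2; rw [add_mul]; exact add_mem h1 h2
  · intro r x _ h1; rw [smul_mul_assoc]; exact J0.smul_mem r h1

theorem Y2_mem : (Y F2) ^ 2 ∈ J0 := Submodule.subset_span ⟨1, 1, by simp⟩

/-- `j P ≡ j (κ P)` modulo `(y²)`. -/
theorem j_sub_kap (P : B5) : j P - j (kap P) ∈ J0 := by
  induction P using FreeAlgebra.induction with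
  | grade0 r =>
    rw [AlgHom.commutes, AlgHom.commutes, AlgHom.commutes, sub_self]; exact zero_mem _
  | grade1 i =>
    have hk : kap (FreeAlgebra.ι F2 i) = (![l5 0, l5 1, 0, l5 3, 0] : Fin 5 → B5) i := by
      simp [kap]
    rw [hk]
    fin_cases i
    · change j (l5 0) - j (l5 0) ∈ J0
      rw [sub_self]; exact zero_mem _
    · change j (l5 1) - j (l5 1) ∈ J0
      rw [sub_self]; exact zero_mem _
    · change j (l5 2) - j 0 ∈ J0
      rw [map_zero, sub_zero, j_l5]; exact Y2_mem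
    · change j (l5 3) - j (l5 3) ∈ J0
      rw [sub_self]; exact zero_mem _
    · change j (l5 4) - j 0 ∈ J0
      rw [map_zero, sub_zero, j_l5, five_four]
      exact sub_mem (J0_mul_left _ Y2_mem) (J0_mul_right _ Y2_mem)
  | mul a b ha hb =>
    have e : j (a * b) - j (kap (a * b)) = (j a - j (kap a)) * j b + j (kap a) * (j b - j (kap b)) := by
      simp only [map_mul]; noncomm_ring
    rw [e]
    exact add_mem (J0_mul_right _ ha) (J0_mul_left _ hb)
  | add a b ha hb =>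
    have e : j (a + b) - j (kap (a + b)) = (j a - j (kap a)) + (j b - j (kap b)) := by
      simp only [map_add]; abel
    rw [e]
    exact add_mem ha hb

/-! ### Weights -/

/-- the weights `2, 2, 2, 3, 3` of the five letters. -/
def w5 : Fin 5 → ℕ := ![2, 2, 2, 3, 3]

/-- the weights `2, 3` of `c, f`. -/
def w2 : Fin 2 → ℕ := ![2, 3]

/-- the weight of `e_k`. -/
abbrev wN : ℕ → ℕ := fun k => 2 * k + 3

/-- the word length on `F₂⟨x,y⟩`. -/
abbrev w1 : Fin 2 → ℕ := fun _ => 1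

theorem X_mem : X F2 ∈ wtA F2 w1 1 := ι_mem_wtA w1 0
theorem Y_mem : Y F2 ∈ wtA F2 w1 1 := ι_mem_wtA w1 1

theorem mul_mem' {R : Type*} [CommRing R] {Z : Type*} (w : Z → ℕ) {m n k : ℕ}
    {p q : FreeAlgebra R Z} (hp : p ∈ wtA R w m) (hq : q ∈ wtA R w n) (h : m + n = k) :
    p * q ∈ wtA R w k := h ▸ mul_mem_wtA w hp hq

theorem w5_0 : w5 0 = 2 := rfl
theorem w5_1 : w5 1 = 2 := rfl
theorem w5_2 : w5 2 = 2 := rfl
theorem w5_3 : w5 3 = 3 := rfl
theorem w5_4 : w5 4 = 3 := rfl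

theorem five_mem (i : Fin 5) : five (X F2) (Y F2) i ∈ wtA F2 w1 (w5 i) := by
  have hXY : X F2 * Y F2 ∈ wtA F2 w1 2 := mul_mem' w1 X_mem Y_mem rfl
  have hYX : Y F2 * X F2 ∈ wtA F2 w1 2 := mul_mem' w1 Y_mem X_mem rfl
  have hXX : X F2 ^ 2 ∈ wtA F2 w1 2 := by rw [pow_two]; exact mul_mem' w1 X_mem X_mem rfl
  have hYY : Y F2 ^ 2 ∈ wtA F2 w1 2 := by rw [pow_two]; exact mul_mem' w1 Y_mem Y_mem rfl
  have h3 : Y F2 * X F2 ^ 2 ∈ wtA F2 w1 3 := mul_mem' w1 Y_mem hXX rfl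
  have h3' : X F2 ^ 2 * Y F2 ∈ wtA F2 w1 3 := mul_mem' w1 hXX Y_mem rfl
  have h4 : X F2 * Y F2 ^ 2 ∈ wtA F2 w1 3 := mul_mem' w1 X_mem hYY rfl
  have h4' : Y F2 ^ 2 * X F2 ∈ wtA F2 w1 3 := mul_mem' w1 hYY X_mem rfl
  match i with
  | 0 => rw [five_zero, w5_0]; exact sub_mem hXY hYX
  | 1 => rw [five_one, w5_1]; exact hXX
  | 2 => rw [five_two, w5_2]; exact hYY
  | 3 => rw [five_three, w5_3]; exact sub_mem h3 h3'
  | 4 => rw [five_four, w5_4]; exact sub_mem h4 h4'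

theorem cw_j (n : ℕ) (P : B5) : cw w1 n (j P) = j (cw w5 n P) := cw_lift w5 five_mem n P

theorem cw_W {P : B5} (hP : P ∈ W) (n : ℕ) : cw w5 n P ∈ W := by
  refine W_induction (p := fun P => cw w5 n P ∈ W) ?_ ?_ ?_ ?_ ?_ hP
  · rw [l5, cw_ι]
    split_ifs
    · exact l3_W
    · exact zero_mem _
  · rw [l5, cw_ι]
    split_ifs
    · exact l4_W
    · exact zero_mem _
  · intro a ha
    refine LL_le_W ?_
    refine Submodule.span_induction (p := fun a _ => cw w5 n a ∈ LL) ?_ ?_ ?_ ?_ ha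
    · rintro _ ⟨a, ha, b, hb, rfl⟩
      rw [map_sub, cw_mul, cw_mul]
      rw [← Finset.Nat.sum_antidiagonal_swap (f := fun x => cw w5 x.1 b * cw w5 x.2 a),
        ← Finset.sum_sub_distrib]
      exact sum_mem (fun x _ => comm_LL (cw_LieX w5 ha _) (cw_LieX w5 hb _))
    · rw [map_zero]; exact zero_mem _
    · intro a b _ _ h1 h2; rw [map_add]; exact add_mem h1 h2
    · intro r a _ h1; rw [map_smul]; exact LL.smul_mem r h1
  · intro a b _ _ h1 h2; rw [map_add]; exact add_mem h1 h2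
  · intro r a _ h1; rw [map_smul]; exact W.smul_mem r h1

theorem adf_mem (k : ℕ) : adf k ∈ wtA F2 w2 (wN k) := by
  induction k with
  | zero => exact ι_mem_wtA w2 1
  | succ k ih =>
    have h1 : lc ∈ wtA F2 w2 2 := ι_mem_wtA w2 0
    have e1 : wN (k + 1) = 2 + wN k := by simp only [wN]; ring
    have e2 : wN (k + 1) = wN k + 2 := by simp only [wN]; ring
    rw [adf]
    refine sub_mem ?_ ?_
    · rw [e1]; exact mul_mem_wtA w2 h1 ih
    · rw [e2]; exact mul_mem_wtA w2 ih h1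

theorem cw_el (n : ℕ) (P : FreeAlgebra F2 ℕ) : cw w2 n (el P) = el (cw wN n P) :=
  cw_lift wN adf_mem n P

theorem cw_kap2 (n : ℕ) (P : B5) : cw w2 n (kap2 P) = kap2 (cw w5 n P) := by
  refine cw_lift w5 ?_ n P
  intro i
  fin_cases i
  · exact ι_mem_wtA w2 0
  · exact zero_mem _
  · exact zero_mem _
  · exact zero_mem _
  · exact ι_mem_wtA w2 1

theorem cw_idem {R : Type*} [CommRing R] {Z : Type*} (w : Z → ℕ) (n : ℕ) (p : FreeAlgebra R Z) :
    cw w n (cw w n p) = cw w n p := cw_of_mem w (cw_mem w n p)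

/-- homogeneous elimination. -/
theorem elim5_hom {N : ℕ} (hN : 3 ≤ N) {ψ : Alg F2} (hw : ψ ∈ wtA F2 w1 N)
    (hψ : ψ ∈ LieX F2 (Fin 2)) : ∃ P ∈ W, P ∈ wtA F2 w5 N ∧ j P = ψ := by
  obtain ⟨P, hP, rfl⟩ := elim5 hN hw hψ
  refine ⟨cw w5 N P, cw_W hP N, cw_mem w5 N P, ?_⟩
  rw [← cw_j, cw_of_mem w1 hw]

/-- **The exact form of the upper bound from steps B and C.** -/
theorem exact_of {Pent : Alg F2 → Prop}
    (hC : ∀ P ∈ W, Pent (j P) → kap P = kap' P)
    (hB : ∀ P ∈ W, Pent (j P) → kap P = 0 → P = 0)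
    {N : ℕ} (hN : 3 ≤ N) {ψ : Alg F2} (hw : ψ ∈ wtA F2 (fun _ : Fin 2 => 1) N)
    (hψ : ψ ∈ LieX F2 (Fin 2)) (hP : Pent ψ) (h0 : ψ ≠ 0) :
    ∃ P ∈ LieX F2 ℕ, P ∈ wtA F2 (fun k : ℕ => 2 * k + 3) N ∧ P ≠ 0 ∧ ψ - evalZ P ∈ J0 := by
  obtain ⟨P, hPW, hPw, rfl⟩ := elim5_hom hN hw hψ
  obtain ⟨Q, hQ, hk⟩ := kap2_W hPW
  have he : el (cw wN N Q) = kap2 P := by
    rw [← cw_el, ← hk, cw_kap2, cw_of_mem w5 hPw]
  refine ⟨cw wN N Q, cw_LieX wN hQ N, cw_mem wN N Q, ?_, ?_⟩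
  · intro hQ0
    rw [hQ0, map_zero] at he
    apply h0
    have h1 : kap' P = 0 := by rw [← inc_kap2, ← he, map_zero]
    have h2 := hB P hPW hP (by rw [hC P hPW hP, h1])
    rw [h2, map_zero]
  · rw [evalZ_eq, he, inc_kap2, ← hC P hPW hP]
    exact j_sub_kap P

/-! ### The interface of `CConv` -/

/-- `κ' P` as an evaluation at `(c, F)`. -/
theorem j_inc (q : C2) : j (inc q) = ev2 F2 cc FF q := by
  have : j.comp inc = ev2 F2 cc FF := by
    apply FreeAlgebra.hom_ext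
    funext i
    fin_cases i <;> simp [inc, ev2, cc, FF]
  exact DFunLike.congr_fun this q

theorem evalZ_inj_J0 {P : FreeAlgebra F2 ℕ} (h : evalZ P ∈ J0) : P = 0 := by
  have h1 : row (evalZ P) = 0 := by
    funext k
    rw [row, C.rho_J0 h]; rfl
  rw [row_evalZ] at h1
  have h2 : evalS P = 0 := by simpa using congrFun h1 0
  exact evalS_injective (by rw [h2, map_zero])

/-- steps B and C (in the form `κ P = κ' P`, `κ P = 0 → P = 0`) give the hypothesis of
`CConv.upperBoundFor_of_exact`. -/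
theorem exact_hyp {Pent : Alg F2 → Prop}
    (hC : ∀ P ∈ W, Pent (j P) → kap P = kap' P)
    (hB : ∀ P ∈ W, Pent (j P) → kap P = 0 → P = 0)
    (N : ℕ) (ψ : Alg F2) (hN : 3 ≤ N) (hw : ψ ∈ wtA F2 (fun _ : Fin 2 => 1) N)
    (hψ : ψ ∈ LieX F2 (Fin 2)) (hP : Pent ψ) :
    (∃ Λ ∈ LieX F2 (Fin 2), ψ - ev2 F2 cc FF Λ ∈ J0) ∧ (ψ ∈ J0 → ψ = 0) := by
  constructor
  · obtain ⟨P, hPW, rfl⟩ := elim5 hN hw hψ
    refine ⟨kap2 P, kap2_L5 (W_le_L5 hPW), ?_⟩
    rw [← j_inc, inc_kap2, ← hC P hPW hP]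
    exact j_sub_kap P
  · intro hJ
    by_contra h0
    obtain ⟨P, _, _, hP0, h⟩ := exact_of hC hB hN hw hψ hP h0
    apply hP0
    apply evalZ_inj_J0
    have := sub_mem hJ h
    rwa [sub_sub_cancel] at this

/-- **Step D**: steps B and C imply the upper bound for any predicate `Pent`. -/
theorem upperBoundFor_of_BC {Pent : Alg F2 → Prop}
    (hC : ∀ P ∈ W, Pent (j P) → kap P = kap' P)
    (hB : ∀ P ∈ W, Pent (j P) → kap P = 0 → P = 0) : CConv.UpperBoundFor Pent :=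
  CConv.upperBoundFor_of_exact Pent (exact_hyp hC hB)

end Crest.Agent.R010.El
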