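import Crest.Agent.R010.CDefs

/-!
Row 10 (S0011), upper bound (U) in exact form (note 8505), definitions.
Everything over `F2 = ZMod 2`.

`A = F2<x,y>`, `B5 = F2<c,e0,e1,f0,f1>`, `jmap : B5 → A`
(`c ↦ xy+yx`, `e0 ↦ x²`, `e1 ↦ y²`, `f0 ↦ [y,x²]`, `f1 ↦ [x,y²]`).
-/

set_option autoImplicit false

noncomputable section

namespace Crest.Agent.R010.XU

open Crest.Agent.R010.C

attribute [local instance 100] LieRing.ofAssociativeRing

instance instCharPFree (T : Type*) : CharP (FreeAlgebra F2 T) 2 :=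
  charP_of_injective_algebraMap
    (FreeAlgebra.algebraMap_leftInverse (R := F2) (X := T)).injective 2

/-- the five letters -/
inductive L5 | c | e0 | e1 | f0 | f1
  deriving DecidableEq

/-- `F2<c,e0,e1,f0,f1>` -/
abbrev B5 : Type := FreeAlgebra F2 L5

/-- letters of a free algebra over `F2` -/
abbrev io {T : Type*} (l : T) : FreeAlgebra F2 T := FreeAlgebra.ι F2 l

/-- the five even elements made from `X`, `Y`. -/
def five {R : Type*} [Ring R] (X Y : R) : L5 → R
  | .c => X * Y + Y * X
  | .e0 => X * X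
  | .e1 => Y * Y
  | .f0 => Y * (X * X) + X * X * Y
  | .f1 => X * (Y * Y) + Y * Y * X

/-- evaluation of `P ∈ B5` at the five even elements. -/
def ev5 {R : Type*} [Ring R] [Algebra F2 R] (X Y : R) : B5 →ₐ[F2] R :=
  FreeAlgebra.lift F2 (five X Y)

@[simp] theorem ev5_io {R : Type*} [Ring R] [Algebra F2 R] (X Y : R) (l : L5) :
    ev5 X Y (io l) = five X Y l := by
  simp [ev5, io]

/-- the embedding `B5 → A`. -/
def jmap : B5 →ₐ[F2] Alg F2 := ev5 (C.X F2) (C.Y F2)

theorem ev2_X {R : Type*} [Ring R] [Algebra F2 R] (X Y : R) : ev2 F2 X Y (C.X F2) = X := by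
  simp [ev2, C.X]

theorem ev2_Y {R : Type*} [Ring R] [Algebra F2 R] (X Y : R) : ev2 F2 X Y (C.Y F2) = Y := by
  simp [ev2, C.Y]

theorem ev2_jmap {R : Type*} [Ring R] [Algebra F2 R] (X Y : R) (P : B5) :
    ev2 F2 X Y (jmap P) = ev5 X Y P := by
  have : (ev2 F2 X Y).comp jmap = ev5 X Y := by
    apply FreeAlgebra.hom_ext
    funext l
    cases l <;> simp [jmap, five, ev2_X, ev2_Y]
  exact DFunLike.congr_fun this P

/-- the space `W = F f0 + F f1 + [Lie(B5), Lie(B5)]`. -/
def W : Submodule F2 B5 :=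
  Submodule.span F2 ({io L5.f0, io L5.f1} ∪
    {a | ∃ p ∈ LieX F2 L5, ∃ q ∈ LieX F2 L5, a = p * q - q * p})

/-! ### Substitution lemmas for Lie polynomials -/

section subst

variable {T : Type*} {R : Type*} [Ring R] [Algebra F2 R]

theorem commute_of_letters (φ : FreeAlgebra F2 T →ₐ[F2] R) (a : R)
    (h : ∀ l, Commute a (φ (io l))) (q : FreeAlgebra F2 T) : Commute a (φ q) := by
  induction q using FreeAlgebra.induction with
  | grade0 r => rw [AlgHom.commutes]; exact (Algebra.commutes r a).symm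
  | grade1 l => exact h l
  | mul p q hp hq => rw [map_mul]; exact hp.mul_right hq
  | add p q hp hq => rw [map_add]; exact hp.add_right hq

/-- the central differences lemma: if `φ l - φ' l` commutes with everything, then this is so for
`φ p - φ' p` with `p` Lie, and `φ`, `φ'` agree on brackets. -/
theorem central_lie (φ φ' : FreeAlgebra F2 T →ₐ[F2] R)
    (h : ∀ l m, Commute (φ (io l) - φ' (io l)) (φ (io m)))
    (h' : ∀ l m, Commute (φ (io l) - φ' (io l)) (φ' (io m)))
    (p : FreeAlgebra F2 T) (hp : p ∈ LieX F2 T) :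
    ∀ q, Commute (φ p - φ' p) (φ q) ∧ Commute (φ p - φ' p) (φ' q) := by
  unfold LieX at hp
  induction hp using LieSubalgebra.lieSpan_induction with
  | mem x hx =>
    obtain ⟨l, rfl⟩ := hx
    intro q
    exact ⟨commute_of_letters φ _ (h l) q, commute_of_letters φ' _ (h' l) q⟩
  | zero => intro q; simp
  | add x y hx hy ihx ihy =>
    intro q
    have e : φ (x + y) - φ' (x + y) = (φ x - φ' x) + (φ y - φ' y) := by
      rw [map_add, map_add]; abel
    rw [e]
    exact ⟨(ihx q).1.add_left (ihy q).1, (ihx q).2.add_left (ihy q).2⟩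
  | smul r x hx ih =>
    intro q
    rw [map_smul, map_smul, ← smul_sub]
    exact ⟨(ih q).1.smul_left r, (ih q).2.smul_left r⟩
  | lie x y hx hy ihx ihy =>
    intro q
    have e : φ ⁅x, y⁆ - φ' ⁅x, y⁆ = 0 := by
      rw [LieRing.of_associative_ring_bracket, map_sub, map_sub, map_mul, map_mul, map_mul,
        map_mul]
      have h1 := (ihx y).1.eq
      have h4 := (ihy x).2.eq
      linear_combination (norm := noncomm_ring) h1 - h4
    rw [e]
    simp

/-- `φ` and `φ'` agree on brackets. -/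
theorem central_bracket (φ φ' : FreeAlgebra F2 T →ₐ[F2] R)
    (h : ∀ l m, Commute (φ (io l) - φ' (io l)) (φ (io m)))
    (h' : ∀ l m, Commute (φ (io l) - φ' (io l)) (φ' (io m)))
    (p q : FreeAlgebra F2 T) (hp : p ∈ LieX F2 T) (hq : q ∈ LieX F2 T) :
    φ (p * q - q * p) = φ' (p * q - q * p) := by
  have h1 := (central_lie φ φ' h h' p hp q).1.eq
  have h4 := (central_lie φ φ' h h' q hq p).2.eq
  rw [map_sub, map_sub, map_mul, map_mul, map_mul, map_mul, ← sub_eq_zero]
  linear_combination (norm := noncomm_ring) h1 - h4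

/-- the version for `W`. -/
theorem central_W (φ φ' : B5 →ₐ[F2] R)
    (h : ∀ l m, Commute (φ (io l) - φ' (io l)) (φ (io m)))
    (h' : ∀ l m, Commute (φ (io l) - φ' (io l)) (φ' (io m)))
    (h0 : φ (io L5.f0) = φ' (io L5.f0)) (h1 : φ (io L5.f1) = φ' (io L5.f1))
    (P : B5) (hP : P ∈ W) : φ P = φ' P := by
  unfold W at hP
  induction hP using Submodule.span_induction with
  | mem x hx =>
    rcases hx with hx | ⟨p, hp, q, hq, rfl⟩
    · rcases hx with rfl | rfl
      · exact h0
      · exact h1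
    · exact central_bracket φ φ' h h' p q hp hq
  | zero => simp
  | add x y hx hy ihx ihy => rw [map_add, map_add, ihx, ihy]
  | smul r x hx ih => rw [map_smul, map_smul, ih]

theorem lift_zero_W (P : B5) (hP : P ∈ W) :
    (FreeAlgebra.lift F2 (fun _ : L5 => (0 : R))) P = 0 := by
  have hc : ∀ p : B5, ∃ r : F2, (FreeAlgebra.lift F2 (fun _ : L5 => (0 : R))) p
      = algebraMap F2 R r := by
    intro p
    induction p using FreeAlgebra.induction with
    | grade0 r => exact ⟨r, by rw [AlgHom.commutes]⟩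
    | grade1 l => exact ⟨0, by simp⟩
    | mul p q hp hq =>
      obtain ⟨a, ha⟩ := hp; obtain ⟨b, hb⟩ := hq
      exact ⟨a * b, by rw [map_mul, ha, hb, map_mul]⟩
    | add p q hp hq =>
      obtain ⟨a, ha⟩ := hp; obtain ⟨b, hb⟩ := hq
      exact ⟨a + b, by rw [map_add, ha, hb, map_add]⟩
  unfold W at hP
  induction hP using Submodule.span_induction with
  | mem x hx =>
    rcases hx with hx | ⟨p, hp, q, hq, rfl⟩
    · rcases hx with rfl | rfl <;> simp [io]
    · rw [map_sub, map_mul, map_mul]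
      obtain ⟨a, ha⟩ := hc p
      obtain ⟨b, hb⟩ := hc q
      rw [ha, hb, ← map_mul, ← map_mul, mul_comm, sub_self]
  | zero => simp
  | add x y hx hy ihx ihy => rw [map_add, ihx, ihy, add_zero]
  | smul r x hx ih => rw [map_smul, ih, smul_zero]

/-- a homomorphism with commuting values on the letters, zero on `f0`, `f1`, kills `W`. -/
theorem W_of_commute (φ : B5 →ₐ[F2] R) (h : ∀ l m, Commute (φ (io l)) (φ (io m)))
    (h0 : φ (io L5.f0) = 0) (h1 : φ (io L5.f1) = 0) (P : B5) (hP : P ∈ W) : φ P = 0 := by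
  have key : φ P = (FreeAlgebra.lift F2 (fun _ : L5 => (0 : R))) P := by
    apply central_W φ _ _ _ _ _ P hP
    · intro l m; simpa [io] using h l m
    · intro l m; simp [io]
    · simp [io] at h0 ⊢; exact h0
    · simp [io] at h1 ⊢; exact h1
  rw [key]
  exact lift_zero_W P hP

end subst

end Crest.Agent.R010.XU
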