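import Crest.Agent.R010.Elim5

/-!
Row 10 (S0011): weight gradings of free algebras (`wtA`), components, compatibility with
homomorphisms, derivations, Lie elements.
-/

set_option autoImplicit false

noncomputable section

namespace Crest.Agent.R010.El

attribute [local instance 100] LieRing.ofAssociativeRing

open Crest.Agent.R010.C

section grade
variable {R : Type*} [CommRing R] {Z : Type*} (w : Z → ℕ)

/-- the grading homomorphism `ι i ↦ T^{w i} ι i`. -/
def gw : FreeAlgebra R Z →ₐ[R] Polynomial (FreeAlgebra R Z) :=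
  FreeAlgebra.lift R (fun i => Polynomial.monomial (w i) (FreeAlgebra.ι R i))

/-- the component of weight `n`. -/
def cw (n : ℕ) : FreeAlgebra R Z →ₗ[R] FreeAlgebra R Z where
  toFun p := (gw w p).coeff n
  map_add' a b := by rw [map_add, Polynomial.coeff_add]
  map_smul' r a := by rw [map_smul, Polynomial.coeff_smul]; rfl

theorem cw_def (n : ℕ) (p : FreeAlgebra R Z) : cw w n p = (gw w p).coeff n := rfl

theorem gw_word (l : List Z) : gw w ((l.map (FreeAlgebra.ι R)).prod)
    = Polynomial.monomial ((l.map w).sum) ((l.map (FreeAlgebra.ι R)).prod) := by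
  induction l with
  | nil => simp
  | cons a l ih =>
    simp only [List.map_cons, List.prod_cons, List.sum_cons, map_mul, ih]
    rw [gw, FreeAlgebra.lift_ι_apply, Polynomial.monomial_mul_monomial]

theorem gw_of_mem {N : ℕ} {p : FreeAlgebra R Z} (h : p ∈ wtA R w N) :
    gw w p = Polynomial.monomial N p := by
  refine Submodule.span_induction (p := fun p _ => gw w p = Polynomial.monomial N p)
    ?_ ?_ ?_ ?_ h
  · rintro _ ⟨l, hl, rfl⟩
    rw [gw_word, hl]
  · simp
  · intro a b _ _ h1 h2; rw [map_add, h1, h2, map_add]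
  · intro r a _ h1
    rw [map_smul, h1, ← Polynomial.smul_monomial]

theorem cw_of_mem {N : ℕ} {p : FreeAlgebra R Z} (h : p ∈ wtA R w N) : cw w N p = p := by
  rw [cw_def, gw_of_mem w h, Polynomial.coeff_monomial, if_pos rfl]

theorem cw_of_mem_ne {N n : ℕ} {p : FreeAlgebra R Z} (h : p ∈ wtA R w N) (hn : n ≠ N) :
    cw w n p = 0 := by
  rw [cw_def, gw_of_mem w h, Polynomial.coeff_monomial, if_neg (fun h => hn h.symm)]

/-- the words span. -/
theorem word_induction {p : FreeAlgebra R Z → Prop}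
    (hw : ∀ l : List Z, p ((l.map (FreeAlgebra.ι R)).prod))
    (h0 : p 0) (hadd : ∀ a b, p a → p b → p (a + b)) (hsmul : ∀ (r : R) a, p a → p (r • a))
    (a : FreeAlgebra R Z) : p a := by
  have key : a ∈ Submodule.span R
      (Set.range (fun l : List Z => (l.map (FreeAlgebra.ι R)).prod)) := by
    induction a using FreeAlgebra.induction with
    | grade0 r =>
      rw [Algebra.algebraMap_eq_smul_one]
      exact Submodule.smul_mem _ _ (Submodule.subset_span ⟨[], by simp⟩)
    | grade1 i => exact Submodule.subset_span ⟨[i], by simp⟩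
    | mul a b ha hb =>
      have h := Submodule.mul_mem_mul ha hb
      rw [Submodule.span_mul_span] at h
      refine Submodule.span_mono ?_ h
      rintro _ ⟨_, ⟨l, rfl⟩, _, ⟨l', rfl⟩, rfl⟩
      exact ⟨l ++ l', by simp⟩
    | add a b ha hb => exact add_mem ha hb
  refine Submodule.span_induction (p := fun a _ => p a) ?_ h0 (fun a b _ _ => hadd a b)
    (fun r a _ => hsmul r a) key
  rintro _ ⟨l, rfl⟩
  exact hw l

theorem word_mem (l : List Z) :
    ((l.map (FreeAlgebra.ι R)).prod : FreeAlgebra R Z) ∈ wtA R w (l.map w).sum :=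
  Submodule.subset_span ⟨l, rfl, rfl⟩

theorem cw_mem (n : ℕ) (p : FreeAlgebra R Z) : cw w n p ∈ wtA R w n := by
  refine word_induction (p := fun p => cw w n p ∈ wtA R w n) ?_ ?_ ?_ ?_ p
  · intro l
    by_cases h : n = (l.map w).sum
    · subst h
      rw [cw_of_mem w (word_mem w l)]; exact word_mem w l
    · rw [cw_of_mem_ne w (word_mem w l) h]; exact zero_mem _
  · rw [map_zero]; exact zero_mem _
  · intro a b h1 h2; rw [map_add]; exact add_mem h1 h2
  · intro r a h1; rw [map_smul]; exact Submodule.smul_mem _ r h1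

theorem sum_cw (p : FreeAlgebra R Z) : ∃ s : Finset ℕ, ∀ t : Finset ℕ, s ⊆ t →
    ∑ n ∈ t, cw w n p = p := by
  classical
  refine word_induction (p := fun p => ∃ s : Finset ℕ, ∀ t : Finset ℕ, s ⊆ t →
    ∑ n ∈ t, cw w n p = p) ?_ ?_ ?_ ?_ p
  · intro l
    refine ⟨{(l.map w).sum}, fun t ht => ?_⟩
    rw [Finset.sum_eq_single_of_mem (l.map w).sum (ht (by simp))]
    · exact cw_of_mem w (word_mem w l)
    · intro b _ hb
      exact cw_of_mem_ne w (word_mem w l) hb
  · exact ⟨∅, fun t _ => by simp⟩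
  · rintro a b ⟨s, hs⟩ ⟨s', hs'⟩
    refine ⟨s ∪ s', fun t ht => ?_⟩
    simp only [map_add, Finset.sum_add_distrib]
    rw [hs t (Finset.union_subset_left ht), hs' t (Finset.union_subset_right ht)]
  · rintro r a ⟨s, hs⟩
    refine ⟨s, fun t ht => ?_⟩
    simp only [map_smul, ← Finset.smul_sum]
    rw [hs t ht]

theorem mul_mem_wtA {m n : ℕ} {p q : FreeAlgebra R Z} (hp : p ∈ wtA R w m)
    (hq : q ∈ wtA R w n) : p * q ∈ wtA R w (m + n) := by
  have h := Submodule.mul_mem_mul hp hq
  rw [wtA, wtA, Submodule.span_mul_span] at h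
  refine Submodule.span_mono ?_ h
  rintro _ ⟨_, ⟨l, hl, rfl⟩, _, ⟨l', hl', rfl⟩, rfl⟩
  exact ⟨l ++ l', by simp [hl, hl'], by simp⟩

theorem one_mem_wtA : (1 : FreeAlgebra R Z) ∈ wtA R w 0 :=
  Submodule.subset_span ⟨[], by simp, by simp⟩

theorem ι_mem_wtA (i : Z) : FreeAlgebra.ι R i ∈ wtA R w (w i) :=
  Submodule.subset_span ⟨[i], by simp, by simp⟩

/-- graded homomorphisms. -/
theorem lift_word_mem {Z' : Type*} {w' : Z' → ℕ} {f : Z → FreeAlgebra R Z'}
    (hf : ∀ i, f i ∈ wtA R w' (w i)) (l : List Z) :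
    FreeAlgebra.lift R f ((l.map (FreeAlgebra.ι R)).prod) ∈ wtA R w' (l.map w).sum := by
  induction l with
  | nil => simpa using one_mem_wtA w'
  | cons a l ih =>
    simp only [List.map_cons, List.prod_cons, List.sum_cons, map_mul, FreeAlgebra.lift_ι_apply]
    exact mul_mem_wtA w' (hf a) ih

theorem lift_mem_wtA {Z' : Type*} {w' : Z' → ℕ} {f : Z → FreeAlgebra R Z'}
    (hf : ∀ i, f i ∈ wtA R w' (w i)) {n : ℕ} {p : FreeAlgebra R Z} (hp : p ∈ wtA R w n) :
    FreeAlgebra.lift R f p ∈ wtA R w' n := by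
  refine Submodule.span_induction (p := fun p _ => FreeAlgebra.lift R f p ∈ wtA R w' n)
    ?_ ?_ ?_ ?_ hp
  · rintro _ ⟨l, hl, rfl⟩
    rw [← hl]; exact lift_word_mem w hf l
  · rw [map_zero]; exact zero_mem _
  · intro a b _ _ h1 h2; rw [map_add]; exact add_mem h1 h2
  · intro r a _ h1; rw [map_smul]; exact Submodule.smul_mem _ r h1

theorem cw_lift {Z' : Type*} {w' : Z' → ℕ} {f : Z → FreeAlgebra R Z'}
    (hf : ∀ i, f i ∈ wtA R w' (w i)) (n : ℕ) (p : FreeAlgebra R Z) :
    cw w' n (FreeAlgebra.lift R f p) = FreeAlgebra.lift R f (cw w n p) := by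
  refine word_induction (p := fun p => cw w' n (FreeAlgebra.lift R f p)
    = FreeAlgebra.lift R f (cw w n p)) ?_ ?_ ?_ ?_ p
  · intro l
    by_cases h : n = (l.map w).sum
    · subst h
      rw [cw_of_mem w (word_mem w l), cw_of_mem w' (lift_word_mem w hf l)]
    · rw [cw_of_mem_ne w (word_mem w l) h, cw_of_mem_ne w' (lift_word_mem w hf l) h, map_zero]
  · simp
  · intro a b h1 h2; simp only [map_add, h1, h2]
  · intro r a h1; simp only [map_smul, h1]

/-- components of a product. -/
theorem cw_mul (n : ℕ) (p q : FreeAlgebra R Z) :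
    cw w n (p * q) = ∑ x ∈ Finset.HasAntidiagonal.antidiagonal n, cw w x.1 p * cw w x.2 q := by
  rw [cw_def, map_mul, Polynomial.coeff_mul]; rfl

theorem cw_ι (n : ℕ) (i : Z) :
    cw w n (FreeAlgebra.ι R i) = if n = w i then FreeAlgebra.ι R i else 0 := by
  split_ifs with h
  · subst h; exact cw_of_mem w (ι_mem_wtA w i)
  · exact cw_of_mem_ne w (ι_mem_wtA w i) h

/-- components of Lie elements are Lie elements. -/
theorem cw_LieX {p : FreeAlgebra R Z} (hp : p ∈ LieX R Z) : ∀ n, cw w n p ∈ LieX R Z := by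
  refine LieX_induction (p := fun p => ∀ n, cw w n p ∈ LieX R Z) ?_ ?_ ?_ ?_ ?_ hp
  · intro i n
    rw [cw_ι]
    split_ifs
    · exact LieSubalgebra.subset_lieSpan ⟨i, rfl⟩
    · exact zero_mem _
  · intro n; rw [map_zero]; exact zero_mem _
  · intro a b _ _ h1 h2 n; rw [map_add]; exact add_mem (h1 n) (h2 n)
  · intro r a _ h1 n; rw [map_smul]; exact (LieX R Z).smul_mem r (h1 n)
  · intro a b _ _ h1 h2 n
    rw [map_sub, cw_mul, cw_mul]
    rw [← Finset.Nat.sum_antidiagonal_swap (f := fun x => cw w x.1 b * cw w x.2 a),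
      ← Finset.sum_sub_distrib]
    refine sum_mem (fun x _ => ?_)
    exact comm_mem (h1 _) (h2 _)

end grade

end Crest.Agent.R010.El
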