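import Crest.Agent.R010.XDefs

/-!
Row 10 (S0011), upper bound (U) in exact form (note 8505): derivations in characteristic two,
rank four modules, transfer of the fibre pentagon (gauge 2).
-/

set_option autoImplicit false

noncomputable section

namespace Crest.Agent.R010.XU

open Crest.Agent.R010.C

attribute [local instance 100] LieRing.ofAssociativeRing

section der
variable {T : Type*}

/-- uniqueness of derivations -/
theorem der_unique (d : T → FreeAlgebra F2 T) (D : FreeAlgebra F2 T →ₗ[F2] FreeAlgebra F2 T)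
    (h1 : ∀ l, D (io l) = d l) (h2 : ∀ p q, D (p * q) = D p * q + p * D q)
    (w : FreeAlgebra F2 T) : D w = der F2 d w := by
  have hone : D 1 = 0 := by
    have := h2 1 1
    simp only [mul_one, one_mul] at this
    have h : D 1 + D 1 = 0 := by
      rw [← two_smul F2 (D 1)]
      have : (2 : F2) = 0 := rfl
      rw [this, zero_smul]
    rw [this, h]
  induction w using FreeAlgebra.induction with
  | grade0 r =>
    rw [der_algebraMap, Algebra.algebraMap_eq_smul_one, map_smul, hone, smul_zero]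
  | grade1 l => rw [h1, der_ι]
  | mul p q hp hq => rw [h2, der_mul, hp, hq]
  | add p q hp hq => rw [map_add, map_add, hp, hq]

/-- `D²` is a derivation in characteristic two. -/
theorem der_sq (d e : T → FreeAlgebra F2 T) (h : ∀ l, der F2 d (d l) = e l)
    (w : FreeAlgebra F2 T) : der F2 d (der F2 d w) = der F2 e w := by
  have := der_unique e ((der F2 d).comp (der F2 d)) (by intro l; simp [io, h])
    (by
      intro p q
      simp only [LinearMap.comp_apply, der_mul, map_add]
      grind) w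
  simpa using this

/-- `[D,D']` is a derivation in characteristic two. -/
theorem der_comm (d d' e : T → FreeAlgebra F2 T)
    (h : ∀ l, der F2 d (d' l) + der F2 d' (d l) = e l)
    (w : FreeAlgebra F2 T) :
    der F2 d (der F2 d' w) + der F2 d' (der F2 d w) = der F2 e w := by
  have := der_unique e ((der F2 d).comp (der F2 d') + (der F2 d').comp (der F2 d))
    (by intro l; simp [io, h])
    (by
      intro p q
      simp only [LinearMap.comp_apply, LinearMap.add_apply, der_mul, map_add]
      grind) w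
  simpa using this

/-- inner derivations -/
theorem der_inner (a : FreeAlgebra F2 T) (w : FreeAlgebra F2 T) :
    der F2 (fun l => a * io l + io l * a) w = a * w + w * a := by
  have := der_unique (fun l => a * io l + io l * a)
    (LinearMap.mulLeft F2 a + LinearMap.mulRight F2 a) (by intro l; simp)
    (by
      intro p q
      simp only [LinearMap.add_apply, LinearMap.mulLeft_apply, LinearMap.mulRight_apply]
      grind) w
  rw [← this]
  simp

theorem der_zero (w : FreeAlgebra F2 T) : der F2 (fun _ : T => (0 : FreeAlgebra F2 T)) w = 0 := by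
  have := der_unique (fun _ : T => (0 : FreeAlgebra F2 T)) 0 (by intro l; simp)
    (by intro p q; simp) w
  simpa using this.symm

end der

section N4

variable {T : Type*}

/-- the rank four module -/
abbrev N4 (T : Type*) : Type _ :=
  FreeAlgebra F2 T × FreeAlgebra F2 T × FreeAlgebra F2 T × FreeAlgebra F2 T

/-- a linear map with given components. -/
def mk4 (g0 g1 g2 g3 : N4 T →ₗ[F2] FreeAlgebra F2 T) : Module.End F2 (N4 T) :=
  g0.prod (g1.prod (g2.prod g3))

@[simp] theorem mk4_apply (g0 g1 g2 g3 : N4 T →ₗ[F2] FreeAlgebra F2 T) (w : N4 T) :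
    mk4 g0 g1 g2 g3 w = (g0 w, g1 w, g2 w, g3 w) := rfl

/-- projections -/
def pr0 : N4 T →ₗ[F2] FreeAlgebra F2 T := LinearMap.fst F2 _ _
def pr1 : N4 T →ₗ[F2] FreeAlgebra F2 T := (LinearMap.fst F2 _ _).comp (LinearMap.snd F2 _ _)
def pr2 : N4 T →ₗ[F2] FreeAlgebra F2 T :=
  (LinearMap.fst F2 _ _).comp ((LinearMap.snd F2 _ _).comp (LinearMap.snd F2 _ _))
def pr3 : N4 T →ₗ[F2] FreeAlgebra F2 T :=
  (LinearMap.snd F2 _ _).comp ((LinearMap.snd F2 _ _).comp (LinearMap.snd F2 _ _))

@[simp] theorem pr0_apply (a b c d : FreeAlgebra F2 T) : pr0 (a, b, c, d) = a := rfl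
@[simp] theorem pr1_apply (a b c d : FreeAlgebra F2 T) : pr1 (a, b, c, d) = b := rfl
@[simp] theorem pr2_apply (a b c d : FreeAlgebra F2 T) : pr2 (a, b, c, d) = c := rfl
@[simp] theorem pr3_apply (a b c d : FreeAlgebra F2 T) : pr3 (a, b, c, d) = d := rfl

/-- left multiplication by `a` after a projection -/
def lm (a : FreeAlgebra F2 T) (g : N4 T →ₗ[F2] FreeAlgebra F2 T) :
    N4 T →ₗ[F2] FreeAlgebra F2 T := (LinearMap.mulLeft F2 a).comp g

@[simp] theorem lm_apply (a : FreeAlgebra F2 T) (g : N4 T →ₗ[F2] FreeAlgebra F2 T) (w : N4 T) :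
    lm a g w = a * g w := rfl

/-- a derivation after a projection -/
def dm (d : T → FreeAlgebra F2 T) (g : N4 T →ₗ[F2] FreeAlgebra F2 T) :
    N4 T →ₗ[F2] FreeAlgebra F2 T := (der F2 d).comp g

@[simp] theorem dm_apply (d : T → FreeAlgebra F2 T) (g : N4 T →ₗ[F2] FreeAlgebra F2 T)
    (w : N4 T) : dm d g w = der F2 d (g w) := rfl

/-- the inclusion `w ↦ (w,0,0,0)` -/
def inc (w : FreeAlgebra F2 T) : N4 T := (w, 0, 0, 0)

theorem inc_inj {a b : FreeAlgebra F2 T} (h : inc a = inc b) : a = b :=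
  congrArg Prod.fst h

theorem inc_add (a b : FreeAlgebra F2 T) : inc (a + b) = inc a + inc b := by
  simp [inc]

theorem inc_smul (r : F2) (a : FreeAlgebra F2 T) : inc (r • a) = r • inc a := by
  simp [inc]

theorem inc_zero : inc (0 : FreeAlgebra F2 T) = 0 := rfl

/-- if the five even elements act on the first component by `τ`, then `P` acts by `lift τ P`. -/
theorem ev5_inc (X Y : Module.End F2 (N4 T)) (τ : L5 → Module.End F2 (FreeAlgebra F2 T))
    (h : ∀ l w, five X Y l (inc w) = inc (τ l w)) (P : B5) (w : FreeAlgebra F2 T) :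
    ev5 X Y P (inc w) = inc (FreeAlgebra.lift F2 τ P w) := by
  induction P using FreeAlgebra.induction generalizing w with
  | grade0 r =>
    rw [AlgHom.commutes, AlgHom.commutes]
    simp [Module.algebraMap_end_apply, inc_smul]
  | grade1 l =>
    have := ev5_io X Y l
    rw [io] at this
    rw [this, h, FreeAlgebra.lift_ι_apply]
  | mul p q hp hq =>
    rw [map_mul, map_mul, Module.End.mul_apply, Module.End.mul_apply, hq, hp]
  | add p q hp hq =>
    rw [map_add, map_add, LinearMap.add_apply, LinearMap.add_apply, hp, hq, inc_add]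

end N4

section transfer

variable (R : Type*) [CommRing R]

/-- gauge 2: `G₀ : x₁ ↦ [x₀+z, x₁]`, `x₀, z ↦ 0`. -/
def G0 : Module.End R (Alg3 R) :=
  der R ![0, (x0 R + zz R) * x1 R - x1 R * (x0 R + zz R), 0]

/-- gauge 2: `G₁ : x₀ ↦ [x₁+z, x₀]`, `x₁, z ↦ 0`. -/
def G1 : Module.End R (Alg3 R) :=
  der R ![(x1 R + zz R) * x0 R - x0 R * (x1 R + zz R), 0, 0]

/-- the fibre pentagon in gauge 2, applied to `1`. -/
def FibrePent2 (ψ : Alg R) : Prop :=
  ev2 R (L3 R (x0 R)) (L3 R (x1 R + zz R)) ψ (1 : Alg3 R)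
    + ev2 R (G0 R - L3 R (x0 R)) (G1 R - L3 R (x1 R + zz R)) ψ (1 : Alg3 R)
  = ev2 R (L3 R (zz R)) (G1 R - L3 R (x1 R + zz R)) ψ (1 : Alg3 R)
    + ev2 R (L3 R (x0 R)) (L3 R (zz R)) ψ (1 : Alg3 R)

variable {R}

theorem ev2_intertwine {M M' : Type*} [AddCommGroup M] [Module R M] [AddCommGroup M'] [Module R M']
    (π : M →ₗ[R] M') (X Y : Module.End R M) (X' Y' : Module.End R M')
    (hX : ∀ m, π (X m) = X' (π m)) (hY : ∀ m, π (Y m) = Y' (π m)) (ψ : Alg R) (m : M) :
    π (ev2 R X Y ψ m) = ev2 R X' Y' ψ (π m) := by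
  induction ψ using FreeAlgebra.induction generalizing m with
  | grade0 r =>
    rw [AlgHom.commutes, AlgHom.commutes]
    simp [Module.algebraMap_end_apply]
  | grade1 l =>
    fin_cases l
    · simp [ev2, hX]
    · simp [ev2, hY]
  | mul p q hp hq =>
    rw [map_mul, map_mul, Module.End.mul_apply, Module.End.mul_apply, hp, hq]
  | add p q hp hq =>
    rw [map_add, map_add, LinearMap.add_apply, LinearMap.add_apply, map_add, hp, hq]

/-- transfer of the gauge 2 fibre pentagon to a module `M` with a vector `v`. -/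
theorem transfer {M : Type*} [AddCommGroup M] [Module R M]
    (La Lb Lz E0 E1 : Module.End R M) (v : M)
    (h0a : E0 * La - La * E0 = 0) (h0z : E0 * Lz - Lz * E0 = 0)
    (h0b : E0 * Lb - Lb * E0 = (La + Lz) * Lb - Lb * (La + Lz))
    (h1b : E1 * Lb - Lb * E1 = 0) (h1z : E1 * Lz - Lz * E1 = 0)
    (h1a : E1 * La - La * E1 = (Lb + Lz) * La - La * (Lb + Lz))
    (h0v : E0 v = 0) (h1v : E1 v = 0) (ψ : Alg R) (hψ : FibrePent2 R ψ) :
    ev2 R La (Lb + Lz) ψ v + ev2 R (E0 - La) (E1 - (Lb + Lz)) ψ v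
      = ev2 R Lz (E1 - (Lb + Lz)) ψ v + ev2 R La Lz ψ v := by
  set ρ : Alg3 R →ₐ[R] Module.End R M := FreeAlgebra.lift R ![La, Lb, Lz] with hρ
  have r0 : ρ (x0 R) = La := by simp [hρ, x0]
  have r1 : ρ (x1 R) = Lb := by simp [hρ, x1]
  have r2 : ρ (zz R) = Lz := by simp [hρ, zz]
  -- derivations
  have key : ∀ (d : Fin 3 → Alg3 R) (E : Module.End R M)
      (_ : ∀ l, ρ (d l) = E * ρ (FreeAlgebra.ι R l) - ρ (FreeAlgebra.ι R l) * E)
      (q : Alg3 R), ρ (der R d q) = E * ρ q - ρ q * E := by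
    intro d E h q
    induction q using FreeAlgebra.induction with
    | grade0 r =>
      rw [der_algebraMap, map_zero, AlgHom.commutes, Algebra.commutes, sub_self]
    | grade1 l => rw [der_ι, h]
    | mul p q hp hq =>
      rw [der_mul, map_add, map_mul, map_mul, hp, hq, map_mul]
      noncomm_ring
    | add p q hp hq =>
      rw [map_add, map_add, hp, hq, map_add]
      noncomm_ring
  have k0 : ∀ q, ρ (G0 R q) = E0 * ρ q - ρ q * E0 := by
    apply key
    intro l
    fin_cases l
    · change ρ 0 = E0 * ρ (x0 R) - ρ (x0 R) * E0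
      rw [map_zero, r0, h0a]
    · change ρ ((x0 R + zz R) * x1 R - x1 R * (x0 R + zz R)) = E0 * ρ (x1 R) - ρ (x1 R) * E0
      rw [map_sub, map_mul, map_mul, map_add, r0, r1, r2, h0b]
    · change ρ 0 = E0 * ρ (zz R) - ρ (zz R) * E0
      rw [map_zero, r2, h0z]
  have k1 : ∀ q, ρ (G1 R q) = E1 * ρ q - ρ q * E1 := by
    apply key
    intro l
    fin_cases l
    · change ρ ((x1 R + zz R) * x0 R - x0 R * (x1 R + zz R)) = E1 * ρ (x0 R) - ρ (x0 R) * E1
      rw [map_sub, map_mul, map_mul, map_add, r0, r1, r2, h1a]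
    · change ρ 0 = E1 * ρ (x1 R) - ρ (x1 R) * E1
      rw [map_zero, r1, h1b]
    · change ρ 0 = E1 * ρ (zz R) - ρ (zz R) * E1
      rw [map_zero, r2, h1z]
  let π : Alg3 R →ₗ[R] M :=
    { toFun := fun q => ρ q v
      map_add' := fun p q => by rw [map_add, LinearMap.add_apply]
      map_smul' := fun r p => by rw [map_smul, LinearMap.smul_apply, RingHom.id_apply] }
  have hπ1 : π 1 = v := by
    change ρ 1 v = v
    rw [map_one]; rfl
  have pL : ∀ a q, π (L3 R a q) = ρ a (π q) := by
    intro a q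
    change ρ (a * q) v = ρ a (ρ q v)
    rw [map_mul]; rfl
  have pG0 : ∀ q, π (G0 R q) = E0 (π q) := by
    intro q
    change ρ (G0 R q) v = E0 (ρ q v)
    rw [k0, LinearMap.sub_apply, Module.End.mul_apply, Module.End.mul_apply, h0v, map_zero,
      sub_zero]
  have pG1 : ∀ q, π (G1 R q) = E1 (π q) := by
    intro q
    change ρ (G1 R q) v = E1 (ρ q v)
    rw [k1, LinearMap.sub_apply, Module.End.mul_apply, Module.End.mul_apply, h1v, map_zero,
      sub_zero]
  have hψ' := congrArg π hψ
  rw [map_add, map_add] at hψ'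
  rw [ev2_intertwine π (L3 R (x0 R)) (L3 R (x1 R + zz R)) La (Lb + Lz)
      (by intro m; rw [pL, r0]) (by intro m; rw [pL, map_add, r1, r2]),
    ev2_intertwine π (G0 R - L3 R (x0 R)) (G1 R - L3 R (x1 R + zz R)) (E0 - La)
      (E1 - (Lb + Lz))
      (by intro m; rw [LinearMap.sub_apply, map_sub, pL, r0, pG0, LinearMap.sub_apply])
      (by intro m; rw [LinearMap.sub_apply, map_sub, pL, map_add, r1, r2, pG1,
        LinearMap.sub_apply]),
    ev2_intertwine π (L3 R (zz R)) (G1 R - L3 R (x1 R + zz R)) Lz (E1 - (Lb + Lz))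
      (by intro m; rw [pL, r2])
      (by intro m; rw [LinearMap.sub_apply, map_sub, pL, map_add, r1, r2, pG1,
        LinearMap.sub_apply]),
    ev2_intertwine π (L3 R (x0 R)) (L3 R (zz R)) La Lz
      (by intro m; rw [pL, r0]) (by intro m; rw [pL, r2]), hπ1] at hψ'
  exact hψ'

end transfer

end Crest.Agent.R010.XU
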