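import Crest.Agent.R010.XB
import Crest.Agent.R010.XC
import Crest.Agent.R010.XD
import Crest.Agent.R010.UBridge2

/-!
Row 10 (S0011), upper bound (U): glue of Steps B and C with Step D (XD) and the bridge (UBridge2).
Main result: `upperBound2 : CConv.UpperBoundFor (U.FibrePent2 F2)`.
-/

set_option autoImplicit false

noncomputable section

namespace Crest.Agent.R010.XU

open Crest.Agent.R010.C

attribute [local instance 100] LieRing.ofAssociativeRing

theorem fp2_of (ψ : Alg F2) (h : U.FibrePent2 F2 ψ) : FibrePent2 F2 ψ := by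
  unfold FibrePent2
  unfold U.FibrePent2 at h
  have g0 : U.G0 F2 = G0 F2 := rfl
  have g1 : U.G1 F2 = G1 F2 := rfl
  rw [U.ev2_eq_ev, U.ev2_eq_ev, U.ev2_eq_ev, U.ev2_eq_ev, U.ev_L3, U.ev_L3]
  rw [g0, g1] at h
  simpa [L3] using h

/-- relabelling of letters -/
def rl : Fin 5 → L5 := ![L5.c, L5.e0, L5.e1, L5.f0, L5.f1]

/-- relabelling of letters -/
def rl' : L5 → Fin 5
  | .c => 0
  | .e0 => 1
  | .e1 => 2
  | .f0 => 3
  | .f1 => 4

def tr : El.B5 →ₐ[F2] B5 := FreeAlgebra.lift F2 (fun i => io (rl i))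
def tr' : B5 →ₐ[F2] El.B5 := FreeAlgebra.lift F2 (fun l => El.l5 (rl' l))

theorem tr_l5 (i : Fin 5) : tr (El.l5 i) = io (rl i) := by simp [tr, El.l5]

theorem tr'_tr (P : El.B5) : tr' (tr P) = P := by
  have : tr'.comp tr = AlgHom.id F2 El.B5 := by
    apply FreeAlgebra.hom_ext
    funext i
    fin_cases i <;> simp [tr, tr', rl, rl', El.l5]
  exact DFunLike.congr_fun this P

theorem jmap_tr (P : El.B5) : jmap (tr P) = El.j P := by
  have : jmap.comp tr = El.j := by
    apply FreeAlgebra.hom_ext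
    funext i
    fin_cases i <;> simp [tr, rl, jmap, El.j, five, El.five] <;> grind
  exact DFunLike.congr_fun this P

theorem tr_Lie (P : El.B5) (hP : P ∈ LieX F2 (Fin 5)) : tr P ∈ LieX F2 L5 := by
  refine El.LieX_induction (p := fun P => tr P ∈ LieX F2 L5) ?_ ?_ ?_ ?_ ?_ hP
  · intro i
    have := tr_l5 i
    rw [El.l5] at this
    rw [this]
    exact LieSubalgebra.subset_lieSpan ⟨_, rfl⟩
  · rw [map_zero]; exact (LieX F2 L5).zero_mem
  · intro a b _ _ ha hb; rw [map_add]; exact (LieX F2 L5).add_mem ha hb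
  · intro r a _ ha; rw [map_smul]; exact (LieX F2 L5).smul_mem r ha
  · intro a b _ _ ha hb
    rw [map_sub, map_mul, map_mul, ← LieRing.of_associative_ring_bracket]
    exact (LieX F2 L5).lie_mem ha hb

theorem tr_W (P : El.B5) (hP : P ∈ El.W) : tr P ∈ W := by
  refine El.W_induction (p := fun P => tr P ∈ W) ?_ ?_ ?_ ?_ ?_ hP
  · rw [tr_l5]; exact Submodule.subset_span (Or.inl (by simp [rl]))
  · rw [tr_l5]; exact Submodule.subset_span (Or.inl (by simp [rl]))
  · intro a ha
    unfold El.LL at ha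
    induction ha using Submodule.span_induction with
    | mem x hx =>
      obtain ⟨p, hp, q, hq, rfl⟩ := hx
      rw [map_sub, map_mul, map_mul]
      exact Submodule.subset_span (Or.inr ⟨_, tr_Lie p hp, _, tr_Lie q hq, rfl⟩)
    | zero => rw [map_zero]; exact W.zero_mem
    | add x y _ _ hx hy => rw [map_add]; exact W.add_mem hx hy
    | smul r x _ hx => rw [map_smul]; exact W.smul_mem r hx
  · intro a b _ _ ha hb; rw [map_add]; exact W.add_mem ha hb
  · intro r a _ ha; rw [map_smul]; exact W.smul_mem r ha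

theorem hC (P : El.B5) (hP : P ∈ El.W) (h : U.FibrePent2 F2 (El.j P)) :
    El.kap P = El.kap' P := by
  have h' := fp2_of _ h
  rw [← jmap_tr] at h'
  have key := SC.stepC (tr P) (tr_W P hP) h'
  set s : SC.CC →ₐ[F2] El.B5 := FreeAlgebra.lift F2 (fun l => match l with
    | .c => El.l5 0
    | .u => El.l5 1
    | .v => El.l5 3) with hs
  have h1 : (s.comp (FreeAlgebra.lift F2 SC.aκ)).comp tr = El.kap := by
    apply FreeAlgebra.hom_ext
    funext i
    fin_cases i <;> simp [tr, rl, El.kap, SC.aκ, hs, SC.c, SC.u, SC.v]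
  have h2 : (s.comp (FreeAlgebra.lift F2 SC.aκ')).comp tr = El.kap' := by
    apply FreeAlgebra.hom_ext
    funext i
    fin_cases i <;> simp [tr, rl, El.kap', SC.aκ', hs, SC.c, SC.v]
  rw [← h1, ← h2]
  simp only [AlgHom.comp_apply, key]

theorem hB (P : El.B5) (hP : P ∈ El.W) (h : U.FibrePent2 F2 (El.j P)) (hk : El.kap P = 0) :
    P = 0 := by
  have h' := fp2_of _ h
  rw [← jmap_tr] at h'
  have h1 : (FreeAlgebra.lift F2 SB.aκB).comp tr = tr.comp El.kap := by
    apply FreeAlgebra.hom_ext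
    funext i
    fin_cases i <;> simp [tr, rl, El.kap, SB.aκB, SB.c, SB.e0, SB.f0, El.l5]
  have h2 : FreeAlgebra.lift F2 SB.aκB (tr P) = 0 := by
    have := DFunLike.congr_fun h1 P
    rw [AlgHom.comp_apply, AlgHom.comp_apply, hk, map_zero] at this
    exact this
  have h3 := SB.stepB (tr P) (tr_W P hP) h' h2
  rw [← tr'_tr P, h3, map_zero]

/-- **The upper bound (U)** over `F2`, for the gauge 2 fibre pentagon. -/
theorem upperBound2 : CConv.UpperBoundFor (U.FibrePent2 F2) :=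
  El.upperBoundFor_of_BC hC hB

/-- the exact form: hypothesis of `CConv.upperBoundFor_of_exact`. -/
theorem exact2 (N : ℕ) (ψ : Alg F2) (hN : 3 ≤ N) (hψ : ψ ∈ wtA F2 (fun _ : Fin 2 => 1) N)
    (hL : ψ ∈ LieX F2 (Fin 2)) (hP : U.FibrePent2 F2 ψ) :
    (∃ Λ ∈ LieX F2 (Fin 2), ψ - ev2 F2 cc FF Λ ∈ J0) ∧ (ψ ∈ J0 → ψ = 0) :=
  El.exact_hyp hC hB N ψ hN hψ hL hP

end Crest.Agent.R010.XU
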